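import Claimed.Agent.R315.Rg.FinY

/-!
# Row 315, package Rg-FIN (architect helper266), file `Rg/FinZ.lean`: THE FINAL ASSEMBLY `rg_fin_pf`

Context `C : ShCtx V W ι`, `P1` (shielded labels), true structure `(Ω, U)`, width and corner `(w, k)`, ambient supersolutions `v`.

1. sets: `C.guardU P1` (union of the guards), `rgfCl E (Up j0)`, `rgfCl E (Un j0)`: closed, forward compatible (`rgf_guardU_*`, `rgfCl_*`);
2. `rgf_U0`: cutoff `θ`, individually smooth `U0`; `H = {1/4 ≤ θ}`, `Om = {1/8 < θ}`; `rgf_ac_of`, `rgf_guard_of_compat`;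
3. soft predicates: `RegAt` (`rgf_soft_reg`), `rgfGoodS σ` (`rgf_soft_S`, from `rgf_soft_core` = `rgf_transfer` + `RgSuper.super` + closedness of the required sets);
4. `rgf_blend` gives the compatible `u₁`; signs by convexity; `rgf_finish` gives the regular `u`, `u = u₁` near the guards;
5. `v' = pkGlue (splitE E u w k) v` (`rgf_glue_sc`), the inequality by locality (`rgf_sup_local`); `RgOut.of_ext`.
-/

set_option autoImplicit false
set_option linter.unusedSectionVars false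
open scoped ContDiff ENNReal Topology
open MeasureTheory Claims.C0499 Set Filter

namespace Claimed.Agent.R315

variable {V W : Type} [NormedAddCommGroup V] [NormedSpace ℝ V] [NormedAddCommGroup W]
  [NormedSpace ℝ W] {ι : Type}

/-- union of the guards. -/
def ShCtx.guardU [Fintype ι] (C : ShCtx V W ι) (P1 : PData W ι C.B.J) : Set W :=
  {z | ∃ α, z ∈ C.guard P1 α}

/-- the soft predicate of the side `σ`. -/
def rgfGoodS [Fintype ι] (C : ShCtx V W ι) (P1 : PData W ι C.B.J) (s' : ℝ) (w : W → ℝ)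
    (k : ℝ → ℝ) (v : Stat (Option ι) → W × ℝ → ℝ) (σ : SignType) (α : Stat ι) (u : W → ℝ)
    (z : W) : Prop :=
  ∀ τ : ℝ, (z, τ) ∈ C.req P1 (splitE C.P.E u w k) (α.ext σ) →
    0 < C.LL P1 s' (splitE C.P.E u w k) (α.ext σ) (v (α.ext σ)) (z, τ)

/-- relation between `(H, Om, U0)` and the true structure `(Ω, U)`. -/
structure RgfHU (F : Frame V W ι) (E : Stat ι → Set W) (H Om Ω : Set W) (U0 U : W → ℝ) :
    Prop where
  guard : RgfGuard F E H Om
  sub : ∀ γ, ∀ y ∈ E γ ∩ Om, y ∈ Ω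
  near : ∀ γ, ∀ y ∈ E γ ∩ Om, ∃ N ∈ 𝓝 y, ∀ z ∈ N ∩ E γ, U0 z = U z

theorem RgfZ_eqns_cite : True := by
  have := @ShCtx.guardU.eq_1; have := @rgfGoodS.eq_1; trivial

variable [FiniteDimensional ℝ V] [FiniteDimensional ℝ W] [Fintype ι] [MeasurableSpace W]
  [BorelSpace W] {C : ShCtx V W ι} {P1 : PData W ι C.B.J}

/-! ### LEAF PACKAGE L-RG-FIN-Z1: sets and data of the context -/

theorem rgf_cnt (hC : C.Ok) (hS : ShieldOK C P1) (m : ℕ) :
    (∀ α, IsClosed {z | z ∈ C.P.E α ∧ P1.Cnt C.R m z}) ∧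
      Compat C.F C.P.E (fun z => P1.Cnt C.R m z) := by
  have h := rg_cnt_closed (B := C.B) (F := C.F) (P := P1) (hS.E_eq ▸ hC.inv.diag) (R := C.R)
    (c := C.c) (a := C.a) hS.label (by rw [hS.E_eq]; exact hS.passive) m
  rwa [hS.E_eq] at h

/-- PLAN: `C.guardU P1 ∩ E α = {z | z ∈ E α ∧ Cnt R (m α - 2) z}` (`hD.disj`), `rgf_cnt`. -/
theorem rgf_guardU_closed (hC : C.Ok) (hS : ShieldOK C P1) (α : Stat ι) :
    IsClosed (C.guardU P1 ∩ C.P.E α) := by
  have e : C.guardU P1 ∩ C.P.E α = {z | z ∈ C.P.E α ∧ P1.Cnt C.R (C.m α - 2) z} := by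
    ext z
    constructor
    · rintro ⟨⟨β, hβ⟩, hz⟩
      have : β = α := by
        by_contra hne
        exact Set.disjoint_left.1 (hC.inv.diag.disj _ _ hne) hβ.1 hz
      subst this
      exact hβ
    · intro hz
      exact ⟨⟨α, hz⟩, hz.1⟩
  rw [e]
  exact (rgf_cnt hC hS _).1 α

/-- PLAN: `i`, `K`; `R` = max over the finitely many `α` of the thresholds of `(rgf_cnt hC hS (C.m α - 2)).2 i K`, of `hD.exists_tail hK` and `0`.  `z ∈ guard α`, `R < |t i z|`: `drop i z ∈ E (α.face i)` (as in `DThr.drop_mem`),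
`Cnt R (m α - 2) (drop i z)`, `PData.Cnt.rg_mono` (`C.m (α.face i) ≤ C.m α`: `hits α ≤ hits (α.face i)`). -/
theorem rgf_guardU_fcompat (hC : C.Ok) (hS : ShieldOK C P1) :
    FCompat C.F C.P.E (C.guardU P1) := by
  classical
  intro i K hK
  have hD := hC.inv.diag
  obtain ⟨R₀, hR₀⟩ := hD.exists_tail hK
  choose Rc hRc using fun α : Stat ι => (rgf_cnt hC hS (C.m α - 2)).2 i K hK
  obtain ⟨D, hDb⟩ := (Finset.univ.image Rc).bddAbove
  refine ⟨max (max R₀ D) 0, fun z hz hq hlt hG => ?_⟩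
  obtain ⟨α, hα⟩ := hG
  have h0 : C.F.t i z ≠ 0 := by
    intro h
    rw [h, abs_zero] at hlt
    exact absurd hlt (not_lt.2 (le_max_right _ _))
  have hαi := hD.ne_zero_of_t_ne hα.1 h0
  have hdrop : C.F.drop i z ∈ C.P.E (α.face i) :=
    (hR₀ i α hαi z hq (by
      rw [hD.sign_mul hα.1 i]
      exact lt_of_le_of_lt ((le_max_left _ _).trans (le_max_left _ _)) hlt)).1 hα.1
  refine ⟨α.face i, hdrop, ?_⟩
  have h1 : P1.Cnt C.R (C.m α - 2) (C.F.drop i z) := by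
    have h2 := hRc α z hz hq (lt_of_le_of_lt (((hDb (by simp)).trans (le_max_right _ _)).trans
      (le_max_left _ _)) hlt)
    exact h2.mpr hα.2
  refine h1.rg_mono ?_
  have := rg_hits_le_face α i
  show C.B.n - hits (α.face i) - 2 ≤ C.B.n - hits α - 2
  omega

/-- PLAN: `rg_potSum_sc hC.base (hS.E_eq ▸ hC.inv.diag) (fun j hj => (hS.label j hj).pot_sc) ..`; `SC.continuousOn`; arithmetic. -/
theorem rgf_Vs_cc (hC : C.Ok) (hS : ShieldOK C P1) (s' : ℝ) :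
    CC C.F C.P.E (fun x => pkL s' + pkB s' * (rgKap C.s s' * P1.potSum C.R x)) := by
  have hD1 : IsDiag C.B.n C.B.M C.F P1.E := hS.E_eq ▸ hC.inv.diag
  have h := rg_potSum_sc hC.base hD1 (R := C.R) (c := C.c)
    (fun j hj => (hS.label j hj).pot_sc) (by rw [hS.E_eq]; exact hS.passive)
  rw [hS.E_eq] at h
  refine ⟨fun α => ?_, fun i K hK => ?_⟩
  · exact continuousOn_const.add (continuousOn_const.mul
      (continuousOn_const.mul (SC.continuousOn hC.inv.diag h α)))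
  · obtain ⟨R, hR⟩ := h.2 i K hK
    exact ⟨R, fun z hz hq hlt => by simp only [hR z hz hq hlt]⟩

theorem rgf_mem (hC : C.Ok) : RgfMem C.B.n C.F C.P.E :=
  fun γ J hJ => (ct_mem_geo hC.inv.pgeo γ J hJ).mfd

theorem rgf_loc (hC : C.Ok) {Ω : Set W} {U w : W → ℝ} {k : ℝ → ℝ} (hT : RgTrue C P1 Ω U)
    (hw : RgWid C w k) : RgfLoc C.B.n C.F (fun α => C.P.E α ∩ Ω) C.P.h C.P.dr U w k where
  mfd := fun α => if_mfd_inter (hC.inv.diag.mfd α) hT.isOpen
  met := fun α => if_isMetricOn_inter (hC.inv.met.met α) hT.isOpen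
  dr_sm := fun α => if_smoothAlong_inter (hC.inv.dr_sc.1 α) hT.isOpen
  U_sm := hT.smooth
  w_sm := fun α => if_smoothAlong_inter (hw.w_sc.1 α) hT.isOpen
  w_pos := fun α z hz => hw.w_pos z (mem_tot.2 ⟨α, hz.1⟩)
  reg := hT.reg
  corner := hw.corner
  dim := fun α ⟨z, hz⟩ => by have := hC.dim α ⟨z, hz.1⟩; omega
  t_hit := fun α z hz => hC.inv.diag.t_hit α z hz.1
  normal := fun α z hz => hC.inv.met.normal α z hz.1

/-- on a side piece the new coordinate has the sign of the side. -/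
theorem rgf_side_nonneg {E : Stat ι → Set W} {u w : W → ℝ} {k : ℝ → ℝ} (hk : IsCorner k)
    {α' : Stat (Option ι)} {z : W × ℝ} (hw : 0 < w z.1) (hz : z ∈ splitE E u w k α') :
    0 ≤ (α' none : ℝ) * z.2 := by
  rcases hz.2 with ⟨h0, -, h2⟩ | ⟨-, h2⟩
  · rw [h2, mul_zero]
  · have := (hk.nonneg_of_add h2).2
    have h3 := mul_nonneg this hw.le
    rwa [div_mul_cancel₀ _ hw.ne'] at h3

theorem rgf_hit_snd {E : Stat ι → Set W} {u w : W → ℝ} {k : ℝ → ℝ} {α' : Stat (Option ι)}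
    {z : W × ℝ} (h0 : α' none = 0) (hz : z ∈ splitE E u w k α') : z.2 = 0 := by
  rcases hz.2 with ⟨-, -, h2⟩ | ⟨h1, -⟩
  · exact h2
  · exact absurd h0 h1

/-! ### the core of the softness -/

/-- **the core**: along escaping sequences of required points the operator is eventually positive. -/
theorem rgf_soft_core (hC : C.Ok) (hS : ShieldOK C P1) {s' : ℝ} {Ω : Set W} {U w : W → ℝ}
    {k : ℝ → ℝ} {v : Stat (Option ι) → W × ℝ → ℝ} (hT : RgTrue C P1 Ω U) (hw : RgWid C w k)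
    (hV : RgSuper C P1 s' Ω U w k v) {α' : Stat (Option ι)} {J' : Finset (Option ι)}
    {s'' : ℕ → Option ι → ℝ} (hs : RgfEsc α' J' s'') {u : ℕ → W → ℝ} {y : ℕ → W × ℝ}
    {y' : W × ℝ} (hlim : Tendsto y atTop (𝓝 y'))
    (hyk : ∀ j, y j + C.F.ext.vec J' (s'' j) ∈ C.req P1 (splitE C.P.E (u j) w k) α')
    (hyΩ : C.F.dropS J'.eraseNone y'.1 ∈ Ω)
    (hu : RgfConv (mdim C.B.n (α'.par.faceS J'.eraseNone) J'.eraseNone)
      (C.F.cyl J'.eraseNone (C.P.E (α'.par.faceS J'.eraseNone)))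
      (fun j z => u j (z + C.F.vec J'.eraseNone (fun i => s'' j (some i))))
      (fun z => U (C.F.dropS J'.eraseNone z)) y'.1) :
    ∀ᶠ j in atTop,
      0 < C.LL P1 s' (splitE C.P.E (u j) w k) α' (v α') (y j + C.F.ext.vec J' (s'' j)) := by
  have hD := hC.inv.diag
  obtain ⟨hp', hten⟩ := rgf_transfer hD (rgf_mem hC) hC.inv.met.compat hC.inv.dr_sc hw.w_sc
    hw.w_pos hT.isOpen (rgf_loc hC hT hw) hV.smooth hV.compat (rgf_Vs_cc hC hS s') hs hlim
    (fun j => (hyk j).1) hyΩ hu 4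
  -- the limit point is required
  have hcnt : P1.Cnt C.R (C.B.n - hits (α'.faceS J') - 1) (C.F.ext.dropS J' y').1 := by
    obtain ⟨hcl, hcc⟩ := rgf_cnt hC hS (C.B.n - hits α' - 1)
    have hwin := rgf_win_Y hD hC.inv.met.compat hT.isOpen hs y'
    have hN : y' ∈ rgfN C.F J' Ω y' := ⟨Metric.mem_ball_self one_pos, hyΩ⟩
    have hyN : ∀ᶠ j in atTop, y j ∈ rgfN C.F J' Ω y' :=
      hlim ((rgfN_isOpen C.F J' hT.isOpen y').mem_nhds hN)
    have h1 : ∀ᶠ j in atTop, (C.F.ext.dropS J' (y j)).1 ∈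
        {z | z ∈ C.P.E (α'.faceS J').par ∧ P1.Cnt C.R (C.B.n - hits α' - 1) z} := by
      filter_upwards [hwin, hyN, rgf_win_compat hD hcc hs y'] with j w1 w2 w3
      have hm : y j + C.F.ext.vec J' (s'' j) ∈ rgY C.P.E α' :=
        splitE_sub_rgY _ _ _ _ _ (hyk j).1
      refine ⟨((w1.set _ w2).1 hm).1.1, ?_⟩
      have := w3 _ w2.1 hm
      exact this ▸ (hyk j).2
    have h2 : Tendsto (fun j => (C.F.ext.dropS J' (y j)).1) atTop
        (𝓝 (C.F.ext.dropS J' y').1) :=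
      (continuous_fst.comp (C.F.ext.continuous_dropS J')).continuousAt.tendsto.comp hlim
    have h3 := (hcl _).mem_of_tendsto h2 h1
    refine h3.2.rg_mono ?_
    have := ct_hits_faceS α' J' hs.1
    omega
  have hpos := hV.super (α'.faceS J') (C.F.ext.dropS J' y') ⟨hp', hcnt⟩
  have e : ∀ (X : Stat (Option ι) → Set (W × ℝ)) (β' : Stat (Option ι)) (f : W × ℝ → ℝ)
      (z : W × ℝ), C.LL P1 s' X β' f z = rgL (C.B.n - hits β') (X β') (extTen C.P.h)
        (fun z => C.P.dr z.1) 4 (fun z => Dsc (C.B.n - hits β') (X β') (extTen C.P.h)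
          (fun z => C.P.dr z.1) z - (pkL s' + pkB s' * (rgKap C.s s' * P1.potSum C.R z.1))) f z := by
    intro X β' f z
    unfold ShCtx.LL
    congr 1
    funext x
    unfold rgW
    rw [rgVs_eq]
  rw [e] at hpos
  simp only [e]
  exact hten.eventually (lt_mem_nhds hpos)

/-! ### the soft predicates -/

omit [MeasurableSpace W] [BorelSpace W] in
/-- from the hypotheses of `RgfSoft` to the true structure. -/
theorem rgf_conv_U {n : ℕ} {M : Set V} {F : Frame V W ι} {E : Stat ι → Set W}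
    (hD : IsDiag n M F E) {H Om Ω : Set W} {U0 U : W → ℝ} (hHU : RgfHU F E H Om Ω U0 U)
    {α : Stat ι} {J : Finset ι} {s : ℕ → ι → ℝ} (hs : RgfEsc α J s) {y : ℕ → W} {y' : W}
    {u : ℕ → W → ℝ} (hy : ∀ j, y j + F.vec J (s j) ∈ E α ∩ H) (hlim : Tendsto y atTop (𝓝 y'))
    (hy' : y' ∈ E (α.faceS J))
    (hconv : RgfConv (mdim n (α.faceS J) J) (F.cyl J (E (α.faceS J)))
      (fun j z => u j (z + F.vec J (s j))) (fun z => U0 (F.dropS J z)) y') :
    y' ∈ Ω ∧ RgfConv (mdim n (α.faceS J) J) (F.cyl J (E (α.faceS J)))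
      (fun j z => u j (z + F.vec J (s j))) (fun z => U (F.dropS J z)) y' := by
  have hOm : y' ∈ Om := hHU.guard α J s hs y y' hy hlim hy'
  obtain ⟨N, hN, hNe⟩ := hHU.near _ y' ⟨hy', hOm⟩
  refine ⟨hHU.sub _ y' ⟨hy', hOm⟩, hconv.congr (O := F.dropS J ⁻¹' N) ?_
    (Eventually.of_forall fun j z _ => rfl) fun z hz => ?_⟩
  · refine (F.continuous_dropS J).continuousAt.preimage_mem_nhds ?_
    rw [rgf_dropS_of_mem hD α J hy']; exact hN
  · exact (hNe _ ⟨hz.2, hz.1⟩).symm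

theorem rgf_soft_reg (hC : C.Ok) {Ω : Set W} {U : W → ℝ} (hT : RgTrue C P1 Ω U)
    {H Om : Set W} {U0 : W → ℝ} (hHU : RgfHU C.F C.P.E H Om Ω U0 U) :
    RgfSoft C.B.n C.F C.P.E H U0 (fun α u z => RegAt (C.B.n - hits α) (C.P.E α) u z) := by
  intro α J s hs y y' u hu hy hlim hy' hconv
  obtain ⟨hΩ, hc⟩ := rgf_conv_U hC.inv.diag hHU hs hy hlim hy' hconv
  exact (rgf_soft_regAt hC.inv.diag hC.inv.met hC.inv.dr_sc hT.isOpen hT.smooth hT.reg
    (fun α hα => by have := hC.dim α hα; omega) hs (fun j => (hu j).1 α) (fun j => (hy j).1) hlim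
    ⟨hy', hΩ⟩ hc).exists

omit [FiniteDimensional ℝ V] [FiniteDimensional ℝ W] [Fintype ι] [MeasurableSpace W]
  [BorelSpace W] in
theorem rgf_vec_insertNone (F : Frame V W ι) (J : Finset ι) (s : ι → ℝ) (t : ℝ) :
    F.ext.vec (Finset.insertNone J) (fun o => o.elim t s) = (F.vec J s, t) := by
  rw [rgf_ext_vec, Finset.eraseNone_insertNone, if_pos Finset.none_mem_insertNone]
  rfl

omit [FiniteDimensional ℝ V] [FiniteDimensional ℝ W] [Fintype ι] [MeasurableSpace W]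
  [BorelSpace W] in
theorem rgf_vec_map_some (F : Frame V W ι) (J : Finset ι) (s : ι → ℝ) (t : ℝ) :
    F.ext.vec (J.map Function.Embedding.some) (fun o => o.elim t s) = (F.vec J s, 0) := by
  rw [rgf_ext_vec, Finset.eraseNone_map_some, if_neg (by simp)]
  rfl

/-- **the operator on the side `σ` is soft.** -/
theorem rgf_soft_S (hC : C.Ok) (hS : ShieldOK C P1) {s' : ℝ} {Ω : Set W} {U w : W → ℝ}
    {k : ℝ → ℝ} {v : Stat (Option ι) → W × ℝ → ℝ} (hT : RgTrue C P1 Ω U) (hw : RgWid C w k)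
    (hV : RgSuper C P1 s' Ω U w k v) {H Om : Set W} {U0 : W → ℝ}
    (hHU : RgfHU C.F C.P.E H Om Ω U0 U) (σ : SignType) :
    RgfSoft C.B.n C.F C.P.E H U0 (rgfGoodS C P1 s' w k v σ) := by
  intro α J s hs y y' u hu hy hlim hy' hconv
  have hD := hC.inv.diag
  obtain ⟨hΩ, hc⟩ := rgf_conv_U hD hHU hs hy hlim hy' hconv
  by_contra hcon
  have hcon' : ∀ j, ∃ τ : ℝ,
      (y j + C.F.vec J (s j), τ) ∈ C.req P1 (splitE C.P.E (u j) w k) (α.ext σ) ∧
      C.LL P1 s' (splitE C.P.E (u j) w k) (α.ext σ) (v (α.ext σ)) (y j + C.F.vec J (s j), τ) ≤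
        0 := by
    intro j
    by_contra h
    apply hcon
    refine ⟨j, fun τ hτ => ?_⟩
    by_contra h2
    exact h ⟨τ, hτ, not_lt.1 h2⟩
  choose τ hτm hτL using hcon'
  have hwpos : ∀ j, 0 < w (y j + C.F.vec J (s j)) := fun j =>
    hw.w_pos _ (mem_tot.2 ⟨α, (hy j).1⟩)
  have hnn : ∀ j, 0 ≤ (σ : ℝ) * τ j := fun j => rgf_side_nonneg hw.corner (hwpos j) (hτm j).1
  have hτe : ∀ j, τ j = (σ : ℝ) * ((σ : ℝ) * τ j) := by
    intro j
    rcases SignType.trichotomy σ with h | h | h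
    · subst h; simp
    · subst h
      have : τ j = 0 := rgf_hit_snd (α' := α.ext 0) rfl (hτm j).1
      simp [this]
    · subst h; simp
  have hdrop : C.F.dropS J y' = y' := rgf_dropS_of_mem hD α J hy'
  obtain ⟨φ, hφ, htri⟩ := rgf_subseq_tri (κ := Unit) (fun j _ => (σ : ℝ) * τ j)
  rcases htri () with h1 | h1 | ⟨c, h1⟩
  · -- the points escape in the new tail
    have hσ : σ ≠ 0 := by
      rintro rfl
      have h2 : Tendsto (fun _ : ℕ => (0 : ℝ)) atTop atTop := by simpa using h1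
      exact not_tendsto_const_atTop _ _ h2
    have hs'' : RgfEsc (α.ext σ) (Finset.insertNone J)
        (fun j o => o.elim (τ (φ j)) (s (φ j))) := by
      refine ⟨fun o ho => ?_, fun o ho => ?_⟩
      · cases o with
        | none => exact hσ
        | some i => exact hs.1 i (Finset.some_mem_insertNone.1 ho)
      · cases o with
        | none => exact h1
        | some i => exact (hs.2 i (Finset.some_mem_insertNone.1 ho)).comp hφ.tendsto_atTop
    have key := rgf_soft_core hC hS hT hw hV hs'' (u := fun j => u (φ j))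
      (y := fun j => (y (φ j), 0)) (y' := (y', 0))
      ((hlim.comp hφ.tendsto_atTop).prodMk_nhds tendsto_const_nhds)
      (fun j => by
        rw [rgf_vec_insertNone, Prod.mk_add_mk, zero_add]
        exact hτm (φ j))
      (by rw [Finset.eraseNone_insertNone, hdrop]; exact hΩ)
      (by rw [Finset.eraseNone_insertNone]; exact hc.subseq hφ)
    obtain ⟨j, hj⟩ := key.exists
    rw [rgf_vec_insertNone, Prod.mk_add_mk, zero_add] at hj
    exact absurd hj (not_lt.2 (hτL (φ j)))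
  · -- impossible
    obtain ⟨j, hj⟩ := (h1.eventually (eventually_lt_atBot 0)).exists
    exact absurd hj (not_lt.2 (hnn _))
  · -- the new coordinate converges
    have hτlim : Tendsto (fun j => τ (φ j)) atTop (𝓝 ((σ : ℝ) * c)) := by
      have := h1.const_mul (σ : ℝ)
      refine this.congr fun j => (hτe (φ j)).symm
    have hs'' : RgfEsc (α.ext σ) (J.map Function.Embedding.some)
        (fun j o => o.elim 0 (s (φ j))) := by
      refine ⟨fun o ho => ?_, fun o ho => ?_⟩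
      · obtain ⟨i, hi, rfl⟩ := Finset.mem_map.1 ho
        exact hs.1 i hi
      · obtain ⟨i, hi, rfl⟩ := Finset.mem_map.1 ho
        exact (hs.2 i hi).comp hφ.tendsto_atTop
    have key := rgf_soft_core hC hS hT hw hV hs'' (u := fun j => u (φ j))
      (y := fun j => (y (φ j), τ (φ j))) (y' := (y', (σ : ℝ) * c))
      ((hlim.comp hφ.tendsto_atTop).prodMk_nhds hτlim)
      (fun j => by
        rw [rgf_vec_map_some, Prod.mk_add_mk, add_zero]
        exact hτm (φ j))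
      (by rw [Finset.eraseNone_map_some, hdrop]; exact hΩ)
      (by rw [Finset.eraseNone_map_some]; exact hc.subseq hφ)
    obtain ⟨j, hj⟩ := key.exists
    rw [rgf_vec_map_some, Prod.mk_add_mk, add_zero] at hj
    exact absurd hj (not_lt.2 (hτL (φ j)))

/-! ### the final assembly -/

omit [FiniteDimensional ℝ V] [MeasurableSpace W] [BorelSpace W] in
/-- the inequality only depends on the germ of the cut function. -/
theorem rgf_sup_local {n : ℕ} {M : Set V} {F : Frame V W ι} {E : Stat ι → Set W}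
    (hD : IsDiag n M F E) {u u₁ w : W → ℝ} {k : ℝ → ℝ} (hcut : IsCut n F E u w k)
    (v : Stat (Option ι) → W × ℝ → ℝ) {α' : Stat (Option ι)} {z : W × ℝ}
    (hz : z ∈ splitE E u w k α') {N : Set W} (hN : N ∈ 𝓝 z.1)
    (he : ∀ y ∈ N ∩ E α'.par, u y = u₁ y) (h : Ten (W × ℝ)) (t Vs : W × ℝ → ℝ) (c : ℝ) :
    z ∈ splitE E u₁ w k α' ∧
    rgL (n - hits α') (splitE E u w k α') h t c
        (fun x => Dsc (n - hits α') (splitE E u w k α') h t x - Vs x)
        (pkGlue (splitE E u w k) v) z =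
      rgL (n - hits α') (splitE E u₁ w k α') h t c
        (fun x => Dsc (n - hits α') (splitE E u₁ w k α') h t x - Vs x) (v α') z := by
  have hD' := pk_split_diag hD hcut
  have hmem : ∀ x : W × ℝ, x.1 ∈ N → (x ∈ splitE E u w k α' ↔ x ∈ splitE E u₁ w k α') := by
    intro x hx
    constructor
    · rintro ⟨h1, h2⟩
      refine ⟨h1, ?_⟩
      rw [← he x.1 ⟨hx, h1⟩]; exact h2
    · rintro ⟨h1, h2⟩
      refine ⟨h1, ?_⟩
      rw [he x.1 ⟨hx, h1⟩]; exact h2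
  have hzN : z.1 ∈ interior N := mem_interior_iff_mem_nhds.2 hN
  have hO : IsOpen (Prod.fst ⁻¹' interior N : Set (W × ℝ)) :=
    isOpen_interior.preimage continuous_fst
  refine ⟨(hmem z (interior_subset hzN)).1 hz, ?_⟩
  rw [rg_L_congr_near (f' := v α') Filter.univ_mem hz fun y hy => pkGlue_eq hD' v hy.1]
  refine rgf_LL_local hO hzN ?_
  ext x
  constructor
  · rintro ⟨h1, h2⟩; exact ⟨(hmem x (interior_subset h2)).1 h1, h2⟩
  · rintro ⟨h1, h2⟩; exact ⟨(hmem x (interior_subset h2)).2 h1, h2⟩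

/-- **(FIN + GEN) THE FINAL BLEND** (statement of `rg_fin`, `Rg/Top.lean`). -/
theorem rg_fin_pf (C : ShCtx V W ι) (hC : C.Ok) (P1 : PData W ι C.B.J) (hS : ShieldOK C P1)
    (s' : ℝ) {Ω : Set W} {U w : W → ℝ} {k : ℝ → ℝ} {v : Stat (Option ι) → W × ℝ → ℝ}
    (hT : RgTrue C P1 Ω U) (hw : RgWid C w k) (hV : RgSuper C P1 s' Ω U w k v) :
    ∃ u v', RgOut C P1 s' u w k (extTen P1.h) 4 v' := by
  classical
  have hD := hC.inv.diag
  have hL0 := hC.inv.label C.j0 hC.j0_mem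
  have hKpc := rgfCl_fcompat hD hL0.up_compat
  have hKnc := rgfCl_fcompat hD hL0.un_compat
  have hKp_mem : ∀ α, ∀ z ∈ C.P.E α, z ∈ rgfCl C.P.E (C.P.Up C.j0) →
      z ∈ closure (C.P.Up C.j0 ∩ C.P.E α) := fun α z hz hzK => by
    rw [← rgfCl_inter hD]; exact ⟨hzK, hz⟩
  have hKn_mem : ∀ α, ∀ z ∈ C.P.E α, z ∈ rgfCl C.P.E (C.P.Un C.j0) →
      z ∈ closure (C.P.Un C.j0 ∩ C.P.E α) := fun α z hz hzK => by
    rw [← rgfCl_inter hD]; exact ⟨hzK, hz⟩
  have hdisj : ∀ z ∈ tot C.P.E, z ∈ rgfCl C.P.E (C.P.Up C.j0) →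
      z ∉ rgfCl C.P.E (C.P.Un C.j0) := by
    intro z hz hp hn
    obtain ⟨α, hα⟩ := mem_tot.1 hz
    obtain ⟨N, hN, h1⟩ := hL0.up_pole α z hα (hKp_mem α z hα hp)
    obtain ⟨N', hN', h2⟩ := hL0.un_pole α z hα (hKn_mem α z hα hn)
    have e1 := h1 z ⟨mem_of_mem_nhds hN, hα⟩
    have e2 := h2 z ⟨mem_of_mem_nhds hN', hα⟩
    rw [e1] at e2
    exact absurd e2 (by simp)
  have hposU : ∀ z ∈ tot C.P.E, z ∈ rgfCl C.P.E (C.P.Up C.j0) → z ∈ Ω → 0 < U z := by
    intro z hz hp hΩ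
    obtain ⟨α, hα⟩ := mem_tot.1 hz
    exact (hT.pos α z ⟨hα, hΩ⟩).2 (hC.cut.up α (hKp_mem α z hα hp))
  have hnegU : ∀ z ∈ tot C.P.E, z ∈ rgfCl C.P.E (C.P.Un C.j0) → z ∈ Ω → U z < 0 := by
    intro z hz hp hΩ
    obtain ⟨α, hα⟩ := mem_tot.1 hz
    exact (hT.neg α z ⟨hα, hΩ⟩).2 (hC.cut.un α (hKn_mem α z hα hp))
  obtain ⟨θ, U0, hθ, hθ1, hθΩ, hU0s, hU0e, hU0p, hU0n⟩ := rgf_U0 hD hT.isOpen hT.compat hT.smooth
    (rgf_guardU_closed hC hS) (rgf_guardU_fcompat hC hS)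
    (fun z hz => by obtain ⟨α, hα⟩ := hz.1; exact hT.guard α hα)
    (rgfCl_closed hD _) hKpc (rgfCl_closed hD _) hKnc hdisj hposU hnegU
  have hθc := fun α => SC.continuousOn hD hθ α
  have hACΩ : RgfAC C.B.n C.F C.P.E Ω U := by
    intro α J s hs y hy hyΩ
    exact (hT.ac α J hs.1 s hs.2 y ⟨hy, hyΩ⟩).rgf
  have hAC : RgfAC C.B.n C.F C.P.E {z | 1 / 8 < θ z} U0 := rgf_ac_of hD hθ hθΩ hU0e hACΩ
  have hG : RgfGuard C.F C.P.E {z | 1 / 4 ≤ θ z} {z | 1 / 8 < θ z} :=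
    rgf_guard_of_compat hD (fun α => rgf_level_closed hD hθc (isClosed_Ici (a := (1 / 4 : ℝ))) α)
      (rgf_level_compat hθ.2 (Ici (1 / 4 : ℝ)))
      (fun z hz => lt_of_lt_of_le (by norm_num) (show (1 / 4 : ℝ) ≤ θ z from hz.1))
  have hHU : RgfHU C.F C.P.E {z | 1 / 4 ≤ θ z} {z | 1 / 8 < θ z} Ω U0 U := by
    refine ⟨hG, fun γ y hy => hθΩ y (mem_tot.2 ⟨γ, hy.1⟩)
      (lt_trans (by norm_num) (show (1 / 8 : ℝ) < θ y from hy.2)), fun γ y hy => ?_⟩
    obtain ⟨N, hN, hsub⟩ := rgf_level_relOpen hθc (isOpen_Ioi (a := (1 / 8 : ℝ))) γ y ⟨hy.2, hy.1⟩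
    exact ⟨N, hN, fun z hz => hU0e z (mem_tot.2 ⟨γ, hz.2⟩)
      (le_of_lt (show (1 / 8 : ℝ) < θ z from hsub hz))⟩
  have hSoft := (rgf_soft_reg hC hT hHU).and ((rgf_soft_S hC hS hT hw hV hHU 0).and
    ((rgf_soft_S hC hS hT hw hV hHU 1).and (rgf_soft_S hC hS hT hw hV hHU (-1))))
  -- thresholds
  obtain ⟨T1, h1s, h10, h1⟩ := hD.exists_thr
  obtain ⟨T2, h2s, h20, h2⟩ := hKpc.exists_thr
  obtain ⟨T3, h3s, h30, h3⟩ := hKnc.exists_thr
  set T₀ : V → ℝ := fun x => T1 x + T2 x + T3 x with hT₀def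
  have hT₀c : Continuous T₀ := (h1s.continuous.add h2s.continuous).add h3s.continuous
  have hT₀0 : ∀ x, 0 ≤ T₀ x := fun x => add_nonneg (add_nonneg (h10 x) (h20 x)) (h30 x)
  have hT₀D : DThr C.F C.P.E T₀ := h1.mono fun x => by
    have := h20 x; have := h30 x; simp only [hT₀def]; linarith
  have hT₀p : FThr C.F C.P.E (rgfCl C.P.E (C.P.Up C.j0)) T₀ := h2.mono fun x => by
    have := h10 x; have := h30 x; simp only [hT₀def]; linarith
  have hT₀n : FThr C.F C.P.E (rgfCl C.P.E (C.P.Un C.j0)) T₀ := h3.mono fun x => by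
    have := h10 x; have := h20 x; simp only [hT₀def]; linarith
  obtain ⟨u₁, hu₁, hgood, hconv⟩ := rgf_blend hD (rgf_mem hC) hU0s hAC hG hSoft (T₀ := T₀)
    (fun K hK => by
      obtain ⟨B, hB⟩ := (hK.image hT₀c).bddAbove
      exact ⟨B, fun x hx => hB ⟨x, hx, rfl⟩⟩)
  have hp₁ : ∀ z ∈ tot C.P.E, z ∈ rgfCl C.P.E (C.P.Up C.j0) → 0 < u₁ z := by
    intro z hz hzK
    obtain ⟨α, hα⟩ := mem_tot.1 hz
    refine hconv z (Ioi 0) (convex_Ioi 0) fun S hS => ?_
    exact hU0p _ (mem_tot.2 ⟨_, hT₀D.dropS_mem hD hT₀0 S hα hS⟩)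
      (hT₀p.dropS hD hT₀0 hT₀D S hz hS hzK)
  have hn₁ : ∀ z ∈ tot C.P.E, z ∈ rgfCl C.P.E (C.P.Un C.j0) → u₁ z < 0 := by
    intro z hz hzK
    obtain ⟨α, hα⟩ := mem_tot.1 hz
    refine hconv z (Iio 0) (convex_Iio 0) fun S hS => ?_
    exact hU0n _ (mem_tot.2 ⟨_, hT₀D.dropS_mem hD hT₀0 S hα hS⟩)
      (hT₀n.dropS hD hT₀0 hT₀D S hz hS hzK)
  obtain ⟨u, hu, hreg, hnear, hup, hun⟩ := rgf_finish hD hu₁ hθ
    (fun α z hz hθz => (hgood α z ⟨hz, hθz⟩).1) (rgfCl_closed hD _) hKpc (rgfCl_closed hD _) hKnc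
    hp₁ hn₁
  have hcut : IsCut C.B.n C.F C.P.E u w k := ⟨hu, hreg, hw.w_sc, hw.w_pos, hw.corner⟩
  have hD' := pk_split_diag hD hcut
  have hE := hS.E_eq
  refine ⟨u, pkGlue (splitE C.P.E u w k) v, RgOut.of_ext hC hS (by rw [hE]; exact hcut) ?_ ?_
    (by norm_num) le_rfl ?_ ?_ ?_⟩
  · intro α z hz
    rw [hE] at hz
    exact hup z (mem_tot.2 ⟨α, hz.2⟩) ⟨α, subset_closure hz⟩
  · intro α z hz
    rw [hE] at hz
    exact hun z (mem_tot.2 ⟨α, hz.2⟩) ⟨α, subset_closure hz⟩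
  · rw [hE]
    exact rgf_glue_sc hD hcut hV.smooth hV.compat
  · rw [hE]
    intro z hz
    obtain ⟨α', hα'⟩ := mem_tot.1 hz
    rw [pkGlue_eq hD' v hα']
    exact hV.pos α' z (splitE_sub_rgY _ _ _ _ _ hα')
  · intro α' z hz
    obtain ⟨hz1, hz2⟩ := hz
    rw [hE] at hz1
    rw [hE, hS.h_eq, hS.dr_eq]
    have hzE : z.1 ∈ C.P.E α'.par := hz1.1
    have hguard : z.1 ∈ C.guard P1 α'.par := by
      refine ⟨hzE, hz2.rg_mono ?_⟩
      show C.B.n - hits α'.par - 2 ≤ _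
      rw [rgf_hits_par α']
      split_ifs <;> omega
    have hθz : θ z.1 = 1 := hθ1 _ ⟨⟨_, hguard⟩, mem_tot.2 ⟨_, hzE⟩⟩
    obtain ⟨N, hN, hNe⟩ := hnear α'.par z.1 hzE (by rw [hθz]; norm_num)
    obtain ⟨hz₁, heq⟩ := rgf_sup_local hD hcut v hz1 hN hNe (extTen C.P.h)
      (fun y => C.P.dr y.1) (rgVs P1 C.R C.s s') 4
    have hg := hgood α'.par z.1 ⟨hzE, by show (1 / 4 : ℝ) ≤ θ z.1; rw [hθz]; norm_num⟩
    have hS' : rgfGoodS C P1 s' w k v (α' none) α'.par u₁ z.1 := by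
      rcases SignType.trichotomy (α' none) with h | h | h <;> rw [h]
      · exact hg.2.2.2
      · exact hg.2.1
      · exact hg.2.2.1
    have hfin := hS' z.2 (by rw [rgf_ext_par]; exact ⟨hz₁, hz2⟩)
    rw [rgf_ext_par] at hfin
    have e : rgW C.B.n (splitE C.P.E u w k) (extTen C.P.h) (fun y => C.P.dr y.1)
        (rgVs P1 C.R C.s s') α' = fun x => Dsc (C.B.n - hits α') (splitE C.P.E u w k α')
          (extTen C.P.h) (fun y => C.P.dr y.1) x - rgVs P1 C.R C.s s' x := rfl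
    rw [e, heq]
    exact hfin.le

end Claimed.Agent.R315
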