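import Claimed.Agent.R315.Rg.SeamDefs

/-!
# Row 315, unit BP-RG-BUD-PI (helper72), file Rg/BudP.lean: THE POINTWISE BUDGET (RULING 12 (4d))

`C.PI P1 s' α γ z` :  `V* + γ e0 - 1.16 Σ D_j + 1.02 Π_{j0} ≤ Dsc (E α)` at `z`.

* `rgbp_summable` : the potentials of the labels of `R` are summable at every point of the diagram (all but finitely many labels are passive over `{q z}`, `pot j z = c pst j`, `Base.Ok.pst_sum`).
* `rgbp_add_eq`   : `add = P1.potSum R - P.potSum R`;   `rgbp_potSum_rem` : `P.potSum rem = P.potSum R + pot j0`.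
* `rgbp_num`      : `pkB s' * rgKap s s' ≤ min (pkB s) 1.16`, `1.02 ≤ pkB s`.
* `rgb_pi_pf`     : `Inv.curv` + the above + `pkL s - pkL s' = 100 e0`.
* `rgb_pi_nhd_pf` : both sides of `PI` are continuous along `E α` (`if_Dsc_smoothAlong`, `rg_potSum_sc`, `LabelOk.pot_sc`), and the margin drops from `100 e0` to `99 e0`.
-/

set_option autoImplicit false
open scoped ContDiff ENNReal Topology
open MeasureTheory Claims.C0499 Set Filter

namespace Claimed.Agent.R315

variable {V W : Type} [NormedAddCommGroup V] [NormedSpace ℝ V] [NormedAddCommGroup W]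
  [NormedSpace ℝ W] {ι : Type}

/-- summability of the potentials at a point. -/
theorem rgbp_summable {B : Base V} (hB : B.Ok) {F : Frame V W ι} {P : PData W ι B.J}
    {R : Set B.J} {c : ℝ}
    (hpas : ∀ K : Set V, IsCompact K →
      {j | j ∈ R ∧ ∃ z ∈ tot P.E, F.q z ∈ K ∧ ¬ P.Passive B.pst c j z}.Finite)
    {z : W} (hz : z ∈ tot P.E) : Summable fun j => R.indicator (fun j => P.pot j z) j := by
  have hfin := hpas {F.q z} isCompact_singleton
  have hs2 : Summable fun j => R.indicator (fun j => c * B.pst j) j :=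
    (hB.pst_sum.mul_left c).indicator R
  refine hs2.congr_cofinite ?_
  filter_upwards [hfin.compl_mem_cofinite] with j hj
  by_cases hjR : j ∈ R
  · rw [indicator_of_mem hjR, indicator_of_mem hjR]
    by_contra hne
    exact hj ⟨hjR, z, hz, rfl, fun hp => hne hp.2.2.2.symm⟩
  · rw [indicator_of_notMem hjR, indicator_of_notMem hjR]

theorem rgbp_num {s s' : ℝ} (h0 : 0 ≤ s) (hs : s < s') (hs' : s' ≤ 1) :
    pkB s' * rgKap s s' ≤ pkB s ∧ pkB s' * rgKap s s' ≤ 1.16 ∧ 1.02 ≤ pkB s := by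
  unfold pkB rgKap
  refine ⟨?_, ?_, ?_⟩
  · nlinarith
  · nlinarith
  · linarith

section ctx

variable [Fintype ι] [MeasurableSpace W] [BorelSpace W]

theorem rgbp_passive_R {C : ShCtx V W ι} (hC : C.Ok) (K : Set V) (hK : IsCompact K) :
    {j | j ∈ C.R ∧ ∃ z ∈ tot C.P.E, C.F.q z ∈ K ∧ ¬ C.P.Passive C.B.pst C.c j z}.Finite :=
  (hC.inv.passive K hK).subset fun _ hj => ⟨hj.1.1, hj.2⟩

theorem rgbp_passive_1 {C : ShCtx V W ι} {P1 : PData W ι C.B.J} (hS : ShieldOK C P1) (K : Set V)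
    (hK : IsCompact K) :
    {j | j ∈ C.R ∧ ∃ z ∈ tot P1.E, C.F.q z ∈ K ∧ ¬ P1.Passive C.B.pst C.c j z}.Finite := by
  rw [hS.E_eq]
  exact hS.passive K hK

/-- `Σ D_j = Σ pot1_j - Σ pot_j`. -/
theorem rgbp_add_eq {C : ShCtx V W ι} (hC : C.Ok) {P1 : PData W ι C.B.J} (hS : ShieldOK C P1)
    {z : W} (hz : z ∈ tot C.P.E) : C.add P1 z = P1.potSum C.R z - C.P.potSum C.R z := by
  have h1 := rgbp_summable hC.base (rgbp_passive_1 hS) (z := z) (by rw [hS.E_eq]; exact hz)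
  have h2 := rgbp_summable hC.base (rgbp_passive_R hC) hz
  unfold ShCtx.add PData.potSum
  rw [← h1.tsum_sub h2]
  refine tsum_congr fun j => ?_
  by_cases hj : j ∈ C.R
  · simp only [indicator_of_mem hj]
  · simp only [indicator_of_notMem hj, sub_zero]

theorem rgbp_add_nonneg {C : ShCtx V W ι} {P1 : PData W ι C.B.J} (hS : ShieldOK C P1) (z : W) :
    0 ≤ C.add P1 z := by
  unfold ShCtx.add
  refine tsum_nonneg fun j => ?_
  by_cases hj : j ∈ C.R
  · rw [indicator_of_mem hj]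
    exact sub_nonneg.2 (hS.pot_mono j hj z)
  · rw [indicator_of_notMem hj]

theorem rgbp_pot_pos {C : ShCtx V W ι} (hC : C.Ok) {j : C.B.J} (hj : j ∈ C.rem) {z : W}
    (hz : z ∈ tot C.P.E) : 0 < C.P.pot j z :=
  lt_of_lt_of_le (hC.base.pst_pos j) ((hC.inv.label j hj).pot_ge z hz)

theorem rgbp_potSum_nonneg {C : ShCtx V W ι} (hC : C.Ok) {z : W} (hz : z ∈ tot C.P.E) :
    0 ≤ C.P.potSum C.R z := by
  unfold PData.potSum
  refine tsum_nonneg fun j => ?_
  by_cases hj : j ∈ C.R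
  · rw [indicator_of_mem hj]
    exact (rgbp_pot_pos hC hj.1 hz).le
  · rw [indicator_of_notMem hj]

/-- `Σ_{rem} = Σ_R + Π_{j0}`. -/
theorem rgbp_potSum_rem {C : ShCtx V W ι} (hC : C.Ok) {z : W} (hz : z ∈ tot C.P.E) :
    C.P.potSum C.rem z = C.P.potSum C.R z + C.P.pot C.j0 z := by
  classical
  have h2 := rgbp_summable hC.base (rgbp_passive_R hC) hz
  have h3 : HasSum (fun j => if j = C.j0 then C.P.pot C.j0 z else 0) (C.P.pot C.j0 z) :=
    hasSum_ite_eq C.j0 _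
  unfold PData.potSum
  rw [← h3.tsum_eq, ← h2.tsum_add h3.summable]
  refine tsum_congr fun j => ?_
  by_cases hj0 : j = C.j0
  · subst hj0
    have hn : C.j0 ∉ C.R := fun h => h.2 rfl
    rw [indicator_of_mem hC.j0_mem, indicator_of_notMem hn, if_pos rfl, zero_add]
  · rw [if_neg hj0, add_zero]
    by_cases hj : j ∈ C.rem
    · rw [indicator_of_mem hj, indicator_of_mem (show j ∈ C.R from ⟨hj, hj0⟩)]
    · rw [indicator_of_notMem hj, indicator_of_notMem fun h => hj h.1]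

/-- **(BUD c)** the pointwise budget with margin `100 e0` on the required set of the parent. -/
theorem rgb_pi_pf (C : ShCtx V W ι) (hC : C.Ok) (P1 : PData W ι C.B.J) (hS : ShieldOK C P1)
    (s' : ℝ) (hs : C.s < s') (hs' : s' ≤ 1) (he : C.e0 = (pkL C.s - pkL s') / 100) (α : Stat ι)
    {z : W} (hz : z ∈ C.P.E α) (hc : C.P.Cnt C.rem (C.m α - 1) z) : C.PI P1 s' α 100 z := by
  have hzt : z ∈ tot C.P.E := mem_tot.2 ⟨α, hz⟩
  have hcurv := hC.inv.curv α z hz hc
  obtain ⟨n1, n2, n3⟩ := rgbp_num hC.s0 hs hs'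
  have e1 := rgbp_add_eq hC hS hzt
  have a0 := rgbp_add_nonneg hS z
  have p0 := rgbp_potSum_nonneg hC hzt
  have q0 := (rgbp_pot_pos hC hC.j0_mem hzt).le
  rw [rgbp_potSum_rem hC hzt] at hcurv
  unfold ShCtx.PI ShCtx.Vb
  rw [rgVs_eq]
  refine le_trans ?_ hcurv
  have e2 : P1.potSum C.R z = C.P.potSum C.R z + C.add P1 z := by linarith
  show pkL s' + pkB s' * (rgKap C.s s' * P1.potSum C.R z) + 100 * C.e0 - 1.16 * C.add P1 z +
    1.02 * C.P.pot C.j0 z ≤ _
  rw [e2, he]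
  have t1 := mul_le_mul_of_nonneg_right n1 p0
  have t2 := mul_le_mul_of_nonneg_right n2 a0
  have t3 := mul_le_mul_of_nonneg_right n3 q0
  nlinarith

/-- **(BUD c')** the pointwise budget with margin `99 e0` near the required set of the parent. -/
theorem rgb_pi_nhd_pf [FiniteDimensional ℝ V] [FiniteDimensional ℝ W] (C : ShCtx V W ι)
    (hC : C.Ok) (P1 : PData W ι C.B.J) (hS : ShieldOK C P1)
    (s' : ℝ) (hs : C.s < s') (hs' : s' ≤ 1) (he : C.e0 = (pkL C.s - pkL s') / 100) (α : Stat ι)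
    {z : W} (hz : z ∈ C.P.E α) (hc : C.P.Cnt C.rem (C.m α - 1) z) :
    ∃ N ∈ 𝓝 z, ∀ y ∈ N ∩ C.P.E α, C.PI P1 s' α 99 y := by
  have h100 := rgb_pi_pf C hC P1 hS s' hs hs' he α hz hc
  have hM := hC.inv.diag.mfd α
  have c := fun {g : W → ℝ} (hg : SmoothAlong (C.B.n - hits α) (C.P.E α) g) =>
    if_smoothAlong_continuousOn hM hg
  have c1 : ContinuousOn (Dsc (C.m α) (C.P.E α) C.P.h C.P.dr) (C.P.E α) :=
    c (if_Dsc_smoothAlong (hC.inv.met.met α) (hC.inv.dr_sc.1 α))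
  have c2 : ContinuousOn (P1.potSum C.R) (C.P.E α) := by
    have hD : IsDiag C.B.n C.B.M C.F P1.E := hS.E_eq ▸ hC.inv.diag
    have h1 := (rg_potSum_sc hC.base hD (fun j hj => (hS.label j hj).pot_sc)
      (rgbp_passive_1 hS)).1 α
    rw [hS.E_eq] at h1
    exact c h1
  have c3 : ContinuousOn (C.P.potSum C.R) (C.P.E α) :=
    c ((rg_potSum_sc hC.base hC.inv.diag (fun j hj => (hC.inv.label j hj.1).pot_sc)
      (rgbp_passive_R hC)).1 α)
  have c4 : ContinuousOn (C.P.pot C.j0) (C.P.E α) := c ((hC.inv.label _ hC.j0_mem).pot_sc.1 α)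
  have key : ∀ y ∈ C.P.E α, ∀ γ : ℝ, C.PI P1 s' α γ y ↔
      γ * C.e0 ≤ Dsc (C.m α) (C.P.E α) C.P.h C.P.dr y -
        (pkL s' + pkB s' * (rgKap C.s s' * P1.potSum C.R y)) +
        1.16 * (P1.potSum C.R y - C.P.potSum C.R y) - 1.02 * C.P.pot C.j0 y := by
    intro y hy γ
    unfold ShCtx.PI ShCtx.Vb
    rw [rgVs_eq, rgbp_add_eq hC hS (mem_tot.2 ⟨α, hy⟩)]
    constructor <;> intro h <;> linarith
  have cf : ContinuousOn (fun y => Dsc (C.m α) (C.P.E α) C.P.h C.P.dr y -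
        (pkL s' + pkB s' * (rgKap C.s s' * P1.potSum C.R y)) +
        1.16 * (P1.potSum C.R y - C.P.potSum C.R y) - 1.02 * C.P.pot C.j0 y) (C.P.E α) :=
    ((c1.sub (continuousOn_const.add (continuousOn_const.mul (continuousOn_const.mul c2)))).add
      (continuousOn_const.mul (c2.sub c3))).sub (continuousOn_const.mul c4)
  have hfz := (key z hz 100).1 h100
  have hlt : 99 * C.e0 < Dsc (C.m α) (C.P.E α) C.P.h C.P.dr z -
        (pkL s' + pkB s' * (rgKap C.s s' * P1.potSum C.R z)) +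
        1.16 * (P1.potSum C.R z - C.P.potSum C.R z) - 1.02 * C.P.pot C.j0 z := by
    have := hC.e0_pos
    linarith
  have hev := (cf z hz).eventually (lt_mem_nhds hlt)
  obtain ⟨N, hN, hsub⟩ := mem_nhdsWithin_iff_exists_mem_nhds_inter.1 hev
  exact ⟨N, hN, fun y hy => (key y hy.2 99).2 (le_of_lt (hsub hy))⟩

end ctx

end Claimed.Agent.R315
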