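import Claimed.Agent.R315.Rg.BudRaw
import Claimed.Agent.R315.Sh.Ctx

/-!
# Row 315, package Rg, unit BUD (b) `rgb_raw`, part C: the context   (helper232)

`rgb_raw_pf` = statement of `rgb_raw` (`Rg/SeamTop.lean`): `rgbr_raw` on `E α` with `A = ph α`, `p` (plus side) resp. `A = E α \ ph α`, `-p` (minus side), `D = 1.16 add`, `pot = Π_{j0}`, `Vs = V*`.
Reusable: `rgbr_add_cont`, `rgbr_add_nonneg`, `rgbr_add_eq_sum` (the cumulative addition of a `ShieldOK`), `rgbr_Vb_cont`, `rgbr_pot_cont`.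
-/

set_option autoImplicit false
open scoped ContDiff ENNReal Topology
open MeasureTheory Claims.C0499 Set Filter

namespace Claimed.Agent.R315

/-! ### the minus side, the empty manifold -/

section mfd

variable {V : Type} [NormedAddCommGroup V] [NormedSpace ℝ V] [FiniteDimensional ℝ V]
  [MeasurableSpace V] [BorelSpace V]
variable {d : ℕ} {h : Ten V} {t p : V → ℝ} {E A Ω : Set V} {U : V → ℝ}

omit [MeasurableSpace V] [BorelSpace V] in
/-- the other side. -/
theorem RgbrU.flip (hG : CtGeo (d + 1) E h t) (hAE : A ⊆ E) (H : RgbrU d E h A Ω U) :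
    RgbrU d E h (E \ A) Ω fun x => -U x := by
  have hGM : CtGeo (d + 1) (E ∩ Ω) h t := ⟨if_mfd_inter hG.mfd H.isOpen, if_isMetricOn_inter hG.met H.isOpen,
    if_smoothAlong_inter hG.drift H.isOpen⟩
  have eneg : (fun y => -U y) = fun y => -1 * U y := by
    funext y
    ring
  refine ⟨H.isOpen, gs_sm_neg H.smooth, fun z hz => ?_, fun z hz => ?_, fun z hz h0 => ?_⟩
  · rw [← ct_out_eq hG.mfd A, ← H.neg z hz]
    exact neg_pos
  · rw [ct_out_eq hG.mfd (E \ A), Set.diff_diff_cancel_left hAE, ← H.pos z hz]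
    exact neg_lt_zero
  · rw [eneg, gs_sq_smul hGM.mfd hGM.met (-1) H.smooth hz, H.unit z hz (neg_eq_zero.1 h0)]
    norm_num

omit [FiniteDimensional ℝ V] in
theorem rgbr_wvol_empty (k : ℕ) (h : Ten V) (t : V → ℝ) : wvol k (∅ : Set V) h t = 0 := by
  unfold wvol
  rw [Set.indicator_empty]
  exact withDensity_zero

omit [FiniteDimensional ℝ V] in
/-- nothing to prove on the empty manifold. -/
theorem rgbr_raw_empty (d : ℕ) (h : Ten V) (t U Vs : V → ℝ) (P : Set V) (e0 : ℝ) :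
    RgRawOK d (∅ : Set V) h t U Vs P e0 := by
  intro vb vc _
  have e : rm_Lv (∅ : Set V) U 0 = ∅ := by
    ext x
    exact ⟨fun hx => hx.1, fun hx => hx.elim⟩
  unfold rgRawB rgRawC rgRawS
  rw [e, rgbr_wvol_empty, rgbr_wvol_empty]
  simp

omit [MeasurableSpace V] [BorelSpace V] in
theorem rgbr_gradN_neg (hG : CtGeo d E h t) (hp : SmoothAlong d E p) {x : V} (hx : x ∈ E) :
    gradN d E h (fun y => -p y) x = gradN d E h p x := by
  have eneg : (fun y => -p y) = fun y => -1 * p y := by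
    funext y
    ring
  unfold gradN
  rw [eneg, gs_sq_smul hG.mfd hG.met (-1) hp hx]
  norm_num

end mfd

/-! ### the context -/

variable {V W : Type} [NormedAddCommGroup V] [NormedSpace ℝ V] [NormedAddCommGroup W]
  [NormedSpace ℝ W] {ι : Type}
variable [FiniteDimensional ℝ V] [FiniteDimensional ℝ W] [Fintype ι] [MeasurableSpace W]
  [BorelSpace W] {C : ShCtx V W ι} {P1 : PData W ι C.B.J}

/-- over a compact set only finitely many labels have been changed. -/
theorem rgbr_add_fin (hC : C.Ok) (hS : ShieldOK C P1) {K : Set V} (hK : IsCompact K) :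
    {j | j ∈ C.R ∧ ∃ z ∈ tot C.P.E, C.F.q z ∈ K ∧ P1.pot j z ≠ C.P.pot j z}.Finite := by
  refine ((hS.passive K hK).union (hC.inv.passive K hK)).subset ?_
  rintro j ⟨hj, z, hz, hq, hne⟩
  by_cases h1 : P1.Passive C.B.pst C.c j z
  · right
    refine ⟨hj.1, z, hz, hq, fun h0 => hne ?_⟩
    rw [h1.2.2.2, h0.2.2.2]
  · left
    exact ⟨hj, z, hz, hq, h1⟩

/-- over a compact set the cumulative addition is a finite sum. -/
theorem rgbr_add_eq_sum (hC : C.Ok) (hS : ShieldOK C P1) {K : Set V} (hK : IsCompact K) :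
    ∃ s : Finset C.B.J, (∀ j ∈ s, j ∈ C.R) ∧ ∀ z ∈ tot C.P.E, C.F.q z ∈ K →
      C.add P1 z = ∑ j ∈ s, (P1.pot j z - C.P.pot j z) := by
  classical
  have hfin := rgbr_add_fin hC hS hK
  refine ⟨hfin.toFinset, fun j hj => ((hfin.mem_toFinset).1 hj).1, fun z hz hq => ?_⟩
  unfold ShCtx.add
  rw [tsum_eq_sum (s := hfin.toFinset)]
  · exact Finset.sum_congr rfl fun j hj => Set.indicator_of_mem ((hfin.mem_toFinset).1 hj).1 _
  · intro j hj
    by_cases hjR : j ∈ C.R
    · rw [Set.indicator_of_mem hjR]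
      by_contra hne
      exact hj ((hfin.mem_toFinset).2 ⟨hjR, z, hz, hq, fun h => hne (by rw [h, sub_self])⟩)
    · exact Set.indicator_of_notMem hjR _

/-- the potentials of the parent stage are continuous on the status spaces. -/
theorem rgbr_pot_cont (hC : C.Ok) {j : C.B.J} (hj : j ∈ C.rem) (α : Stat ι) :
    ContinuousOn (C.P.pot j) (C.P.E α) :=
  if_smoothAlong_continuousOn (hC.inv.diag.mfd α) ((hC.inv.label j hj).pot_sc.1 α)

/-- the new potentials are continuous on the status spaces. -/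
theorem rgbr_pot1_cont (hC : C.Ok) (hS : ShieldOK C P1) {j : C.B.J} (hj : j ∈ C.R) (α : Stat ι) :
    ContinuousOn (P1.pot j) (C.P.E α) := by
  have h := (hS.label j hj).pot_sc
  rw [hS.E_eq] at h
  exact if_smoothAlong_continuousOn (hC.inv.diag.mfd α) (h.1 α)

/-- the cumulative addition is continuous on the status spaces. -/
theorem rgbr_add_cont (hC : C.Ok) (hS : ShieldOK C P1) (α : Stat ι) :
    ContinuousOn (C.add P1) (C.P.E α) := by
  intro z hz
  obtain ⟨s, hs, hsum⟩ := rgbr_add_eq_sum hC hS (isCompact_closedBall (C.F.q z) 1)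
  have hc : ContinuousOn (fun y => ∑ j ∈ s, (P1.pot j y - C.P.pot j y)) (C.P.E α) :=
    continuousOn_finset_sum _ fun j hj => (rgbr_pot1_cont hC hS (hs j hj) α).sub (rgbr_pot_cont hC (hs j hj).1 α)
  have hN : C.F.q ⁻¹' Metric.closedBall (C.F.q z) 1 ∈ 𝓝 z :=
    C.F.q.continuous.continuousAt.preimage_mem_nhds (Metric.closedBall_mem_nhds _ one_pos)
  refine (hc z hz).congr_of_eventuallyEq ?_
    (hsum z (Set.mem_iUnion.2 ⟨α, hz⟩) (Metric.mem_closedBall_self zero_le_one))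
  filter_upwards [mem_nhdsWithin_of_mem_nhds hN, self_mem_nhdsWithin] with y hy hyE
  exact hsum y (Set.mem_iUnion.2 ⟨α, hyE⟩) hy

theorem rgbr_add_nonneg (hS : ShieldOK C P1) (z : W) : 0 ≤ C.add P1 z :=
  tsum_nonneg fun j => Set.indicator_nonneg (fun j hj => sub_nonneg.2 (hS.pot_mono j hj z)) j

/-- the target potential is continuous on the status spaces. -/
theorem rgbr_Vb_cont (hC : C.Ok) (hS : ShieldOK C P1) (s' : ℝ) (α : Stat ι) :
    ContinuousOn (C.Vb P1 s') (C.P.E α) := by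
  have hE := hS.E_eq
  have hD : IsDiag C.B.n C.B.M C.F P1.E := hE ▸ hC.inv.diag
  have hpas : ∀ K : Set V, IsCompact K →
      {j | j ∈ C.R ∧ ∃ z ∈ tot P1.E, C.F.q z ∈ K ∧ ¬ P1.Passive C.B.pst C.c j z}.Finite := by
    rw [hE]
    exact hS.passive
  have h1 := (rg_potSum_sc hC.base hD (fun j hj => (hS.label j hj).pot_sc) hpas).1 α
  rw [hE] at h1
  have h2 := if_smoothAlong_continuousOn (hC.inv.diag.mfd α) h1
  have e : C.Vb P1 s' = fun z => pkL s' + pkB s' * (rgKap C.s s' * P1.potSum C.R z) := by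
    funext z
    unfold ShCtx.Vb
    rw [rgVs_eq]
  rw [e]
  exact continuousOn_const.add (continuousOn_const.mul (continuousOn_const.mul h2))

/-- **(BUD b)** the raw joined inequality on both true sides, smooth form. -/
theorem rgb_raw_pf (C : ShCtx V W ι) (hC : C.Ok) (P1 : PData W ι C.B.J) (hS : ShieldOK C P1)
    (s' : ℝ) {Ω : Set W} {U : W → ℝ} (hT : RgTrue C P1 Ω U) (α : Stat ι) {d : ℕ}
    (hd : C.m α = d + 1) {ε : ℝ} (hε : ε = 1 ∨ ε = -1) :
    RgRawOK d (C.EO Ω α) C.P.h C.P.dr (fun x => ε * U x) (C.Vb P1 s')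
      {x | C.PI P1 s' α 99 x} C.e0 := by
  rcases (C.P.E α).eq_empty_or_nonempty with hemp | hne
  · have e : C.EO Ω α = ∅ := by
      unfold ShCtx.EO
      rw [hemp, Set.empty_inter]
    rw [e]
    exact rgbr_raw_empty _ _ _ _ _ _ _
  obtain ⟨hG, hcl, h2, hp, hA⟩ := sh_ctx_geo hC α hne
  have hgrad : ∀ z ∈ C.P.E α, 2 * gradN (C.m α) (C.P.E α) C.P.h C.p z ≤
      0.67 * C.p z ^ 2 + 1.02 * C.P.pot C.j0 z := hC.cut.p_grad α
  have hb : ShBud (C.m α) (C.P.E α) C.P.h C.P.dr (C.ph α) (fun z => 1.16 * C.add P1 z) 0.88 C.e0 0 :=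
    hS.budget α
  have hsm := hT.smooth α
  have hpos := hT.pos α
  have hneg := hT.neg α
  have hunit := hT.unit α
  have eP : {x | C.PI P1 s' α 99 x} = {x | C.Vb P1 s' x + 99 * C.e0 - 1.16 * C.add P1 x +
      1.02 * C.P.pot C.j0 x ≤ Dsc (d + 1) (C.P.E α) C.P.h C.P.dr x} := by
    ext x
    unfold ShCtx.PI
    rw [hd]
  rw [hd] at hG h2 hp hA hgrad hb hsm hpos hneg hunit
  have hd1 : 1 ≤ d := by omega
  have H : RgbrU d (C.P.E α) C.P.h (C.ph α) Ω U := ⟨hT.isOpen, hsm, hpos, hneg, hunit⟩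
  have hpot := rgbr_pot_cont hC hC.j0_mem α
  have hpot0 : ∀ x ∈ C.P.E α, 0 ≤ C.P.pot C.j0 x := fun x hx =>
    (hC.base.pst_pos C.j0).le.trans ((hC.inv.label C.j0 hC.j0_mem).pot_ge x (mem_tot.2 ⟨α, hx⟩))
  have hD : ContinuousOn (fun z => 1.16 * C.add P1 z) (C.P.E α) :=
    continuousOn_const.mul (rgbr_add_cont hC hS α)
  have hD0 : ∀ x ∈ C.P.E α, 0 ≤ 1.16 * C.add P1 x := fun x _ =>
    mul_nonneg (by norm_num) (rgbr_add_nonneg hS x)
  have hVs := rgbr_Vb_cont hC hS s' α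
  rw [eP]
  rcases hε with rfl | rfl
  · have e : (fun x => (1 : ℝ) * U x) = U := by
      funext x
      ring
    rw [e]
    exact rgbr_raw hG hcl hd1 hp hA H hpot hpot0 hgrad hD hD0 hVs hC.e0_pos.le hb.2.1
  · have e : (fun x => (-1 : ℝ) * U x) = fun x => -U x := by
      funext x
      ring
    rw [e]
    refine rgbr_raw hG hcl hd1 (gs_sm_neg hp) (hA.diff hG hp) (H.flip hG hA.lf.sub) hpot hpot0
      (fun x hx => ?_) hD hD0 hVs hC.e0_pos.le hb.2.2
    rw [rgbr_gradN_neg hG hp hx, neg_sq]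
    exact hgrad x hx

end Claimed.Agent.R315
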