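import Claimed.Agent.R315.T3.Li
import Claimed.Agent.R315.Gs.Defs
import Claimed.Agent.R315.Pk.Mfd

/-!
# Row 315, package Rg, file Rg/Slice.lean: SLICE TRANSFER `X × {0} ⊆ W × ℝ`  (RULING 12 (4c); helper72)

`rslS X = {z : W × ℝ | z.1 ∈ X ∧ z.2 = 0}`, metric `extTen h = h + dτ²`, drift `t ∘ fst`.

PART A (general): `RgTan d M g g'` = the tensors `g`, `g'` have the same coordinate matrices in all parametrisations of `M` (they agree on tangent vectors).
Then ALL objects of `(M, g)` and `(M, g')` coincide: `scal`, `lap`, `gradIp`, `gradSq`, `wlap`, `Dsc`, `IsMetricOn`, `vol`, `wvol`, `gsN`, `gsB`, `GsGap`.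

PART B (slice): `fst : rslS X → X` is a `T3Iso` (`T3/Li.lean`), `RgTan d (rslS X) (extTen h) (t3pT fst h)` (the `τ`-component of a tangent vector of the slice vanishes).
Hence for `F, K, T : W × ℝ → ℝ` smooth along the slice, `x ∈ X`:
  `op d (rslS X) (extTen h) F .. z = op d X h (fun y => F (y, 0)) .. z.1`, `z ∈ rslS X`   (`rsl_gradIp`, `rsl_gradSq`, `rsl_lap`, `rsl_wlap`, `rsl_scal`, `rsl_Dsc_z`, `rsl_Dsc_fst`, `rsl_Dsc`),
  `∫ G d(wvol (rslS X)) = ∫ G (·, 0) d(wvol X)`   (`rsl_integral`),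
  `IsTestOn` (`rsl_test`, `rsl_test_up`), `GsGap` (`rsl_gap_iff`: both directions).
Open pieces: `rslS X ∩ fst ⁻¹' O = rslS (X ∩ O)` (`rsl_inter`).
-/

set_option autoImplicit false
set_option linter.unusedSectionVars false
open scoped ContDiff ENNReal Topology
open MeasureTheory Claims.C0499 Set Filter

namespace Claimed.Agent.R315

/-! ## PART A: tensors which agree on tangent vectors -/

section tan

variable {V : Type} [NormedAddCommGroup V] [NormedSpace ℝ V]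
variable {d : ℕ} {M : Set V} {g g' : Ten V}

/-- `g` and `g'` have the same coordinate matrices on `M`. -/
def RgTan (d : ℕ) (M : Set V) (g g' : Ten V) : Prop :=
  ∀ (ψ : E d → V) (U : Set (E d)), IsParam M ψ U → ∀ u ∈ U, cm g ψ u = cm g' ψ u

theorem RgTan.symm (H : RgTan d M g g') : RgTan d M g' g := fun ψ U hψ u hu => (H ψ U hψ u hu).symm

theorem RgTan.ev (H : RgTan d M g g') {ψ : E d → V} {U : Set (E d)} (hψ : IsParam M ψ U) {u : E d}
    (hu : u ∈ U) : cm g ψ =ᶠ[𝓝 u] cm g' ψ :=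
  Filter.eventuallyEq_of_mem ((if_open hψ).mem_nhds hu) fun w hw => H ψ U hψ w hw

theorem RgTan.inter (H : RgTan d M g g') {O : Set V} (hO : IsOpen O) : RgTan d (M ∩ O) g g' :=
  fun ψ U hψ u hu => H ψ U (if_param_of_inter hO hψ) u hu

theorem RgTan.scal (H : RgTan d M g g') (x : V) : scal d M g x = scal d M g' x :=
  if_pv_congr fun _ _ _ h hu _ => if_scalar_congr (H.ev h hu)

theorem RgTan.lap (H : RgTan d M g g') (f : V → ℝ) (x : V) : lap d M g f x = lap d M g' f x :=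
  if_pv_congr fun _ _ _ h hu _ => if_lapC_congr (H.ev h hu) (EventuallyEq.refl _ _)

theorem RgTan.gradIp (H : RgTan d M g g') (f k : V → ℝ) (x : V) :
    gradIp d M g f k x = gradIp d M g' f k x :=
  if_pv_congr fun ψ U u h hu _ =>
    if_gradIpC_congr₂ (H ψ U h u hu) (EventuallyEq.refl _ _) (EventuallyEq.refl _ _)

theorem RgTan.gradSq (H : RgTan d M g g') (f : V → ℝ) (x : V) :
    gradSq d M g f x = gradSq d M g' f x := H.gradIp f f x

theorem RgTan.wlap (H : RgTan d M g g') (t f : V → ℝ) (x : V) :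
    wlap d M g t f x = wlap d M g' t f x := by
  unfold Claimed.Agent.R315.wlap
  rw [H.lap, H.gradIp]

theorem RgTan.Dsc (H : RgTan d M g g') (t : V → ℝ) (x : V) : Dsc d M g t x = Dsc d M g' t x := by
  unfold Claimed.Agent.R315.Dsc
  rw [H.scal, H.lap, H.gradSq]

theorem RgTan.metric (H : RgTan d M g g') (hg : IsMetricOn d M g) : IsMetricOn d M g' := by
  intro ψ U hψ
  obtain ⟨h1, h2⟩ := hg ψ U hψ
  refine ⟨fun i j => (h1 i j).congr fun u hu => by rw [H ψ U hψ u hu], fun u hu => ?_⟩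
  rw [← H ψ U hψ u hu]
  exact h2 u hu

variable [MeasurableSpace V] [BorelSpace V]

theorem RgTan.vol (H : RgTan d M g g') : vol d M g = vol d M g' := by
  have e : IsVol d M g = IsVol d M g' := by
    funext μ
    unfold IsVol
    refine propext (and_congr Iff.rfl ?_)
    refine forall_congr' fun ψ => forall_congr' fun U => forall_congr' fun hψ =>
      forall_congr' fun A => forall_congr' fun hA => forall_congr' fun hAm => ?_
    rw [setLIntegral_congr_fun hAm fun u hu => by rw [H ψ U hψ u (hA hu)]]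
  classical
  have key : ∀ P Q : Measure V → Prop, P = Q →
      (if H : ∃ μ, P μ then H.choose else 0) = if H : ∃ μ, Q μ then H.choose else 0 := by
    rintro P _ rfl
    rfl
  exact key _ _ e

theorem RgTan.wvol (H : RgTan d M g g') (t : V → ℝ) : wvol d M g t = wvol d M g' t := by
  unfold Claimed.Agent.R315.wvol
  rw [H.vol]

theorem RgTan.geo (H : RgTan d M g g') {t : V → ℝ} (hG : CtGeo d M g t) : CtGeo d M g' t :=
  ⟨hG.mfd, H.metric hG.met, hG.drift⟩

theorem RgTan.gsN (H : RgTan d M g g') (t φ ψ : V → ℝ) : gsN d M g t φ ψ = gsN d M g' t φ ψ := by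
  unfold Claimed.Agent.R315.gsN
  rw [H.wvol]

theorem RgTan.gsB (H : RgTan d M g g') (t : V → ℝ) (c : ℝ) (Wp φ ψ : V → ℝ) :
    gsB d M g t c Wp φ ψ = gsB d M g' t c Wp φ ψ := by
  unfold Claimed.Agent.R315.gsB
  rw [H.wvol]
  simp only [H.gradIp]

theorem RgTan.gap (H : RgTan d M g g') {t : V → ℝ} {c : ℝ} {Wp : V → ℝ} {γ : ℝ}
    (hg : GsGap d M g t c Wp γ) : GsGap d M g' t c Wp γ := by
  intro φ hφ
  rw [← H.gsN, ← H.gsB]
  exact hg φ hφ

end tan

/-! ## PART B: the slice -/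

section slice

variable {W : Type} [NormedAddCommGroup W] [NormedSpace ℝ W]
variable {d : ℕ} {X : Set W} {h : Ten W} {t : W → ℝ}

/-- the slice `X × {0}`. -/
def rslS (X : Set W) : Set (W × ℝ) := {z | z.1 ∈ X ∧ z.2 = 0}

theorem rslS_mk {x : W} (hx : x ∈ X) : (x, (0 : ℝ)) ∈ rslS X := ⟨hx, rfl⟩

theorem rslS_eta {z : W × ℝ} (hz : z ∈ rslS X) : (z.1, (0 : ℝ)) = z := Prod.ext rfl hz.2.symm

theorem rsl_inter (X O : Set W) : rslS X ∩ Prod.fst ⁻¹' O = rslS (X ∩ O) := by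
  ext z
  constructor
  · rintro ⟨⟨h1, h2⟩, h3⟩
    exact ⟨⟨h1, h3⟩, h2⟩
  · rintro ⟨⟨h1, h3⟩, h2⟩
    exact ⟨⟨h1, h2⟩, h3⟩

/-- the `τ`-component of a tangent vector of the slice vanishes. -/
theorem rsl_tan (d : ℕ) (X : Set W) (h : Ten W) :
    RgTan d (rslS X) (extTen h) (t3pT (ContinuousLinearMap.fst ℝ W ℝ) h) := by
  intro ψ U hψ u hu
  have h0 : (fun w => (ψ w).2) =ᶠ[𝓝 u] fun _ => (0 : ℝ) := by
    filter_upwards [(if_open hψ).mem_nhds hu] with w hw
    exact (if_mem hψ hw).2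
  have h2 : ∀ a, (fderiv ℝ ψ u a).2 = 0 := by
    intro a
    have e1 : HasFDerivAt (fun w => (ψ w).2)
        ((ContinuousLinearMap.snd ℝ W ℝ).comp (fderiv ℝ ψ u)) u :=
      (ContinuousLinearMap.snd ℝ W ℝ).hasFDerivAt.comp u (if_differentiableAt hψ hu).hasFDerivAt
    have e2 : fderiv ℝ (fun w => (ψ w).2) u = 0 := by
      rw [h0.fderiv_eq]
      simp
    rw [e1.fderiv] at e2
    exact DFunLike.congr_fun e2 a
  ext i j
  simp only [cm, Matrix.of_apply, extTen_apply, t3pT_apply, h2, mul_zero, add_zero]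
  rfl

variable [FiniteDimensional ℝ W]

/-- `fst : X × {0} → X` is a diffeomorphism. -/
theorem rsl_iso (hX : IsMfd d X) : T3Iso d (rslS X) X (ContinuousLinearMap.fst ℝ W ℝ) := by
  refine ⟨t3li_of_graph hX fun z _ => ⟨univ, univ, fun _ => 0, isOpen_univ, mem_univ _,
    isOpen_univ, if_smoothAlong_of_contDiff contDiff_const, ?_⟩, ?_, ?_⟩
  · ext y
    simp [rslS]
  · intro a ha b hb hab
    exact Prod.ext hab (ha.2.trans hb.2.symm)
  · ext x
    constructor
    · rintro ⟨z, hz, rfl⟩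
      exact hz.1
    · intro hx
      exact ⟨(x, 0), ⟨hx, rfl⟩, rfl⟩

theorem rsl_mfd (hX : IsMfd d X) : IsMfd d (rslS X) := (rsl_iso hX).toT3Li.mfd

theorem rsl_metric (hX : IsMfd d X) (hh : IsMetricOn d X h) :
    IsMetricOn d (rslS X) (extTen h) :=
  (rsl_tan d X h).symm.metric ((rsl_iso hX).toT3Li.metric hh)

/-- functions on the base, lifted. -/
theorem rsl_smooth_up (hX : IsMfd d X) {f : W → ℝ} (hf : SmoothAlong d X f) :
    SmoothAlong d (rslS X) (fun z => f z.1) := (rsl_iso hX).toT3Li.smooth hf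

/-- functions on the slice, restricted. -/
theorem rsl_smooth_down (hX : IsMfd d X) {F : W × ℝ → ℝ} (hF : SmoothAlong d (rslS X) F) :
    SmoothAlong d X (fun y => F (y, 0)) := by
  intro ψ U hψ
  let _ : MeasurableSpace W := borel W
  have _ : BorelSpace W := ⟨rfl⟩
  obtain ⟨h1, hr⟩ := (rsl_iso hX).lift hψ
  refine (hF _ U h1).congr fun u hu => ?_
  have h2 : Function.invFunOn (ContinuousLinearMap.fst ℝ W ℝ) (rslS X) (ψ u) ∈ rslS X :=
    if_mem h1 hu
  have h3 : (Function.invFunOn (ContinuousLinearMap.fst ℝ W ℝ) (rslS X) (ψ u)).1 = ψ u := hr u hu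
  show F (ψ u, 0) = F (Function.invFunOn (ContinuousLinearMap.fst ℝ W ℝ) (rslS X) (ψ u))
  have h4 := rslS_eta h2
  rw [h3] at h4
  rw [h4]

theorem rsl_geo (hG : CtGeo d X h t) : CtGeo d (rslS X) (extTen h) (fun z => t z.1) :=
  ⟨rsl_mfd hG.mfd, rsl_metric hG.mfd hG.met, rsl_smooth_up hG.mfd hG.drift⟩

/-! ### operators -/

theorem rsl_gradIp (hX : IsMfd d X) (hh : IsMetricOn d X h) {F K : W × ℝ → ℝ}
    (hF : SmoothAlong d (rslS X) F) (hK : SmoothAlong d (rslS X) K) {z : W × ℝ}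
    (hz : z ∈ rslS X) :
    gradIp d (rslS X) (extTen h) F K z =
      gradIp d X h (fun y => F (y, 0)) (fun y => K (y, 0)) z.1 := by
  rw [(rsl_tan d X h).gradIp]
  refine Eq.trans ?_ ((rsl_iso hX).toT3Li.gradIp hh (rsl_smooth_down hX hF)
    (rsl_smooth_down hX hK) hz)
  exact if_gradIp_congr univ_mem (fun _ _ => rfl)
    (fun y hy => congrArg F (rslS_eta hy.1).symm) fun y hy => congrArg K (rslS_eta hy.1).symm

theorem rsl_gradSq (hX : IsMfd d X) (hh : IsMetricOn d X h) {F : W × ℝ → ℝ}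
    (hF : SmoothAlong d (rslS X) F) {z : W × ℝ} (hz : z ∈ rslS X) :
    gradSq d (rslS X) (extTen h) F z = gradSq d X h (fun y => F (y, 0)) z.1 :=
  rsl_gradIp hX hh hF hF hz

theorem rsl_lap (hX : IsMfd d X) (hh : IsMetricOn d X h) {F : W × ℝ → ℝ}
    (hF : SmoothAlong d (rslS X) F) {z : W × ℝ} (hz : z ∈ rslS X) :
    lap d (rslS X) (extTen h) F z = lap d X h (fun y => F (y, 0)) z.1 := by
  rw [(rsl_tan d X h).lap]
  refine Eq.trans ?_ ((rsl_iso hX).toT3Li.lap hh (rsl_smooth_down hX hF) hz)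
  exact if_lap_congr univ_mem (fun _ _ => rfl) fun y hy => congrArg F (rslS_eta hy.1).symm

theorem rsl_wlap (hX : IsMfd d X) (hh : IsMetricOn d X h) {T F : W × ℝ → ℝ}
    (hT : SmoothAlong d (rslS X) T) (hF : SmoothAlong d (rslS X) F) {z : W × ℝ}
    (hz : z ∈ rslS X) :
    wlap d (rslS X) (extTen h) T F z =
      wlap d X h (fun y => T (y, 0)) (fun y => F (y, 0)) z.1 := by
  unfold wlap
  rw [rsl_lap hX hh hF hz, rsl_gradIp hX hh hT hF hz]

theorem rsl_scal (hX : IsMfd d X) (hh : IsMetricOn d X h) {z : W × ℝ} (hz : z ∈ rslS X) :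
    scal d (rslS X) (extTen h) z = scal d X h z.1 := by
  rw [(rsl_tan d X h).scal, (rsl_iso hX).toT3Li.scal hh hz]
  rfl

theorem rsl_Dsc_z (hX : IsMfd d X) (hh : IsMetricOn d X h) {T : W × ℝ → ℝ}
    (hT : SmoothAlong d (rslS X) T) {z : W × ℝ} (hz : z ∈ rslS X) :
    Dsc d (rslS X) (extTen h) T z = Dsc d X h (fun y => T (y, 0)) z.1 := by
  unfold Dsc
  rw [rsl_scal hX hh hz, rsl_lap hX hh hT hz, rsl_gradSq hX hh hT hz]

/-- the form used in the applications: drift `t ∘ fst`. -/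
theorem rsl_Dsc_fst (hG : CtGeo d X h t) {z : W × ℝ} (hz : z ∈ rslS X) :
    Dsc d (rslS X) (extTen h) (fun y => t y.1) z = Dsc d X h t z.1 :=
  rsl_Dsc_z hG.mfd hG.met (rsl_smooth_up hG.mfd hG.drift) hz

/-! ### tests -/

theorem rsl_cs_down {φ : W × ℝ → ℝ} (hφ : CtCS (rslS X) φ) : CtCS X (fun y => φ (y, 0)) := by
  obtain ⟨K, hK, hKX, h0⟩ := hφ
  refine ⟨Prod.fst '' K, hK.image continuous_fst, ?_, fun x hx hxK => ?_⟩
  · rintro _ ⟨z, hz, rfl⟩
    exact (hKX hz).1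
  · exact h0 (x, 0) (rslS_mk hx) fun hmem => hxK ⟨(x, 0), hmem, rfl⟩

theorem rsl_cs_up {f : W → ℝ} (hf : CtCS X f) : CtCS (rslS X) (fun z => f z.1) := by
  obtain ⟨K, hK, hKX, h0⟩ := hf
  refine ⟨(fun x : W => (x, (0 : ℝ))) '' K, hK.image (by fun_prop), ?_, fun z hz hzK => ?_⟩
  · rintro _ ⟨x, hx, rfl⟩
    exact rslS_mk (hKX hx)
  · exact h0 z.1 hz.1 fun hmem => hzK ⟨z.1, hmem, rslS_eta hz⟩

theorem rsl_test (hX : IsMfd d X) {φ : W × ℝ → ℝ} (hφ : IsTestOn d (rslS X) φ) :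
    IsTestOn d X (fun y => φ (y, 0)) := ⟨rsl_smooth_down hX hφ.1, rsl_cs_down hφ.2⟩

theorem rsl_test_up (hX : IsMfd d X) {f : W → ℝ} (hf : IsTestOn d X f) :
    IsTestOn d (rslS X) (fun z => f z.1) := ⟨rsl_smooth_up hX hf.1, rsl_cs_up hf.2⟩

/-! ### measures, forms, gaps -/

variable [MeasurableSpace W] [BorelSpace W]

theorem rsl_map_vol (hG : CtGeo d X h t) :
    Measure.map Prod.fst (vol d (rslS X) (extTen h)) = vol d X h := by
  rw [(rsl_tan d X h).vol]
  exact (rsl_iso hG.mfd).map_vol hG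

theorem rsl_map_wvol (hG : CtGeo d X h t) :
    Measure.map Prod.fst (wvol d (rslS X) (extTen h) (fun z => t z.1)) = wvol d X h t := by
  rw [(rsl_tan d X h).wvol]
  exact (rsl_iso hG.mfd).map_wvol hG

/-- integrals over the slice; no measurability of the integrand is needed. -/
theorem rsl_integral (hG : CtGeo d X h t) (G : W × ℝ → ℝ) :
    ∫ z, G z ∂(wvol d (rslS X) (extTen h) (fun z => t z.1)) = ∫ x, G (x, 0) ∂(wvol d X h t) := by
  have hc := ct_wvol_compl (rsl_geo hG)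
  rw [← (rsl_iso hG.mfd).integral_of_map hc (rsl_map_wvol hG) fun x => G (x, 0)]
  refine integral_congr_ae ?_
  have hae : ∀ᵐ z ∂(wvol d (rslS X) (extTen h) (fun z => t z.1)), z ∈ rslS X := by
    rw [ae_iff]
    exact hc
  filter_upwards [hae] with z hz
  exact congrArg G (rslS_eta hz).symm

theorem rsl_gsN (hG : CtGeo d X h t) (φ ψ : W × ℝ → ℝ) :
    gsN d (rslS X) (extTen h) (fun z => t z.1) φ ψ =
      gsN d X h t (fun y => φ (y, 0)) (fun y => ψ (y, 0)) := by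
  unfold gsN
  exact rsl_integral hG fun z => φ z * ψ z

theorem rsl_gsB (hG : CtGeo d X h t) (c : ℝ) (Wp : W × ℝ → ℝ) {φ ψ : W × ℝ → ℝ}
    (hφ : SmoothAlong d (rslS X) φ) (hψ : SmoothAlong d (rslS X) ψ) :
    gsB d (rslS X) (extTen h) (fun z => t z.1) c Wp φ ψ =
      gsB d X h t c (fun y => Wp (y, 0)) (fun y => φ (y, 0)) (fun y => ψ (y, 0)) := by
  unfold gsB
  rw [rsl_integral hG]
  refine integral_congr_ae ?_
  have hae : ∀ᵐ x ∂(wvol d X h t), x ∈ X := by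
    rw [ae_iff]
    exact ct_wvol_compl hG
  filter_upwards [hae] with x hx
  rw [rsl_gradIp hG.mfd hG.met hφ hψ (rslS_mk hx)]

/-- **transfer of the gap.** -/
theorem rsl_gap_iff (hG : CtGeo d X h t) {c γ : ℝ} {Wp : W × ℝ → ℝ} :
    GsGap d (rslS X) (extTen h) (fun z => t z.1) c Wp γ ↔
      GsGap d X h t c (fun y => Wp (y, 0)) γ := by
  constructor
  · intro H f hf
    have h1 := H _ (rsl_test_up hG.mfd hf)
    rwa [rsl_gsN hG, rsl_gsB hG c Wp (rsl_test_up hG.mfd hf).1 (rsl_test_up hG.mfd hf).1] at h1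
  · intro H φ hφ
    rw [rsl_gsN hG, rsl_gsB hG c Wp hφ.1 hφ.1]
    exact H _ (rsl_test hG.mfd hφ)

/-! ### the shapes used by `Rg/BudW.lean` (helper59) -/

omit [MeasurableSpace W] [BorelSpace W] in
theorem rsl_Dsc (hX : IsMfd d X) (hh : IsMetricOn d X h) {t0 : W → ℝ} (ht0 : SmoothAlong d X t0)
    {t : W × ℝ → ℝ} (ht : ∀ x ∈ X, t (x, 0) = t0 x) {x : W} (hx : x ∈ X) :
    Dsc d (rslS X) (extTen h) t (x, 0) = Dsc d X h t0 x := by
  rw [if_Dsc_congr (t' := fun z => t0 z.1) univ_mem (fun _ _ => rfl) fun y hy => by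
    rw [← rslS_eta hy.1]
    exact ht _ hy.1.1]
  exact rsl_Dsc_z hX hh (rsl_smooth_up hX ht0) (rslS_mk hx)

theorem rsl_gap (hX : IsMfd d X) (hh : IsMetricOn d X h) {t0 : W → ℝ} (ht0 : SmoothAlong d X t0)
    {t Wp : W × ℝ → ℝ} {W0 : W → ℝ} {C γ : ℝ} (ht : ∀ x ∈ X, t (x, 0) = t0 x)
    (hW : ∀ x ∈ X, Wp (x, 0) = W0 x) (hg : GsGap d X h t0 C W0 γ) :
    GsGap d (rslS X) (extTen h) t C Wp γ := by
  have hG : CtGeo d X h t0 := ⟨hX, hh, ht0⟩
  have h1 : GsGap d (rslS X) (extTen h) (fun z => t0 z.1) C (fun z => W0 z.1) γ :=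
    (rsl_gap_iff hG).2 hg
  have e : wvol d (rslS X) (extTen h) t = wvol d (rslS X) (extTen h) (fun z => t0 z.1) :=
    ct_wvol_congr_data (fun _ _ => rfl) fun z hz => by
      rw [← rslS_eta hz]
      exact ht _ hz.1
  intro φ hφ
  have h2 := h1 φ hφ
  unfold gsN gsB at h2 ⊢
  rw [e]
  refine h2.trans (le_of_eq (integral_congr_ae ?_))
  have hae : ∀ᵐ z ∂(wvol d (rslS X) (extTen h) (fun z => t0 z.1)), z ∈ rslS X := by
    rw [ae_iff]
    exact ct_wvol_compl (rsl_geo hG)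
  filter_upwards [hae] with z hz
  have e2 : Wp z = W0 z.1 := by
    rw [← rslS_eta hz]
    exact hW _ hz.1
  rw [e2]

end slice

theorem rgTan_eqns_cite : True := by
  have := @RgTan.eq_1
  have := @rslS.eq_1
  trivial

end Claimed.Agent.R315
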