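import Claimed.Agent.R315.Rg.BudA
import Claimed.Agent.R315.Rg.BudP
import Claimed.Agent.R315.Gs.Aap
import Claimed.Agent.R315.Rg.Slice

/-!
# Row 315, unit BP-RG-BUD-WALL (helper59), file Rg/BudW.lean: THE FORM GAP ON THE TRUE WALLS (RULING 12 (4b))

* `rgbw_gap` (one manifold): from `rgb_abs_wall` (tests `ShTW`) to `GsGap` on the open piece `S ∩ O'` of the wall.
* `rgb_wall_pf` : the contract `rgb_wall` of `Rg/SeamTop.lean`.
-/

set_option autoImplicit false
open scoped ContDiff ENNReal Topology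
open MeasureTheory Claims.C0499 Set Filter

namespace Claimed.Agent.R315

section one

variable {V : Type} [NormedAddCommGroup V] [NormedSpace ℝ V] [FiniteDimensional ℝ V]
  [MeasurableSpace V] [BorelSpace V]
variable {d : ℕ} {M : Set V} {h : Ten V} {t p : V → ℝ} {A : Set V}

/-- a test function on an open piece `S ∩ O'` of a subset `S` of the closed set `M` extends to an ambient smooth function supported in a compact subset of `O'`. -/
theorem rgbw_ext {S O' : Set V} (hS : IsMfd d (S ∩ O')) (hO : IsOpen O') {φ : V → ℝ}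
    (hφ : IsTestOn d (S ∩ O') φ) :
    ∃ (η : V → ℝ) (L : Set V), ContDiff ℝ ∞ η ∧ IsCompact L ∧ L ⊆ O' ∧ (∀ x, x ∉ L → η x = 0) ∧
      ∀ x ∈ S ∩ O', η x = φ x := by
  obtain ⟨φ', hφ's, -, hφ'e⟩ := gs_extend hS hφ
  obtain ⟨-, K, hK, hKS, h0⟩ := hφ
  obtain ⟨L, hL, hKL, hLO⟩ := exists_compact_between hK hO (hKS.trans inter_subset_right)
  obtain ⟨χ, h1, hχ0, -⟩ := exists_contMDiffMap_one_nhds_of_subset_interior (n := ⊤)
    (modelWithCornersSelf ℝ V) hK.isClosed hKL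
  have hχs : ContDiff ℝ ∞ χ := χ.contMDiff.contDiff
  refine ⟨fun x => χ x * φ' x, L, hχs.mul hφ's, hL, hLO, fun x hx => ?_, fun x hx => ?_⟩
  · show χ x * φ' x = 0
    rw [hχ0 x hx, zero_mul]
  · show χ x * φ' x = φ x
    by_cases hxK : x ∈ K
    · rw [h1.self_of_nhdsSet x hxK, one_mul, hφ'e x hx]
    · rw [hφ'e x hx, h0 x hx hxK, mul_zero]

/-- **the form gap on an open piece of the wall** (one manifold). -/
theorem rgbw_gap (hG : CtGeo (d + 1) M h t) (hMc : IsClosed M) (hd : 1 ≤ d)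
    (hp : SmoothAlong (d + 1) M p) (hA : CtLAM (d + 1) M h t p A) {pot D Vb : V → ℝ}
    (hgrad : ∀ x ∈ M, 2 * gradN (d + 1) M h p x ≤ 0.67 * p x ^ 2 + 1.02 * pot x)
    (hD : ContinuousOn D M) (hD0 : ∀ x ∈ M, 0 ≤ D x) (hVb : ContinuousOn Vb M) {e0 : ℝ}
    (he0 : 0 ≤ e0) (hB : (shFW (d + 1) M h t A).Bud D 0.88 e0 0) {O' : Set V} (hO : IsOpen O')
    (hOS : Disjoint O' (ctSing (d + 1) M A))
    (hpi : ∀ x ∈ ctWall (d + 1) M A ∩ O',
      Vb x + 99 * e0 - D x + 1.02 * pot x ≤ Dsc (d + 1) M h t x) :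
    GsGap d (ctWall (d + 1) M A ∩ O') h t 4
      (fun x => Dsc d (ctWall (d + 1) M A) h t x - Vb x) e0 := by
  intro φ hφ
  set S := ctWall (d + 1) M A with hSdef
  have hS : CtGeo d S h t := ct_wall_geo hG A
  have hSM : S ⊆ M := (ct_wall_subset_bd A).trans (ct_bd_subset A)
  have hS' : IsMfd d (S ∩ O') := if_mfd_inter hS.mfd hO
  obtain ⟨η, L, hηs, hL, hLO, hη0, hηe⟩ := rgbw_ext hS' hO hφ
  have hηM : SmoothAlong (d + 1) M η := if_smoothAlong_of_contDiff hηs
  have hηS : SmoothAlong d S η := if_smoothAlong_of_contDiff hηs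
  have hTW : ShTW (d + 1) M A η :=
    ⟨hηM, L ∩ M, hL.inter_right hMc, inter_subset_right,
      (hOS.mono_left (inter_subset_left.trans hLO)), fun x hx hxL => hη0 x fun h' => hxL ⟨h', hx⟩⟩
  have key := rgb_abs_wall hG hMc hd hp hA (Vq := fun x => Vb x + 98 * e0) hgrad hD hD0
    (hVb.add continuousOn_const) he0 hB hTW (fun x hx hne => by
      have hxL : x ∈ L := by_contra fun hn => hne (hη0 x hn)
      have := hpi x ⟨hx, hLO hxL⟩
      linarith)
  obtain ⟨i1, hint⟩ := rgb_tw_int hG hMc hd hp hA hTW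
  rw [hA.wper_eq hG hp hd] at key i1 hint
  rw [← hSdef] at key i1 hint
  set μ := wvol d S h t with hμ
  have hae : ∀ᵐ x ∂μ, x ∈ S := sh_ae_mem hS
  have i2 : Integrable (fun x => η x ^ 2) μ := by
    simpa using hint (fun _ => 1) continuousOn_const
  have i3 : Integrable (fun x => (Dsc d S h t x - Vb x) * η x ^ 2) μ :=
    hint _ ((rgb_cont_Dsc hS).sub (hVb.mono hSM))
  -- the two sides as integrals over `S`
  have hz : ∀ x, x ∉ O' → η x = 0 := fun x hx => hη0 x fun h' => hx (hLO h')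
  have hzg : ∀ x ∈ S, x ∉ O' → gradSq d S h η x = 0 := by
    intro x hx hxO
    have hxL : x ∉ L := fun h' => hxO (hLO h')
    rw [if_gradSq_eq_gradIp]
    exact ct_gradIp_eq_zero hS hηS hx (hL.isClosed.isOpen_compl.mem_nhds hxL)
      (fun y hy => hη0 y hy.2)
  have eN : gsN d (S ∩ O') h t φ φ = ∫ x, η x ^ 2 ∂μ := by
    unfold gsN
    rw [ct_wvol_inter hS hO, ← integral_indicator hO.measurableSet]
    refine integral_congr_ae ?_
    filter_upwards [hae] with x hx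
    by_cases hxO : x ∈ O'
    · rw [indicator_of_mem hxO, ← hηe x ⟨hx, hxO⟩]
      ring
    · rw [indicator_of_notMem hxO, hz x hxO]
      ring
  have eB : gsB d (S ∩ O') h t 4 (fun x => Dsc d S h t x - Vb x) φ φ =
      ∫ x, (4 * gradSq d S h η x + (Dsc d S h t x - Vb x) * η x ^ 2) ∂μ := by
    unfold gsB
    rw [ct_wvol_inter hS hO, ← integral_indicator hO.measurableSet]
    refine integral_congr_ae ?_
    filter_upwards [hae] with x hx
    by_cases hxO : x ∈ O'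
    · rw [indicator_of_mem hxO, ← hηe x ⟨hx, hxO⟩, ← if_gradSq_eq_gradIp,
        gs_sq_congr (f' := η) (fun y hy => (hηe y hy).symm), if_gradSq_inter' h η hO hxO]
      ring
    · rw [indicator_of_notMem hxO, hz x hxO, hzg x hx hxO]
      ring
  rw [eN, eB]
  have e1 : ∫ x, (3.8 * gradSq d S h η x + (Dsc d S h t x - (Vb x + 98 * e0)) * η x ^ 2) ∂μ =
      3.8 * (∫ x, gradSq d S h η x ∂μ) + ((∫ x, (Dsc d S h t x - Vb x) * η x ^ 2 ∂μ) -
        98 * e0 * ∫ x, η x ^ 2 ∂μ) := by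
    have i4 : Integrable (fun x => (Dsc d S h t x - Vb x) * η x ^ 2 - 98 * e0 * η x ^ 2) μ :=
      i3.sub (i2.const_mul _)
    rw [← integral_const_mul, ← integral_const_mul, ← integral_sub i3 (i2.const_mul _),
      ← integral_add (i1.const_mul _) i4]
    refine integral_congr_ae (Eventually.of_forall fun x => ?_)
    show _ = 3.8 * gradSq d S h η x + ((Dsc d S h t x - Vb x) * η x ^ 2 - 98 * e0 * η x ^ 2)
    ring
  have e2 : ∫ x, (4 * gradSq d S h η x + (Dsc d S h t x - Vb x) * η x ^ 2) ∂μ =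
      4 * (∫ x, gradSq d S h η x ∂μ) + ∫ x, (Dsc d S h t x - Vb x) * η x ^ 2 ∂μ := by
    rw [← integral_const_mul, ← integral_add (i1.const_mul _) i3]
  rw [e1] at key
  rw [e2]
  have g0 : 0 ≤ ∫ x, gradSq d S h η x ∂μ := by
    refine integral_nonneg_of_ae ?_
    filter_upwards [hae] with x hx
    exact gs_sq_nonneg hS.mfd hS.met hηS hx
  have n0 : 0 ≤ ∫ x, η x ^ 2 ∂μ := integral_nonneg fun x => sq_nonneg _
  nlinarith [mul_nonneg he0 n0]

/-- the gap is void on the empty set. -/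
theorem rgbw_gap_empty (d : ℕ) (h : Ten V) (t : V → ℝ) (c : ℝ) (W0 : V → ℝ) (γ : ℝ) :
    GsGap d (∅ : Set V) h t c W0 γ := by
  intro φ _
  have e : wvol d (∅ : Set V) h t = 0 := by
    unfold wvol
    rw [indicator_empty]
    exact withDensity_zero
  unfold gsN gsB
  rw [e]
  simp

end one

section ctx

variable {V W : Type} [NormedAddCommGroup V] [NormedSpace ℝ V] [FiniteDimensional ℝ V]
  [NormedAddCommGroup W] [NormedSpace ℝ W] [FiniteDimensional ℝ W] {ι : Type} [Fintype ι]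
  [MeasurableSpace W] [BorelSpace W]

/-- the zero set of the true defining function is the wall. -/
theorem rgbw_zero_eq {C : ShCtx V W ι} (hC : C.Ok) {P1 : PData W ι C.B.J} {Ω : Set W} {U : W → ℝ}
    (hT : RgTrue C P1 Ω U) (α : Stat ι) :
    {x | x ∈ C.EO Ω α ∧ U x = 0} = ctWall (C.m α) (C.P.E α) (C.ph α) ∩ Ω := by
  obtain ⟨hun, -, hd₁, hd₂⟩ := ct_trichotomy' (hC.inv.diag.mfd α) (C.ph α)
  ext x
  constructor
  · rintro ⟨hx, h0⟩
    refine ⟨?_, hx.2⟩
    have h1 : x ∉ ctIn (C.m α) (C.P.E α) (C.ph α) := fun h' => by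
      have := (hT.pos α x hx).2 h'
      linarith
    have h2 : x ∉ ctOut (C.m α) (C.P.E α) (C.ph α) := fun h' => by
      have := (hT.neg α x hx).2 h'
      linarith
    have hxM := hx.1
    rw [← hun] at hxM
    rcases hxM with (h' | h') | h'
    · exact absurd h' h1
    · exact absurd h' h2
    · by_contra hn
      exact Set.disjoint_left.1 (hT.sing α) hx.2 ⟨h', hn⟩
  · rintro ⟨hx, hxΩ⟩
    have hb := ct_wall_subset_bd _ hx
    have hxE : x ∈ C.EO Ω α := ⟨ct_bd_subset _ hb, hxΩ⟩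
    refine ⟨hxE, ?_⟩
    have h1 : ¬ 0 < U x := fun h' => Set.disjoint_left.1 hd₁ ((hT.pos α x hxE).1 h') hb
    have h2 : ¬ U x < 0 := fun h' => Set.disjoint_left.1 hd₂ ((hT.neg α x hxE).1 h') hb
    linarith [not_lt.1 h1, not_lt.1 h2]

/-- the hit piece is the slice over the wall. -/
theorem rgbw_split_eq {C : ShCtx V W ι} (hC : C.Ok) {P1 : PData W ι C.B.J} {Ω : Set W} {U : W → ℝ}
    (hT : RgTrue C P1 Ω U) (w : W → ℝ) (k : ℝ → ℝ) (α' : Stat (Option ι)) (h0 : α' none = 0) :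
    splitE (C.EO Ω) U w k α' =
      rslS (ctWall (C.m α'.par) (C.P.E α'.par) (C.ph α'.par) ∩ Ω) := by
  rw [← rgbw_zero_eq hC hT]
  ext z
  constructor
  · rintro ⟨h1, (⟨-, h2, h3⟩ | ⟨h2, -⟩)⟩
    · exact ⟨⟨h1, h2⟩, h3⟩
    · exact absurd h0 h2
  · rintro ⟨⟨h1, h2⟩, h3⟩
    exact ⟨h1, Or.inl ⟨h0, h2, h3⟩⟩

/-- on the wall the current label is undecided, so the count goes up by one. -/
theorem rgbw_cnt {C : ShCtx V W ι} (hC : C.Ok) {P1 : PData W ι C.B.J} (hS : ShieldOK C P1)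
    {Ω : Set W} {U : W → ℝ} (hT : RgTrue C P1 Ω U) (α : Stat ι) {x : W} (hx : x ∈ C.EO Ω α)
    (h0 : U x = 0) {r : ℕ} (hc : P1.Cnt C.R r x) : C.P.Cnt C.rem (r + 1) x := by
  classical
  obtain ⟨s, hs, hr⟩ := hc
  have hj0 : C.j0 ∉ s := fun h' => (hs _ h').1.2 rfl
  refine ⟨insert C.j0 s, fun j hj => ?_, ?_⟩
  · rcases Finset.mem_insert.1 hj with rfl | hj
    · refine ⟨hC.j0_mem, fun h' => ?_, fun h' => ?_⟩
      · have := (hT.pos α x hx).2 (hC.cut.up α (subset_closure ⟨h', hx.1⟩))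
        linarith
      · have := (hT.neg α x hx).2 (hC.cut.un α (subset_closure ⟨h', hx.1⟩))
        linarith
    · obtain ⟨hjR, h1, h2⟩ := hs j hj
      exact ⟨hjR.1, fun h' => h1 (hS.up_mono j hjR h'), fun h' => h2 (hS.un_mono j hjR h')⟩
  · rw [Finset.card_insert_of_notMem hj0]
    omega

/-- continuity of the sums of potentials. -/
theorem rgbw_cont {C : ShCtx V W ι} (hC : C.Ok) {P1 : PData W ι C.B.J} (hS : ShieldOK C P1)
    (α : Stat ι) :
    ContinuousOn (P1.potSum C.R) (C.P.E α) ∧ ContinuousOn (C.P.potSum C.R) (C.P.E α) := by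
  have hM := hC.inv.diag.mfd α
  have c := fun {g : W → ℝ} (hg : SmoothAlong (C.B.n - hits α) (C.P.E α) g) =>
    if_smoothAlong_continuousOn hM hg
  constructor
  · have hD : IsDiag C.B.n C.B.M C.F P1.E := hS.E_eq ▸ hC.inv.diag
    have h1 := (rg_potSum_sc hC.base hD (fun j hj => (hS.label j hj).pot_sc)
      (rgbp_passive_1 hS)).1 α
    rw [hS.E_eq] at h1
    exact c h1
  · exact c ((rg_potSum_sc hC.base hC.inv.diag (fun j hj => (hC.inv.label j hj.1).pot_sc)
      (rgbp_passive_R hC)).1 α)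

/-- **(BUD a)** the form gap on the true walls. -/
theorem rgb_wall_pf (C : ShCtx V W ι) (hC : C.Ok) (P1 : PData W ι C.B.J) (hS : ShieldOK C P1)
    (s' : ℝ) (hs : C.s < s') (hs' : s' ≤ 1) (he : C.e0 = (pkL C.s - pkL s') / 100) {Ω : Set W}
    {U : W → ℝ} (hT : RgTrue C P1 Ω U) (w : W → ℝ) (k : ℝ → ℝ) (α' : Stat (Option ι))
    (h0 : α' none = 0) :
    ∃ O : Set (W × ℝ), IsOpen O ∧ C.req P1 (splitE (C.EO Ω) U w k) α' ⊆ O ∧
      GsGap (C.B.n - hits α') (splitE (C.EO Ω) U w k α' ∩ O) (extTen C.P.h)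
        (fun y => C.P.dr y.1) 4
        (rgW C.B.n (splitE (C.EO Ω) U w k) (extTen C.P.h) (fun y => C.P.dr y.1)
          (rgVs P1 C.R C.s s') α') C.e0 := by
  set α : Stat ι := α'.par with hα
  have hsplit := rgbw_split_eq hC hT w k α' h0
  rw [← hα] at hsplit
  by_cases hne : (C.P.E α).Nonempty
  swap
  · -- the empty case
    have hE : C.P.E α = ∅ := not_nonempty_iff_eq_empty.1 hne
    have hw : ctWall (C.m α) (C.P.E α) (C.ph α) = ∅ := by
      refine subset_empty_iff.1 ?_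
      rw [← hE]
      exact (ct_wall_subset_bd _).trans (ct_bd_subset _)
    have e : splitE (C.EO Ω) U w k α' = ∅ := by
      rw [hsplit, hw, empty_inter]
      ext z
      simp [rslS]
    refine ⟨univ, isOpen_univ, subset_univ _, ?_⟩
    rw [e, empty_inter]
    exact rgbw_gap_empty _ _ _ _ _ _
  have hdim := hC.dim α hne
  have hh : hits α' = hits α + 1 := by
    rw [pk_hits_parent, if_pos h0]
    rfl
  obtain ⟨d, hd⟩ : ∃ d, C.B.n - hits α = d + 1 := ⟨C.B.n - hits α - 1, by omega⟩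
  have hd1 : 1 ≤ d := by omega
  have hd' : C.B.n - hits α' = d := by omega
  have hm : C.m α = d + 1 := hd
  -- the neighbourhood of the required set of the parent
  have hN := fun (z : W) (hz : z ∈ C.P.E α) (hc : C.P.Cnt C.rem (C.m α - 1) z) =>
    rgb_pi_nhd_pf C hC P1 hS s' hs hs' he α hz hc
  set O1 : Set W := {y | ∃ N : Set W, IsOpen N ∧ y ∈ N ∧ ∀ y' ∈ N ∩ C.P.E α, C.PI P1 s' α 99 y'}
    with hO1
  have hO1o : IsOpen O1 := by
    rw [isOpen_iff_mem_nhds]
    rintro y ⟨N, hNo, hy, hN'⟩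
    filter_upwards [hNo.mem_nhds hy] with y' hy'
    exact ⟨N, hNo, hy', hN'⟩
  set S := ctWall (C.m α) (C.P.E α) (C.ph α) with hSdef
  refine ⟨Prod.fst ⁻¹' O1, hO1o.preimage continuous_fst, ?_, ?_⟩
  · rintro z ⟨hz, hc⟩
    rw [hsplit, ← rgbw_zero_eq hC hT] at hz
    obtain ⟨⟨hzE, hzU⟩, -⟩ := hz
    have hc' := rgbw_cnt hC hS hT α hzE hzU hc
    have e : C.B.n - hits α' - 1 + 1 = C.m α - 1 := by
      rw [hm, hd']
      omega
    rw [e] at hc'
    obtain ⟨N, hN1, hN2⟩ := hN z.1 hzE.1 hc'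
    exact ⟨interior N, isOpen_interior, mem_interior_iff_mem_nhds.2 hN1,
      fun y hy => hN2 y ⟨interior_subset hy.1, hy.2⟩⟩
  · -- the gap
    obtain ⟨c2, c3⟩ := rgbw_cont hC hS α
    have hG : CtGeo (d + 1) (C.P.E α) C.P.h C.P.dr := by
      rw [← hd]
      exact ⟨hC.inv.diag.mfd α, hC.inv.met.met α, hC.inv.dr_sc.1 α⟩
    have hp : SmoothAlong (d + 1) (C.P.E α) C.p := by
      rw [← hd]
      exact hC.cut.p_sc.1 α
    have hA : CtLAM (d + 1) (C.P.E α) C.P.h C.P.dr C.p (C.ph α) := by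
      rw [← hd]
      exact hC.cut.lam α
    have hgrad : ∀ x ∈ C.P.E α, 2 * gradN (d + 1) (C.P.E α) C.P.h C.p x ≤
        0.67 * C.p x ^ 2 + 1.02 * C.P.pot C.j0 x := by
      rw [← hd]
      exact hC.cut.p_grad α
    have hD : ContinuousOn (fun z => 1.16 * C.add P1 z) (C.P.E α) := by
      have c4 : ContinuousOn (fun z => (1.16 : ℝ) * (P1.potSum C.R z - C.P.potSum C.R z))
          (C.P.E α) := continuousOn_const.mul (c2.sub c3)
      refine c4.congr fun z hz => ?_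
      show 1.16 * C.add P1 z = 1.16 * (P1.potSum C.R z - C.P.potSum C.R z)
      rw [rgbp_add_eq hC hS (mem_tot.2 ⟨α, hz⟩)]
    have hVb : ContinuousOn (C.Vb P1 s') (C.P.E α) := by
      have c4 : ContinuousOn (fun z => pkL s' + pkB s' * (rgKap C.s s' * P1.potSum C.R z))
          (C.P.E α) := continuousOn_const.add (continuousOn_const.mul (continuousOn_const.mul c2))
      refine c4.congr fun z _ => ?_
      unfold ShCtx.Vb
      rw [rgVs_eq]
    have hB : (shFW (d + 1) (C.P.E α) C.P.h C.P.dr (C.ph α)).Bud (fun z => 1.16 * C.add P1 z)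
        0.88 C.e0 0 := by
      rw [← hm]
      exact (hS.budget α).1
    have hOo : IsOpen (Ω ∩ O1) := hT.isOpen.inter hO1o
    have hOS : Disjoint (Ω ∩ O1) (ctSing (d + 1) (C.P.E α) (C.ph α)) := by
      rw [← hm]
      exact (hT.sing α).mono_left inter_subset_left
    rw [hm] at hSdef
    have hSM : S ⊆ C.P.E α := by
      rw [hSdef]
      exact (ct_wall_subset_bd _).trans (ct_bd_subset _)
    have hgap := rgbw_gap hG (hC.inv.diag.closed α) hd1 hp hA hgrad hD
      (fun x _ => mul_nonneg (by norm_num) (rgbp_add_nonneg hS x)) hVb hC.e0_pos.le hB hOo hOS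
      (fun x hx => by
        obtain ⟨N, -, hxN, hN'⟩ := hx.2.2
        have h1 := hN' x ⟨hxN, hSM (hSdef ▸ hx.1)⟩
        unfold ShCtx.PI at h1
        rw [hm] at h1
        exact h1)
    rw [← hSdef] at hgap
    have hSg : CtGeo d S C.P.h C.P.dr := by
      rw [hSdef]
      exact ct_wall_geo hG _
    have hSΩ : CtGeo d (S ∩ Ω) C.P.h C.P.dr := hSg.inter hT.isOpen
    have hSO : CtGeo d (S ∩ (Ω ∩ O1)) C.P.h C.P.dr := hSg.inter hOo
    rw [hsplit, rsl_inter, inter_assoc, hd']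
    refine rsl_gap hSO.mfd hSO.met hSO.drift (fun _ _ => rfl) (fun x hx => ?_) hgap
    unfold rgW
    rw [hsplit, hd', rsl_Dsc hSΩ.mfd hSΩ.met hSΩ.drift (fun _ _ => rfl) ⟨hx.1, hx.2.1⟩,
      if_Dsc_inter' _ _ hT.isOpen hx.2.1]
    rfl

end ctx

end Claimed.Agent.R315
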