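import Claimed.Agent.R315.Rg.SeamG1

/-!
# Row 315, package Rg, unit SEAM-G, block (c) of RULING 14: CELLS   (helper59; namespace `RgsgDat`, prefix `rgsj_`)

Interface: `Rg/SeamG1.lean` (helper190).  `δ = S.dl g`.

## Pieces over a cell `(g, C)`, `C ⊆ ball 0 (3 δ) ⊆ E d`
* `g.cS C = {g.ψ (0, u) | u ∈ C}`                            (wall),
* `S.cB g C = {g.ψ (c, u) | 0 < c < 3δ/2, u ∈ C}`             (bulk),
* `S.cY g C = {S.Ps g (s, u) | -3δ/2 < s, u ∈ C}`             (rounded side).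
## Tube parts
* `S.Ts = {x ∈ T | U x = 0}`, `S.Tb = {x ∈ T | 0 < U x < 3 w x / 2}`, `S.Ty = {z ∈ Y | z.1 ∈ T, U z.1 < 3 w z.1 / 2}`.
## Results
* `exists_cells` : a countable family of cells whose wall pieces are a measurable partition of `S.Ts`;
* `Cells.b_union/b_disj`, `Cells.y_union/y_disj` : the induced partitions of `S.Tb`, `S.Ty` (fibre consistency `fc`, `cons`, `Ps_congr`);
* `Cells.hasSum_s/_b/_y/_c` : countable additivity of the four integrals (for arbitrary measures);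
* the flat rest: `Y = Ty ⊔ Yf`, `Yf = {(x, 0) | x ∈ Mf}`, `{0 < U} ∩ (T ∪ F) = Tb ⊔ Mf`.
-/

set_option autoImplicit false
set_option linter.unusedSectionVars false
set_option linter.unusedVariables false
open scoped ContDiff ENNReal Topology
open MeasureTheory Claims.C0499 Set Filter

namespace Claimed.Agent.R315

variable {d : ℕ} {V : Type} [NormedAddCommGroup V] [NormedSpace ℝ V]

/-- wall piece of a cell. -/
def RgsgCh.cS (g : RgsgCh d V) (C : Set (E d)) : Set V := (fun u => g.ψ (rm_J 0 u)) '' C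

namespace RgsgDat

variable (S : RgsgDat d V)

/-- chart domain of the bulk piece of a cell. -/
def dB (g : RgsgCh d V) (C : Set (E d)) : Set (E (d + 1)) :=
  {v | 0 < v 0 ∧ v 0 < 3 * S.dl g / 2 ∧ rm_tl d v ∈ C}

/-- chart domain of the piece of the rounded side over a cell. -/
def dY (g : RgsgCh d V) (C : Set (E d)) : Set (E (d + 1)) :=
  {v | -(3 * S.dl g / 2) < v 0 ∧ rm_tl d v ∈ C}

/-- bulk piece of a cell. -/
def cB (g : RgsgCh d V) (C : Set (E d)) : Set V := g.ψ '' S.dB g C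

/-- piece of the rounded side over a cell. -/
def cY (g : RgsgCh d V) (C : Set (E d)) : Set (V × ℝ) := S.Ps g '' S.dY g C

/-- the wall in the tube. -/
def Ts : Set V := {x | x ∈ S.T ∧ S.U x = 0}

/-- the bulk part of the tube. -/
def Tb : Set V := {x | x ∈ S.T ∧ 0 < S.U x ∧ S.U x < 3 * S.w x / 2}

/-- the part of the rounded side over the tube. -/
def Ty : Set (V × ℝ) := {z | z ∈ S.Y ∧ z.1 ∈ S.T ∧ S.U z.1 < 3 * S.w z.1 / 2}

/-- the flat rest of the bulk. -/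
def Mf : Set V := {x | x ∈ S.Nf ∧ ¬ (x ∈ S.T ∧ S.U x < 3 * S.w x / 2)}

/-- the flat rest of the rounded side. -/
def Yf : Set (V × ℝ) := {z | z ∈ S.Y ∧ ¬ (z.1 ∈ S.T ∧ S.U z.1 < 3 * S.w z.1 / 2)}

/-- **a family of cells**: the wall pieces are a measurable partition of the wall in the tube. -/
structure Cells {ι : Type} (g : ι → RgsgCh d V) (C : ι → Set (E d)) : Prop where
  good : ∀ i, S.Good (g i)
  meas : ∀ i, MeasurableSet (C i)
  sub : ∀ i, C i ⊆ Metric.ball 0 (3 * S.dl (g i))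
  disj : Pairwise (Function.onFun Disjoint fun i => (g i).cS (C i))
  union : ⋃ i, (g i).cS (C i) = S.Ts

variable {S} {g g' : RgsgCh d V} {C : Set (E d)}

/-! ## 1. elementary facts on the pieces -/

theorem dB_sub (hg : S.Good g) (hC : C ⊆ Metric.ball 0 (3 * S.dl g)) : S.dB g C ⊆ S.bx g := by
  rintro v ⟨h1, h2, h3⟩
  have hδ := hg.dl_pos
  refine hg.mem_bx ?_ (by simpa using hC h3)
  rw [abs_of_pos h1]
  linarith

theorem dY_sub (hg : S.Good g) (hC : C ⊆ Metric.ball 0 (3 * S.dl g)) :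
    S.dY g C ⊆ rgsDom d (S.dl g) := by
  rintro v ⟨h1, h3⟩
  have hδ := hg.dl_pos
  exact ⟨by linarith, by simpa using hC h3⟩

theorem rgsj_meas_zero : Measurable (fun v : E (d + 1) => v 0) :=
  (EuclideanSpace.proj (0 : Fin (d + 1)) : E (d + 1) →L[ℝ] ℝ).continuous.measurable

theorem dB_meas (hC : MeasurableSet C) : MeasurableSet (S.dB g C) := by
  have h1 : MeasurableSet {v : E (d + 1) | 0 < v 0} := measurableSet_lt measurable_const rgsj_meas_zero
  have h2 : MeasurableSet {v : E (d + 1) | v 0 < 3 * S.dl g / 2} :=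
    measurableSet_lt rgsj_meas_zero measurable_const
  have h3 : MeasurableSet {v : E (d + 1) | rm_tl d v ∈ C} := (rm_tl d).continuous.measurable hC
  exact h1.inter (h2.inter h3)

theorem dY_meas (hC : MeasurableSet C) : MeasurableSet (S.dY g C) := by
  have h2 : MeasurableSet {v : E (d + 1) | -(3 * S.dl g / 2) < v 0} :=
    measurableSet_lt measurable_const rgsj_meas_zero
  have h3 : MeasurableSet {v : E (d + 1) | rm_tl d v ∈ C} := (rm_tl d).continuous.measurable hC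
  exact h2.inter h3

section fd

variable [FiniteDimensional ℝ V] [MeasurableSpace V] [BorelSpace V]

theorem cS_meas (hg : S.Good g) (hC : MeasurableSet C) (hCs : C ⊆ Metric.ball 0 (3 * S.dl g)) :
    MeasurableSet (g.cS C) :=
  if_measurableSet_image hg.slice hC hCs

theorem cB_meas (hg : S.Good g) (hC : MeasurableSet C) (hCs : C ⊆ Metric.ball 0 (3 * S.dl g)) :
    MeasurableSet (S.cB g C) :=
  if_measurableSet_image hg.par (dB_meas hC) (dB_sub hg hCs)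

theorem cY_meas (hS : S.Ok) (hg : S.Good g) (hC : MeasurableSet C)
    (hCs : C ⊆ Metric.ball 0 (3 * S.dl g)) : MeasurableSet (S.cY g C) :=
  if_measurableSet_image (Ps_param hS hg) (dY_meas hC) (dY_sub hg hCs)

end fd

/-- the level of `rgsK` is below `3δ/2` iff `s > -3δ/2`. -/
theorem K_lt_iff (hS : S.Ok) (hg : S.Good g) {v : E (d + 1)} :
    rgsK S.a (S.dl g) v 0 < 3 * S.dl g / 2 ↔ -(3 * S.dl g / 2) < v 0 := by
  have hδ := hg.dl_pos
  unfold rgsK
  rw [rm_J_zero]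
  have h1 := rgsg_prof_a_lt hS.prof (c := 3 / 2) (by norm_num) (s := v 0 / S.dl g)
  constructor
  · intro h
    have h2 : S.a (v 0 / S.dl g) < 3 / 2 := by
      by_contra hn
      have := mul_le_mul_of_nonneg_left (not_lt.1 hn) hδ.le
      linarith
    have h3 := h1.1 h2
    rw [lt_div_iff₀ hδ] at h3
    linarith
  · intro h
    have h3 : -(3 / 2 : ℝ) < v 0 / S.dl g := by
      rw [lt_div_iff₀ hδ]
      linarith
    have h2 := h1.2 h3
    have := mul_lt_mul_of_pos_left h2 hδ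
    linarith

/-- **the foot lemma**: two good charts with a common wall point have the same width and the same fibre through it (`fc`, `Ps_congr`). -/
theorem foot [FiniteDimensional ℝ V] (hS : S.Ok) (hg : S.Good g) (hg' : S.Good g') {u u' : E d}
    (hu : ‖u‖ < 3 * S.dl g) (hu' : ‖u'‖ < 3 * S.dl g')
    (he : g.ψ (rm_J 0 u) = g'.ψ (rm_J 0 u')) :
    S.dl g = S.dl g' ∧ (∀ c, |c| < 2 * S.dl g → g.ψ (rm_J c u) = g'.ψ (rm_J c u')) ∧
      ∀ s, -(2 * S.dl g) < s → S.Ps g (rm_J s u) = S.Ps g' (rm_J s u') := by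
  have hδ := hg.dl_pos
  have hδ' := hg'.dl_pos
  have m : rm_J 0 u ∈ S.bx g := hg.J_mem (by rw [abs_zero]; linarith) hu
  have m' : rm_J 0 u' ∈ S.bx g' := hg'.J_mem (by rw [abs_zero]; linarith) hu'
  obtain ⟨h1, -, h3⟩ := fc hS hg hg' m m' he
  simp only [rm_tl_J] at h3
  exact ⟨h1, h3, fun s hs => Ps_congr hS hg hg' h1 h3 hs⟩

/-- the wall in the tube is the union of the slices of the good charts. -/
theorem mem_Ts {x : V} :
    x ∈ S.Ts ↔ ∃ g, S.Good g ∧ ∃ u : E d, ‖u‖ < 3 * S.dl g ∧ g.ψ (rm_J 0 u) = x := by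
  constructor
  · rintro ⟨⟨g, hg, v, hv, -, rfl⟩, h0⟩
    rw [hg.lvl hv] at h0
    refine ⟨g, hg, rm_tl d v, hv.2, ?_⟩
    rw [← h0, rm_J_tl]
  · rintro ⟨g, hg, u, hu, rfl⟩
    have hδ := hg.dl_pos
    have h0 : |(0 : ℝ)| < 2 * S.dl g := by rw [abs_zero]; linarith
    have m : rm_J 0 u ∈ S.bx g := hg.J_mem h0 hu
    refine ⟨⟨g, hg, rm_J 0 u, m, by rwa [rm_J_zero], rfl⟩, ?_⟩
    rw [hg.lvl m, rm_J_zero]

theorem Ts_sub : S.Ts ⊆ rm_Lv S.M S.U 0 := by
  rintro x ⟨⟨g, hg, v, hv, -, rfl⟩, h0⟩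
  exact ⟨hg.mem_M hv, h0⟩

/-! ## 2. existence of cells -/

/-- **countably many cells** (Lindelöf for the relatively open slices `Good.slice`, disjointification). -/
theorem exists_cells [FiniteDimensional ℝ V] (hS : S.Ok) :
    ∃ (ι : Type) (_ : Countable ι) (g : ι → RgsgCh d V) (C : ι → Set (E d)), S.Cells g C := by
  classical
  have hO : ∀ g : {g : RgsgCh d V // S.Good g}, ∃ O : Set V, IsOpen O ∧
      g.1.cS (Metric.ball 0 (3 * S.dl g.1)) = rm_Lv S.M S.U 0 ∩ O := fun g => if_image g.2.slice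
  choose O hOo hOe using hO
  obtain ⟨T', hT'c, hT'u⟩ := TopologicalSpace.isOpen_iUnion_countable O hOo
  haveI : Countable T' := hT'c.to_subtype
  obtain ⟨enc, henc⟩ := exists_injective_nat T'
  set σ : T' → E d → V := fun i u => i.1.1.ψ (rm_J 0 u) with hσ
  set B : T' → Set (E d) := fun i => Metric.ball 0 (3 * S.dl i.1.1) with hB
  set C : T' → Set (E d) := fun i => B i \ ⋃ j : T', ⋃ (_ : enc j < enc i), (B i ∩ σ i ⁻¹' O j.1)
    with hC
  have hmem : ∀ (i : T') (u : E d), u ∈ C i ↔ u ∈ B i ∧ ∀ j : T', enc j < enc i → σ i u ∉ O j.1 := by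
    intro i u
    simp only [hC, mem_diff, mem_iUnion, mem_inter_iff, mem_preimage, not_exists, not_and]
    constructor
    · rintro ⟨h1, h2⟩
      exact ⟨h1, fun j hj => h2 j hj h1⟩
    · rintro ⟨h1, h2⟩
      exact ⟨h1, fun j hj _ => h2 j hj⟩
  have hin : ∀ (i : T') (u : E d), u ∈ B i → σ i u ∈ O i.1 := by
    intro i u hu
    have : σ i u ∈ i.1.1.cS (Metric.ball 0 (3 * S.dl i.1.1)) := ⟨u, hu, rfl⟩
    rw [hOe] at this
    exact this.2
  have hlt : ∀ i j : T', enc i < enc j → Disjoint (i.1.1.cS (C i)) (j.1.1.cS (C j)) := by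
    intro i j hij
    rw [Set.disjoint_left]
    rintro x ⟨u, hu, rfl⟩ ⟨u', hu', he⟩
    refine ((hmem j u').1 hu').2 i hij ?_
    show j.1.1.ψ (rm_J 0 u') ∈ O i.1
    have he' : j.1.1.ψ (rm_J 0 u') = i.1.1.ψ (rm_J 0 u) := he
    rw [he']
    exact hin i u ((hmem i u).1 hu).1
  refine ⟨T', inferInstance, fun i => i.1.1, C, fun i => i.1.2, fun i => ?_, fun i => diff_subset,
    fun i j hij => ?_, ?_⟩
  · refine measurableSet_ball.diff (MeasurableSet.iUnion fun j => MeasurableSet.iUnion fun _ => ?_)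
    exact ((if_continuousOn i.1.2.slice).isOpen_inter_preimage Metric.isOpen_ball
      (hOo j.1)).measurableSet
  · rcases lt_or_gt_of_ne (henc.ne hij) with h | h
    · exact hlt i j h
    · exact (hlt j i h).symm
  · ext x
    constructor
    · intro hx
      obtain ⟨i, u, hu, rfl⟩ := mem_iUnion.1 hx
      exact mem_Ts.2 ⟨i.1.1, i.1.2, u, mem_ball_zero_iff.1 ((hmem i u).1 hu).1, rfl⟩
    · intro hx
      obtain ⟨g, hg, u, hu, rfl⟩ := mem_Ts.1 hx
      have h1 : g.ψ (rm_J 0 u) ∈ g.cS (Metric.ball 0 (3 * S.dl g)) := ⟨u, by simpa using hu, rfl⟩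
      have h1' := h1
      rw [hOe ⟨g, hg⟩] at h1
      have h2 : g.ψ (rm_J 0 u) ∈ ⋃ i ∈ T', O i := by
        rw [hT'u]
        exact mem_iUnion.2 ⟨⟨g, hg⟩, h1.2⟩
      have hex : ∃ n, ∃ i : T', enc i = n ∧ g.ψ (rm_J 0 u) ∈ O i.1 := by
        obtain ⟨i, hi, hxi⟩ := mem_iUnion₂.1 h2
        exact ⟨enc ⟨i, hi⟩, ⟨i, hi⟩, rfl, hxi⟩
      obtain ⟨i, hi, hxi⟩ := Nat.find_spec hex
      have h3 : g.ψ (rm_J 0 u) ∈ i.1.1.cS (Metric.ball 0 (3 * S.dl i.1.1)) := by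
        rw [hOe]
        exact ⟨h1.1, hxi⟩
      obtain ⟨u', hu', he⟩ := h3
      refine mem_iUnion.2 ⟨i, u', (hmem i u').2 ⟨hu', fun j hj hxj => ?_⟩, he⟩
      refine Nat.find_min hex (m := enc j) (by rw [← hi]; exact hj) ⟨j, rfl, ?_⟩
      have he' : i.1.1.ψ (rm_J 0 u') = g.ψ (rm_J 0 u) := he
      rw [← he']
      exact hxj

/-! ## 3. the induced partitions -/

namespace Cells

variable {ι : Type} {g : ι → RgsgCh d V} {C : ι → Set (E d)}

section fd

variable [FiniteDimensional ℝ V]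

theorem b_disj (hS : S.Ok) (hc : S.Cells g C) :
    Pairwise (Function.onFun Disjoint fun i => S.cB (g i) (C i)) := by
  intro i j hij
  show Disjoint (S.cB (g i) (C i)) (S.cB (g j) (C j))
  rw [Set.disjoint_left]
  rintro x ⟨v, hv, rfl⟩ ⟨v', hv', he⟩
  have hδ := (hc.good i).dl_pos
  obtain ⟨-, -, h3⟩ := fc hS (hc.good j) (hc.good i) (dB_sub (hc.good j) (hc.sub j) hv')
    (dB_sub (hc.good i) (hc.sub i) hv) he
  have h0 := h3 0 (by rw [abs_zero]; have := (hc.good j).dl_pos; linarith)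
  exact Set.disjoint_left.1 (hc.disj hij) ⟨rm_tl d v, hv.2.2, rfl⟩ ⟨rm_tl d v', hv'.2.2, h0⟩

theorem b_union (hS : S.Ok) (hc : S.Cells g C) : ⋃ i, S.cB (g i) (C i) = S.Tb := by
  ext x
  constructor
  · intro hx
    obtain ⟨i, v, hv, rfl⟩ := mem_iUnion.1 hx
    have hg := hc.good i
    have hδ := hg.dl_pos
    have hvb := dB_sub hg (hc.sub i) hv
    refine ⟨⟨g i, hg, v, hvb, ?_, rfl⟩, ?_, ?_⟩
    · rw [abs_of_pos hv.1]
      linarith [hv.2.1]
    · rw [hg.lvl hvb]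
      exact hv.1
    · rw [hg.lvl hvb, hg.flat hvb]
      exact hv.2.1
  · rintro ⟨⟨g0, hg0, v, hv, hv2, rfl⟩, h1, h2⟩
    rw [hg0.lvl hv] at h1 h2
    rw [hg0.flat hv] at h2
    have hf : g0.ψ (rm_J 0 (rm_tl d v)) ∈ S.Ts := mem_Ts.2 ⟨g0, hg0, rm_tl d v, hv.2, rfl⟩
    rw [← hc.union] at hf
    obtain ⟨i, u, hu, he⟩ := mem_iUnion.1 hf
    have hui : ‖u‖ < 3 * S.dl (g i) := mem_ball_zero_iff.1 (hc.sub i hu)
    obtain ⟨e1, e2, -⟩ := foot hS (hc.good i) hg0 hui hv.2 he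
    refine mem_iUnion.2 ⟨i, rm_J (v 0) u, ⟨?_, ?_, ?_⟩, ?_⟩
    · rw [rm_J_zero]
      exact h1
    · rw [rm_J_zero, e1]
      exact h2
    · rw [rm_tl_J]
      exact hu
    · rw [e2 (v 0) (by rw [e1]; exact hv2), rm_J_tl]

theorem y_disj (hS : S.Ok) (hc : S.Cells g C) :
    Pairwise (Function.onFun Disjoint fun i => S.cY (g i) (C i)) := by
  intro i j hij
  show Disjoint (S.cY (g i) (C i)) (S.cY (g j) (C j))
  rw [Set.disjoint_left]
  rintro x ⟨v, hv, rfl⟩ ⟨v', hv', he⟩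
  obtain ⟨-, -, h3⟩ := cons hS (hc.good j) (hc.good i) (dY_sub (hc.good j) (hc.sub j) hv')
    (dY_sub (hc.good i) (hc.sub i) hv) he
  have h0 := h3 0 (by rw [abs_zero]; have := (hc.good j).dl_pos; linarith)
  exact Set.disjoint_left.1 (hc.disj hij) ⟨rm_tl d v, hv.2, rfl⟩ ⟨rm_tl d v', hv'.2, h0⟩

theorem y_union (hS : S.Ok) (hc : S.Cells g C) : ⋃ i, S.cY (g i) (C i) = S.Ty := by
  ext z
  constructor
  · intro hz
    obtain ⟨i, v, hv, rfl⟩ := mem_iUnion.1 hz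
    have hg := hc.good i
    have hδ := hg.dl_pos
    have hvd := dY_sub hg (hc.sub i) hv
    obtain ⟨k1, k2, k3⟩ := hg.K_mem hS hvd
    refine ⟨Ps_mem_Y hS hg hvd, ⟨g i, hg, _, k1, ?_, rfl⟩, ?_⟩
    · rw [abs_of_nonneg k2]
      exact k3
    · show S.U ((g i).ψ (rgsK S.a (S.dl (g i)) v)) < 3 * S.w ((g i).ψ (rgsK S.a (S.dl (g i)) v)) / 2
      rw [hg.lvl k1, hg.flat k1]
      exact (K_lt_iff hS hg).2 hv.1
  · rintro ⟨hzY, ⟨g0, hg0, v, hv, hv2, hvz⟩, h2⟩
    have hz' : z ∈ S.Ps g0 '' rgsDom d (S.dl g0) := by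
      rw [Ps_image hS hg0]
      exact ⟨hzY.1, v, hv, hv2, hvz⟩
    obtain ⟨q, hq, rfl⟩ := hz'
    obtain ⟨k1, k2, k3⟩ := hg0.K_mem hS hq
    have h2' : S.U (g0.ψ (rgsK S.a (S.dl g0) q)) < 3 * S.w (g0.ψ (rgsK S.a (S.dl g0) q)) / 2 := h2
    rw [hg0.lvl k1, hg0.flat k1] at h2'
    have hq0 := (K_lt_iff hS hg0).1 h2'
    have hf : g0.ψ (rm_J 0 (rm_tl d q)) ∈ S.Ts := mem_Ts.2 ⟨g0, hg0, rm_tl d q, hq.2, rfl⟩
    rw [← hc.union] at hf
    obtain ⟨i, u, hu, he⟩ := mem_iUnion.1 hf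
    have hui : ‖u‖ < 3 * S.dl (g i) := mem_ball_zero_iff.1 (hc.sub i hu)
    obtain ⟨e1, -, e3⟩ := foot hS (hc.good i) hg0 hui hq.2 he
    refine mem_iUnion.2 ⟨i, rm_J (q 0) u, ⟨?_, ?_⟩, ?_⟩
    · rw [rm_J_zero, e1]
      exact hq0
    · rw [rm_tl_J]
      exact hu
    · rw [e3 (q 0) (by rw [e1]; exact hq.1), rm_J_tl]

/-! ## 4. countable additivity -/

variable [MeasurableSpace V] [BorelSpace V] [Countable ι]

theorem Ts_meas (hc : S.Cells g C) : MeasurableSet S.Ts := by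
  rw [← hc.union]
  exact MeasurableSet.iUnion fun i => cS_meas (hc.good i) (hc.meas i) (hc.sub i)

theorem Tb_meas (hS : S.Ok) (hc : S.Cells g C) : MeasurableSet S.Tb := by
  rw [← hc.b_union hS]
  exact MeasurableSet.iUnion fun i => cB_meas (hc.good i) (hc.meas i) (hc.sub i)

theorem Ty_meas (hS : S.Ok) (hc : S.Cells g C) : MeasurableSet S.Ty := by
  rw [← hc.y_union hS]
  exact MeasurableSet.iUnion fun i => cY_meas hS (hc.good i) (hc.meas i) (hc.sub i)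

theorem hasSum_s (hc : S.Cells g C) (μ : Measure V) {f : V → ℝ} (hf : IntegrableOn f S.Ts μ) :
    HasSum (fun i => ∫ x in (g i).cS (C i), f x ∂μ) (∫ x in S.Ts, f x ∂μ) := by
  rw [← hc.union] at hf ⊢
  exact hasSum_integral_iUnion (fun i => cS_meas (hc.good i) (hc.meas i) (hc.sub i)) hc.disj hf

theorem hasSum_b (hS : S.Ok) (hc : S.Cells g C) (μ : Measure V) {f : V → ℝ}
    (hf : IntegrableOn f S.Tb μ) :
    HasSum (fun i => ∫ x in S.cB (g i) (C i), f x ∂μ) (∫ x in S.Tb, f x ∂μ) := by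
  rw [← hc.b_union hS] at hf ⊢
  exact hasSum_integral_iUnion (fun i => cB_meas (hc.good i) (hc.meas i) (hc.sub i))
    (hc.b_disj hS) hf

theorem hasSum_y (hS : S.Ok) (hc : S.Cells g C) (μ : Measure (V × ℝ)) {f : V × ℝ → ℝ}
    (hf : IntegrableOn f S.Ty μ) :
    HasSum (fun i => ∫ z in S.cY (g i) (C i), f z ∂μ) (∫ z in S.Ty, f z ∂μ) := by
  rw [← hc.y_union hS] at hf ⊢
  exact hasSum_integral_iUnion (fun i => cY_meas hS (hc.good i) (hc.meas i) (hc.sub i))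
    (hc.y_disj hS) hf

/-- the cylinder integral (iterated, `s` outside as in `rgRawC`). -/
theorem hasSum_c (hc : S.Cells g C) (μ : Measure V) [SFinite μ] {f : V → ℝ → ℝ}
    (hf : Integrable (fun p : V × ℝ => f p.1 p.2)
      ((μ.restrict S.Ts).prod (volume.restrict (Ioi (0 : ℝ))))) :
    HasSum (fun i => ∫ s in Ioi (0 : ℝ), ∫ x in (g i).cS (C i), f x s ∂μ)
      (∫ s in Ioi (0 : ℝ), ∫ x in S.Ts, f x s ∂μ) := by
  -- swap the order of integration
  have hsub : ∀ i, (g i).cS (C i) ⊆ S.Ts := fun i => by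
    rw [← hc.union]
    exact subset_iUnion (fun i => (g i).cS (C i)) i
  have hfi : ∀ i, Integrable (fun p : V × ℝ => f p.1 p.2)
      ((μ.restrict ((g i).cS (C i))).prod (volume.restrict (Ioi (0 : ℝ)))) := fun i =>
    hf.mono_measure (Measure.prod_mono (Measure.restrict_mono (hsub i) le_rfl) le_rfl)
  have e0 : ∫ s in Ioi (0 : ℝ), ∫ x in S.Ts, f x s ∂μ =
      ∫ x in S.Ts, (∫ s in Ioi (0 : ℝ), f x s) ∂μ := (integral_integral_swap hf).symm
  have ei : ∀ i, ∫ s in Ioi (0 : ℝ), ∫ x in (g i).cS (C i), f x s ∂μ =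
      ∫ x in (g i).cS (C i), (∫ s in Ioi (0 : ℝ), f x s) ∂μ := fun i =>
    (integral_integral_swap (hfi i)).symm
  rw [e0]
  simp only [ei]
  exact hc.hasSum_s μ hf.integral_prod_left

end fd

end Cells

/-! ## 5. the flat rest (sets) -/

section flat

variable [FiniteDimensional ℝ V]

theorem Y_split : S.Y = S.Ty ∪ S.Yf := by
  ext z
  constructor
  · intro hz
    by_cases h : z.1 ∈ S.T ∧ S.U z.1 < 3 * S.w z.1 / 2
    · exact Or.inl ⟨hz, h.1, h.2⟩
    · exact Or.inr ⟨hz, h⟩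
  · rintro (h | h)
    · exact h.1
    · exact h.1

theorem Y_split_disj : Disjoint S.Ty S.Yf := by
  rw [Set.disjoint_left]
  rintro z ⟨-, h1, h2⟩ ⟨-, h3⟩
  exact h3 ⟨h1, h2⟩

/-- outside the tube part the points of `T ∪ F` are flat. -/
theorem mem_Nf_of_not (hS : S.Ok) {x : V} (hx : x ∈ S.T ∪ S.F)
    (hn : ¬ (x ∈ S.T ∧ S.U x < 3 * S.w x / 2)) : x ∈ S.Nf := by
  refine ⟨hx, ?_⟩
  rcases hx with h | h
  · have hw := hS.w_pos x (T_sub hS h).1
    have : ¬ S.U x < 3 * S.w x / 2 := fun h' => hn ⟨h, h'⟩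
    linarith [not_lt.1 this]
  · exact h.2.1

/-- the flat rest of the rounded side is the slice over `Mf`. -/
theorem Yf_eq (hS : S.Ok) : S.Yf = {z | z.1 ∈ S.Mf ∧ z.2 = 0} := by
  ext z
  constructor
  · rintro ⟨hz, hn⟩
    have hN := mem_Nf_of_not hS ((mem_Y hS).1 hz).2 hn
    exact ⟨⟨hN, hn⟩, X_flat hS hz.1 hN.2.le⟩
  · rintro ⟨⟨hN, hn⟩, h0⟩
    have : z = (z.1, (0 : ℝ)) := Prod.ext rfl h0
    refine ⟨?_, hn⟩
    rw [this]
    exact flat_mem_Y hS hN

theorem bulk_split (hS : S.Ok) : {x | x ∈ S.T ∪ S.F ∧ 0 < S.U x} = S.Tb ∪ S.Mf := by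
  ext x
  constructor
  · rintro ⟨hx, h0⟩
    by_cases h : x ∈ S.T ∧ S.U x < 3 * S.w x / 2
    · exact Or.inl ⟨h.1, h0, h.2⟩
    · exact Or.inr ⟨mem_Nf_of_not hS hx h, h⟩
  · rintro (⟨h1, h2, -⟩ | ⟨⟨h1, h2⟩, -⟩)
    · exact ⟨Or.inl h1, h2⟩
    · refine ⟨h1, ?_⟩
      have hM : x ∈ S.M := by
        rcases h1 with h | h
        · exact (T_sub hS h).1
        · exact (F_sub h).1
      linarith [hS.w_pos x hM]

theorem bulk_split_disj : Disjoint S.Tb S.Mf := by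
  rw [Set.disjoint_left]
  rintro x ⟨h1, -, h2⟩ ⟨-, h3⟩
  exact h3 ⟨h1, h2⟩

end flat

end RgsgDat

end Claimed.Agent.R315
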