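import Claimed.Agent.R315.Rg.SeamG2
import Claimed.Agent.R315.Rg.SeamG5
import Claimed.Agent.R315.Rg.Slice
import Claimed.Agent.R315.Sh.ImsT

/-!
# Row 315, package Rg, unit SEAM-G: THE FLAT REST   (helper59; namespace `RgsgDat`)

`flat_le` :  `∫_{Mf} fB vb dμM ≤ ∫_{Yf} fX φ dμY`.

`Nf = M ∩ Q` is an open piece of `M`, `Y ∩ fst⁻¹ Q = rslS Nf` (the slice over `Nf`), `x ↦ (x, 0)` is an isometry (`Rg/Slice.lean`, helper72), `vb = φ (·, 0)` on `Nf` (`Spec.flat'`), so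
`fX φ (x, 0) = fB vb x + .2 |dvb|² + 97 e0 vb²` on `Nf` (`flat_pt`), and `∫_{Yf} fX φ dμY = ∫_{Mf} fX φ (·, 0) dμM` (`flat_integral`).
-/

set_option autoImplicit false
set_option linter.unusedSectionVars false
set_option linter.unusedVariables false
open scoped ContDiff ENNReal Topology
open MeasureTheory Claims.C0499 Set Filter

namespace Claimed.Agent.R315

variable {d : ℕ} {V : Type} [NormedAddCommGroup V] [NormedSpace ℝ V] [FiniteDimensional ℝ V]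

namespace RgsgDat

variable {S : RgsgDat d V} {φ : V × ℝ → ℝ} {vb : V → ℝ} {vc : V → ℝ → ℝ}

/-- over the open piece `Nf = M ∩ Q` the rounded side is the slice. -/
theorem Y_inter_Nf (hS : S.Ok) {Q : Set V} (hQe : S.M ∩ Q = S.Nf) :
    S.Y ∩ Prod.fst ⁻¹' Q = rslS (S.M ∩ Q) := by
  ext z
  constructor
  · rintro ⟨hz, hzQ⟩
    have hN : z.1 ∈ S.Nf := hQe ▸ (⟨hz.1.1, hzQ⟩ : z.1 ∈ S.M ∩ Q)
    exact ⟨⟨hz.1.1, hzQ⟩, X_flat hS hz.1 hN.2.le⟩
  · rintro ⟨hz, h0⟩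
    have hN : z.1 ∈ S.Nf := hQe ▸ hz
    have e : z = (z.1, (0 : ℝ)) := Prod.ext rfl h0
    refine ⟨?_, hz.2⟩
    rw [e]
    exact flat_mem_Y hS hN

variable [MeasurableSpace V] [BorelSpace V]

/-- **the integrands on the flat part.** -/
theorem flat_pt (hS : S.Ok) (hφ : SmoothAlong (d + 1) S.Y φ) (hsp : S.Spec φ vb vc) {x : V}
    (hx : x ∈ S.Nf) :
    S.fX φ (x, 0) = S.fB vb x + (0.2 * gradSq (d + 1) S.M S.h vb x + 97 * S.e0 * vb x ^ 2) := by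
  obtain ⟨Q, hQ, hQe⟩ := exists_open_Nf hS
  have hxQ : x ∈ S.M ∩ Q := hQe ▸ hx
  have hN : CtGeo (d + 1) (S.M ∩ Q) S.h S.t := hS.geo.inter hQ
  have hQ' : IsOpen (Prod.fst ⁻¹' Q : Set (V × ℝ)) := hQ.preimage continuous_fst
  have hz : ((x, 0) : V × ℝ) ∈ rslS (S.M ∩ Q) := rslS_mk hxQ
  have hzQ : ((x, 0) : V × ℝ) ∈ (Prod.fst ⁻¹' Q : Set (V × ℝ)) := hxQ.2
  have hφ' : SmoothAlong (d + 1) (rslS (S.M ∩ Q)) φ := by
    rw [← Y_inter_Nf hS hQe]
    exact if_smoothAlong_inter hφ hQ'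
  have e1 : gradSq (d + 1) S.Y (extTen S.h) φ (x, 0) = gradSq (d + 1) S.M S.h vb x := by
    rw [← if_gradSq_inter' (extTen S.h) φ hQ' hzQ, Y_inter_Nf hS hQe,
      rsl_gradSq hN.mfd hN.met hφ' hz, ← if_gradSq_inter' S.h vb hQ hxQ.2]
    exact gs_sq_congr fun y hy => (hsp.flat' hS (hQe ▸ hy)).symm
  have e2 : Dsc (d + 1) S.Y (extTen S.h) (fun z => S.t z.1) (x, 0) = Dsc (d + 1) S.M S.h S.t x := by
    rw [← if_Dsc_inter' (extTen S.h) (fun z : V × ℝ => S.t z.1) hQ' hzQ, Y_inter_Nf hS hQe,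
      rsl_Dsc_fst hN hz, if_Dsc_inter' S.h S.t hQ hxQ.2]
  rw [fX_apply, fB_apply, e1, e2, ← hsp.flat' hS hx]
  ring

theorem Mf_meas (hS : S.Ok) : MeasurableSet S.Mf := by
  obtain ⟨Q, hQ, hQe⟩ := exists_open_Nf hS
  obtain ⟨ι, _, g, C, hc⟩ := exists_cells hS
  have e : S.Mf = (S.M ∩ Q) \ S.Tb := by
    rw [hQe]
    ext x
    constructor
    · rintro ⟨h1, h2⟩
      exact ⟨h1, fun h3 => h2 ⟨h3.1, h3.2.2⟩⟩
    · rintro ⟨h1, h2⟩
      refine ⟨h1, fun h3 => h2 ⟨h3.1, ?_, h3.2⟩⟩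
      have hM : x ∈ S.M := (hQe ▸ h1 : x ∈ S.M ∩ Q).1
      linarith [hS.w_pos x hM, h1.2]
  rw [e]
  exact ((if_measurableSet hS.geo.mfd).inter hQ.measurableSet).diff (hc.Tb_meas hS)

theorem Yf_meas (hS : S.Ok) : MeasurableSet S.Yf := by
  rw [Yf_eq hS]
  exact (measurable_fst (Mf_meas hS)).inter (measurable_snd (measurableSet_singleton (0 : ℝ)))

/-- **the integral over the flat rest.**  No hypothesis on `G`. -/
theorem flat_integral (hS : S.Ok) (G : V × ℝ → ℝ) :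
    ∫ z in S.Yf, G z ∂S.μY = ∫ x in S.Mf, G (x, 0) ∂S.μM := by
  obtain ⟨Q, hQ, hQe⟩ := exists_open_Nf hS
  have hN : CtGeo (d + 1) (S.M ∩ Q) S.h S.t := hS.geo.inter hQ
  have hQ' : IsOpen (Prod.fst ⁻¹' Q : Set (V × ℝ)) := hQ.preimage continuous_fst
  have hMQ : S.Mf ⊆ Q := fun x hx => (hQe ▸ hx.1 : x ∈ S.M ∩ Q).2
  have hYQ : S.Yf ⊆ Prod.fst ⁻¹' Q := by
    rw [Yf_eq hS]
    exact fun z hz => hMQ hz.1
  have e1 : S.μY.restrict (Prod.fst ⁻¹' Q) =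
      wvol (d + 1) (rslS (S.M ∩ Q)) (extTen S.h) (fun z => S.t z.1) := by
    rw [← Y_inter_Nf hS hQe, ct_wvol_inter (Y_geo hS) hQ']
  have e2 : S.μM.restrict Q = wvol (d + 1) (S.M ∩ Q) S.h S.t := (ct_wvol_inter hS.geo hQ).symm
  rw [← Measure.restrict_restrict_of_subset hYQ, ← Measure.restrict_restrict_of_subset hMQ, e1, e2,
    ← integral_indicator (Yf_meas hS), ← integral_indicator (Mf_meas hS), rsl_integral hN]
  refine integral_congr_ae (Eventually.of_forall fun x => ?_)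
  show S.Yf.indicator G (x, 0) = S.Mf.indicator (fun x => G (x, 0)) x
  by_cases hx : x ∈ S.Mf
  · have hz : ((x, 0) : V × ℝ) ∈ S.Yf := by
      rw [Yf_eq hS]
      exact ⟨hx, rfl⟩
    rw [indicator_of_mem hz, indicator_of_mem hx]
  · have hz : ((x, 0) : V × ℝ) ∉ S.Yf := by
      rw [Yf_eq hS]
      exact fun h => hx h.1
    rw [indicator_of_notMem hz, indicator_of_notMem hx]

/-- **THE FLAT REST.** -/
theorem flat_le (hS : S.Ok) (hφ : IsTestOn (d + 1) S.Y φ) (hsp : S.Spec φ vb vc) :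
    ∫ x in S.Mf, S.fB vb x ∂S.μM ≤ ∫ z in S.Yf, S.fX φ z ∂S.μY := by
  have hG := hS.geo
  obtain ⟨K, L, hK, hKM, hK0, -⟩ := hsp.pair.cs
  have hb := hsp.pair.b_smooth
  have hbc : ContinuousOn vb S.M := if_smoothAlong_continuousOn hG.mfd hb
  have ir : Integrable (fun x => 0.2 * gradSq (d + 1) S.M S.h vb x + 97 * S.e0 * vb x ^ 2) S.μM := by
    refine sh_integrable_cs hG ((continuousOn_const.mul (sh_gradSq_continuousOn hG hb)).add
      (continuousOn_const.mul (hbc.pow 2))) hK (fun x hx => (hKM hx).1) fun x hx hxK => ?_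
    have h0 : gradSq (d + 1) S.M S.h vb x = 0 := by
      rw [if_gradSq_eq_gradIp]
      exact ct_gradIp_eq_zero hG hb hx (hK.isClosed.isOpen_compl.mem_nhds hxK)
        (fun y hy => (hK0 y hy.1 hy.2).1)
    show 0.2 * gradSq (d + 1) S.M S.h vb x + 97 * S.e0 * vb x ^ 2 = 0
    rw [h0, (hK0 x hx hxK).1]
    ring
  have iB := fB_integrable hS hsp.pair
  rw [flat_integral hS,
    setIntegral_congr_fun (Mf_meas hS) (fun x hx => flat_pt hS hφ.1 hsp hx.1),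
    integral_add iB.integrableOn ir.integrableOn]
  have h0 : 0 ≤ ∫ x in S.Mf, (0.2 * gradSq (d + 1) S.M S.h vb x + 97 * S.e0 * vb x ^ 2) ∂S.μM := by
    refine setIntegral_nonneg (Mf_meas hS) fun x hx => ?_
    have hxM : x ∈ S.M := by
      rcases hx.1.1 with h | h
      · exact (T_sub hS h).1
      · exact (F_sub h).1
    have h1 := gs_sq_nonneg hG.mfd hG.met hb hxM
    have h2 := hS.e0_pos
    positivity
  linarith

end RgsgDat

end Claimed.Agent.R315
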