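import Claimed.Agent.R315.Rg.SeamG3
import Claimed.Agent.R315.Rg.SeamG6

/-!
# Row 315, package Rg, unit SEAM-G, file 4: GLOBAL SPLIT, SUM OVER THE CELLS, THE FINAL THEOREM `rgsg_side_gap`   (helper36)

Notation: `Rg/SeamG1.lean` (data `S : RgsgDat d V`, `T`, `F`, `O`, `Y`), `Rg/SeamG2.lean` (`S.Spec φ vb vc`, integrands `fX, fB, fC, fS`), `Rg/SeamG5.lean` (cells, `Ts, Tb, Ty, Mf, Yf`), `Rg/SeamG3.lean` (`cell_le`), `Rg/SeamG6.lean` (`flat_le`).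

For a test function `φ` on `Y` with raw pair `(vb, vc)`:
* `split_B` : `rgRawB = ∫_{Tb} fB + ∫_{Mf} fB`   (`fB = 0` on `M \ (T ∪ F)`, `{0 < U} ∩ (T ∪ F) = Tb ⊔ Mf`);
* `split_C` : `rgRawC = ∫_{Ts} ∫_{s > 0} fC`,   `split_S` : `rgRawS = ∫_{Ts} fS`   (the wall off `Ts` misses `T ∪ F`);
* `split_X` : `∫ fX = ∫_{Ty} fX + ∫_{Yf} fX`;
* `tube_le` : sum of `cell_le` over a countable family of cells;   `flat_le` : the flat rest;
* `gap`     : `0 ≤ rgRawB + rgRawC - 2 rgRawS ≤ ∫ fX = gsB - e0 gsN`.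
-/

set_option autoImplicit false
set_option linter.unusedSectionVars false
set_option linter.unusedVariables false
open scoped ContDiff ENNReal Topology
open MeasureTheory Claims.C0499 Set Filter

namespace Claimed.Agent.R315

variable {d : ℕ} {V : Type} [NormedAddCommGroup V] [NormedSpace ℝ V]

namespace RgsgDat

variable [FiniteDimensional ℝ V] [MeasurableSpace V] [BorelSpace V]
variable {S : RgsgDat d V} {φ : V × ℝ → ℝ} {vb : V → ℝ} {vc : V → ℝ → ℝ}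

/-- the cell inequality in the notation of `Rg/SeamG5.lean`. -/
theorem cell_le5 (hfib : RgsgFib d) (hS : S.Ok) {g : RgsgCh d V} {C : Set (E d)} (hg : S.Good g)
    (hφ : IsTestOn (d + 1) S.Y φ)
    (hv : S.Spec φ vb vc) (hCm : MeasurableSet C) (hC : C ⊆ Metric.ball 0 (3 * S.dl g)) :
    (∫ x in S.cB g C, S.fB vb x ∂S.μM) + (∫ x in g.cS C, (∫ s in Ioi (0 : ℝ), S.fC vc x s) ∂S.μS) -
        2 * (∫ x in g.cS C, S.fS vb x ∂S.μS) ≤ ∫ z in S.cY g C, S.fX φ z ∂S.μY := by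
  have := cell_le hfib hS hg hφ hv hCm hC
  rwa [SC_eq, MC_eq, XC_eq] at this

theorem ae_mem_M (hS : S.Ok) : ∀ᵐ x ∂S.μM, x ∈ S.M := gs_ae_mem hS.geo.gs

theorem ae_mem_L (hS : S.Ok) : ∀ᵐ x ∂S.μS, x ∈ rm_Lv S.M S.U 0 := gs_ae_mem (S_geo hS).gs

theorem ae_mem_Y (hS : S.Ok) : ∀ᵐ z ∂S.μY, z ∈ S.Y := gs_ae_mem (Y_geo hS).gs

theorem not_mem_TF_of_wall (hS : S.Ok) {x : V} (hx : x ∈ rm_Lv S.M S.U 0) (hn : x ∉ S.Ts) :
    x ∉ S.T ∪ S.F := by
  rintro (h | h)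
  · exact hn ⟨h, hx.2⟩
  · have h1 := hS.w_pos x hx.1
    have h2 := h.2.1
    rw [hx.2] at h2
    linarith

section split

variable {ι : Type} [Countable ι] {g : ι → RgsgCh d V} {C : ι → Set (E d)}

/-- `{0 < U}` is null measurable for the volume of `M`. -/
theorem pos_nullMeas (hS : S.Ok) : NullMeasurableSet {x | 0 < S.U x} S.μM := by
  have hU : ContinuousOn S.U S.M := if_smoothAlong_continuousOn hS.geo.mfd hS.U_sm
  obtain ⟨u, hu, hue⟩ := continuousOn_iff'.1 hU (Ioi 0) isOpen_Ioi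
  have hm : MeasurableSet (u ∩ S.M) := hu.measurableSet.inter (if_measurableSet hS.geo.mfd)
  refine hm.nullMeasurableSet.congr ?_
  filter_upwards [ae_mem_M hS] with x hx
  have h1 : (x ∈ S.U ⁻¹' Ioi 0 ∩ S.M) = (x ∈ u ∩ S.M) := by rw [hue]
  apply propext
  constructor
  · intro h
    have : x ∈ S.U ⁻¹' Ioi 0 ∩ S.M := by rw [h1]; exact h
    exact this.1
  · intro h
    have : x ∈ S.U ⁻¹' Ioi 0 ∩ S.M := ⟨h, hx⟩
    rw [h1] at this
    exact this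

/-- (S1) the bulk part. -/
theorem split_B (hS : S.Ok) (hc : S.Cells g C) (hv : S.Spec φ vb vc) :
    rgRawB d S.M S.h S.t S.U S.Vs 3.8 (98 * S.e0) vb =
      (∫ x in S.Tb, S.fB vb x ∂S.μM) + ∫ x in S.Mf, S.fB vb x ∂S.μM := by
  have hi := fB_integrable hS hv.pair
  rw [rawB_eq, ← setIntegral_union bulk_split_disj (Mf_meas hS) hi.integrableOn hi.integrableOn,
    ← bulk_split hS]
  refine setIntegral_eq_of_subset_of_ae_sdiff_eq_zero (pos_nullMeas hS) (fun x hx => hx.2) ?_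
  filter_upwards [ae_mem_M hS] with x hx hxd
  exact fB_zero hS hv.pair hx fun h => hxd.2 ⟨h, hxd.1⟩

/-- (S2) the cylinder part. -/
theorem split_C (hS : S.Ok) (hv : S.Spec φ vb vc) :
    rgRawC d S.M S.h S.t S.U S.Vs 3.8 (98 * S.e0) vc =
      ∫ x in S.Ts, (∫ s in Ioi (0 : ℝ), S.fC vc x s) ∂S.μS := by
  rw [(fC_swap hS hv.pair).2]
  refine (setIntegral_eq_integral_of_ae_compl_eq_zero ?_).symm
  filter_upwards [ae_mem_L hS] with x hx hn
  have : ∀ s, S.fC vc x s = 0 := fC_zero hS hv.pair hx (not_mem_TF_of_wall hS hx hn)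
  simp [this]

/-- (S3) the seam part. -/
theorem split_S (hS : S.Ok) (hv : S.Spec φ vb vc) :
    rgRawS d S.M S.h S.t S.U vb = ∫ x in S.Ts, S.fS vb x ∂S.μS := by
  rw [rawS_eq]
  refine (setIntegral_eq_integral_of_ae_compl_eq_zero ?_).symm
  filter_upwards [ae_mem_L hS] with x hx hn
  exact fS_zero hS hv.pair hx.1 (not_mem_TF_of_wall hS hx hn)

/-- (S4) the rounded side. -/
theorem split_X (hS : S.Ok) (hc : S.Cells g C) (hφ : IsTestOn (d + 1) S.Y φ) :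
    ∫ z, S.fX φ z ∂S.μY = (∫ z in S.Ty, S.fX φ z ∂S.μY) + ∫ z in S.Yf, S.fX φ z ∂S.μY := by
  have hi := fX_integrable hS hφ
  rw [← setIntegral_union Y_split_disj (Yf_meas hS) hi.integrableOn hi.integrableOn, ← Y_split]
  refine (setIntegral_eq_integral_of_ae_compl_eq_zero ?_).symm
  filter_upwards [ae_mem_Y hS] with z hz hn
  exact absurd hz hn

/-- (S5) the tube part: sum over the cells. -/
theorem tube_le (hfib : RgsgFib d) (hS : S.Ok) (hc : S.Cells g C) (hφ : IsTestOn (d + 1) S.Y φ)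
    (hv : S.Spec φ vb vc) :
    (∫ x in S.Tb, S.fB vb x ∂S.μM) + (∫ x in S.Ts, (∫ s in Ioi (0 : ℝ), S.fC vc x s) ∂S.μS) -
        2 * (∫ x in S.Ts, S.fS vb x ∂S.μS) ≤ ∫ z in S.Ty, S.fX φ z ∂S.μY := by
  have h1 := hc.hasSum_b hS S.μM (fB_integrable hS hv.pair).integrableOn
  have h2 := hc.hasSum_s S.μS (fC_swap hS hv.pair).1.integrableOn
  have h3 := hc.hasSum_s S.μS (fS_integrable hS hv.pair).integrableOn
  have h4 := hc.hasSum_y hS S.μY (fX_integrable hS hφ).integrableOn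
  exact hasSum_le (fun i => cell_le5 hfib hS (hc.good i) hφ hv (hc.meas i) (hc.sub i))
    ((h1.add h2).sub (h3.mul_left 2)) h4

end split

/-- **the form gap on `Y`.** -/
theorem gap (hfib : RgsgFib d) (hS : S.Ok)
    (hraw : RgRawOK d S.M S.h S.t S.U S.Vs S.P S.e0) :
    GsGap (d + 1) S.Y (extTen S.h) (fun z => S.t z.1) 4
      (fun z => Dsc (d + 1) S.X (extTen S.h) (fun z => S.t z.1) z - S.Vs z.1) S.e0 := by
  intro φ hφ
  obtain ⟨vb, vc, hv⟩ := spec_exists hS hφ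
  obtain ⟨ι, _, g, C, hc⟩ := exists_cells hS
  have h0 := hraw vb vc (hv.pairP hS)
  rw [split_B hS hc hv, split_C hS hv, split_S hS hv] at h0
  have h1 := tube_le hfib hS hc hφ hv
  have h2 := flat_le hS hφ hv
  have h3 := split_X hS hc hφ
  have h4 := fX_integral hS hφ
  linarith

end RgsgDat

/-- **(SEAM-G)** `rgs_side_gap` with the profile and the fibre inequality as hypotheses. -/
theorem rgsg_side_gap [FiniteDimensional ℝ V] [MeasurableSpace V] [BorelSpace V]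
    {M : Set V} {h : Ten V} {t U w Vs : V → ℝ} {k a b : ℝ → ℝ} {ℓ e e0 : ℝ}
    {D P : Set V} (hp : RgsProf k a b ℓ) (hfib : RgsgFib d) (hG : CtGeo (d + 1) M h t)
    (hU : SmoothAlong (d + 1) M U)
    (hunit : ∀ x ∈ M, U x = 0 → gradSq (d + 1) M h U x = 1)
    (hw : ContinuousOn w M) (hw0 : ∀ x ∈ M, 0 < w x) (hVs : ContinuousOn Vs M) (hk : IsCorner k)
    (he : e = 1 ∨ e = -1) (he0 : 0 < e0)
    (hDP : ∀ x ∈ D ∩ M, ∃ N ∈ 𝓝 x, N ∩ M ⊆ P)
    (htube : ∀ x0 ∈ D ∩ M, |U x0| ≤ w x0 →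
      ∃ (ψ : E (d + 1) → V) (B : ℝ), RgsChart d M h t U w Vs P e0 x0 ψ B)
    (hraw : RgRawOK d M h t U Vs P e0) :
    ∃ O : Set (V × ℝ), IsOpen O ∧ (∀ z ∈ rgsX M U w k e, z.1 ∈ D → z ∈ O) ∧
      GsGap (d + 1) (rgsX M U w k e ∩ O) (extTen h) (fun z => t z.1) 4
        (fun z => Dsc (d + 1) (rgsX M U w k e) (extTen h) (fun z => t z.1) z - Vs z.1) e0 := by
  set S : RgsgDat d V := ⟨M, h, t, U, w, Vs, P, k, a, b, ℓ, e, e0⟩ with hSd
  have hS : S.Ok := ⟨hG, hU, hunit, hw, hw0, hVs, hk, hp, he, he0⟩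
  refine ⟨S.O, RgsgDat.isOpen_O, fun z hz hzD => ?_, RgsgDat.gap hfib hS hraw⟩
  have hzX : z ∈ S.X := hz
  have hzM : z.1 ∈ M := hz.1
  have hTF : z.1 ∈ S.T ∪ S.F := by
    by_cases hc : U z.1 ≤ w z.1
    · left
      have h0 : 0 ≤ U z.1 := RgsgDat.X_nonneg hS hzX
      have habs : |U z.1| ≤ w z.1 := by rw [abs_of_nonneg h0]; exact hc
      obtain ⟨ψ, B, hch⟩ := htube z.1 ⟨hzD, hzM⟩ habs
      have hg : S.Good ⟨z.1, ψ, B⟩ := ⟨hch, habs⟩
      have hδ : 0 < w z.1 := hw0 _ hzM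
      refine ⟨⟨z.1, ψ, B⟩, hg, rm_J (U z.1) 0, ?_, ?_, hch.lapse.base⟩
      · refine hg.J_mem ?_ ?_
        · show |U z.1| < 2 * w z.1
          linarith
        · show ‖(0 : E d)‖ < 3 * w z.1
          rw [norm_zero]; linarith
      · rw [rm_J_zero]
        show |U z.1| < 2 * w z.1
        linarith
    · right
      exact ⟨hzM, not_le.1 hc, hDP z.1 ⟨hzD, hzM⟩⟩
  exact ((RgsgDat.mem_Y hS).2 ⟨hzX, hTF⟩).2

end Claimed.Agent.R315
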