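import Claimed.Agent.R315.Pack008

/-!
# Row 315, package Rg, unit SEAM-A, leaf F12: tools for `rgs_dat_ok`   (helper39)

(A) smoothness on `U` of the slice operators of a lapse metric (`rm_ipS`, `rm_Jsq`, `rm_S`, `rm_lapS`,
`rm_DscS`);  (B) restriction to a fibre `x ↦ rm_J x u`;  (C) the relations of `Rg1Dat.Ok`
(`rho' = N S rho`, ADM on a fibre, the tangential energy `Gam` and its derivative in the level).
Prefix `rgsd_`.
-/

set_option autoImplicit false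
open scoped ContDiff Topology
open Claims.C0499 Set Filter

namespace Claimed.Agent.R315

variable {d : ℕ} {G : rm_MF (d + 1)} {U : Set (E (d + 1))}

/-! ## (A) smoothness of the slice operators -/

theorem rm_ipS_smooth (h : rm_Met G U) {f k : E (d + 1) → ℝ} (hf : ContDiffOn ℝ ∞ f U)
    (hk : ContDiffOn ℝ ∞ k U) : ContDiffOn ℝ ∞ (rm_ipS G f k) U := by
  have e : ∀ u ∈ U, rm_ipS G f k u = ∑ a : Fin d, ∑ b : Fin d,
      (rm_tan G u)⁻¹ a b * (pdiff f a.succ u * pdiff k b.succ u) := fun u hu =>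
    rm_ipS_eq (rm_da h.opn hf hu) (rm_da h.opn hk hu)
  refine ContDiffOn.congr ?_ e
  exact ContDiffOn.sum fun a _ => ContDiffOn.sum fun b _ => (rm_tanInv_smooth h a b).mul
    ((rm_pdiff_smooth h.opn hf a.succ).mul (rm_pdiff_smooth h.opn hk b.succ))

theorem rm_ipS_comm (h : rm_Met G U) {u : E (d + 1)} (hu : u ∈ U) (f k : E (d + 1) → ℝ) :
    rm_ipS G f k u = rm_ipS G k f u :=
  rm_ip_comm (rm_sl_met h (u 0)) (rm_mem_Us hu) _ _

theorem rm_ipS_self_nonneg (h : rm_Met G U) {u : E (d + 1)} (hu : u ∈ U) (f : E (d + 1) → ℝ) :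
    0 ≤ rm_ipS G f f u :=
  rm_sq_nonneg (rm_sl_met h (u 0)) (rm_mem_Us hu) _

theorem rm_Jsq_smooth (h : rm_Met G U) : ContDiffOn ℝ ∞ (rm_Jsq G) U := by
  have e : rm_Jsq G = fun u => ∑ a : Fin d, ∑ b : Fin d, ∑ c : Fin d, ∑ e : Fin d,
      (rm_tan G u)⁻¹ a b * rm_sff G u b c * ((rm_tan G u)⁻¹ c e * rm_sff G u e a) := by
    funext u; exact rm_Jsq_eq_sum G u
  rw [e]
  exact ContDiffOn.sum fun a _ => ContDiffOn.sum fun b _ => ContDiffOn.sum fun c _ =>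
    ContDiffOn.sum fun e _ => ((rm_tanInv_smooth h a b).mul (rm_sff_smooth h b c)).mul
      ((rm_tanInv_smooth h c e).mul (rm_sff_smooth h e a))

theorem rm_S_smooth (h : rm_Met G U) {t : E (d + 1) → ℝ} (ht : ContDiffOn ℝ ∞ t U) :
    ContDiffOn ℝ ∞ (rm_S G t) U :=
  (rm_H_smooth h).sub (rm_e_smooth h ht)

theorem rm_lapS_smooth (h : rm_Met G U) (ho : rm_Orth G U) {f : E (d + 1) → ℝ}
    (hf : ContDiffOn ℝ ∞ f U) : ContDiffOn ℝ ∞ (rm_lapS G f) U := by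
  have e : ∀ u ∈ U, rm_lapS G f u = lapC G f u - rm_e G (rm_e G f) u - rm_H G u * rm_e G f u -
      rm_ipS G (rm_lps G) f u / rm_lps G u := fun u hu => by
    rw [rm_adm_lap h ho hu hf]; ring
  refine ContDiffOn.congr ?_ e
  exact (((rm_lapC_smooth h hf).sub (rm_e_smooth h (rm_e_smooth h hf))).sub
    ((rm_H_smooth h).mul (rm_e_smooth h hf))).sub
    ((rm_ipS_smooth h (rm_lps_smooth h) hf).div (rm_lps_smooth h)
      fun u hu => (rm_lps_pos h hu).ne')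

theorem rm_DscS_smooth (h : rm_Met G U) (ho : rm_Orth G U) {t : E (d + 1) → ℝ}
    (ht : ContDiffOn ℝ ∞ t U) : ContDiffOn ℝ ∞ (rm_DscS G t) U := by
  have e : ∀ u ∈ U, rm_DscS G t u = rm_DscC G t u + rm_Jsq G u + rm_S G t u ^ 2 +
      2 * rm_e G (rm_S G t) u + 2 * rm_lapS G (rm_lps G) u / rm_lps G u -
      2 * rm_ipS G (rm_lps G) t u / rm_lps G u := fun u hu => by
    rw [rm_adm_Dsc h ho hu ht]; ring
  refine ContDiffOn.congr ?_ e
  have hN := rm_lps_smooth h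
  have hN0 : ∀ u ∈ U, rm_lps G u ≠ 0 := fun u hu => (rm_lps_pos h hu).ne'
  exact (((((rm_Dsc_smooth h ht).add (rm_Jsq_smooth h)).add ((rm_S_smooth h ht).pow 2)).add
    (contDiffOn_const.mul (rm_e_smooth h (rm_S_smooth h ht)))).add
    ((contDiffOn_const.mul (rm_lapS_smooth h ho hN)).div hN hN0)).sub
    ((contDiffOn_const.mul (rm_ipS_smooth h hN ht)).div hN hN0)

/-- the density `e^{-t} √det γ`. -/
noncomputable def rgsdRho (G : rm_MF (d + 1)) (t : E (d + 1) → ℝ) (v : E (d + 1)) : ℝ :=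
  Real.exp (-t v) * Real.sqrt (rm_tan G v).det

theorem rgsdRho_smooth (h : rm_Met G U) {t : E (d + 1) → ℝ} (ht : ContDiffOn ℝ ∞ t U) :
    ContDiffOn ℝ ∞ (rgsdRho G t) U :=
  ht.neg.exp.mul ((rm_tanDet_smooth h).sqrt fun _ hu => rm_tan_det_ne h hu)

theorem rgsdRho_pos (h : rm_Met G U) (t : E (d + 1) → ℝ) {v : E (d + 1)} (hv : v ∈ U) :
    0 < rgsdRho G t v :=
  mul_pos (Real.exp_pos _) (Real.sqrt_pos.2 (rm_tan_pos h hv).det_pos)

/-- `∂_0 ϱ = N S ϱ`. -/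
theorem rgsdRho_pdiff (h : rm_Met G U) {t : E (d + 1) → ℝ} (ht : ContDiffOn ℝ ∞ t U)
    {v : E (d + 1)} (hv : v ∈ U) :
    pdiff (rgsdRho G t) 0 v = rm_lps G v * rm_S G t v * rgsdRho G t v := by
  have hN := rm_lps_pos h hv
  have hdp : 0 < (rm_tan G v).det := (rm_tan_pos h hv).det_pos
  have hsp : 0 < Real.sqrt (rm_tan G v).det := Real.sqrt_pos.2 hdp
  have hd : DifferentiableAt ℝ (fun w => (rm_tan G w).det) v := rm_da h.opn (rm_tanDet_smooth h) hv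
  have hs : DifferentiableAt ℝ (fun w => Real.sqrt (rm_tan G w).det) v := hd.sqrt hdp.ne'
  have dt := rm_da h.opn ht hv
  have hH := rm_H_eq_log h hv
  unfold rm_e at hH
  rw [rm_pdiff_log (f := fun w => Real.sqrt (rm_tan G w).det) hs hsp.ne'] at hH
  have pω : pdiff (fun w => Real.exp (- t w)) 0 v = - (Real.exp (- t v) * pdiff t 0 v) := by
    have := rm_pdiff_comp (i := (0 : Fin (d + 1))) (φ := Real.exp) (f := fun w => - t w)
      Real.differentiableAt_exp dt.neg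
    rw [this, Real.deriv_exp, rm_pdiff_neg]; ring
  have e1 : pdiff (rgsdRho G t) 0 v = pdiff (fun w => Real.exp (- t w)) 0 v *
      Real.sqrt (rm_tan G v).det + Real.exp (- t v) *
        pdiff (fun w => Real.sqrt (rm_tan G w).det) 0 v := rm_pdiff_mul dt.neg.exp hs
  rw [e1, pω]
  unfold rm_S rm_e rgsdRho
  rw [hH]
  field_simp
  ring

/-! ## (B) restriction to a fibre -/

variable {u : E d}

theorem rgsd_line_contDiff (u : E d) : ContDiff ℝ ∞ (fun x : ℝ => rm_J x u) := by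
  unfold rm_J
  exact (contDiff_id.smul contDiff_const).add contDiff_const

theorem rgsd_line_hasDerivAt (u : E d) (x : ℝ) :
    HasDerivAt (fun x : ℝ => rm_J x u) (eb 0 : E (d + 1)) x := by
  unfold rm_J
  simpa using ((hasDerivAt_id x).smul_const (eb 0 : E (d + 1))).add_const (rm_in d u)

theorem rgsd_comp_smooth {I : Set ℝ} (hI : ∀ x ∈ I, rm_J x u ∈ U) {f : E (d + 1) → ℝ}
    (hf : ContDiffOn ℝ ∞ f U) : ContDiffOn ℝ ∞ (fun x => f (rm_J x u)) I :=
  hf.comp (rgsd_line_contDiff u).contDiffOn hI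

theorem rgsd_comp_cont {I : Set ℝ} (hI : ∀ x ∈ I, rm_J x u ∈ U) {f : E (d + 1) → ℝ}
    (hf : ContinuousOn f U) : ContinuousOn (fun x => f (rm_J x u)) I :=
  hf.comp (rgsd_line_contDiff u).continuous.continuousOn hI

theorem rgsd_hasDerivAt {f : E (d + 1) → ℝ} {x : ℝ} (hf : DifferentiableAt ℝ f (rm_J x u)) :
    HasDerivAt (fun x => f (rm_J x u)) (pdiff f 0 (rm_J x u)) x :=
  hf.hasFDerivAt.comp_hasDerivAt x (rgsd_line_hasDerivAt u x)

theorem rgsd_deriv {f : E (d + 1) → ℝ} {x : ℝ} (hf : DifferentiableAt ℝ f (rm_J x u)) :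
    deriv (fun x => f (rm_J x u)) x = pdiff f 0 (rm_J x u) := (rgsd_hasDerivAt hf).deriv

/-! ## (C) the relations on a fibre -/

theorem rgsd_drho (h : rm_Met G U) {t : E (d + 1) → ℝ} (ht : ContDiffOn ℝ ∞ t U) {x : ℝ}
    (hx : rm_J x u ∈ U) :
    deriv (fun x => Real.exp (-t (rm_J x u)) * Real.sqrt (rm_tan G (rm_J x u)).det) x =
      rm_lps G (rm_J x u) * rm_S G t (rm_J x u) *
        (Real.exp (-t (rm_J x u)) * Real.sqrt (rm_tan G (rm_J x u)).det) := by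
  have := rgsd_deriv (u := u) (x := x) (f := rgsdRho G t) (rm_da h.opn (rgsdRho_smooth h ht) hx)
  rw [rgsdRho_pdiff h ht hx] at this
  exact this

theorem rgsd_e_div (G : rm_MF (d + 1)) {f : E (d + 1) → ℝ} {x : ℝ}
    (hf : DifferentiableAt ℝ f (rm_J x u)) :
    deriv (fun x => f (rm_J x u)) x / rm_lps G (rm_J x u) ^ 2 =
      rm_e G f (rm_J x u) / rm_lps G (rm_J x u) := by
  unfold rm_e
  rw [rgsd_deriv hf, div_eq_mul_inv, div_eq_mul_inv, pow_two, mul_inv]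
  ring

theorem rgsd_adm (h : rm_Met G U) (ho : rm_Orth G U) {t : E (d + 1) → ℝ}
    (ht : ContDiffOn ℝ ∞ t U) {x : ℝ} (hx : rm_J x u ∈ U) :
    rm_DscC G t (rm_J x u) = rm_DscS G t (rm_J x u) - rm_Jsq G (rm_J x u) -
      rm_S G t (rm_J x u) ^ 2 -
      2 * deriv (fun x => rm_S G t (rm_J x u)) x / rm_lps G (rm_J x u) -
      2 * (rm_lapS G (rm_lps G) (rm_J x u) - rm_ipS G t (rm_lps G) (rm_J x u)) /
        rm_lps G (rm_J x u) := by
  rw [rm_adm_Dsc h ho hx ht, rgsd_deriv (rm_da h.opn (rm_S_smooth h ht) hx),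
    rm_ipS_comm h hx (rm_lps G) t]
  unfold rm_e
  ring

/-- the tangential energy as a quadratic form in the covector `ξ = d(F(s, ·))(u)`. -/
theorem rgsd_Gam_eq (G : rm_MF (d + 1)) (F : E (d + 1) → ℝ) (x s : ℝ) (u : E d) :
    gradSqC (rm_sl G x) (rm_fs F s) u =
      dotProduct (fun a => pdiff (rm_fs F s) a u)
        (((rm_tan G (rm_J x u))⁻¹).mulVec fun a => pdiff (rm_fs F s) a u) := by
  rw [if_gradSqC_eq, rm_ip_eq_dot]
  rfl

theorem rgsd_Gam_nonneg (h : rm_Met G U) {x : ℝ} (hx : rm_J x u ∈ U) (F : E (d + 1) → ℝ)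
    (s : ℝ) : 0 ≤ gradSqC (rm_sl G x) (rm_fs F s) u :=
  rm_sq_nonneg (rm_sl_met h x) hx _

theorem rgsd_Gam_cont (h : rm_Met G U) {W : Set (E (d + 1))} (hW : IsOpen W)
    {F : E (d + 1) → ℝ} (hF : ContDiffOn ℝ ∞ F W) {I K : Set ℝ} (hI : ∀ x ∈ I, rm_J x u ∈ U)
    (hK : ∀ s ∈ K, rm_J s u ∈ W) :
    ContinuousOn (fun p : ℝ × ℝ => gradSqC (rm_sl G p.1) (rm_fs F p.2) u) (I ×ˢ K) := by
  have e : ∀ p ∈ I ×ˢ K, gradSqC (rm_sl G p.1) (rm_fs F p.2) u = ∑ a : Fin d, ∑ b : Fin d,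
      (rm_tan G (rm_J p.1 u))⁻¹ a b * pdiff F a.succ (rm_J p.2 u) *
        pdiff F b.succ (rm_J p.2 u) := by
    intro p hp
    unfold gradSqC
    simp only [rm_pdiff_fs (rm_da hW hF (hK p.2 hp.2))]
    rfl
  refine ContinuousOn.congr ?_ e
  have c1 : ∀ a b : Fin d, ContinuousOn (fun p : ℝ × ℝ => (rm_tan G (rm_J p.1 u))⁻¹ a b)
      (I ×ˢ K) := fun a b =>
    (rgsd_comp_cont hI (rm_tanInv_smooth h a b).continuousOn).comp continuousOn_fst
      fun p hp => hp.1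
  have c2 : ∀ a : Fin d, ContinuousOn (fun p : ℝ × ℝ => pdiff F a.succ (rm_J p.2 u))
      (I ×ˢ K) := fun a =>
    (rgsd_comp_cont hK (rm_pdiff_smooth hW hF a.succ).continuousOn).comp continuousOn_snd
      fun p hp => hp.2
  exact continuousOn_finsetSum _ fun a _ => continuousOn_finsetSum _ fun b _ =>
    ((c1 a b).mul (c2 a)).mul (c2 b)

theorem rgsd_Gam_zero {W : Set (E (d + 1))} (hW : IsOpen W) {F : E (d + 1) → ℝ} {s : ℝ}
    (hs : rm_J s u ∈ W) (h0 : ∀ v ∈ W, v 0 = s → F v = 0) (Γ : rm_MF d) :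
    gradSqC Γ (rm_fs F s) u = 0 := by
  have e : ∀ a : Fin d, pdiff (rm_fs F s) a u = 0 := by
    intro a
    rw [rm_pdiff_congr_on (f := rm_fs F s) (g := fun _ => (0 : ℝ)) (rm_Us_open hW s) hs
      (fun y hy => h0 _ hy (rm_J_zero s y)), rm_pdiff_const]
  unfold gradSqC
  simp only [e, mul_zero, Finset.sum_const_zero]

/-- derivative of the tangential energy in the level. -/
theorem rgsd_quad_hasDerivAt (h : rm_Met G U) {x : ℝ} (hx : rm_J x u ∈ U) (ξ : Fin d → ℝ) :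
    HasDerivAt (fun y => dotProduct ξ (((rm_tan G (rm_J y u))⁻¹).mulVec ξ))
      (-(2 * rm_lps G (rm_J x u)) * dotProduct ξ (((rm_tan G (rm_J x u))⁻¹ *
        rm_sff G (rm_J x u) * (rm_tan G (rm_J x u))⁻¹).mulVec ξ)) x := by
  have h1 : ∀ a b : Fin d, HasDerivAt (fun y => (rm_tan G (rm_J y u))⁻¹ a b)
      (pdiff (fun w => (rm_tan G w)⁻¹ a b) 0 (rm_J x u)) x := fun a b =>
    rgsd_hasDerivAt (f := fun w => (rm_tan G w)⁻¹ a b) (rm_da h.opn (rm_tanInv_smooth h a b) hx)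
  have h2 : HasDerivAt (fun y => ∑ a : Fin d, ∑ b : Fin d,
      ξ a * ((rm_tan G (rm_J y u))⁻¹ a b * ξ b))
      (∑ a : Fin d, ∑ b : Fin d,
        ξ a * (pdiff (fun w => (rm_tan G w)⁻¹ a b) 0 (rm_J x u) * ξ b)) x :=
    HasDerivAt.fun_sum fun a _ => HasDerivAt.fun_sum fun b _ =>
      ((h1 a b).mul_const (ξ b)).const_mul (ξ a)
  have e1 : (fun y => dotProduct ξ (((rm_tan G (rm_J y u))⁻¹).mulVec ξ)) =
      fun y => ∑ a : Fin d, ∑ b : Fin d, ξ a * ((rm_tan G (rm_J y u))⁻¹ a b * ξ b) := by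
    funext y
    simp only [dotProduct, Matrix.mulVec, Finset.mul_sum]
  rw [e1]
  convert h2 using 1
  simp only [dotProduct, Matrix.mulVec, Matrix.mul_apply, Finset.mul_sum, Finset.sum_mul,
    rm_pdiff_tanInv h hx, rm_pdiff_Gss h hx, neg_mul, mul_neg, Finset.sum_neg_distrib]
  congr 1
  refine Finset.sum_congr rfl fun a _ => Finset.sum_congr rfl fun b _ => ?_
  rw [Finset.sum_comm]
  refine Finset.sum_congr rfl fun c _ => Finset.sum_congr rfl fun e _ => ?_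
  ring

theorem rgsd_Gam_d (h : rm_Met G U) {x : ℝ} (hx : rm_J x u ∈ U) (F : E (d + 1) → ℝ) (s : ℝ)
    (hcs : ∀ ξ : Fin d → ℝ, |dotProduct ξ (((rm_tan G (rm_J x u))⁻¹ * rm_sff G (rm_J x u) *
        (rm_tan G (rm_J x u))⁻¹).mulVec ξ)| ≤
      Real.sqrt (((rm_tan G (rm_J x u))⁻¹ * rm_sff G (rm_J x u) *
        ((rm_tan G (rm_J x u))⁻¹ * rm_sff G (rm_J x u))).trace) *
        dotProduct ξ (((rm_tan G (rm_J x u))⁻¹).mulVec ξ)) :
    DifferentiableAt ℝ (fun y => gradSqC (rm_sl G y) (rm_fs F s) u) x ∧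
      |deriv (fun y => gradSqC (rm_sl G y) (rm_fs F s) u) x| ≤
        2 * rm_lps G (rm_J x u) * Real.sqrt (rm_Jsq G (rm_J x u)) *
          gradSqC (rm_sl G x) (rm_fs F s) u := by
  have hN := rm_lps_pos h hx
  have e : (fun y => gradSqC (rm_sl G y) (rm_fs F s) u) = fun y =>
      dotProduct (fun a => pdiff (rm_fs F s) a u)
        (((rm_tan G (rm_J y u))⁻¹).mulVec fun a => pdiff (rm_fs F s) a u) := by
    funext y; exact rgsd_Gam_eq G F y s u
  have hd := rgsd_quad_hasDerivAt h hx (fun a => pdiff (rm_fs F s) a u)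
  rw [e]
  refine ⟨hd.differentiableAt, ?_⟩
  rw [hd.deriv, abs_mul, abs_neg, abs_of_pos (mul_pos two_pos hN), mul_assoc (2 * _),
    rgsd_Gam_eq]
  exact mul_le_mul_of_nonneg_left (hcs _) (mul_pos two_pos hN).le

end Claimed.Agent.R315
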