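import Claimed.Agent.R315.Rg.SeamDefs
import Claimed.Agent.R315.Rg.SeamFc

/-!
# Row 315, package Rg, unit SEAM-G, part (G1): fibres of lapse charts, dictionary   (helper39)

* `rm_LapseP.fibre_eq` (SF): two lapse parametrisations of `(M, h, q)` have the same fibres.
* `RgsChart.*`: consequences for good charts (same width, saturation, `rgsPsi` agree on fibres).
* `RgsBd.chart` (DICT): the eight invariants in a lapse chart; `RgsChart.fibre_hyp`.
* `RgsChart.neg` (NEG).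
-/

set_option autoImplicit false
open scoped ContDiff ENNReal Topology
open MeasureTheory Claims.C0499 Set Filter

namespace Claimed.Agent.R315

/-! ## 1. same fibres -/

section fibres

variable {V : Type} [NormedAddCommGroup V] [NormedSpace ℝ V] [FiniteDimensional ℝ V]
variable {d : ℕ} {M : Set V} {h : Ten V} {q : V → ℝ}
variable {x1 x2 : V} {ψ1 ψ2 : E (d + 1) → V} {r1 r2 : ℝ}

theorem if_bil_eq_zero_of_posDef {n : ℕ} {A : Matrix (Fin n) (Fin n) ℝ} (hA : A.PosDef) {Y : E n}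
    (h0 : if_bil A Y Y = 0) : Y = 0 := by
  by_contra hY
  have hY' : (Y : Fin n → ℝ) ≠ 0 := fun h => hY (by ext i; exact congrFun h i)
  have := hA.dotProduct_mulVec_pos hY'
  rw [star_trivial, ← if_bil_eq_dot, h0] at this
  exact lt_irrefl _ this

omit [FiniteDimensional ℝ V] in
/-- the transition map between two lapse parametrisations preserves the first coordinate. -/
theorem rm_LapseP.tr_zero (h1 : rm_LapseP M h q x1 ψ1 r1) (h2 : rm_LapseP M h q x2 ψ2 r2)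
    {w : E (d + 1)}
    (hw : w ∈ if_trDom ψ1 (rm_box d (q x1) r1) ψ2 (rm_box d (q x2) r2)) :
    if_tr ψ2 (rm_box d (q x2) r2) ψ1 w 0 = w 0 := by
  rw [← h2.lvl _ (if_tr_mem hw), if_tr_spec hw, h1.lvl _ hw.1]

theorem rm_LapseP.tr_fderiv_zero (h1 : rm_LapseP M h q x1 ψ1 r1)
    (h2 : rm_LapseP M h q x2 ψ2 r2) {w : E (d + 1)}
    (hw : w ∈ if_trDom ψ1 (rm_box d (q x1) r1) ψ2 (rm_box d (q x2) r2)) (Z : E (d + 1)) :
    fderiv ℝ (if_tr ψ2 (rm_box d (q x2) r2) ψ1) w Z 0 = Z 0 := by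
  have hT := if_tr_differentiableAt h1.par h2.par hw
  have e1 : (fun v => if_pr (0 : Fin (d + 1)) (if_tr ψ2 (rm_box d (q x2) r2) ψ1 v)) =ᶠ[𝓝 w]
      fun v => if_pr (0 : Fin (d + 1)) v :=
    Filter.eventuallyEq_of_mem ((if_isOpen_trDom h1.par h2.par).mem_nhds hw)
      fun v hv => h1.tr_zero h2 hv
  have e2 := e1.fderiv_eq (𝕜 := ℝ)
  have e3 : fderiv ℝ (fun v => if_pr (0 : Fin (d + 1)) (if_tr ψ2 (rm_box d (q x2) r2) ψ1 v)) w =
      (if_pr (0 : Fin (d + 1))).comp (fderiv ℝ (if_tr ψ2 (rm_box d (q x2) r2) ψ1) w) :=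
    ((if_pr (0 : Fin (d + 1))).hasFDerivAt.comp w hT.hasFDerivAt).fderiv
  have e4 : fderiv ℝ (fun v => if_pr (0 : Fin (d + 1)) v) w = if_pr (0 : Fin (d + 1)) :=
    (if_pr (0 : Fin (d + 1))).fderiv
  rw [e3, e4] at e2
  exact congrArg (fun A : E (d + 1) →L[ℝ] ℝ => A Z) e2

/-- the transition map between two lapse parametrisations maps `∂_0` to `∂_0`. -/
theorem rm_LapseP.tr_fderiv_eb (hh : IsMetricOn (d + 1) M h) (h1 : rm_LapseP M h q x1 ψ1 r1)
    (h2 : rm_LapseP M h q x2 ψ2 r2) {w : E (d + 1)}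
    (hw : w ∈ if_trDom ψ1 (rm_box d (q x1) r1) ψ2 (rm_box d (q x2) r2)) :
    fderiv ℝ (if_tr ψ2 (rm_box d (q x2) r2) ψ1) w (eb 0) = eb 0 := by
  set T := if_tr ψ2 (rm_box d (q x2) r2) ψ1 with hT
  set T' := if_tr ψ1 (rm_box d (q x1) r1) ψ2 with hT'
  set A := cm h ψ2 (T w) with hA
  have hTw : T w ∈ rm_box d (q x2) r2 := if_tr_mem hw
  have hpos : A.PosDef := (h2.met hh).pos _ hTw
  have hrel := (if_pullC hh h1.par h2.par).rel w hw
  set X := fderiv ℝ T w (eb 0) with hX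
  set Y := X - eb 0 with hY
  have hY0 : Y 0 = 0 := by
    have := h1.tr_fderiv_zero h2 hw (eb 0)
    show X 0 - (eb 0 : E (d + 1)) 0 = 0
    rw [hX, this, sub_self]
  -- `Y = DT Z`
  have hinv : (fderiv ℝ T (T' (T w))).comp (fderiv ℝ T' (T w)) =
      ContinuousLinearMap.id ℝ (E (d + 1)) := if_fderiv_tr_comp h2.par h1.par (if_tr_mapsTo hw)
  rw [hT', hT, if_tr_tr h1.par hw, ← hT, ← hT'] at hinv
  set Z := fderiv ℝ T' (T w) Y with hZ
  have hZY : fderiv ℝ T w Z = Y := by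
    have := congrArg (fun L : E (d + 1) →L[ℝ] E (d + 1) => L Y) hinv
    simpa using this
  have hZ0 : Z 0 = 0 := by
    rw [← h1.tr_fderiv_zero h2 hw Z, ← hT, hZY, hY0]
  -- `A (X, Y) = 0`
  have hXY : if_bil A X Y = 0 := by
    rw [← hZY]
    conv_lhs => rw [← if_sum_eb Z]
    rw [map_sum, map_sum, Fin.sum_univ_succ, hZ0, zero_smul, map_zero, map_zero, zero_add]
    refine Finset.sum_eq_zero fun b _ => ?_
    rw [map_smul, map_smul, smul_eq_mul, ← hrel 0 b.succ, h1.orth w hw.1 b, mul_zero]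
  have heY : if_bil A (eb 0) Y = 0 := by
    rw [if_bil_symm (if_isSymm_of_posSemidef hpos.posSemidef), if_bil_eb_right,
      Fin.sum_univ_succ, hY0, mul_zero, zero_add]
    refine Finset.sum_eq_zero fun b _ => ?_
    have : A b.succ 0 = 0 := rm_orth' (h2.met hh) h2.orth hTw b
    rw [this, zero_mul]
  have hYY : if_bil A Y Y = 0 := by
    have : if_bil A Y Y = if_bil A X Y - if_bil A (eb 0) Y := by
      have e : if_bil A Y = if_bil A X - if_bil A (eb 0) := by rw [hY, map_sub]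
      rw [e, sub_apply]
    rw [this, hXY, heY, sub_zero]
  have := if_bil_eq_zero_of_posDef hpos hYY
  rw [hY, sub_eq_zero] at this
  exact this

/-- local version of (SF). -/
theorem rm_LapseP.fibre_loc (hh : IsMetricOn (d + 1) M h) (h1 : rm_LapseP M h q x1 ψ1 r1)
    (h2 : rm_LapseP M h q x2 ψ2 r2) {a : ℝ} {u1 u2 : E d}
    (m1 : rm_J a u1 ∈ rm_box d (q x1) r1) (m2 : rm_J a u2 ∈ rm_box d (q x2) r2)
    (he : ψ1 (rm_J a u1) = ψ2 (rm_J a u2)) :
    ∀ᶠ s in 𝓝 a, ψ1 (rm_J s u1) = ψ2 (rm_J s u2) := by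
  set T := if_tr ψ2 (rm_box d (q x2) r2) ψ1 with hT
  set Dm := if_trDom ψ1 (rm_box d (q x1) r1) ψ2 (rm_box d (q x2) r2) with hDm
  have hDo : IsOpen Dm := if_isOpen_trDom h1.par h2.par
  have hw : rm_J a u1 ∈ Dm := if_mem_trDom m1 m2 he
  have hpre : IsOpen ((fun s : ℝ => rm_J s u1) ⁻¹' Dm) :=
    hDo.preimage (rgsd_line_contDiff u1).continuous
  obtain ⟨ε, hε, hball⟩ := Metric.isOpen_iff.1 hpre a hw
  have hder : ∀ s ∈ Metric.ball a ε,
      HasDerivAt (fun s => T (rm_J s u1) - rm_J s u2) 0 s := by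
    intro s hs
    have c0 : HasFDerivAt T (fderiv ℝ T (rm_J s u1)) (rm_J s u1) :=
      (if_tr_differentiableAt h1.par h2.par (hball hs)).hasFDerivAt
    have c1 : HasDerivAt (fun s => T (rm_J s u1)) (fderiv ℝ T (rm_J s u1) (eb 0)) s :=
      HasFDerivAt.comp_hasDerivAt (f := fun s : ℝ => rm_J s u1) s c0 (rgsd_line_hasDerivAt u1 s)
    rw [hT, h1.tr_fderiv_eb hh h2 (hball hs), ← hT] at c1
    have c2 := c1.sub (rgsd_line_hasDerivAt u2 s)
    rwa [sub_self] at c2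
  have hconst : ∀ s ∈ Metric.ball a ε, T (rm_J s u1) - rm_J s u2 = T (rm_J a u1) - rm_J a u2 :=
    fun s hs => IsOpen.is_const_of_deriv_eq_zero Metric.isOpen_ball
      (convex_ball a ε).isPreconnected (fun s hs => (hder s hs).differentiableAt.differentiableWithinAt)
      (fun s hs => (hder s hs).deriv) hs (Metric.mem_ball_self hε)
  have h0 : T (rm_J a u1) = rm_J a u2 := if_tr_eq h2.par m2 he
  filter_upwards [Metric.ball_mem_nhds a hε] with s hs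
  have e1 := hconst s hs
  rw [h0, sub_self, sub_eq_zero] at e1
  rw [← e1, hT, if_tr_spec (hball hs)]

/-- **(SF) two lapse parametrisations have the same fibres.** -/
theorem rm_LapseP.fibre_eq (hh : IsMetricOn (d + 1) M h) (h1 : rm_LapseP M h q x1 ψ1 r1)
    (h2 : rm_LapseP M h q x2 ψ2 r2) {a a' : ℝ} {u1 u2 : E d}
    (m1 : rm_J a u1 ∈ rm_box d (q x1) r1) (m2 : rm_J a u2 ∈ rm_box d (q x2) r2)
    (he : ψ1 (rm_J a u1) = ψ2 (rm_J a u2))
    (m1' : rm_J a' u1 ∈ rm_box d (q x1) r1) (m2' : rm_J a' u2 ∈ rm_box d (q x2) r2) :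
    ψ1 (rm_J a' u1) = ψ2 (rm_J a' u2) := by
  set I : Set ℝ := {s | rm_J s u1 ∈ rm_box d (q x1) r1 ∧ rm_J s u2 ∈ rm_box d (q x2) r2} with hI
  have hIeq : I = Metric.ball (q x1) r1 ∩ Metric.ball (q x2) r2 := by
    ext s
    simp only [hI, rm_box, Set.mem_ofPred_eq, rm_J_zero, rm_tl_J, Set.mem_inter_iff,
      Metric.mem_ball, Real.dist_eq]
    constructor
    · rintro ⟨⟨c1, -⟩, ⟨c2, -⟩⟩; exact ⟨c1, c2⟩
    · rintro ⟨c1, c2⟩
      exact ⟨⟨c1, by have := m1.2; rwa [rm_tl_J] at this⟩,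
        ⟨c2, by have := m2.2; rwa [rm_tl_J] at this⟩⟩
  have hIc : IsPreconnected I := by
    rw [hIeq]
    exact ((convex_ball _ _).inter (convex_ball _ _)).isPreconnected
  have : PreconnectedSpace I := Subtype.preconnectedSpace hIc
  set S : Set I := {s | ψ1 (rm_J (s : ℝ) u1) = ψ2 (rm_J (s : ℝ) u2)} with hS
  have c1 : Continuous fun s : I => ψ1 (rm_J (s : ℝ) u1) := by
    have : ContinuousOn (fun s : ℝ => ψ1 (rm_J s u1)) I :=
      (if_continuousOn h1.par).comp (rgsd_line_contDiff u1).continuous.continuousOn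
        fun s hs => hs.1
    exact continuousOn_iff_continuous_domRestrict.1 this
  have c2 : Continuous fun s : I => ψ2 (rm_J (s : ℝ) u2) := by
    have : ContinuousOn (fun s : ℝ => ψ2 (rm_J s u2)) I :=
      (if_continuousOn h2.par).comp (rgsd_line_contDiff u2).continuous.continuousOn
        fun s hs => hs.2
    exact continuousOn_iff_continuous_domRestrict.1 this
  have hcl : IsClosed S := isClosed_eq c1 c2
  have hop : IsOpen S := by
    rw [isOpen_iff_mem_nhds]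
    intro s hs
    exact continuous_subtype_val.continuousAt.eventually
      (h1.fibre_loc hh h2 s.2.1 s.2.2 hs)
  have huniv := IsClopen.eq_univ ⟨hcl, hop⟩ ⟨⟨a, m1, m2⟩, he⟩
  have : (⟨a', m1', m2'⟩ : I) ∈ S := by rw [huniv]; exact Set.mem_univ _
  exact this

end fibres

/-! ## 2. the dictionary -/

section dict

variable {V : Type} [NormedAddCommGroup V] [NormedSpace ℝ V] [FiniteDimensional ℝ V]
variable {d : ℕ} {M : Set V} {h : Ten V} {t U : V → ℝ} {x0 : V} {ψ : E (d + 1) → V} {r : ℝ}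

omit [FiniteDimensional ℝ V] in
/-- locality of `wmc`. -/
theorem rgsg_wmc_inter {n : ℕ} {O : Set V} (hO : IsOpen O) {x : V} (hx : x ∈ O) (φ : V → ℝ) :
    wmc n (M ∩ O) h t φ x = wmc n M h t φ x := by
  unfold wmc wlap gradN
  rw [if_lap_inter' h φ hO hx, if_gradIp_inter' h t φ hO hx, if_gradSq_inter' h φ hO hx,
    if_gradIp_inter' h φ _ hO hx,
    gs_ip_congr_near (hO.mem_nhds hx) (fun _ _ => rfl)
      (fun y hy => if_gradSq_inter' h φ hO hy.2)]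

omit [FiniteDimensional ℝ V] in
theorem rgsg_N_inter {O : Set V} (hO : IsOpen O) {x : V} (hx : x ∈ O) :
    rgsN d (M ∩ O) h U x = rgsN d M h U x := by
  unfold rgsN gradN
  rw [if_gradSq_inter' h U hO hx]

omit [NormedAddCommGroup V] [NormedSpace ℝ V] [FiniteDimensional ℝ V] in
theorem rgsg_Lv_inter (O : Set V) (c : ℝ) : rm_Lv (M ∩ O) U c = rm_Lv M U c ∩ O := by
  ext y
  simp only [rm_Lv, Set.mem_ofPred_eq, Set.mem_inter_iff]
  tauto

omit [FiniteDimensional ℝ V] in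
/-- locality of the seven invariants. -/
theorem rgsg_inv_inter {O : Set V} (hO : IsOpen O) {x : V} (hx : x ∈ O) (c : ℝ) :
    gradIp (d + 1) (M ∩ O) h U (rgsN d (M ∩ O) h U) x =
        gradIp (d + 1) M h U (rgsN d M h U) x ∧
      wmc (d + 1) (M ∩ O) h t U x = wmc (d + 1) M h t U x ∧
      gradIp (d + 1) (M ∩ O) h U (wmc (d + 1) (M ∩ O) h t U) x =
        gradIp (d + 1) M h U (wmc (d + 1) M h t U) x ∧
      Dsc (d + 1) (M ∩ O) h t x = Dsc (d + 1) M h t x ∧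
      Dsc d (rm_Lv (M ∩ O) U c) h t x = Dsc d (rm_Lv M U c) h t x ∧
      wlap d (rm_Lv (M ∩ O) U c) h t (rgsN d (M ∩ O) h U) x =
        wlap d (rm_Lv M U c) h t (rgsN d M h U) x ∧
      gradSq d (rm_Lv (M ∩ O) U c) h (rgsN d (M ∩ O) h U) x =
        gradSq d (rm_Lv M U c) h (rgsN d M h U) x := by
  have hNO : ∀ {X : Set V}, ∀ y ∈ X ∩ O, rgsN d (M ∩ O) h U y = rgsN d M h U y :=
    fun y hy => rgsg_N_inter hO hy.2
  refine ⟨?_, rgsg_wmc_inter hO hx U, ?_, if_Dsc_inter' h t hO hx, ?_, ?_, ?_⟩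
  · rw [if_gradIp_inter' h U _ hO hx]
    exact gs_ip_congr_near (hO.mem_nhds hx) (fun _ _ => rfl) hNO
  · rw [if_gradIp_inter' h U _ hO hx]
    exact gs_ip_congr_near (hO.mem_nhds hx) (fun _ _ => rfl)
      fun y hy => rgsg_wmc_inter hO hy.2 U
  · rw [rgsg_Lv_inter, if_Dsc_inter' h t hO hx]
  · rw [rgsg_Lv_inter]
    unfold wlap
    rw [if_lap_inter' h _ hO hx, if_gradIp_inter' h t _ hO hx,
      gs_lap_congr_near (hO.mem_nhds hx) hNO,
      gs_ip_congr_near (hO.mem_nhds hx) (fun _ _ => rfl) hNO]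
  · rw [rgsg_Lv_inter, if_gradSq_inter' h _ hO hx]
    exact gs_sq_congr_near (hO.mem_nhds hx) hNO

/-- the lapse in the chart. -/
theorem rgsg_N_chart (hh : IsMetricOn (d + 1) M h) (hU : SmoothAlong (d + 1) M U)
    (hL : rm_LapseP M h U x0 ψ r) {v : E (d + 1)} (hv : v ∈ rm_box d (U x0) r) :
    rgsN d M h U (ψ v) = rm_lps (cm h ψ) v := by
  unfold rgsN
  rw [rm_glob_gradN hh hU hL hv, inv_inv]

/-- the dictionary when `U` has no critical point on `M`. -/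
theorem rgsg_dict_reg (hG : CtGeo (d + 1) M h t) (hU : SmoothAlong (d + 1) M U)
    (hreg : ∀ y ∈ M, 0 < gradSq (d + 1) M h U y) (hL : rm_LapseP M h U x0 ψ r)
    {v : E (d + 1)} (hv : v ∈ rm_box d (U x0) r) :
    gradIp (d + 1) M h U (rgsN d M h U) (ψ v) =
        rm_e (cm h ψ) (rm_lps (cm h ψ)) v / rm_lps (cm h ψ) v ∧
      wmc (d + 1) M h t U (ψ v) = rm_S (cm h ψ) (fun w => t (ψ w)) v ∧
      gradIp (d + 1) M h U (wmc (d + 1) M h t U) (ψ v) =
        rm_e (cm h ψ) (rm_S (cm h ψ) (fun w => t (ψ w))) v / rm_lps (cm h ψ) v ∧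
      Dsc (d + 1) M h t (ψ v) = rm_DscC (cm h ψ) (fun w => t (ψ w)) v ∧
      Dsc d (rm_Lv M U (U (ψ v))) h t (ψ v) = rm_DscS (cm h ψ) (fun w => t (ψ w)) v ∧
      wlap d (rm_Lv M U (U (ψ v))) h t (rgsN d M h U) (ψ v) =
        rm_lapS (cm h ψ) (rm_lps (cm h ψ)) v -
          rm_ipS (cm h ψ) (fun w => t (ψ w)) (rm_lps (cm h ψ)) v ∧
      gradSq d (rm_Lv M U (U (ψ v))) h (rgsN d M h U) (ψ v) =
        rm_ipS (cm h ψ) (rm_lps (cm h ψ)) (rm_lps (cm h ψ)) v := by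
  have hbo : IsOpen (rm_box d (U x0) r) := rm_box_open _ _
  have hN : SmoothAlong (d + 1) M (rgsN d M h U) :=
    gs_sm_inv (gs_sm_sqrt (if_gradSq_smoothAlong hG.met hU) hreg)
      fun y hy => (Real.sqrt_pos.2 (hreg y hy)).ne'
  have hS : SmoothAlong (d + 1) M (wmc (d + 1) M h t U) := rm_wmc_sm hG.met hG.drift hU hreg
  have hNc : ∀ w ∈ rm_box d (U x0) r, rm_lps (cm h ψ) w = rgsN d M h U (ψ w) := fun w hw =>
    (rgsg_N_chart hG.met hU hL hw).symm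
  have hlv : U (ψ v) = v 0 := hL.lvl v hv
  refine ⟨?_, rm_glob_wmc hG.mfd hG.met hG.drift hU hL hv, ?_, gs_Dsc_eq hG.met hG.drift hL.par hv,
    ?_, ?_, ?_⟩
  · rw [rm_glob_ip hG.met hU hN hL hv]
    congr 1
    unfold rm_e
    rw [rm_pdiff_congr_on hbo hv fun w hw => (hNc w hw).symm]
  · rw [rm_glob_ip hG.met hU hS hL hv]
    congr 1
    unfold rm_e
    rw [rm_pdiff_congr_on hbo hv fun w hw => rm_glob_wmc hG.mfd hG.met hG.drift hU hL hw]
  · rw [hlv]; exact rm_slice_Dsc hG.mfd hG.met hG.drift hL hv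
  · rw [hlv]; exact rm_slice_wlap hG.mfd hG.met hG.drift hN hL hv hNc
  · rw [hlv]; exact rm_slice_ip hG.mfd hG.met hN hN hL hv hNc hNc

/-- **(DICT)** the dictionary in a lapse chart (critical points of `U` off the chart allowed). -/
theorem rgsg_dict (hG : CtGeo (d + 1) M h t) (hU : SmoothAlong (d + 1) M U)
    (hL : rm_LapseP M h U x0 ψ r) {v : E (d + 1)} (hv : v ∈ rm_box d (U x0) r) :
    gradIp (d + 1) M h U (rgsN d M h U) (ψ v) =
        rm_e (cm h ψ) (rm_lps (cm h ψ)) v / rm_lps (cm h ψ) v ∧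
      wmc (d + 1) M h t U (ψ v) = rm_S (cm h ψ) (fun w => t (ψ w)) v ∧
      gradIp (d + 1) M h U (wmc (d + 1) M h t U) (ψ v) =
        rm_e (cm h ψ) (rm_S (cm h ψ) (fun w => t (ψ w))) v / rm_lps (cm h ψ) v ∧
      Dsc (d + 1) M h t (ψ v) = rm_DscC (cm h ψ) (fun w => t (ψ w)) v ∧
      Dsc d (rm_Lv M U (U (ψ v))) h t (ψ v) = rm_DscS (cm h ψ) (fun w => t (ψ w)) v ∧
      wlap d (rm_Lv M U (U (ψ v))) h t (rgsN d M h U) (ψ v) =
        rm_lapS (cm h ψ) (rm_lps (cm h ψ)) v -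
          rm_ipS (cm h ψ) (fun w => t (ψ w)) (rm_lps (cm h ψ)) v ∧
      gradSq d (rm_Lv M U (U (ψ v))) h (rgsN d M h U) (ψ v) =
        rm_ipS (cm h ψ) (rm_lps (cm h ψ)) (rm_lps (cm h ψ)) v := by
  obtain ⟨O, hO, hOe⟩ := if_image hL.par
  have hsub : ψ '' rm_box d (U x0) r ⊆ O := fun y hy => (hOe ▸ hy : y ∈ M ∩ O).2
  have hL' : rm_LapseP (M ∩ O) h U x0 ψ r :=
    ⟨hL.pos, if_param_inter hL.par hsub, hL.base, hL.lvl, hL.orth⟩
  have hG' : CtGeo (d + 1) (M ∩ O) h t := hG.inter hO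
  have hU' : SmoothAlong (d + 1) (M ∩ O) U := if_smoothAlong_inter hU hO
  have hreg : ∀ y ∈ M ∩ O, 0 < gradSq (d + 1) (M ∩ O) h U y := by
    intro y hy
    obtain ⟨w, hw, rfl⟩ : y ∈ ψ '' rm_box d (U x0) r := hOe ▸ hy
    rw [rm_glob_sq hG'.met hU' hL' hw]
    exact inv_pos.2 (pow_pos (rm_lps_pos (hL'.met hG'.met) hw) 2)
  have hx : ψ v ∈ O := hsub ⟨v, hv, rfl⟩
  obtain ⟨e1, e2, e3, e4, e5, e6, e7⟩ := rgsg_dict_reg hG' hU' hreg hL' hv
  obtain ⟨i1, i2, i3, i4, i5, i6, i7⟩ := rgsg_inv_inter (d := d) (M := M) (h := h) (t := t)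
    (U := U) hO hx (U (ψ v))
  exact ⟨i1 ▸ e1, i2 ▸ e2, i3 ▸ e3, i4 ▸ e4, i5 ▸ e5, i6 ▸ e6, i7 ▸ e7⟩

variable {w Vs : V → ℝ} {P : Set V} {e0 B : ℝ}

omit [FiniteDimensional ℝ V] in
/-- `RgsBd` is local. -/
theorem RgsBd.inter_iff {O : Set V} (hO : IsOpen O) {x : V} (hx : x ∈ O) :
    RgsBd d (M ∩ O) h t U Vs B x ↔ RgsBd d M h t U Vs B x := by
  obtain ⟨i1, i2, i3, i4, i5, i6, i7⟩ := rgsg_inv_inter (d := d) (M := M) (h := h) (t := t)
    (U := U) hO hx (U x)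
  constructor
  · rintro ⟨a1, a2, a3, a4, a5, a6, a7, a8, a9⟩
    exact ⟨i1 ▸ a1, i2 ▸ a2, i3 ▸ a3, i4 ▸ a4, i5 ▸ a5, i6 ▸ a6, i7 ▸ a7, a8, a9⟩
  · rintro ⟨a1, a2, a3, a4, a5, a6, a7, a8, a9⟩
    exact ⟨i1.symm ▸ a1, i2.symm ▸ a2, i3.symm ▸ a3, i4.symm ▸ a4, i5.symm ▸ a5, i6.symm ▸ a6,
      i7.symm ▸ a7, a8, a9⟩

/-- **(DICT)** the bounds in the chart. -/
theorem RgsBd.chart (hG : CtGeo (d + 1) M h t) (hU : SmoothAlong (d + 1) M U)
    (hL : rm_LapseP M h U x0 ψ r) {v : E (d + 1)} (hv : v ∈ rm_box d (U x0) r)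
    (H : RgsBd d M h t U Vs B (ψ v)) :
    RgsBdC (cm h ψ) (fun w => t (ψ w)) (fun w => Vs (ψ w)) B v := by
  obtain ⟨e1, e2, e3, e4, e5, e6, e7⟩ := rgsg_dict hG hU hL hv
  exact ⟨e1 ▸ H.dN, e2 ▸ H.S, e3 ▸ H.dS, e4 ▸ H.DM, e5 ▸ H.DL, e6 ▸ H.lapN, e7 ▸ H.sqN,
    H.Vs0, H.VsB⟩

/-- all hypotheses of `rgs_fibre` on the chart data of a good chart. -/
theorem RgsChart.fibre_hyp (hG : CtGeo (d + 1) M h t) (hU : SmoothAlong (d + 1) M U)
    (hunit : ∀ x ∈ M, U x = 0 → gradSq (d + 1) M h U x = 1) (hVs : ContinuousOn Vs M)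
    (H : RgsChart d M h t U w Vs P e0 x0 ψ B) :
    rm_Met (cm h ψ) (rm_box d (U x0) (3 * w x0)) ∧
      rm_Orth (cm h ψ) (rm_box d (U x0) (3 * w x0)) ∧
      ContDiffOn ℝ ∞ (fun v => t (ψ v)) (rm_box d (U x0) (3 * w x0)) ∧
      ContinuousOn (fun v => Vs (ψ v)) (rm_box d (U x0) (3 * w x0)) ∧
      (∀ v ∈ rm_box d (U x0) (3 * w x0),
        RgsBdC (cm h ψ) (fun v => t (ψ v)) (fun v => Vs (ψ v)) B v) ∧
      ∀ v ∈ rm_box d (U x0) (3 * w x0), v 0 = 0 → cm h ψ v 0 0 = 1 := by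
  have hm := H.lapse.met hG.met
  refine ⟨hm, H.lapse.orth, hG.drift ψ _ H.lapse.par,
    hVs.comp (if_continuousOn H.lapse.par) (fun v hv => if_mem H.lapse.par hv),
    fun v hv => (H.bd v hv).chart hG hU H.lapse hv, fun v hv hv0 => ?_⟩
  have h1 := hunit (ψ v) (if_mem H.lapse.par hv) (by rw [H.lapse.lvl v hv, hv0])
  rw [rm_glob_sq hG.met hU H.lapse hv, rm_lps_sq hm hv] at h1
  exact inv_eq_one.1 h1

/-! ## 3. reflection -/

/-- the reflection as a linear map. -/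
noncomputable def rgsgRfL (d : ℕ) : E (d + 1) →L[ℝ] E (d + 1) :=
  ContinuousLinearMap.id ℝ (E (d + 1)) - (2 : ℝ) • (if_pr (0 : Fin (d + 1))).smulRight (eb 0)

theorem rgsRf_eq (v : E (d + 1)) : rgsRf v = rgsgRfL d v := by
  unfold rgsRf rgsgRfL
  conv_rhs => rw [← rm_J_tl v]
  simp only [sub_apply, ContinuousLinearMap.id_apply, smul_apply,
    ContinuousLinearMap.smulRight_apply, if_pr_apply, rm_J_zero]
  unfold rm_J
  rw [smul_smul, neg_smul, two_mul, add_smul]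
  abel

theorem rgsRf_fun_eq : (rgsRf : E (d + 1) → E (d + 1)) = rgsgRfL d := funext rgsRf_eq

theorem rgsRf_zero (v : E (d + 1)) : rgsRf v 0 = -(v 0) := rm_J_zero _ _

theorem rgsRf_tl (v : E (d + 1)) : rm_tl d (rgsRf v) = rm_tl d v := rm_tl_J _ _

theorem rgsRf_rgsRf (v : E (d + 1)) : rgsRf (rgsRf v) = v := by
  unfold rgsRf
  rw [rm_J_zero, rm_tl_J, neg_neg, rm_J_tl]

theorem rgsRf_J (a : ℝ) (u : E d) : rgsRf (rm_J a u) = rm_J (-a) u := by
  unfold rgsRf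
  rw [rm_J_zero, rm_tl_J]

theorem rgsRf_mem_box {c r : ℝ} {v : E (d + 1)} (hv : v ∈ rm_box d (-c) r) :
    rgsRf v ∈ rm_box d c r := by
  refine ⟨?_, by rw [rgsRf_tl]; exact hv.2⟩
  rw [rgsRf_zero]
  have := hv.1
  rw [← abs_neg] at this
  convert this using 2
  ring

theorem rgsgRfL_eb0 : rgsgRfL d (eb 0) = -(eb 0 : E (d + 1)) := by
  rw [← rgsRf_eq]
  have : (eb 0 : E (d + 1)) = rm_J 1 (0 : E d) := by simp [rm_J]
  rw [this, rgsRf_J]
  simp [rm_J]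

theorem rgsgRfL_succ (a : Fin d) : rgsgRfL d (eb a.succ) = (eb a.succ : E (d + 1)) := by
  rw [← rgsRf_eq]
  have : (eb a.succ : E (d + 1)) = rm_J 0 (eb a : E d) := by simp [rm_J, rm_in_eb]
  rw [this, rgsRf_J, neg_zero]

theorem rgsgRfL_injective : Function.Injective (rgsgRfL d) := by
  intro v v' hvv
  rw [← rgsRf_eq, ← rgsRf_eq] at hvv
  rw [← rgsRf_rgsRf v, hvv, rgsRf_rgsRf]

/-- a lapse parametrisation for `U` gives one for `-U`. -/
theorem rm_LapseP.neg (hL : rm_LapseP M h U x0 ψ r) :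
    rm_LapseP M h (fun x => -U x) x0 (fun v => ψ (rgsRf v)) r := by
  have hbo : IsOpen (rm_box d (-U x0) r) := rm_box_open _ _
  have hsm : ContDiff ℝ ∞ (rgsRf : E (d + 1) → E (d + 1)) := by
    rw [rgsRf_fun_eq]; exact (rgsgRfL d).contDiff
  have hfd : ∀ v : E (d + 1), fderiv ℝ (rgsRf : E (d + 1) → E (d + 1)) v = rgsgRfL d := by
    intro v; rw [rgsRf_fun_eq]; exact (rgsgRfL d).fderiv
  refine ⟨hL.pos, if_comp hL.par hbo hsm.contDiffOn ?_ ?_ fun v hv => rgsRf_mem_box hv, ?_,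
    fun v hv => ?_, fun v hv a => ?_⟩
  · intro v _ v' _ hvv
    rw [← rgsRf_rgsRf v, hvv, rgsRf_rgsRf]
  · intro v _
    rw [hfd]; exact rgsgRfL_injective
  · show ψ (rgsRf (rm_J (-U x0) 0)) = x0
    rw [rgsRf_J, neg_neg, hL.base]
  · show -U (ψ (rgsRf v)) = v 0
    rw [hL.lvl _ (rgsRf_mem_box hv), rgsRf_zero, neg_neg]
  · have e := rm_cm_comp h (ψ := ψ) (τ := rgsRf) (w := v)
      (if_differentiableAt hL.par (rgsRf_mem_box hv)) (hsm.differentiable (by simp) v)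
    have e' : cm h (fun v => ψ (rgsRf v)) v = rm_pull rgsRf (cm h ψ) v := e
    rw [e']
    show if_bil (cm h ψ (rgsRf v)) (fderiv ℝ rgsRf v (eb 0)) (fderiv ℝ rgsRf v (eb a.succ)) = 0
    rw [hfd, rgsgRfL_eb0, rgsgRfL_succ, map_neg, neg_apply, if_bil_eb,
      hL.orth _ (rgsRf_mem_box hv) a, neg_zero]

theorem rgsg_sq_neg (hG : CtGeo (d + 1) M h t) (hU : SmoothAlong (d + 1) M U) {y : V}
    (hy : y ∈ M) : gradSq (d + 1) M h (fun x => -U x) y = gradSq (d + 1) M h U y := by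
  show gradIp (d + 1) M h (fun x => -U x) (fun x => -U x) y = gradIp (d + 1) M h U U y
  rw [gs_ip_neg_left hG.mfd hG.met hU (gs_sm_neg hU) hy, gs_ip_neg_right hG.mfd hG.met hU hU hy,
    neg_neg]

theorem rgsg_N_neg (hG : CtGeo (d + 1) M h t) (hU : SmoothAlong (d + 1) M U) {y : V}
    (hy : y ∈ M) : rgsN d M h (fun x => -U x) y = rgsN d M h U y := by
  unfold rgsN gradN
  rw [rgsg_sq_neg hG hU hy]

theorem rgsg_wmc_neg (hG : CtGeo (d + 1) M h t) (hU : SmoothAlong (d + 1) M U) {y : V}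
    (hy : y ∈ M) : wmc (d + 1) M h t (fun x => -U x) y = -wmc (d + 1) M h t U y := by
  have h1 : wlap (d + 1) M h t (fun x => -U x) y = -wlap (d + 1) M h t U y := by
    have := gs_wlap_smul hG.mfd hG.met hG.drift (-1) hU hy
    simpa using this
  have h2 : gradIp (d + 1) M h (fun x => -U x) (gradSq (d + 1) M h (fun x => -U x)) y =
      -gradIp (d + 1) M h U (gradSq (d + 1) M h U) y := by
    rw [gs_ip_congr (f' := fun x => -U x) (k' := gradSq (d + 1) M h U) (fun _ _ => rfl)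
      (fun z hz => rgsg_sq_neg hG hU hz),
      gs_ip_neg_left hG.mfd hG.met hU (if_gradSq_smoothAlong hG.met hU) hy]
  unfold wmc gradN
  rw [h1, h2, rgsg_sq_neg hG hU hy]
  ring

omit [NormedAddCommGroup V] [NormedSpace ℝ V] [FiniteDimensional ℝ V] in
theorem rgsg_Lv_neg (x : V) : rm_Lv M (fun x => -U x) (-U x) = rm_Lv M U (U x) := by
  ext y
  simp only [rm_Lv, Set.mem_ofPred_eq, neg_inj]

/-- the bounds for `-U` when `U` has no critical point on `M`. -/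
theorem RgsBd.neg_reg (hG : CtGeo (d + 1) M h t) (hU : SmoothAlong (d + 1) M U)
    (hreg : ∀ y ∈ M, 0 < gradSq (d + 1) M h U y) {x : V} (hx : x ∈ M)
    (H : RgsBd d M h t U Vs B x) : RgsBd d M h t (fun x => -U x) Vs B x := by
  have hN : SmoothAlong (d + 1) M (rgsN d M h U) :=
    gs_sm_inv (gs_sm_sqrt (if_gradSq_smoothAlong hG.met hU) hreg)
      fun y hy => (Real.sqrt_pos.2 (hreg y hy)).ne'
  have hS : SmoothAlong (d + 1) M (wmc (d + 1) M h t U) := rm_wmc_sm hG.met hG.drift hU hreg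
  have hNL : ∀ y ∈ rm_Lv M U (U x), rgsN d M h (fun x => -U x) y = rgsN d M h U y :=
    fun y hy => rgsg_N_neg hG hU hy.1
  refine ⟨?_, ?_, ?_, H.DM, ?_, ?_, ?_, H.Vs0, H.VsB⟩
  · rw [gs_ip_congr (f' := fun x => -U x) (k' := rgsN d M h U) (fun _ _ => rfl)
      (fun z hz => rgsg_N_neg hG hU hz), gs_ip_neg_left hG.mfd hG.met hU hN hx, abs_neg]
    exact H.dN
  · rw [rgsg_wmc_neg hG hU hx, abs_neg]
    exact H.S
  · rw [gs_ip_congr (f' := fun x => -U x) (k' := fun z => -wmc (d + 1) M h t U z)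
      (fun _ _ => rfl) (fun z hz => rgsg_wmc_neg hG hU hz),
      gs_ip_neg_left hG.mfd hG.met hU (gs_sm_neg hS) hx,
      gs_ip_neg_right hG.mfd hG.met hS hU hx, neg_neg]
    exact H.dS
  · show |Dsc d (rm_Lv M (fun x => -U x) (-U x)) h t x| ≤ B
    rw [rgsg_Lv_neg]; exact H.DL
  · show |wlap d (rm_Lv M (fun x => -U x) (-U x)) h t (rgsN d M h fun x => -U x) x| ≤ B
    rw [rgsg_Lv_neg, gs_wlap_congr hNL]; exact H.lapN
  · show gradSq d (rm_Lv M (fun x => -U x) (-U x)) h (rgsN d M h fun x => -U x) x ≤ B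
    rw [rgsg_Lv_neg, gs_sq_congr hNL]; exact H.sqN

/-- **(NEG)** a good chart for `U` gives a good chart for `-U`. -/
theorem RgsChart.neg' (hG : CtGeo (d + 1) M h t) (hU : SmoothAlong (d + 1) M U)
    (H : RgsChart d M h t U w Vs P e0 x0 ψ B) :
    RgsChart d M h t (fun x => -U x) w Vs P e0 x0 (fun v => ψ (rgsRf v)) B := by
  refine ⟨H.lapse.neg, fun v hv => H.flat _ (rgsRf_mem_box hv), fun v hv => ?_,
    fun v hv => H.mem _ (rgsRf_mem_box hv), H.small⟩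
  have hv' := rgsRf_mem_box hv
  obtain ⟨O, hO, hOe⟩ := if_image H.lapse.par
  have hsub : ψ '' rm_box d (U x0) (3 * w x0) ⊆ O := fun y hy => (hOe ▸ hy : y ∈ M ∩ O).2
  have hL' : rm_LapseP (M ∩ O) h U x0 ψ (3 * w x0) :=
    ⟨H.lapse.pos, if_param_inter H.lapse.par hsub, H.lapse.base, H.lapse.lvl, H.lapse.orth⟩
  have hG' : CtGeo (d + 1) (M ∩ O) h t := hG.inter hO
  have hU' : SmoothAlong (d + 1) (M ∩ O) U := if_smoothAlong_inter hU hO
  have hreg : ∀ y ∈ M ∩ O, 0 < gradSq (d + 1) (M ∩ O) h U y := by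
    intro y hy
    obtain ⟨z, hz, rfl⟩ : y ∈ ψ '' rm_box d (U x0) (3 * w x0) := hOe ▸ hy
    rw [rm_glob_sq hG'.met hU' hL' hz]
    exact inv_pos.2 (pow_pos (rm_lps_pos (hL'.met hG'.met) hz) 2)
  have hx : ψ (rgsRf v) ∈ O := hsub ⟨_, hv', rfl⟩
  exact (RgsBd.inter_iff hO hx).1 (((RgsBd.inter_iff hO hx).2 (H.bd _ hv')).neg_reg hG' hU' hreg
    ⟨if_mem H.lapse.par hv', hx⟩)

end dict

end Claimed.Agent.R315
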