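import Claimed.Agent.R315.Rg.SeamDefs
import Claimed.Agent.R316.Base.ODE.Flow

/-!
# Row 315, package Rg, unit SEAM-P: the corner profile and its unit speed parametrisation   (helper294)

* `rgs_corner_exists`: `k a = expNegInvGlue (1 - a) / expNegInvGlue 1`.
* `rgs_prof_exists`: the level set `k x + k y = 1` is the integral curve through `(1, 0)` of the unit
  field `rgpF k = (k' y, - k' x) / sqrt (k' x ^ 2 + k' y ^ 2)` on `rgpO = {x < 1 or y < 1}`.
  The curve is global (a priori bound: it stays on the level set, which is closed in the plane and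
  contained in `rgpO`, and has unit speed), it is the straight line `(- s, 0)` for `s ≤ -1`
  (uniqueness), the function `y - x` has derivative `≥ 1` along it, hence reaches every value, and two
  points of the level set with the same `y - x` agree.
-/

set_option autoImplicit false
open scoped ContDiff Topology
open Set Filter
open Claimed.Agent.R316

namespace Claimed.Agent.R315

/-- corner profiles exist. -/
theorem rgs_corner_exists : ∃ k : ℝ → ℝ, IsCorner k := by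
  have h1 : 0 < expNegInvGlue 1 := expNegInvGlue.pos_of_pos one_pos
  refine ⟨fun a => expNegInvGlue (1 - a) / expNegInvGlue 1, ?_, ?_, ?_, ?_⟩
  · exact (expNegInvGlue.contDiff.comp (contDiff_const.sub contDiff_id)).div_const _
  · simp [h1.ne']
  · intro a ha
    rw [expNegInvGlue.zero_of_nonpos (by linarith), zero_div]
  · intro a ha
    have hx : 0 < 1 - a := by linarith
    have hev : expNegInvGlue =ᶠ[𝓝 (1 - a)] fun x => Real.exp (-x⁻¹) := by
      filter_upwards [lt_mem_nhds hx] with x hx'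
      simp [expNegInvGlue, not_le.2 hx']
    have hd : HasDerivAt (fun x : ℝ => Real.exp (-x⁻¹))
        (Real.exp (-(1 - a)⁻¹) * (-(-((1 - a) ^ 2)⁻¹))) (1 - a) :=
      ((hasDerivAt_inv hx.ne').neg).exp
    have hd2 : HasDerivAt expNegInvGlue
        (Real.exp (-(1 - a)⁻¹) * (-(-((1 - a) ^ 2)⁻¹))) (1 - a) :=
      hd.congr_of_eventuallyEq hev
    have hd3 : HasDerivAt (fun a : ℝ => expNegInvGlue (1 - a) / expNegInvGlue 1)
        (Real.exp (-(1 - a)⁻¹) * (-(-((1 - a) ^ 2)⁻¹)) * (-1) / expNegInvGlue 1) a :=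
      (HasDerivAt.comp a hd2 ((hasDerivAt_id a).const_sub 1)).div_const _
    rw [hd3.deriv]
    have : 0 < Real.exp (-(1 - a)⁻¹) * ((1 - a) ^ 2)⁻¹ := by positivity
    have e : Real.exp (-(1 - a)⁻¹) * (-(-((1 - a) ^ 2)⁻¹)) * (-1) / expNegInvGlue 1 =
        -(Real.exp (-(1 - a)⁻¹) * ((1 - a) ^ 2)⁻¹ / expNegInvGlue 1) := by ring
    rw [e]
    exact neg_neg_of_pos (div_pos this h1)


/-! ### elementary facts on corner profiles -/

namespace IsCorner

variable {k : ℝ → ℝ}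

theorem deriv_smooth (hk : IsCorner k) : ContDiff ℝ ∞ (deriv k) :=
  (contDiff_infty_iff_deriv.1 hk.smooth).2

theorem differentiable (hk : IsCorner k) : Differentiable ℝ k :=
  hk.smooth.differentiable (by simp)

theorem deriv_nonpos (hk : IsCorner k) (a : ℝ) : deriv k a ≤ 0 := by
  rcases lt_or_ge a 1 with h | h
  · exact (hk.anti a h).le
  · exact (hk.deriv_far h).le

theorem antitone (hk : IsCorner k) : Antitone k :=
  antitone_of_deriv_nonpos hk.differentiable hk.deriv_nonpos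

/-- two points of the corner with the same difference of the coordinates coincide. -/
theorem eq_of_sub_eq (hk : IsCorner k) {x y x' y' : ℝ} (h : k x + k y = 1) (h' : k x' + k y' = 1)
    (hd : y - x = y' - x') : x = x' ∧ y = y' := by
  have key : ∀ {x y x' y' : ℝ}, k x + k y = 1 → k x' + k y' = 1 → y - x = y' - x' → ¬ x < x' := by
    intro x y x' y' h h' hd hlt
    have hy : y < y' := by linarith
    have h1 := hk.antitone hlt.le
    have h2 := hk.antitone hy.le
    have e1 : k x = k x' := by linarith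
    have e2 : k y = k y' := by linarith
    have hx1 : 1 ≤ x := by
      by_contra hc
      rw [not_le] at hc
      have h3 : k (min x' 1) < k x :=
        hk.strictAntiOn (mem_Iic.2 hc.le) (mem_Iic.2 (min_le_right _ _)) (lt_min hlt hc)
      have h4 : k x' ≤ k (min x' 1) := hk.antitone (min_le_left _ _)
      linarith
    have hy1 : 1 ≤ y := by
      by_contra hc
      rw [not_le] at hc
      have h3 : k (min y' 1) < k y :=
        hk.strictAntiOn (mem_Iic.2 hc.le) (mem_Iic.2 (min_le_right _ _)) (lt_min hy hc)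
      have h4 : k y' ≤ k (min y' 1) := hk.antitone (min_le_left _ _)
      linarith
    rw [hk.far x hx1, hk.far y hy1] at h
    norm_num at h
  have hx : x = x' := le_antisymm (not_lt.1 (key h' h hd.symm)) (not_lt.1 (key h h' hd))
  exact ⟨hx, by linarith⟩

end IsCorner

/-! ### the unit tangent field of the corner -/

/-- norm of the gradient of `k x + k y`. -/
noncomputable def rgpN (k : ℝ → ℝ) (z : ℝ × ℝ) : ℝ := Real.sqrt (deriv k z.1 ^ 2 + deriv k z.2 ^ 2)

/-- unit tangent field of the level sets of `k x + k y`. -/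
noncomputable def rgpF (k : ℝ → ℝ) (z : ℝ × ℝ) : ℝ × ℝ :=
  (deriv k z.2 / rgpN k z, - deriv k z.1 / rgpN k z)

/-- the set where the gradient does not vanish. -/
def rgpO : Set (ℝ × ℝ) := {z | z.1 < 1 ∨ z.2 < 1}

section field

variable {k : ℝ → ℝ}

theorem rgp_isOpen : IsOpen rgpO :=
  (isOpen_lt continuous_fst continuous_const).union (isOpen_lt continuous_snd continuous_const)

theorem rgp_sq_pos (hk : IsCorner k) {z : ℝ × ℝ} (hz : z ∈ rgpO) :
    0 < deriv k z.1 ^ 2 + deriv k z.2 ^ 2 := by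
  rcases hz with h | h
  · have := pow_pos (neg_pos.2 (hk.anti _ h)) 2
    nlinarith [sq_nonneg (deriv k z.2)]
  · have := pow_pos (neg_pos.2 (hk.anti _ h)) 2
    nlinarith [sq_nonneg (deriv k z.1)]

theorem rgp_N_pos (hk : IsCorner k) {z : ℝ × ℝ} (hz : z ∈ rgpO) : 0 < rgpN k z :=
  Real.sqrt_pos.2 (rgp_sq_pos hk hz)

theorem rgp_N_sq (k : ℝ → ℝ) (z : ℝ × ℝ) :
    rgpN k z ^ 2 = deriv k z.1 ^ 2 + deriv k z.2 ^ 2 :=
  Real.sq_sqrt (by positivity)

theorem rgp_F_smooth (hk : IsCorner k) : ContDiffOn ℝ ∞ (rgpF k) rgpO := by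
  have h1 : ContDiff ℝ ∞ (fun z : ℝ × ℝ => deriv k z.1) := hk.deriv_smooth.comp contDiff_fst
  have h2 : ContDiff ℝ ∞ (fun z : ℝ × ℝ => deriv k z.2) := hk.deriv_smooth.comp contDiff_snd
  have hN : ContDiffOn ℝ ∞ (rgpN k) rgpO :=
    ((h1.pow 2).add (h2.pow 2)).contDiffOn.sqrt (fun z hz => (rgp_sq_pos hk hz).ne')
  exact (h2.contDiffOn.div hN (fun z hz => (rgp_N_pos hk hz).ne')).prodMk
    (h1.neg.contDiffOn.div hN (fun z hz => (rgp_N_pos hk hz).ne'))

theorem rgp_F_smooth1 (hk : IsCorner k) : ContDiffOn ℝ 1 (rgpF k) rgpO :=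
  (rgp_F_smooth hk).of_le (by exact_mod_cast le_top)

theorem rgp_F_speed (hk : IsCorner k) {z : ℝ × ℝ} (hz : z ∈ rgpO) :
    (rgpF k z).1 ^ 2 + (rgpF k z).2 ^ 2 = 1 := by
  have hN := rgp_N_pos hk hz
  simp only [rgpF]
  rw [div_pow, div_pow, ← add_div, neg_sq, rgp_N_sq k, add_comm, div_self (rgp_sq_pos hk hz).ne']

theorem rgp_F_fst_nonpos (hk : IsCorner k) {z : ℝ × ℝ} (hz : z ∈ rgpO) : (rgpF k z).1 ≤ 0 :=
  div_nonpos_of_nonpos_of_nonneg (hk.deriv_nonpos _) (rgp_N_pos hk hz).le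

theorem rgp_F_snd_nonneg (hk : IsCorner k) {z : ℝ × ℝ} (hz : z ∈ rgpO) : 0 ≤ (rgpF k z).2 :=
  div_nonneg (neg_nonneg.2 (hk.deriv_nonpos _)) (rgp_N_pos hk hz).le

theorem rgp_F_norm_le (hk : IsCorner k) {z : ℝ × ℝ} (hz : z ∈ rgpO) : ‖rgpF k z‖ ≤ 1 := by
  have h := rgp_F_speed hk hz
  rw [Prod.norm_def, max_le_iff, Real.norm_eq_abs, Real.norm_eq_abs]
  constructor
  · exact abs_le_one_iff_mul_self_le_one.2 (by nlinarith [sq_nonneg (rgpF k z).2])
  · exact abs_le_one_iff_mul_self_le_one.2 (by nlinarith [sq_nonneg (rgpF k z).1])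

/-- the field is tangent to the level sets. -/
theorem rgp_F_tangent (k : ℝ → ℝ) (z : ℝ × ℝ) :
    deriv k z.1 * (rgpF k z).1 + deriv k z.2 * (rgpF k z).2 = 0 := by
  simp only [rgpF]
  ring

theorem rgp_F_bottom (hk : IsCorner k) {x : ℝ} (hx : 1 ≤ x) : rgpF k (x, 0) = (-1, 0) := by
  have h0 : deriv k 0 < 0 := hk.anti 0 one_pos
  have hN : rgpN k (x, 0) = - deriv k 0 := by
    simp only [rgpN, hk.deriv_far hx]
    rw [zero_pow two_ne_zero, zero_add, Real.sqrt_sq_eq_abs, abs_of_neg h0]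
  simp only [rgpF, hN, hk.deriv_far hx, neg_zero, zero_div]
  rw [div_neg, div_self h0.ne]

theorem rgp_F_left (hk : IsCorner k) {y : ℝ} (hy : 1 ≤ y) : rgpF k (0, y) = (0, 1) := by
  have h0 : deriv k 0 < 0 := hk.anti 0 one_pos
  have hN : rgpN k (0, y) = - deriv k 0 := by
    simp only [rgpN, hk.deriv_far hy]
    rw [zero_pow two_ne_zero, add_zero, Real.sqrt_sq_eq_abs, abs_of_neg h0]
  simp only [rgpF, hN, hk.deriv_far hy, zero_div]
  rw [div_self (neg_ne_zero.2 h0.ne)]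

theorem rgp_corner_sub (hk : IsCorner k) {z : ℝ × ℝ} (hz : k z.1 + k z.2 = 1) : z ∈ rgpO := by
  by_contra hc
  simp only [rgpO, mem_ofPred_eq, not_or, not_lt] at hc
  rw [hk.far _ hc.1, hk.far _ hc.2] at hz
  norm_num at hz

end field

/-! ### the flow line through `(2, 0)` -/

/-- the flow line of the unit tangent field through `(2, 0)`. -/
noncomputable def rgpC (k : ℝ → ℝ) (t : ℝ) : ℝ × ℝ := ODE.fl (rgpF k) rgpO t ((2 : ℝ), (0 : ℝ))

section flow

variable {k : ℝ → ℝ}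

theorem rgp_hasDerivAt_fst {c : ℝ → ℝ × ℝ} {c' : ℝ × ℝ} {t : ℝ} (h : HasDerivAt c c' t) :
    HasDerivAt (fun r => (c r).1) c'.1 t :=
  (ContinuousLinearMap.fst ℝ ℝ ℝ).hasFDerivAt.comp_hasDerivAt t h

theorem rgp_hasDerivAt_snd {c : ℝ → ℝ × ℝ} {c' : ℝ × ℝ} {t : ℝ} (h : HasDerivAt c c' t) :
    HasDerivAt (fun r => (c r).2) c'.2 t :=
  (ContinuousLinearMap.snd ℝ ℝ ℝ).hasFDerivAt.comp_hasDerivAt t h

theorem rgp_C_zero (k : ℝ → ℝ) : rgpC k 0 = (2, 0) := ODE.fl_zero

theorem rgp_C_hasDerivAt (hk : IsCorner k) {t : ℝ}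
    (ht : (t, ((2 : ℝ), (0 : ℝ))) ∈ ODE.dom (rgpF k) rgpO) :
    HasDerivAt (rgpC k) (rgpF k (rgpC k t)) t :=
  ODE.hasDerivAt_fl rgp_isOpen (rgp_F_smooth1 hk) ht

/-- as long as it exists the flow line stays on the corner and moves with speed at most one. -/
theorem rgp_apriori (hk : IsCorner k) {r : ℝ}
    (hr : (r, ((2 : ℝ), (0 : ℝ))) ∈ ODE.dom (rgpF k) rgpO) :
    k (rgpC k r).1 + k (rgpC k r).2 = 1 ∧ ‖rgpC k r - (2, 0)‖ ≤ |r| := by
  have hdom : ∀ t ∈ uIcc 0 r, (t, ((2 : ℝ), (0 : ℝ))) ∈ ODE.dom (rgpF k) rgpO := fun t ht =>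
    ODE.mem_dom_of_mem_uIcc hr ht
  have hmem : ∀ t ∈ uIcc 0 r, rgpC k t ∈ rgpO := fun t ht => ODE.fl_mem (hdom t ht)
  constructor
  · have hd : ∀ t ∈ uIcc 0 r, HasDerivWithinAt (fun t => k (rgpC k t).1 + k (rgpC k t).2) 0
        (uIcc 0 r) t := by
      intro t ht
      have h0 := rgp_C_hasDerivAt hk (hdom t ht)
      have h1 : HasDerivAt (fun t => k (rgpC k t).1)
          (deriv k (rgpC k t).1 * (rgpF k (rgpC k t)).1) t :=
        HasDerivAt.comp t (hk.differentiable _).hasDerivAt (rgp_hasDerivAt_fst h0)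
      have h2 : HasDerivAt (fun t => k (rgpC k t).2)
          (deriv k (rgpC k t).2 * (rgpF k (rgpC k t)).2) t :=
        HasDerivAt.comp t (hk.differentiable _).hasDerivAt (rgp_hasDerivAt_snd h0)
      have h3 := h1.add h2
      rw [rgp_F_tangent] at h3
      exact h3.hasDerivWithinAt
    have h4 := (convex_uIcc 0 r).norm_image_sub_le_of_norm_hasDerivWithin_le (C := 0) hd
      (fun _ _ => by simp) left_mem_uIcc right_mem_uIcc
    rw [zero_mul, norm_le_zero_iff, sub_eq_zero, rgp_C_zero] at h4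
    rw [h4]
    simp [hk.zero, hk.far 2 one_le_two]
  · have h4 := (convex_uIcc 0 r).norm_image_sub_le_of_norm_hasDerivWithin_le (C := 1)
      (fun t ht => (rgp_C_hasDerivAt hk (hdom t ht)).hasDerivWithinAt)
      (fun t ht => rgp_F_norm_le hk (hmem t ht)) left_mem_uIcc right_mem_uIcc
    rwa [rgp_C_zero, one_mul, sub_zero, Real.norm_eq_abs] at h4

/-- the flow line exists for all times. -/
theorem rgp_global (hk : IsCorner k) (T : ℝ) :
    (T, ((2 : ℝ), (0 : ℝ))) ∈ ODE.dom (rgpF k) rgpO := by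
  have hcl : IsClosed {z : ℝ × ℝ | k z.1 + k z.2 = 1} :=
    isClosed_eq ((hk.smooth.continuous.comp continuous_fst).add
      (hk.smooth.continuous.comp continuous_snd)) continuous_const
  have hK : IsCompact ({z : ℝ × ℝ | k z.1 + k z.2 = 1} ∩ Metric.closedBall ((2 : ℝ), (0 : ℝ)) |T|) :=
    (isCompact_closedBall _ _).inter_left hcl
  refine ODE.mem_dom_of_apriori rgp_isOpen (rgp_F_smooth1 hk) (Or.inr one_pos) hK
    (fun z hz => rgp_corner_sub hk hz.1) (fun r hr hdom => ?_)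
  obtain ⟨h1, h2⟩ := rgp_apriori hk hdom
  refine ⟨h1, ?_⟩
  rw [Metric.mem_closedBall, dist_eq_norm]
  refine h2.trans ?_
  rcases mem_uIcc.1 hr with ⟨a, b⟩ | ⟨a, b⟩
  · rw [abs_of_nonneg a, abs_of_nonneg (a.trans b)]; exact b
  · rw [abs_of_nonpos b, abs_of_nonpos (a.trans b)]; linarith

theorem rgp_on (hk : IsCorner k) (t : ℝ) : k (rgpC k t).1 + k (rgpC k t).2 = 1 :=
  (rgp_apriori hk (rgp_global hk t)).1

theorem rgp_mem (hk : IsCorner k) (t : ℝ) : rgpC k t ∈ rgpO := ODE.fl_mem (rgp_global hk t)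

theorem rgp_deriv (hk : IsCorner k) (t : ℝ) : HasDerivAt (rgpC k) (rgpF k (rgpC k t)) t :=
  rgp_C_hasDerivAt hk (rgp_global hk t)

theorem rgp_C_smooth (hk : IsCorner k) : ContDiff ℝ ∞ (rgpC k) := by
  have h1 := ODE.contDiffOn_fl_infty rgp_isOpen (rgp_F_smooth hk)
  have h2 : ContDiff ℝ ∞ (fun t : ℝ => (t, ((2 : ℝ), (0 : ℝ)))) := contDiff_id.prodMk contDiff_const
  have h3 := h1.comp_contDiff h2 (fun t => rgp_global hk t)
  exact h3

/-- uniqueness: a curve which solves the equation on an interval `J ∋ t₀` and starts on the flow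
line is the flow line. -/
theorem rgp_unique (hk : IsCorner k) {J : Set ℝ} (hJ : J.OrdConnected) {c : ℝ → ℝ × ℝ}
    (hc : ∀ r ∈ J, c r ∈ rgpO ∧ HasDerivWithinAt c (rgpF k (c r)) J r) {t₀ t : ℝ} (ht₀ : t₀ ∈ J)
    (ht : t ∈ J) (h0 : c t₀ = rgpC k t₀) : rgpC k t = c t := by
  obtain ⟨h1, h2⟩ := ODE.eq_fl_of_hasDerivWithinAt rgp_isOpen (rgp_F_smooth1 hk) hJ hc ht₀ ht
  rw [h0] at h1 h2
  have h3 := (ODE.fl_add rgp_isOpen (rgp_F_smooth1 hk) (rgp_global hk t₀) h1).2
  rw [sub_add_cancel] at h3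
  rw [← h2]
  exact h3

theorem rgp_C_bottom (hk : IsCorner k) {t : ℝ} (ht : t ≤ 1) : rgpC k t = (2 - t, 0) := by
  refine rgp_unique hk (J := Iic 1) ordConnected_Iic (c := fun t => (2 - t, 0)) (fun r hr => ?_)
    (t₀ := 0) (mem_Iic.2 zero_le_one) (mem_Iic.2 ht) (by simp [rgp_C_zero])
  refine ⟨Or.inr one_pos, ?_⟩
  rw [rgp_F_bottom hk (by have := mem_Iic.1 hr; linarith)]
  exact (((hasDerivAt_id r).const_sub 2).prodMk (hasDerivAt_const r (0 : ℝ))).hasDerivWithinAt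

theorem rgp_C_left (hk : IsCorner k) {t₁ : ℝ} (h1 : rgpC k t₁ = (0, 1)) {t : ℝ} (ht : t₁ ≤ t) :
    rgpC k t = (0, t - t₁ + 1) := by
  refine rgp_unique hk (J := Ici t₁) ordConnected_Ici (c := fun t => (0, t - t₁ + 1))
    (fun r hr => ?_) (t₀ := t₁) (mem_Ici.2 le_rfl) (mem_Ici.2 ht) (by simp [h1])
  refine ⟨Or.inl one_pos, ?_⟩
  rw [rgp_F_left hk (by have := mem_Ici.1 hr; linarith)]
  exact ((hasDerivAt_const r (0 : ℝ)).prodMk
    (((hasDerivAt_id r).sub_const t₁).add_const 1)).hasDerivWithinAt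

end flow

/-! ### the time at which the flow line reaches `(0, 1)` -/

section top

variable {k : ℝ → ℝ}

theorem rgp_sigma_deriv (hk : IsCorner k) (t : ℝ) :
    HasDerivAt (fun t => (rgpC k t).2 - (rgpC k t).1)
      ((rgpF k (rgpC k t)).2 - (rgpF k (rgpC k t)).1) t :=
  (rgp_hasDerivAt_snd (rgp_deriv hk t)).sub (rgp_hasDerivAt_fst (rgp_deriv hk t))

theorem rgp_sigma_bounds (hk : IsCorner k) (t : ℝ) :
    1 ≤ (rgpF k (rgpC k t)).2 - (rgpF k (rgpC k t)).1 ∧
      (rgpF k (rgpC k t)).2 - (rgpF k (rgpC k t)).1 ≤ 2 := by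
  have h1 := rgp_F_speed hk (rgp_mem hk t)
  have h2 := rgp_F_fst_nonpos hk (rgp_mem hk t)
  have h3 := rgp_F_snd_nonneg hk (rgp_mem hk t)
  constructor
  · nlinarith
  · have h4 : (rgpF k (rgpC k t)).2 ≤ 1 := by nlinarith [sq_nonneg (rgpF k (rgpC k t)).1]
    have h5 : -1 ≤ (rgpF k (rgpC k t)).1 := by nlinarith [sq_nonneg (rgpF k (rgpC k t)).2]
    linarith

theorem rgp_exists_time (hk : IsCorner k) : ∃ t₁ ∈ Icc (2 : ℝ) 3, rgpC k t₁ = (0, 1) := by
  have hc : Continuous (fun t => (rgpC k t).2 - (rgpC k t).1) :=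
    continuous_iff_continuousAt.2 fun t => (rgp_sigma_deriv hk t).continuousAt
  have hd1 : ∀ t, HasDerivAt (fun t => ((rgpC k t).2 - (rgpC k t).1) - t)
      (((rgpF k (rgpC k t)).2 - (rgpF k (rgpC k t)).1) - 1) t := fun t =>
    (rgp_sigma_deriv hk t).sub (hasDerivAt_id t)
  have hd2 : ∀ t, HasDerivAt (fun t => 2 * t - ((rgpC k t).2 - (rgpC k t).1))
      (2 * 1 - ((rgpF k (rgpC k t)).2 - (rgpF k (rgpC k t)).1)) t := fun t =>
    ((hasDerivAt_id t).const_mul 2).sub (rgp_sigma_deriv hk t)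
  have hm1 : Monotone (fun t => ((rgpC k t).2 - (rgpC k t).1) - t) := by
    refine monotone_of_deriv_nonneg (fun t => (hd1 t).differentiableAt) (fun t => ?_)
    rw [(hd1 t).deriv]
    linarith [(rgp_sigma_bounds hk t).1]
  have hm2 : Monotone (fun t => 2 * t - ((rgpC k t).2 - (rgpC k t).1)) := by
    refine monotone_of_deriv_nonneg (fun t => (hd2 t).differentiableAt) (fun t => ?_)
    rw [(hd2 t).deriv]
    linarith [(rgp_sigma_bounds hk t).2]
  have h1 : rgpC k 1 = (1, 0) := by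
    rw [rgp_C_bottom hk le_rfl]; norm_num
  have h3 : 1 ≤ (rgpC k 3).2 - (rgpC k 3).1 := by
    have := hm1 (show (1 : ℝ) ≤ 3 by norm_num)
    simp only [h1] at this
    linarith
  have h2 : (rgpC k 2).2 - (rgpC k 2).1 ≤ 1 := by
    have := hm2 (show (1 : ℝ) ≤ 2 by norm_num)
    simp only [h1] at this
    linarith
  obtain ⟨t₁, ht₁, hσ⟩ := intermediate_value_Icc (show (2 : ℝ) ≤ 3 by norm_num) hc.continuousOn
    ⟨h2, h3⟩
  refine ⟨t₁, ht₁, ?_⟩
  have hon := rgp_on hk t₁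
  obtain ⟨ha, -⟩ := hk.nonneg_of_add hon
  have hσ' : (rgpC k t₁).2 - (rgpC k t₁).1 = 1 := hσ
  have hb : 1 ≤ (rgpC k t₁).2 := by linarith
  rw [hk.far _ hb, add_zero, hk.eq_one_iff] at hon
  exact Prod.ext hon (by simp only; linarith)

/-- **(SEAM-P)** unit speed parametrisation of the corner. -/
theorem rgs_prof_exists (hk : IsCorner k) : ∃ (a b : ℝ → ℝ) (ℓ : ℝ), RgsProf k a b ℓ := by
  obtain ⟨t₁, ht₁, h1⟩ := rgp_exists_time hk
  have hda : ∀ s, HasDerivAt (fun s => (rgpC k (s + 2)).1) (rgpF k (rgpC k (s + 2))).1 s := fun s =>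
    rgp_hasDerivAt_fst (c := fun s => rgpC k (s + 2))
      (by simpa using (rgp_deriv hk (s + 2)).comp_add_const s 2)
  have hdb : ∀ s, HasDerivAt (fun s => (rgpC k (s + 2)).2) (rgpF k (rgpC k (s + 2))).2 s := fun s =>
    rgp_hasDerivAt_snd (c := fun s => rgpC k (s + 2))
      (by simpa using (rgp_deriv hk (s + 2)).comp_add_const s 2)
  have hsm : ContDiff ℝ ∞ (fun s : ℝ => rgpC k (s + 2)) :=
    (rgp_C_smooth hk).comp (contDiff_id.add contDiff_const)
  have hleft : ∀ s : ℝ, s ≤ -1 → (rgpC k (s + 2)).1 = -s ∧ (rgpC k (s + 2)).2 = 0 := by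
    intro s hs
    rw [rgp_C_bottom hk (by linarith)]
    exact ⟨by simp only; ring, rfl⟩
  have hright : ∀ s : ℝ, t₁ - 2 ≤ s →
      (rgpC k (s + 2)).1 = 0 ∧ (rgpC k (s + 2)).2 = s - (t₁ - 2) + 1 := by
    intro s hs
    rw [rgp_C_left hk h1 (by linarith)]
    exact ⟨rfl, by simp only; ring⟩
  refine ⟨fun s => (rgpC k (s + 2)).1, fun s => (rgpC k (s + 2)).2, t₁ - 2,
    contDiff_fst.comp hsm, contDiff_snd.comp hsm, fun s => ?_, fun s => ?_, fun s => ?_, hleft,
    hright, by linarith [ht₁.1], by linarith [ht₁.2], fun s => rgp_on hk _, fun x y hxy => ?_⟩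
  · rw [(hda s).deriv, (hdb s).deriv]
    exact rgp_F_speed hk (rgp_mem hk _)
  · rw [(hda s).deriv]
    exact rgp_F_fst_nonpos hk (rgp_mem hk _)
  · rw [(hdb s).deriv]
    exact rgp_F_snd_nonneg hk (rgp_mem hk _)
  · obtain ⟨hx0, hy0⟩ := hk.nonneg_of_add hxy
    rcases le_or_gt 1 x with hx | hx
    · have hy : y = 0 := by
        rw [hk.far x hx, zero_add] at hxy
        exact hk.eq_one_iff.1 hxy
      obtain ⟨e1, e2⟩ := hleft (-x) (by linarith)
      exact ⟨-x, by simp only [e1, neg_neg], by simp only [e2, hy]⟩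
    rcases le_or_gt 1 y with hy | hy
    · have hx' : x = 0 := by
        rw [hk.far y hy, add_zero] at hxy
        exact hk.eq_one_iff.1 hxy
      obtain ⟨e1, e2⟩ := hright (y + (t₁ - 2) - 1) (by linarith)
      exact ⟨y + (t₁ - 2) - 1, by simp only [e1, hx'], by simp only [e2]; ring⟩
    · have hc : Continuous (fun s => (rgpC k (s + 2)).2 - (rgpC k (s + 2)).1) :=
        continuous_iff_continuousAt.2 fun s => ((hdb s).sub (hda s)).continuousAt
      obtain ⟨e1, e2⟩ := hleft (-1) le_rfl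
      obtain ⟨e3, e4⟩ := hright (t₁ - 2) le_rfl
      obtain ⟨s, -, hs⟩ := intermediate_value_Icc (show (-1 : ℝ) ≤ t₁ - 2 by linarith [ht₁.1])
        hc.continuousOn (show y - x ∈ Icc _ _ from
          ⟨by simp only [e1, e2]; linarith, by simp only [e3, e4]; linarith⟩)
      exact ⟨s, hk.eq_of_sub_eq (rgp_on hk _) hxy hs⟩

end top

end Claimed.Agent.R315
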