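import Claimed.Agent.R315.Pk.Thr

/-!
# Row 315, package Rg, unit UT: WIDTH SELECTION `rgu_select`   (architect of UT: helper29; this file: helper110; prefix `rgu_s`)

PURE TOPOLOGY / ANALYSIS in a finite dimensional normed space `V` (Mathlib + `pk_exists_tol` of `Pk/Thr.lean`).

`K k` = pairwise disjoint, locally finite compact "bands"; `Bad v r` (monotone in `r`) cannot hold for small `r` locally uniformly off the bands; `A v ε r` holds for small `r` locally uniformly.
There is a smooth positive `κ` such that every `v` with `Bad v (κ v)` has a ball `dist · v < ε` on which `κ` is CONSTANT, and `A v ε (κ v)`.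

Construction: `d k ≤ 1` = separation of `K k` from the other bands; `χ k` = bump, `1` on `cthickening (d k / 4) (K k)`, supported in `thickening (3 d k / 8) (K k)`;
`κ = ∑ᶠ k, χ k * c k + (1 - ∑ᶠ k, χ k) * m`, `c k` small constants, `m` a smooth positive minorant off the open thickenings `thickening (d k / 8) (K k)`.
-/

set_option autoImplicit false
open scoped ContDiff Topology Manifold
open Set Metric

namespace Claimed.Agent.R315

variable {V : Type} [NormedAddCommGroup V] [NormedSpace ℝ V] [FiniteDimensional ℝ V]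

/-- a smooth bump which is `1` on a compact set, with support in a given open set. -/
theorem rgu_s_bump {K O : Set V} (hK : IsCompact K) (hO : IsOpen O) (hKO : K ⊆ O) :
    ∃ χ : V → ℝ, ContDiff ℝ ∞ χ ∧ tsupport χ ⊆ O ∧ (∀ x, 0 ≤ χ x ∧ χ x ≤ 1) ∧ ∀ x ∈ K, χ x = 1 := by
  obtain ⟨L, hL, hKL, hLO⟩ := exists_compact_between hK hO hKO
  obtain ⟨f, h1, h0, hf⟩ := exists_contMDiffMap_one_nhds_of_subset_interior (n := ⊤)
    (modelWithCornersSelf ℝ V) hK.isClosed hKL
  have hsupp : tsupport (f : V → ℝ) ⊆ L := by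
    refine closure_minimal (fun x hx => ?_) hL.isClosed
    by_contra hxL
    exact hx (h0 x hxL)
  exact ⟨f, f.contMDiff.contDiff, hsupp.trans hLO, fun x => hf x, fun x hx => h1.self_of_nhdsSet x hx⟩

/-- the bands are a locally finite family. -/
theorem rgu_s_locFin {K : ℕ → Set V} (hKf : ∀ C, IsCompact C → {k | (K k ∩ C).Nonempty}.Finite) :
    LocallyFinite K := fun x =>
  ⟨closedBall x 1, closedBall_mem_nhds x one_pos, hKf _ (isCompact_closedBall x 1)⟩

/-- separation of a band from the other bands. -/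
theorem rgu_s_sep {K : ℕ → Set V} (hKc : ∀ k, IsCompact (K k))
    (hKd : Pairwise (Function.onFun Disjoint K))
    (hKf : ∀ C, IsCompact C → {k | (K k ∩ C).Nonempty}.Finite) (k : ℕ) :
    ∃ d : ℝ, 0 < d ∧ d ≤ 1 ∧ ∀ l, l ≠ k → ∀ x ∈ K k, ∀ y ∈ K l, d ≤ dist x y := by
  have hcl : IsClosed (⋃ l : {l : ℕ // l ≠ k}, K l) :=
    ((rgu_s_locFin hKf).comp_injective Subtype.val_injective).isClosed_iUnion
      fun l => (hKc l).isClosed
  have hdis : Disjoint (K k) (⋃ l : {l : ℕ // l ≠ k}, K l) :=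
    disjoint_iUnion_right.2 fun l => hKd (Ne.symm l.2)
  obtain ⟨r, hr, h⟩ := exists_pos_forall_lt_edist (hKc k) hcl hdis
  refine ⟨min r 1, lt_min (by exact_mod_cast hr) one_pos, min_le_right _ _, fun l hl x hx y hy => ?_⟩
  have h1 := h x hx y (mem_iUnion.2 ⟨⟨l, hl⟩, hy⟩)
  rw [edist_dist, ← ENNReal.ofReal_coe_nnreal] at h1
  exact (min_le_left _ _).trans ((ENNReal.ofReal_lt_ofReal_iff_of_nonneg (NNReal.coe_nonneg r)).1 h1).le

omit [NormedSpace ℝ V] [FiniteDimensional ℝ V] in
/-- points of closed thickenings of compact sets. -/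
theorem rgu_s_mem_cth {K : Set V} (hK : IsCompact K) {δ : ℝ} (hδ : 0 ≤ δ) {x : V}
    (hx : x ∈ cthickening δ K) : ∃ a ∈ K, dist x a ≤ δ := by
  rw [hK.cthickening_eq_biUnion_closedBall hδ] at hx
  obtain ⟨a, ha, hxa⟩ := mem_iUnion₂.1 hx
  exact ⟨a, ha, hxa⟩

/-- **WIDTH SELECTION.** -/
theorem rgu_select (K : ℕ → Set V) (hKc : ∀ k, IsCompact (K k))
    (hKd : Pairwise (Function.onFun Disjoint K))
    (hKf : ∀ C, IsCompact C → {k | (K k ∩ C).Nonempty}.Finite)
    (Bad : V → ℝ → Prop) (hBm : ∀ v r r2, Bad v r → r ≤ r2 → Bad v r2)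
    (hcore : ∀ C, IsCompact C → (∀ k, Disjoint C (K k)) → ∃ dl > 0, ∀ v ∈ C, ¬ Bad v dl)
    (A : V → ℝ → ℝ → Prop)
    (hA : ∀ C, IsCompact C → ∀ eps > 0, ∃ rho > 0, ∀ v ∈ C, ∀ r, 0 < r → r ≤ rho → A v eps r) :
    ∃ kap : V → ℝ, ContDiff ℝ ∞ kap ∧ (∀ v, 0 < kap v) ∧
      ∀ v, Bad v (kap v) → ∃ eps > 0, (∀ v2, dist v2 v < eps → kap v2 = kap v) ∧
        A v eps (kap v) := by
  classical
  choose d hd0 hd1 hd using rgu_s_sep hKc hKd hKf
  -- the closed thickenings of radius `3 d k / 8` are pairwise disjoint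
  have hN3d : ∀ k l, k ≠ l → ∀ x, x ∈ cthickening (3 * d k / 8) (K k) →
      x ∉ cthickening (3 * d l / 8) (K l) := by
    intro k l hkl x hxk hxl
    obtain ⟨a, ha, hxa⟩ := rgu_s_mem_cth (hKc k) (by linarith [hd0 k]) hxk
    obtain ⟨b, hb, hxb⟩ := rgu_s_mem_cth (hKc l) (by linarith [hd0 l]) hxl
    have h1 := hd k l (Ne.symm hkl) a ha b hb
    have h2 := hd l k hkl b hb a ha
    have h3 : dist a b ≤ dist x a + dist x b := by
      rw [dist_comm x a]; exact dist_triangle a x b
    rw [dist_comm b a] at h2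
    linarith [hd0 k, hd0 l]
  -- they are locally finite
  have hN3f : LocallyFinite fun k => cthickening (3 * d k / 8) (K k) := by
    intro x
    refine ⟨closedBall x 1, closedBall_mem_nhds x one_pos,
      (hKf _ (isCompact_closedBall x 2)).subset ?_⟩
    rintro k ⟨y, hyk, hyx⟩
    obtain ⟨a, ha, hya⟩ := rgu_s_mem_cth (hKc k) (by linarith [hd0 k]) hyk
    refine ⟨a, ha, ?_⟩
    rw [mem_closedBall] at hyx ⊢
    have := dist_triangle a y x
    rw [dist_comm a y] at this
    linarith [hd1 k, hd0 k]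
  -- the bumps
  have hbump : ∀ k, ∃ χ : V → ℝ, ContDiff ℝ ∞ χ ∧ tsupport χ ⊆ thickening (3 * d k / 8) (K k) ∧
      (∀ x, 0 ≤ χ x ∧ χ x ≤ 1) ∧ ∀ x ∈ cthickening (d k / 4) (K k), χ x = 1 := fun k =>
    rgu_s_bump (hKc k).cthickening isOpen_thickening
      (cthickening_subset_thickening' (by linarith [hd0 k]) (by linarith [hd0 k]) _)
  choose χ hχc hχs hχ01 hχ1 using hbump
  have hχ0 : ∀ k x, x ∉ cthickening (3 * d k / 8) (K k) → χ k x = 0 := by
    intro k x hx
    by_contra h
    exact hx (thickening_subset_cthickening _ _ (hχs k (subset_tsupport _ h)))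
  have hχf : LocallyFinite fun k => Function.support (χ k) :=
    hN3f.subset fun k x hx => by
      by_contra h
      exact hx (hχ0 k x h)
  -- the open thickenings, the complement of their union
  set Z : Set V := (⋃ k, thickening (d k / 8) (K k))ᶜ with hZ
  have hZc : IsClosed Z := (isOpen_iUnion fun k => isOpen_thickening).isClosed_compl
  have hZK : ∀ k, Disjoint Z (K k) := fun k => disjoint_left.2 fun x hx hxk =>
    hx (mem_iUnion.2 ⟨k, self_subset_thickening (by linarith [hd0 k]) _ hxk⟩)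
  -- the constants
  have hconst : ∀ k, ∃ c : ℝ, 0 < c ∧
      (∀ v ∈ cthickening (d k / 8) (K k), A v (d k / 8) c) ∧
      ∀ v ∈ cthickening (3 * d k / 8) (K k), v ∈ Z → ¬ Bad v c := by
    intro k
    obtain ⟨ρ, hρ, h1⟩ := hA _ ((hKc k).cthickening (r := d k / 8)) (d k / 8) (by linarith [hd0 k])
    obtain ⟨δ, hδ, h2⟩ := hcore (cthickening (3 * d k / 8) (K k) ∩ Z)
      ((hKc k).cthickening.inter_right hZc) fun l => (hZK l).mono_left inter_subset_right
    refine ⟨min ρ δ, lt_min hρ hδ, fun v hv => h1 v hv _ (lt_min hρ hδ) (min_le_left _ _),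
      fun v hv hvZ hB => h2 v ⟨hv, hvZ⟩ (hBm v _ _ hB (min_le_right _ _))⟩
  choose c hc0 hcA hcB using hconst
  -- the minorant
  set S : V → Set ℝ := fun v => {r | 0 < r ∧ r ≤ 1 ∧ ¬ Bad v r} with hS
  set b : V → ℝ := fun v => if v ∈ Z then sSup (S v) / 2 else 1 with hb
  have hSb : ∀ v, BddAbove (S v) := fun v => ⟨1, fun r hr => hr.2.1⟩
  have hbloc : ∀ C : Set V, IsCompact C → ∃ δ : ℝ, 0 < δ ∧ ∀ x ∈ C, δ ≤ b x := by
    intro C hC
    obtain ⟨δ, hδ, h2⟩ := hcore (C ∩ Z) (hC.inter_right hZc)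
      fun l => (hZK l).mono_left inter_subset_right
    refine ⟨min δ 1 / 2, by have := lt_min hδ one_pos; linarith, fun x hx => ?_⟩
    simp only [hb]
    split_ifs with hxZ
    · have : min δ 1 ∈ S x := ⟨lt_min hδ one_pos, min_le_right _ _,
        fun hB => h2 x ⟨hx, hxZ⟩ (hBm x _ _ hB (min_le_left _ _))⟩
      have := le_csSup (hSb x) this
      linarith
    · have := min_le_right δ 1
      linarith
  obtain ⟨m, hmc, hm0, hmb⟩ := pk_exists_tol hbloc 0
  have hmB : ∀ v ∈ Z, ¬ Bad v (m v) := by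
    intro v hv hB
    have h1 : m v ≤ sSup (S v) / 2 := by
      have := hmb v 0 le_rfl
      rw [norm_iteratedFDeriv_zero, Real.norm_eq_abs, abs_of_pos (hm0 v)] at this
      simpa only [hb, if_pos hv] using this
    have h2 : m v < sSup (S v) := by linarith [hm0 v]
    have hne : (S v).Nonempty := by
      by_contra hne
      rw [not_nonempty_iff_eq_empty] at hne
      rw [hne, Real.sSup_empty] at h2
      linarith [hm0 v]
    obtain ⟨r, hr, hmr⟩ := exists_lt_of_lt_csSup hne h2
    exact hr.2.2 (hBm v _ _ hB hmr.le)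
  -- the function
  set σ : V → ℝ := fun v => ∑ᶠ k, χ k v with hσ
  set τ : V → ℝ := fun v => ∑ᶠ k, χ k v * c k with hτ
  have hσc : ContDiff ℝ ∞ σ := by
    rw [← contMDiff_iff_contDiff]
    exact contMDiff_finsum (fun k => (hχc k).contMDiff) hχf
  have hτc : ContDiff ℝ ∞ τ := by
    rw [← contMDiff_iff_contDiff]
    refine contMDiff_finsum (fun k => ((hχc k).mul contDiff_const).contMDiff) (hχf.subset ?_)
    intro k x hx h
    exact hx (by simp only [h, zero_mul])
  -- at most one bump is active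
  have hone : ∀ v k, v ∈ cthickening (3 * d k / 8) (K k) →
      σ v = χ k v ∧ τ v = χ k v * c k := by
    intro v k hv
    have h0 : ∀ l, l ≠ k → χ l v = 0 := fun l hl => hχ0 l v (hN3d k l (Ne.symm hl) v hv)
    exact ⟨finsum_eq_single _ k h0, finsum_eq_single _ k fun l hl => by rw [h0 l hl, zero_mul]⟩
  have hnone : ∀ v, (∀ k, v ∉ cthickening (3 * d k / 8) (K k)) → σ v = 0 ∧ τ v = 0 := by
    intro v hv
    constructor
    · simp only [hσ, fun k => hχ0 k v (hv k), finsum_zero]
    · simp only [hτ, fun k => hχ0 k v (hv k), zero_mul, finsum_zero]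
  refine ⟨fun v => τ v + (1 - σ v) * m v, hτc.add ((contDiff_const.sub hσc).mul hmc), ?_, ?_⟩
  · intro v
    by_cases hv : ∃ k, v ∈ cthickening (3 * d k / 8) (K k)
    · obtain ⟨k, hk⟩ := hv
      obtain ⟨e1, e2⟩ := hone v k hk
      simp only [e1, e2]
      obtain ⟨h0, h1⟩ := hχ01 k v
      rcases h0.eq_or_lt with h | h
      · rw [← h]; simpa using hm0 v
      · have := mul_pos h (hc0 k)
        have := mul_nonneg (sub_nonneg.2 h1) (hm0 v).le
        linarith
    · push Not at hv
      obtain ⟨e1, e2⟩ := hnone v hv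
      simp only [e1, e2]
      simpa using hm0 v
  · intro v hB
    -- `v` lies in one of the open thickenings
    have hvZ : v ∉ Z := by
      intro hvZ
      by_cases hv : ∃ k, v ∈ cthickening (3 * d k / 8) (K k)
      · obtain ⟨k, hk⟩ := hv
        obtain ⟨e1, e2⟩ := hone v k hk
        simp only [e1, e2] at hB
        obtain ⟨h0, h1⟩ := hχ01 k v
        have hle : χ k v * c k + (1 - χ k v) * m v ≤ max (c k) (m v) := by
          have a1 := mul_le_mul_of_nonneg_left (le_max_left (c k) (m v)) h0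
          have a2 := mul_le_mul_of_nonneg_left (le_max_right (c k) (m v)) (sub_nonneg.2 h1)
          nlinarith
        have hB' := hBm v _ _ hB hle
        rcases max_cases (c k) (m v) with ⟨e, -⟩ | ⟨e, -⟩
        · rw [e] at hB'; exact hcB k v hk hvZ hB'
        · rw [e] at hB'; exact hmB v hvZ hB'
      · push Not at hv
        obtain ⟨e1, e2⟩ := hnone v hv
        simp only [e1, e2] at hB
        exact hmB v hvZ (by simpa using hB)
    rw [hZ, notMem_compl_iff] at hvZ
    obtain ⟨k, hk⟩ := mem_iUnion.1 hvZ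
    -- on the ball of radius `d k / 8` the function is the constant `c k`
    have hball : ∀ v2, dist v2 v < d k / 8 → τ v2 + (1 - σ v2) * m v2 = c k := by
      intro v2 hv2
      obtain ⟨a, ha, hva⟩ := mem_thickening_iff.1 hk
      have h4 : v2 ∈ cthickening (d k / 4) (K k) := by
        refine thickening_subset_cthickening _ _ (mem_thickening_iff.2 ⟨a, ha, ?_⟩)
        have := dist_triangle v2 v a
        linarith
      have h3 : v2 ∈ cthickening (3 * d k / 8) (K k) :=
        cthickening_mono (by linarith [hd0 k]) _ h4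
      obtain ⟨e1, e2⟩ := hone v2 k h3
      rw [e1, e2, hχ1 k v2 h4]
      ring
    have hvv : τ v + (1 - σ v) * m v = c k := hball v (by rw [dist_self]; linarith [hd0 k])
    refine ⟨d k / 8, by linarith [hd0 k], fun v2 hv2 => ?_, ?_⟩
    · show τ v2 + (1 - σ v2) * m v2 = τ v + (1 - σ v) * m v
      rw [hball v2 hv2, hvv]
    · show A v (d k / 8) (τ v + (1 - σ v) * m v)
      rw [hvv]
      exact hcA k v (thickening_subset_cthickening _ _ hk)

end Claimed.Agent.R315
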