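import Claimed.Agent.R315.Rg.UtB
import Claimed.Agent.R315.Rg.UtSel
import Claimed.Agent.R315.Pk.Loc

/-!
# Row 315, package Rg, unit UT (architect helper29), file `Rg/UtTop.lean`: GLUE: `rgu_width_pf` (= `rgu_width` of `Rg/SeamTop.lean`, with (BAND) instead of `SepConf` + (LOC))

`w = κ ∘ q`, `κ` from the selection lemma `rgu_select` (`Rg/UtSel.lean`) applied to
* the bands `K k` of `PkBand C.F C.P C.j0` (`Pk/Loc.lean`),
* `Bad v r` = there is a point `x0` of a guard over `v` with `|U x0| ≤ r`   ((CORE) `rgu_core`),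
* `A v ε r` = every such point has a good lapse chart of radius `3 r` with `q`-extent `< ε`   ((UT_K) `rgu_unif`).
NO SORRY IN THIS FILE.
-/

set_option autoImplicit false
set_option linter.unusedSectionVars false
open scoped ContDiff ENNReal Topology
open MeasureTheory Claims.C0499 Set Filter

namespace Claimed.Agent.R315

variable {V W : Type} [NormedAddCommGroup V] [NormedSpace ℝ V] [NormedAddCommGroup W]
  [NormedSpace ℝ W] {ι : Type}
variable [FiniteDimensional ℝ V] [FiniteDimensional ℝ W] [Fintype ι] [MeasurableSpace W]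
  [BorelSpace W]

/-- smallness of the width for small radii. -/
theorem rgu_small {e0 B : ℝ} (he0 : 0 < e0) (hB : 1 ≤ B) :
    ∃ ρ > 0, ∀ r, 0 < r → r ≤ ρ → RgsSmall e0 B r := by
  have hm : 0 < min 1 e0 := lt_min one_pos he0
  have hD : 0 < 10 ^ 6 * B ^ 2 := by positivity
  refine ⟨(min 1 e0 / (10 ^ 6 * B ^ 2)) ^ 2, by positivity, fun r hr hle => ⟨hr, hB, ?_⟩⟩
  have h1 : Real.sqrt r ≤ min 1 e0 / (10 ^ 6 * B ^ 2) := by
    rw [← Real.sqrt_sq (by positivity : 0 ≤ min 1 e0 / (10 ^ 6 * B ^ 2))]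
    exact Real.sqrt_le_sqrt hle
  rw [le_div_iff₀ hD] at h1
  linarith

/-- functions of the base point are smooth and compatible. -/
theorem rgu_sc_comp_q (n : ℕ) (F : Frame V W ι) (E : Stat ι → Set W) {κ : V → ℝ}
    (hκ : ContDiff ℝ ∞ κ) : SC n F E (fun z => κ (F.q z)) :=
  ⟨fun _ => if_smoothAlong_of_contDiff (hκ.comp F.q.contDiff),
    fun i _ _ => ⟨0, fun z _ _ _ => by simp only [F.q_drop]⟩⟩

/-- **(UT)** the width and the uniform lapse charts. -/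
theorem rgu_width_pf (C : ShCtx V W ι) (hC : C.Ok) (hband : PkBand C.F C.P C.j0)
    (P1 : PData W ι C.B.J) (hS : ShieldOK C P1)
    (s' : ℝ) (hs : C.s < s') (hs' : s' ≤ 1) (he : C.e0 = (pkL C.s - pkL s') / 100) {Ω : Set W}
    {U : W → ℝ} (hT : RgTrue C P1 Ω U) :
    ∃ w : W → ℝ, SC C.B.n C.F C.P.E w ∧ (∀ z ∈ tot C.P.E, 0 < w z) ∧
      ∀ (α : Stat ι) (d : ℕ), C.m α = d + 1 → ∀ x0 ∈ C.guard P1 α, |U x0| ≤ w x0 →
        ∃ (ψ : E (d + 1) → W) (B : ℝ), RgsChart d (C.EO Ω α) C.P.h C.P.dr U w (C.Vb P1 s')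
          {x | C.PI P1 s' α 99 x} C.e0 x0 ψ B := by
  obtain ⟨K, hKc, hKd, hKf, hdec⟩ := hband
  obtain ⟨κ, hκ, hκ0, hsel⟩ := rgu_select K hKc hKd hKf
    (fun v r => ∃ α, ∃ x0 ∈ C.guard P1 α, C.F.q x0 = v ∧ |U x0| ≤ r)
    (fun v r r' ⟨α, x0, h1, h2, h3⟩ hr => ⟨α, x0, h1, h2, h3.trans hr⟩)
    (fun C' hC' hdis => by
      obtain ⟨δ, hδ, hcore⟩ := rgu_core hC hS hT hC' fun z hz hq =>
        hdec z hz fun k hk => Set.disjoint_left.1 (hdis k) hq hk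
      refine ⟨δ, hδ, ?_⟩
      rintro v hv ⟨α, x0, h1, rfl, h3⟩
      exact absurd h3 (not_le.2 (hcore α x0 h1 hv)))
    (fun v ε r => ∀ (α : Stat ι) (d : ℕ), C.m α = d + 1 → ∀ x0 ∈ C.guard P1 α, C.F.q x0 = v →
      |U x0| ≤ r → ∃ (ψ : E (d + 1) → W) (B : ℝ), rm_LapseP (C.EO Ω α) C.P.h U x0 ψ (3 * r) ∧
        (∀ u ∈ rm_box d (U x0) (3 * r), dist (C.F.q (ψ u)) v < ε ∧
          RgsBd d (C.EO Ω α) C.P.h C.P.dr U (C.Vb P1 s') B (ψ u) ∧ C.PI P1 s' α 99 (ψ u)) ∧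
        RgsSmall C.e0 B r)
    (fun C' hC' ε hε => by
      obtain ⟨ρ, hρ, B, hu⟩ := rgu_unif hC hS hs hs' he hT hC' hε
      obtain ⟨ρ₁, hρ₁, hsm⟩ := rgu_small hC.e0_pos (le_max_right B 1)
      refine ⟨min ρ ρ₁, lt_min hρ hρ₁, ?_⟩
      rintro v hv r hr hle α d hd x0 hx0 rfl hU
      obtain ⟨ψ, hL, hb⟩ := hu α d hd x0 hx0 hv (hU.trans (hle.trans (min_le_left _ _)))
      have h3 : 3 * r ≤ 3 * ρ := by linarith [hle.trans (min_le_left ρ ρ₁)]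
      refine ⟨ψ, max B 1, hL.mono (by positivity) h3, fun u hu' => ?_,
        hsm r hr (hle.trans (min_le_right _ _))⟩
      obtain ⟨b1, b2, b3⟩ := hb u (rm_box_mono _ h3 hu')
      exact ⟨b1, b2.mono (le_max_left _ _), b3⟩)
  refine ⟨fun z => κ (C.F.q z), rgu_sc_comp_q _ _ _ hκ, fun z _ => hκ0 _, ?_⟩
  intro α d hd x0 hx0 hU
  obtain ⟨ε, _, hconst, hA⟩ := hsel (C.F.q x0) ⟨α, x0, hx0, rfl, hU⟩
  obtain ⟨ψ, B, hL, hb, hsm⟩ := hA α d hd x0 hx0 rfl hU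
  exact ⟨ψ, B, hL, fun v hv => hconst _ (hb v hv).1, fun v hv => (hb v hv).2.1,
    fun v hv => (hb v hv).2.2, hsm⟩

end Claimed.Agent.R315
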