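import Claimed.Agent.R315.Rg.SeamF
import Claimed.Agent.R315.Rg.SeamGa
import Claimed.Agent.R315.Rg.BudP
import Claimed.Agent.R315.Rg.BudW
import Claimed.Agent.R315.Rg.SeamP
import Claimed.Agent.R315.Rg.BudRawC
import Claimed.Agent.R315.Rg.UtTop
import Claimed.Agent.R315.Rg.SeamG4

/-!
# Row 315, package Rg, units BUD + SEAM + UT: THE CONTRACTS AND THE GLUE `rg_gap_pf`   (architect: helper36)

Definitions, notation and the whole plan: header of `Rg/SeamDefs.lean`.

| contract | unit | owner | files |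
|----------|------|-------|-------|
| `rgb_wall`, `rgb_raw`, `rgb_pi`, `rgb_pi_nhd` | BUD | helper204 | `Rg/Bud*.lean` |
| `rgu_width` | UT | BP-RG-UT | `Rg/SeamU*.lean` |
| `rgs_prof_exists`, `rgs_corner_exists` | SEAM-P | L-RG-SEAM-PROF | `Rg/SeamP.lean` |
| `rgs_fibre` | SEAM-A | helper36 | `Rg/SeamF*.lean` |
| `rgs_side_gap`, `RgsChart.neg` | SEAM-G | helper35 | `Rg/SeamG*.lean` |

Each owner replaces the `sorry` of his contract by a one line redirect to his file (move the statement there and import it here, or import this file's DEFINITIONS only: `Rg/SeamDefs.lean`).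

## NOTES FOR UT (`rgu_width`)
(UT_K) for every compact `K ⊆ V` there are `ρ > 0`, `B` such that every `x0 ∈ guard α` over `K` with `|U x0| ≤ ρ` has, for every `r ≤ ρ`, a lapse chart of radius `3 r` with image in the ball `‖· - x0‖ ≤ C r`, invariants `≤ B`, `PI 99`.
By contradiction: `x_n ∈ guard`, `U x_n → 0`; `ct_escape`: `x_n = y_n + vec J (s n)`, `y_n → y'` in the member `(α.faceS J, J)`, `dropS J y' ∈ guard (face) ⊆ Ω` (forward compatibility of the guards), (AC): `U (· + vec J (s n)) → U ∘ dropS J` near `y'`, so `U (dropS J y') = 0`, regular (`RgTrue.reg`).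
In ONE parametrisation of the member around `y'`: the fields `rm_N G q_n` are bounded on a closed ball and `gradSqC G q_n ≥ c > 0` there (`RgsAt`), so the integral curves through `u_n → u'` stay in the ball for `|a| ≤ ρ` (`ODE.mem_dom_of_apriori`);
LONG THIN lapse coordinates around an integral curve inside one chart (generalisation of `rm_orth_chart`: `isOpen_dom` + tube lemma; rescale the `y` variables to get the cube `rm_box`); the invariants converge (`CtConvAt` calculus, `rg_soft_*`), `PI`: `rgb_pi` at the limit point (`j0` is undecided on the wall: `CutOK.up/un`) + continuity and exact compatibility of `Dsc`, `V*`, `add`, `pot`.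
Translation back to `E α`: `ct_window`, `ct_window_compat`.
(CORE) `c(K) = inf |U|` over `guard ∩ closure (cores of j0)` over `K` is positive (same argument: the limit point lies in `ctIn ∪ ctOut` of the face).
WIDTH.  Case `Conf + K0`: over `M \ K0` all points lie in the cores of `j0` (`forced_up/un`).  `w = ŵ ∘ q`, `ŵ` smooth positive, `ŵ = w0` on a compact neighbourhood `K2` of `K0`, `w0 < c(K2)`, `w0 ≤ ρ(K2)`, `10^6 B² √w0 ≤ min 1 e0`, images of the charts over `K0` stay over `K2`;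
off `K2`: `ŵ y < c (closedBall y 1)` (smooth positive minorant of a function which is locally bounded below), so there is NO `x0` with `|U x0| ≤ w x0` there.
Case `IsEmpty ι` (`Compat` is void; `q` is injective, so sets over compact sets are relatively compact): `Z = guard ∩ ctBd` is closed and misses `closure Un`; the components `B_i` of `E \ closure Un` are open, relatively compact (`SepConf`), `Z_i = Z ∩ B_i` compact, locally finite;
`Z_i ⊆ N_i ⊆ N_i'' ⊆ B_i`; `w = Σ χ_i e_i + (1 - Σ χ_i) m`, `χ_i = 1` on `N_i`, supported in `N_i''`, `e_i < inf |U|` on `guard ∩ closure N_i'' \ N_i`, `m` a smooth positive minorant of `|U|` on `guard \ ⋃ N_i`, `e_i` small by compactness of `guard ∩ closure N_i''`.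
-/

set_option autoImplicit false
open scoped ContDiff ENNReal Topology
open MeasureTheory Claims.C0499 Set Filter

namespace Claimed.Agent.R315

/-! ## SEAM: manifold level and chart level contracts -/

/-! `rgs_corner_exists`, `rgs_prof_exists` **(SEAM-P)**: PROVED in `Rg/SeamP.lean`. -/

/-- **(SEAM-A) THE FIBRE INEQUALITY** (pure calculus on `E (d + 1)`; plan: header of `Rg/SeamDefs.lean`). -/
theorem rgs_fibre {d : ℕ} {G : rm_MF (d + 1)} {c0 δ B e0 ℓ L : ℝ} {t Vs F : E (d + 1) → ℝ}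
    {k a b : ℝ → ℝ} (hp : RgsProf k a b ℓ) (hc0 : |c0| ≤ δ)
    (hG : rm_Met G (rm_box d c0 (3 * δ))) (ho : rm_Orth G (rm_box d c0 (3 * δ)))
    (ht : ContDiffOn ℝ ∞ t (rm_box d c0 (3 * δ))) (hVs : ContinuousOn Vs (rm_box d c0 (3 * δ)))
    (hbd : ∀ v ∈ rm_box d c0 (3 * δ), RgsBdC G t Vs B v)
    (hunit : ∀ v ∈ rm_box d c0 (3 * δ), v 0 = 0 → G v 0 0 = 1)
    (hsm : RgsSmall e0 B δ) (he0 : 0 < e0)
    (hF : ContDiffOn ℝ ∞ F (rgsDom d δ)) (hL : ∀ v ∈ rgsDom d δ, L ≤ v 0 → F v = 0)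
    {u : E d} (hu : ‖u‖ < 3 * δ) :
    (∫ x in Set.Ioo (0 : ℝ) (3 * δ / 2), rgsIB G t Vs e0 F (rm_J x u)) +
        (∫ s in Set.Ioi (0 : ℝ), rgsIC G t Vs e0 F (rm_J s u)) + rgsIS G t F u ≤
      ∫ s in Set.Ioi (-(3 * δ / 2)), rgsIX G a b δ t Vs e0 F (rm_J s u) :=
  rgs_fibre_pf hp hc0 hG ho ht hVs hbd hunit hsm he0 hF hL hu

section mfd

variable {V : Type} [NormedAddCommGroup V] [NormedSpace ℝ V] [FiniteDimensional ℝ V]
  [MeasurableSpace V] [BorelSpace V]

/-- a good chart for `U` gives a good chart for `-U` (reflect the first coordinate). -/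
theorem RgsChart.neg {d : ℕ} {M : Set V} {h : Ten V} {t U w Vs : V → ℝ} {P : Set V} {e0 : ℝ}
    {x0 : V} {ψ : E (d + 1) → V} {B : ℝ} (hG : CtGeo (d + 1) M h t)
    (hU : SmoothAlong (d + 1) M U) (H : RgsChart d M h t U w Vs P e0 x0 ψ B) :
    RgsChart d M h t (fun x => -U x) w Vs P e0 x0 (fun v => ψ (rgsRf v)) B :=
  H.neg' hG hU

/-- **(SEAM-G) THE FORM GAP ON ONE ROUNDED SIDE.** -/
theorem rgs_side_gap {d : ℕ} {M : Set V} {h : Ten V} {t U w Vs : V → ℝ} {k : ℝ → ℝ} {e e0 : ℝ}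
    {D P : Set V} (hG : CtGeo (d + 1) M h t) (hU : SmoothAlong (d + 1) M U)
    (hunit : ∀ x ∈ M, U x = 0 → gradSq (d + 1) M h U x = 1)
    (hw : ContinuousOn w M) (hw0 : ∀ x ∈ M, 0 < w x) (hVs : ContinuousOn Vs M) (hk : IsCorner k)
    (he : e = 1 ∨ e = -1) (he0 : 0 < e0)
    (hDP : ∀ x ∈ D ∩ M, ∃ N ∈ 𝓝 x, N ∩ M ⊆ P)
    (htube : ∀ x0 ∈ D ∩ M, |U x0| ≤ w x0 →
      ∃ (ψ : E (d + 1) → V) (B : ℝ), RgsChart d M h t U w Vs P e0 x0 ψ B)
    (hraw : RgRawOK d M h t U Vs P e0) :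
    ∃ O : Set (V × ℝ), IsOpen O ∧ (∀ z ∈ rgsX M U w k e, z.1 ∈ D → z ∈ O) ∧
      GsGap (d + 1) (rgsX M U w k e ∩ O) (extTen h) (fun z => t z.1) 4
        (fun z => Dsc (d + 1) (rgsX M U w k e) (extTen h) (fun z => t z.1) z - Vs z.1) e0 := by
  obtain ⟨a, b, ℓ, hp⟩ := rgs_prof_exists hk
  exact rgsg_side_gap hp
    (fun _ _ _ _ _ _ _ _ _ _ _ _ _ hp' hc0 hG' ho ht hVs' hbd hun hsm he0' hF hL _ hu =>
      rgs_fibre hp' hc0 hG' ho ht hVs' hbd hun hsm he0' hF hL hu)
    hG hU hunit hw hw0 hVs hk he he0 hDP htube hraw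

end mfd

section aux

variable {V : Type} [NormedAddCommGroup V] [NormedSpace ℝ V] [MeasurableSpace V] [BorelSpace V]

omit [BorelSpace V] in
/-- the form gap is void on the empty set. -/
theorem rgs_gap_empty (d : ℕ) (h : Ten V) (t : V → ℝ) (c : ℝ) (Wp : V → ℝ) (γ : ℝ) :
    GsGap d (∅ : Set V) h t c Wp γ := by
  intro φ _
  have h0 : wvol d (∅ : Set V) h t = 0 := by
    unfold wvol
    rw [Set.indicator_empty]
    exact withDensity_zero
  simp [gsN, gsB, h0]

end aux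

/-! ## the contracts in the context -/

variable {V W : Type} [NormedAddCommGroup V] [NormedSpace ℝ V] [NormedAddCommGroup W]
  [NormedSpace ℝ W] {ι : Type}
variable [FiniteDimensional ℝ V] [FiniteDimensional ℝ W] [Fintype ι] [MeasurableSpace W]
  [BorelSpace W]

/-- **(BUD a)** the form gap on the true walls. -/
theorem rgb_wall (C : ShCtx V W ι) (hC : C.Ok) (P1 : PData W ι C.B.J) (hS : ShieldOK C P1)
    (s' : ℝ) (hs : C.s < s') (hs' : s' ≤ 1) (he : C.e0 = (pkL C.s - pkL s') / 100) {Ω : Set W}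
    {U : W → ℝ} (hT : RgTrue C P1 Ω U) (w : W → ℝ) (k : ℝ → ℝ) (α' : Stat (Option ι))
    (h0 : α' none = 0) :
    ∃ O : Set (W × ℝ), IsOpen O ∧ C.req P1 (splitE (C.EO Ω) U w k) α' ⊆ O ∧
      GsGap (C.B.n - hits α') (splitE (C.EO Ω) U w k α' ∩ O) (extTen C.P.h)
        (fun y => C.P.dr y.1) 4
        (rgW C.B.n (splitE (C.EO Ω) U w k) (extTen C.P.h) (fun y => C.P.dr y.1)
          (rgVs P1 C.R C.s s') α') C.e0 :=
  rgb_wall_pf C hC P1 hS s' hs hs' he hT w k α' h0

/-- **(BUD b)** the raw joined inequality on both true sides, smooth form. -/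
theorem rgb_raw (C : ShCtx V W ι) (hC : C.Ok) (P1 : PData W ι C.B.J) (hS : ShieldOK C P1)
    (s' : ℝ) (hs : C.s < s') (hs' : s' ≤ 1) (he : C.e0 = (pkL C.s - pkL s') / 100) {Ω : Set W}
    {U : W → ℝ} (hT : RgTrue C P1 Ω U) (α : Stat ι) {d : ℕ} (hd : C.m α = d + 1) {ε : ℝ}
    (hε : ε = 1 ∨ ε = -1) :
    RgRawOK d (C.EO Ω α) C.P.h C.P.dr (fun x => ε * U x) (C.Vb P1 s')
      {x | C.PI P1 s' α 99 x} C.e0 :=
  rgb_raw_pf C hC P1 hS s' hT α hd hε

/-- **(BUD c)** the pointwise budget with margin `100 e0` on the required set of the parent. -/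
theorem rgb_pi (C : ShCtx V W ι) (hC : C.Ok) (P1 : PData W ι C.B.J) (hS : ShieldOK C P1)
    (s' : ℝ) (hs : C.s < s') (hs' : s' ≤ 1) (he : C.e0 = (pkL C.s - pkL s') / 100) (α : Stat ι)
    {z : W} (hz : z ∈ C.P.E α) (hc : C.P.Cnt C.rem (C.m α - 1) z) : C.PI P1 s' α 100 z :=
  rgb_pi_pf C hC P1 hS s' hs hs' he α hz hc

/-- **(BUD c')** the pointwise budget with margin `99 e0` near the required set of the parent. -/
theorem rgb_pi_nhd (C : ShCtx V W ι) (hC : C.Ok) (P1 : PData W ι C.B.J) (hS : ShieldOK C P1)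
    (s' : ℝ) (hs : C.s < s') (hs' : s' ≤ 1) (he : C.e0 = (pkL C.s - pkL s') / 100) (α : Stat ι)
    {z : W} (hz : z ∈ C.P.E α) (hc : C.P.Cnt C.rem (C.m α - 1) z) :
    ∃ N ∈ 𝓝 z, ∀ y ∈ N ∩ C.P.E α, C.PI P1 s' α 99 y :=
  rgb_pi_nhd_pf C hC P1 hS s' hs hs' he α hz hc

/-- **(UT)** the width and the uniform lapse charts. -/
theorem rgu_width (C : ShCtx V W ι) (hC : C.Ok) (hsep : SepConf C.F C.P C.j0) (hloc : C.Loc)
    (P1 : PData W ι C.B.J) (hS : ShieldOK C P1)
    (s' : ℝ) (hs : C.s < s') (hs' : s' ≤ 1) (he : C.e0 = (pkL C.s - pkL s') / 100) {Ω : Set W}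
    {U : W → ℝ} (hT : RgTrue C P1 Ω U) :
    ∃ w : W → ℝ, SC C.B.n C.F C.P.E w ∧ (∀ z ∈ tot C.P.E, 0 < w z) ∧
      ∀ (α : Stat ι) (d : ℕ), C.m α = d + 1 → ∀ x0 ∈ C.guard P1 α, |U x0| ≤ w x0 →
        ∃ (ψ : E (d + 1) → W) (B : ℝ), RgsChart d (C.EO Ω α) C.P.h C.P.dr U w (C.Vb P1 s')
          {x | C.PI P1 s' α 99 x} C.e0 x0 ψ B :=
  rgu_width_pf C hC hloc.2 P1 hS s' hs hs' he hT

/-! ## the glue -/

omit [FiniteDimensional ℝ V] [FiniteDimensional ℝ W] in
/-- labels undecided after shielding were undecided before. -/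
theorem rgs_cnt_parent (C : ShCtx V W ι) (P1 : PData W ι C.B.J) (hS : ShieldOK C P1) {m : ℕ}
    {z : W} (h : P1.Cnt C.R m z) : C.P.Cnt C.rem m z := by
  obtain ⟨s, hs, hc⟩ := h
  refine ⟨s, fun j hj => ?_, hc⟩
  obtain ⟨hR, hu⟩ := hs j hj
  exact ⟨hR.1, fun h1 => hu.1 (hS.up_mono j hR h1), fun h1 => hu.2 (hS.un_mono j hR h1)⟩

/-- `V*` is continuous along the status spaces. -/
theorem rgs_Vb_cont (C : ShCtx V W ι) (hC : C.Ok) (P1 : PData W ι C.B.J) (hS : ShieldOK C P1)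
    (s' : ℝ) (α : Stat ι) : ContinuousOn (C.Vb P1 s') (C.P.E α) := by
  have hD : IsDiag C.B.n C.B.M C.F P1.E := by rw [hS.E_eq]; exact hC.inv.diag
  have h1 : SC C.B.n C.F P1.E (P1.potSum C.R) :=
    rg_potSum_sc hC.base hD (fun j hj => (hS.label j hj).pot_sc)
      (by rw [hS.E_eq]; exact hS.passive)
  have h2 : ContinuousOn (P1.potSum C.R) (C.P.E α) := by
    have := if_smoothAlong_continuousOn (hD.mfd α) (h1.1 α)
    rwa [hS.E_eq] at this
  have e : C.Vb P1 s' = fun x => pkL s' + pkB s' * (rgKap C.s s' * P1.potSum C.R x) := by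
    funext x
    exact rgVs_eq P1 C.R C.s s' (x, 0)
  rw [e]
  exact continuousOn_const.add (continuousOn_const.mul (continuousOn_const.mul h2))

/-- **(BUD + SEAM + UT)** width, corner profile and the form gap on the true pieces (`rg_gap` of `Rg/Top.lean`, with `hsep`, `hloc`). -/
theorem rg_gap_pf (C : ShCtx V W ι) (hC : C.Ok) (hsep : SepConf C.F C.P C.j0) (hloc : C.Loc)
    (P1 : PData W ι C.B.J) (hS : ShieldOK C P1)
    (s' : ℝ) (hs : C.s < s') (hs' : s' ≤ 1) (he : C.e0 = (pkL C.s - pkL s') / 100) {Ω : Set W}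
    {U : W → ℝ} (hT : RgTrue C P1 Ω U) :
    ∃ (w : W → ℝ) (k : ℝ → ℝ), RgWid C w k ∧ RgGap C P1 s' Ω U w k := by
  obtain ⟨k, hk⟩ := rgs_corner_exists
  obtain ⟨w, hwsc, hwpos, hch⟩ := rgu_width C hC hsep hloc P1 hS s' hs hs' he hT
  refine ⟨w, k, ⟨hwsc, hwpos, hk⟩, fun α' => ?_⟩
  by_cases h0 : α' none = 0
  · exact rgb_wall C hC P1 hS s' hs hs' he hT w k α' h0
  set α : Stat ι := α'.par with hα
  set ε : ℝ := (α' none : ℝ) with hεd
  have hε : ε = 1 ∨ ε = -1 := by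
    rcases h1 : α' none with _ | _ | _
    · exact absurd h1 h0
    · right; simp [hεd, h1]
    · left; simp [hεd, h1]
  have hX : splitE (C.EO Ω) U w k α' = rgsX (C.EO Ω α) (fun x => ε * U x) w k ε := by
    ext z
    simp only [splitE, rgsX, h0, mem_ofPred_eq, false_and, ne_eq, not_false_eq_true, true_and,
      false_or]
    rfl
  have hhits : hits α' = hits α := by
    have e1 : α' = α.ext (α' none) := by
      funext o
      cases o <;> rfl
    rw [e1, hits_ext, if_neg h0, add_zero]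
  rcases (C.P.E α).eq_empty_or_nonempty with hemp | hne
  · -- the parent is empty
    have hXe : splitE (C.EO Ω) U w k α' = ∅ := by
      rw [hX]
      ext z
      simp [rgsX, ShCtx.EO, hemp]
    refine ⟨Set.univ, isOpen_univ, subset_univ _, ?_⟩
    rw [hXe, empty_inter]
    exact rgs_gap_empty _ _ _ _ _ _
  have hdim := hC.dim α hne
  obtain ⟨d, hd⟩ : ∃ d : ℕ, C.m α = d + 1 := ⟨C.B.n - hits α - 1, by unfold ShCtx.m; omega⟩
  have hd' : C.B.n - hits α' = d + 1 := by rw [hhits]; exact hd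
  have hGE : CtGeo (d + 1) (C.P.E α) C.P.h C.P.dr := by
    rw [← hd]
    exact ⟨hC.inv.diag.mfd α, hC.inv.met.met α, hC.inv.dr_sc.1 α⟩
  have hG : CtGeo (d + 1) (C.EO Ω α) C.P.h C.P.dr := hGE.inter hT.isOpen
  have hU0 : SmoothAlong (d + 1) (C.EO Ω α) U := by rw [← hd]; exact hT.smooth α
  have hsub : C.EO Ω α ⊆ C.P.E α := inter_subset_left
  have hε2 : ε ^ 2 = 1 := by rcases hε with h | h <;> rw [h] <;> norm_num
  have hε0 : ε ≠ 0 := by rcases hε with h | h <;> rw [h] <;> norm_num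
  obtain ⟨O, hO, hreq, hgap⟩ := rgs_side_gap (d := d) (M := C.EO Ω α) (h := C.P.h) (t := C.P.dr)
    (U := fun x => ε * U x) (w := w) (Vs := C.Vb P1 s') (k := k) (e := ε) (e0 := C.e0)
    (D := {x | P1.Cnt C.R (C.B.n - hits α' - 1) x}) (P := {x | C.PI P1 s' α 99 x})
    hG (gs_sm_smul ε hU0)
    (by
      intro x hx hx0
      rw [gs_sq_smul hG.mfd hG.met ε hU0 hx, hε2, one_mul]
      have := hT.unit α x hx ((mul_eq_zero.1 hx0).resolve_left hε0)
      rwa [hd] at this)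
    ((if_smoothAlong_continuousOn hGE.mfd (by rw [← hd]; exact hwsc.1 α)).mono hsub)
    (fun x hx => hwpos x (mem_tot.2 ⟨α, hsub hx⟩))
    ((rgs_Vb_cont C hC P1 hS s' α).mono hsub) hk hε hC.e0_pos
    (by
      rintro x ⟨hxD, hxM⟩
      have hc : C.P.Cnt C.rem (C.m α - 1) x := by
        have := rgs_cnt_parent C P1 hS hxD
        rwa [hhits] at this
      obtain ⟨N, hN, hNP⟩ := rgb_pi_nhd C hC P1 hS s' hs hs' he α (hsub hxM) hc
      exact ⟨N, hN, fun y hy => hNP y ⟨hy.1, hsub hy.2⟩⟩)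
    (by
      rintro x0 ⟨hxD, hxM⟩ hx0
      have hg : x0 ∈ C.guard P1 α := by
        refine ⟨hsub hxM, PData.Cnt.mono hxD ?_⟩
        rw [hhits]; unfold ShCtx.m; omega
      have hx0' : |U x0| ≤ w x0 := by
        rcases hε with h | h <;> rw [h] at hx0 <;> simpa using hx0
      obtain ⟨ψ, B, hch1⟩ := hch α d hd x0 hg hx0'
      rcases hε with h | h
      · refine ⟨ψ, B, ?_⟩
        rw [h]
        simpa only [one_mul] using hch1
      · refine ⟨fun v => ψ (rgsRf v), B, ?_⟩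
        rw [h]
        simpa only [neg_mul, one_mul] using hch1.neg hG hU0)
    (rgb_raw C hC P1 hS s' hs hs' he hT α hd hε)
  refine ⟨O, hO, ?_, ?_⟩
  · rintro z ⟨hzX, hzc⟩
    rw [hX] at hzX
    exact hreq z hzX hzc
  · rw [hX, hd']
    have eW : rgW C.B.n (splitE (C.EO Ω) U w k) (extTen C.P.h) (fun y => C.P.dr y.1)
        (rgVs P1 C.R C.s s') α' = fun z => Dsc (d + 1) (rgsX (C.EO Ω α) (fun x => ε * U x) w k ε)
          (extTen C.P.h) (fun z => C.P.dr z.1) z - C.Vb P1 s' z.1 := by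
      funext z
      unfold rgW
      rw [hX, hd']
      rfl
    rw [eW]
    exact hgap

end Claimed.Agent.R315
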