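import Claimed.Agent.R315.Pack001
import Claimed.Agent.Lib.Gmt.Defs

/-!
# Row 315, package Rg-SMC (architect helper83): calculus of `C^∞` convergence NEAR A POINT

`RgsAt u₀ a a'`: on ONE ball about `u₀` the maps `a k` are eventually smooth, `a'` is smooth, and ALL derivatives of `a k` converge
uniformly to those of `a'`.   This germ-like notion is closed under every operation of the calculus (the ball shrinks):
sums, products, `fderiv`, `pdiff`, continuous linear maps, composition with a fixed smooth function of one real variable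
(hence `⁻¹`, `/`, `√`), and it can be evaluated along `u k → u₀`.   HOST-FREE: Mathlib only (+ the definition `GmtSmoothConv`).

HOW TO PROVE THE CLOSURE LEMMAS.  Always start with `RgsAt.nice` (one radius, bounds of all derivatives, `ε`-form of the convergence), for
two sequences take the minimum of the radii (`RgsAt.nice₂`), and finish with `RgsAt.mk'`.   On the open ball `iteratedFDeriv = iteratedFDerivWithin`
(`iteratedFDerivWithin_of_isOpen`), so the `Within` forms of the Mathlib estimates apply (`UniqueDiffOn` of an open set).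
 * `smul`/`mul`:  `f_k g_k - f g = (f_k - f) g_k + f (g_k - g)` and `ContinuousLinearMap.norm_iteratedFDerivWithin_le_of_bilinear`.
 * `fderiv`:  `‖D^n (D a_k - D a')‖ = ‖D^{n+1}(a_k - a')‖` (`norm_iteratedFDerivWithin_fderivWithin` / `iteratedFDeriv_succ_eq_comp_right`).
 * `comp_real`: induction on the order `n`, for ALL `Θ` at once:  `D(Θ ∘ a_k) = (Θ' ∘ a_k) • D a_k`;  order `0`: `Θ` is uniformly continuous on a compact interval.
-/

set_option autoImplicit false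
open scoped ContDiff Topology
open Filter Metric Set Claims.C0499

namespace Claimed.Agent.R315

variable {m : ℕ} {F G : Type} [NormedAddCommGroup F] [NormedSpace ℝ F] [NormedAddCommGroup G]
  [NormedSpace ℝ G]

/-- `C^∞` convergence of `a k` to `a'` near the point `u₀`. -/
def RgsAt (u₀ : E m) (a : ℕ → E m → F) (a' : E m → F) : Prop :=
  ∃ r > 0, (∀ᶠ k in atTop, ContDiffOn ℝ ∞ (a k) (ball u₀ r)) ∧ ContDiffOn ℝ ∞ a' (ball u₀ r) ∧
    ∀ n : ℕ, TendstoUniformlyOn (fun k x => iteratedFDeriv ℝ n (a k) x)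
      (fun x => iteratedFDeriv ℝ n a' x) atTop (ball u₀ r)

theorem RgsAt_eqns_cite : True := by have := @RgsAt.eq_1; trivial

variable {u₀ : E m} {a b : ℕ → E m → F} {a' b' : E m → F}

/-! ## helpers: convergence up to order `N` on a FIXED open set -/

theorem rgs_le_top (n : ℕ) : (n : WithTop ℕ∞) ≤ ∞ := by exact_mod_cast le_top

theorem rgs_norm_zero (f g : E m → F) (x : E m) :
    ‖iteratedFDeriv ℝ 0 f x - iteratedFDeriv ℝ 0 g x‖ = ‖f x - g x‖ := by
  rw [iteratedFDeriv_zero_eq_comp, iteratedFDeriv_zero_eq_comp]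
  simp only [Function.comp_apply]
  rw [← map_sub, LinearIsometryEquiv.norm_map]

theorem rgs_norm_succ (f g : E m → F) (n : ℕ) (x : E m) :
    ‖iteratedFDeriv ℝ (n + 1) f x - iteratedFDeriv ℝ (n + 1) g x‖
      = ‖iteratedFDeriv ℝ n (fderiv ℝ f) x - iteratedFDeriv ℝ n (fderiv ℝ g) x‖ := by
  rw [iteratedFDeriv_succ_eq_comp_right, iteratedFDeriv_succ_eq_comp_right]
  simp only [Function.comp_apply]
  calc _ = ‖(continuousMultilinearCurryRightEquiv' ℝ n (E m) F).symm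
        (iteratedFDeriv ℝ n (fderiv ℝ f) x - iteratedFDeriv ℝ n (fderiv ℝ g) x)‖ := by
        rw [LinearIsometryEquiv.map_sub]
    _ = _ := LinearIsometryEquiv.norm_map _ _

theorem rgs_iter_congr {s : Set (E m)} (hs : IsOpen s) {f g : E m → F} (h : EqOn f g s) (n : ℕ)
    {x : E m} (hx : x ∈ s) : iteratedFDeriv ℝ n f x = iteratedFDeriv ℝ n g x := by
  have h1 : f =ᶠ[𝓝 x] g := Filter.eventuallyEq_of_mem (hs.mem_nhds hx) h
  exact (h1.iteratedFDeriv (𝕜 := ℝ) n).eq_of_nhds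

theorem rgs_cda {s : Set (E m)} (hs : IsOpen s) {f : E m → F} (h : ContDiffOn ℝ ∞ f s) (n : ℕ)
    {x : E m} (hx : x ∈ s) : ContDiffAt ℝ n f x :=
  (h.contDiffAt (hs.mem_nhds hx)).of_le (rgs_le_top n)

theorem rgs_cont_iter {s : Set (E m)} (hs : IsOpen s) {f : E m → F} (h : ContDiffOn ℝ ∞ f s) (n : ℕ) :
    ContinuousOn (iteratedFDeriv ℝ n f) s :=
  (h.continuousOn_iteratedFDerivWithin (rgs_le_top n) hs.uniqueDiffOn).congr
    fun _ hx => (iteratedFDerivWithin_of_isOpen n hs hx).symm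

/-- convergence up to order `N` on a fixed set, with bounds for the limit. -/
def RgsOn (s : Set (E m)) (N : ℕ) (a : ℕ → E m → F) (a' : E m → F) : Prop :=
  (∀ᶠ k in atTop, ContDiffOn ℝ ∞ (a k) s) ∧ ContDiffOn ℝ ∞ a' s ∧
  (∀ n ≤ N, ∃ C : ℝ, ∀ x ∈ s, ‖iteratedFDeriv ℝ n a' x‖ ≤ C) ∧
  ∀ n ≤ N, ∀ ε > 0, ∀ᶠ k in atTop, ∀ x ∈ s,
    ‖iteratedFDeriv ℝ n (a k) x - iteratedFDeriv ℝ n a' x‖ ≤ ε

theorem RgsOn_eqns_cite : True := by have := @RgsOn.eq_1; trivial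

section on

variable {s : Set (E m)} {N : ℕ}

theorem RgsOn.mono (h : RgsOn s N a a') {M : ℕ} (hM : M ≤ N) : RgsOn s M a a' :=
  ⟨h.1, h.2.1, fun n hn => h.2.2.1 n (hn.trans hM), fun n hn => h.2.2.2 n (hn.trans hM)⟩

theorem RgsOn.bound (h : RgsOn s N a a') {n : ℕ} (hn : n ≤ N) :
    ∃ C : ℝ, 0 ≤ C ∧ (∀ x ∈ s, ‖iteratedFDeriv ℝ n a' x‖ ≤ C) ∧
      ∀ᶠ k in atTop, ∀ x ∈ s, ‖iteratedFDeriv ℝ n (a k) x‖ ≤ C := by
  obtain ⟨C, hC⟩ := h.2.2.1 n hn
  refine ⟨|C| + 1, by positivity, fun x hx => (hC x hx).trans (by linarith [le_abs_self C]), ?_⟩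
  filter_upwards [h.2.2.2 n hn 1 one_pos] with k hk x hx
  calc ‖iteratedFDeriv ℝ n (a k) x‖
      = ‖(iteratedFDeriv ℝ n (a k) x - iteratedFDeriv ℝ n a' x) + iteratedFDeriv ℝ n a' x‖ := by
        rw [sub_add_cancel]
    _ ≤ ‖iteratedFDeriv ℝ n (a k) x - iteratedFDeriv ℝ n a' x‖ + ‖iteratedFDeriv ℝ n a' x‖ :=
        norm_add_le _ _
    _ ≤ 1 + C := add_le_add (hk x hx) (hC x hx)
    _ ≤ |C| + 1 := by linarith [le_abs_self C]

theorem RgsOn.bound_all (h : RgsOn s N a a') :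
    ∃ C : ℝ, 0 ≤ C ∧ (∀ n ≤ N, ∀ x ∈ s, ‖iteratedFDeriv ℝ n a' x‖ ≤ C) ∧
      ∀ᶠ k in atTop, ∀ n ≤ N, ∀ x ∈ s, ‖iteratedFDeriv ℝ n (a k) x‖ ≤ C := by
  induction N with
  | zero =>
    obtain ⟨C, hC0, h1, h2⟩ := h.bound le_rfl
    refine ⟨C, hC0, fun n hn => ?_, ?_⟩
    · obtain rfl : n = 0 := by omega
      exact h1
    · filter_upwards [h2] with k hk n hn
      obtain rfl : n = 0 := by omega
      exact hk
  | succ N ih =>
    obtain ⟨C₁, hC₁, h1, h2⟩ := ih (h.mono (Nat.le_succ N))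
    obtain ⟨C₂, hC₂, h3, h4⟩ := h.bound (le_refl (N + 1))
    refine ⟨max C₁ C₂, le_max_of_le_left hC₁, fun n hn x hx => ?_, ?_⟩
    · rcases Nat.lt_or_ge n (N + 1) with hlt | hge
      · exact (h1 n (by omega) x hx).trans (le_max_left _ _)
      · obtain rfl : n = N + 1 := by omega
        exact (h3 x hx).trans (le_max_right _ _)
    · filter_upwards [h2, h4] with k hk2 hk4 n hn x hx
      rcases Nat.lt_or_ge n (N + 1) with hlt | hge
      · exact (hk2 n (by omega) x hx).trans (le_max_left _ _)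
      · obtain rfl : n = N + 1 := by omega
        exact (hk4 x hx).trans (le_max_right _ _)

theorem RgsOn.conv_all (h : RgsOn s N a a') {ε : ℝ} (hε : 0 < ε) :
    ∀ᶠ k in atTop, ∀ n ≤ N, ∀ x ∈ s,
      ‖iteratedFDeriv ℝ n (a k) x - iteratedFDeriv ℝ n a' x‖ ≤ ε := by
  have h1 : ∀ n ∈ Finset.range (N + 1), ∀ᶠ k in atTop, ∀ x ∈ s,
      ‖iteratedFDeriv ℝ n (a k) x - iteratedFDeriv ℝ n a' x‖ ≤ ε := fun n hn =>
    h.2.2.2 n (by have := Finset.mem_range.1 hn; omega) ε hε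
  filter_upwards [(Filter.eventually_all_finset _).2 h1] with k hk n hn
  exact hk n (Finset.mem_range.2 (by omega))

theorem RgsOn.congr (hs : IsOpen s) (h : RgsOn s N a a')
    (he : ∀ᶠ k in atTop, EqOn (b k) (a k) s) (he' : EqOn b' a' s) : RgsOn s N b b' := by
  refine ⟨?_, h.2.1.congr he', fun n hn => ?_, fun n hn ε hε => ?_⟩
  · filter_upwards [h.1, he] with k hk hek using hk.congr hek
  · obtain ⟨C, hC⟩ := h.2.2.1 n hn
    exact ⟨C, fun x hx => by rw [rgs_iter_congr hs he' n hx]; exact hC x hx⟩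
  · filter_upwards [h.2.2.2 n hn ε hε, he] with k hk hek x hx
    rw [rgs_iter_congr hs hek n hx, rgs_iter_congr hs he' n hx]
    exact hk x hx

theorem RgsOn.add (hs : IsOpen s) (ha : RgsOn s N a a') (hb : RgsOn s N b b') :
    RgsOn s N (fun k x => a k x + b k x) (fun x => a' x + b' x) := by
  refine ⟨?_, ha.2.1.add hb.2.1, fun n hn => ?_, fun n hn ε hε => ?_⟩
  · filter_upwards [ha.1, hb.1] with k h1 h2 using h1.add h2
  · obtain ⟨C, hC⟩ := ha.2.2.1 n hn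
    obtain ⟨C', hC'⟩ := hb.2.2.1 n hn
    refine ⟨C + C', fun x hx => ?_⟩
    rw [fun_iteratedFDeriv_add_apply (rgs_cda hs ha.2.1 n hx) (rgs_cda hs hb.2.1 n hx)]
    exact (norm_add_le _ _).trans (add_le_add (hC x hx) (hC' x hx))
  · filter_upwards [ha.1, hb.1, ha.2.2.2 n hn (ε / 2) (half_pos hε),
      hb.2.2.2 n hn (ε / 2) (half_pos hε)] with k h1 h2 h3 h4 x hx
    rw [fun_iteratedFDeriv_add_apply (rgs_cda hs h1 n hx) (rgs_cda hs h2 n hx),
      fun_iteratedFDeriv_add_apply (rgs_cda hs ha.2.1 n hx) (rgs_cda hs hb.2.1 n hx),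
      add_sub_add_comm]
    exact (norm_add_le _ _).trans ((add_le_add (h3 x hx) (h4 x hx)).trans (by linarith))

theorem RgsOn.clm (hs : IsOpen s) (L : F →L[ℝ] G) (ha : RgsOn s N a a') :
    RgsOn s N (fun k x => L (a k x)) (fun x => L (a' x)) := by
  have key : ∀ f : E m → F, ContDiffOn ℝ ∞ f s → ∀ n : ℕ, ∀ x ∈ s,
      iteratedFDeriv ℝ n (fun y => L (f y)) x
        = L.compContinuousMultilinearMap (iteratedFDeriv ℝ n f x) := fun f hf n x hx =>
    L.iteratedFDeriv_comp_left (rgs_cda hs hf n hx) le_rfl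
  refine ⟨?_, L.contDiff.comp_contDiffOn ha.2.1, fun n hn => ?_, fun n hn ε hε => ?_⟩
  · filter_upwards [ha.1] with k h1 using L.contDiff.comp_contDiffOn h1
  · obtain ⟨C, hC⟩ := ha.2.2.1 n hn
    refine ⟨‖L‖ * C, fun x hx => ?_⟩
    rw [key _ ha.2.1 n x hx]
    exact (L.norm_compContinuousMultilinearMap_le _).trans
      (mul_le_mul_of_nonneg_left (hC x hx) (norm_nonneg _))
  · have hpos : 0 < ‖L‖ + 1 := by positivity
    filter_upwards [ha.1, ha.2.2.2 n hn (ε / (‖L‖ + 1)) (div_pos hε hpos)] with k h1 h3 x hx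
    rw [key _ h1 n x hx, key _ ha.2.1 n x hx]
    have e : L.compContinuousMultilinearMap (iteratedFDeriv ℝ n (a k) x)
        - L.compContinuousMultilinearMap (iteratedFDeriv ℝ n a' x)
        = L.compContinuousMultilinearMap (iteratedFDeriv ℝ n (a k) x - iteratedFDeriv ℝ n a' x) := by
      ext v
      simp
    rw [e]
    calc ‖L.compContinuousMultilinearMap (iteratedFDeriv ℝ n (a k) x - iteratedFDeriv ℝ n a' x)‖
        ≤ ‖L‖ * ‖iteratedFDeriv ℝ n (a k) x - iteratedFDeriv ℝ n a' x‖ :=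
          L.norm_compContinuousMultilinearMap_le _
      _ ≤ ‖L‖ * (ε / (‖L‖ + 1)) := mul_le_mul_of_nonneg_left (h3 x hx) (norm_nonneg _)
      _ ≤ ε := by
          rw [← mul_div_assoc, div_le_iff₀ hpos]
          have := norm_nonneg L
          nlinarith

theorem RgsOn.fderiv (hs : IsOpen s) (ha : RgsOn s (N + 1) a a') :
    RgsOn s N (fun k x => fderiv ℝ (a k) x) (fun x => fderiv ℝ a' x) := by
  refine ⟨?_, ha.2.1.fderiv_of_isOpen hs (by simp), fun n hn => ?_, fun n hn ε hε => ?_⟩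
  · filter_upwards [ha.1] with k h1 using h1.fderiv_of_isOpen hs (by simp)
  · obtain ⟨C, hC⟩ := ha.2.2.1 (n + 1) (by omega)
    exact ⟨C, fun x hx => by rw [norm_iteratedFDeriv_fderiv]; exact hC x hx⟩
  · filter_upwards [ha.2.2.2 (n + 1) (by omega) ε hε] with k h3 x hx
    rw [← rgs_norm_succ]
    exact h3 x hx

theorem RgsOn.of_fderiv (h0 : RgsOn s 0 a a')
    (h1 : RgsOn s N (fun k x => _root_.fderiv ℝ (a k) x) (fun x => _root_.fderiv ℝ a' x)) :
    RgsOn s (N + 1) a a' := by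
  refine ⟨h0.1, h0.2.1, fun n hn => ?_, fun n hn ε hε => ?_⟩
  · cases n with
    | zero => exact h0.2.2.1 0 le_rfl
    | succ n =>
      obtain ⟨C, hC⟩ := h1.2.2.1 n (by omega)
      exact ⟨C, fun x hx => by rw [← norm_iteratedFDeriv_fderiv]; exact hC x hx⟩
  · cases n with
    | zero => exact h0.2.2.2 0 le_rfl ε hε
    | succ n =>
      filter_upwards [h1.2.2.2 n (by omega) ε hε] with k h3 x hx
      rw [rgs_norm_succ]
      exact h3 x hx

theorem rgs_smul_bound (hs : IsOpen s) {f : E m → ℝ} {g : E m → F} (hf : ContDiffOn ℝ ∞ f s)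
    (hg : ContDiffOn ℝ ∞ g s) (n : ℕ) {x : E m} (hx : x ∈ s) {A B : ℝ}
    (hA : ∀ i ≤ n, ‖iteratedFDeriv ℝ i f x‖ ≤ A) (hB : ∀ i ≤ n, ‖iteratedFDeriv ℝ i g x‖ ≤ B) :
    ‖iteratedFDeriv ℝ n (fun y => f y • g y) x‖ ≤ 2 ^ n * A * B := by
  have h := norm_iteratedFDerivWithin_smul_le hf hg hs.uniqueDiffOn hx (n := n) (rgs_le_top n)
  simp only [iteratedFDerivWithin_of_isOpen _ hs hx] at h
  refine h.trans ?_
  calc ∑ i ∈ Finset.range (n + 1), (n.choose i : ℝ) * ‖iteratedFDeriv ℝ i f x‖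
        * ‖iteratedFDeriv ℝ (n - i) g x‖
      ≤ ∑ i ∈ Finset.range (n + 1), (n.choose i : ℝ) * A * B := by
        refine Finset.sum_le_sum fun i hi => ?_
        have hi' : i ≤ n := by have := Finset.mem_range.1 hi; omega
        have hA0 : 0 ≤ A := (norm_nonneg _).trans (hA i hi')
        exact mul_le_mul (mul_le_mul_of_nonneg_left (hA i hi') (Nat.cast_nonneg _))
          (hB (n - i) (Nat.sub_le _ _)) (norm_nonneg _) (mul_nonneg (Nat.cast_nonneg _) hA0)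
    _ = 2 ^ n * A * B := by
        rw [← Finset.sum_mul, ← Finset.sum_mul]
        congr 2
        exact_mod_cast Nat.sum_range_choose n

theorem RgsOn.smul (hs : IsOpen s) {f : ℕ → E m → ℝ} {f' : E m → ℝ} (hf : RgsOn s N f f')
    (ha : RgsOn s N a a') : RgsOn s N (fun k x => f k x • a k x) (fun x => f' x • a' x) := by
  obtain ⟨Cf, hCf0, hCf, -⟩ := hf.bound_all
  obtain ⟨Ca, hCa0, hCa, hCak⟩ := ha.bound_all
  refine ⟨?_, hf.2.1.smul ha.2.1, fun n hn => ?_, fun n hn ε hε => ?_⟩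
  · filter_upwards [hf.1, ha.1] with k h1 h2 using h1.smul h2
  · exact ⟨2 ^ n * Cf * Ca, fun x hx => rgs_smul_bound hs hf.2.1 ha.2.1 n hx
      (fun i hi => hCf i (hi.trans hn) x hx) (fun i hi => hCa i (hi.trans hn) x hx)⟩
  · have hM : 0 < 2 ^ n * (Ca + Cf) + 1 := by positivity
    set δ : ℝ := ε / (2 ^ n * (Ca + Cf) + 1) with hδ
    have hδ0 : 0 < δ := div_pos hε hM
    filter_upwards [hf.1, ha.1, hCak, hf.conv_all hδ0, ha.conv_all hδ0] with k h1 h2 h3 h4 h5 x hx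
    have hP : ContDiffOn ℝ ∞ (fun y => f k y - f' y) s := h1.sub hf.2.1
    have hQ : ContDiffOn ℝ ∞ (fun y => a k y - a' y) s := h2.sub ha.2.1
    have e1 : (fun y => f k y • a k y)
        = fun y => ((f k y - f' y) • a k y + f' y • (a k y - a' y)) + f' y • a' y := by
      funext y
      rw [sub_smul, smul_sub]
      abel
    have e2 : iteratedFDeriv ℝ n (fun y => f k y • a k y) x - iteratedFDeriv ℝ n (fun y => f' y • a' y) x
        = iteratedFDeriv ℝ n (fun y => (f k y - f' y) • a k y) x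
          + iteratedFDeriv ℝ n (fun y => f' y • (a k y - a' y)) x := by
      have c1 : ContDiffAt ℝ n (fun y => (f k y - f' y) • a k y) x := rgs_cda hs (hP.smul h2) n hx
      have c2 : ContDiffAt ℝ n (fun y => f' y • (a k y - a' y)) x :=
        rgs_cda hs (hf.2.1.smul hQ) n hx
      have c3 : ContDiffAt ℝ n (fun y => f' y • a' y) x := rgs_cda hs (hf.2.1.smul ha.2.1) n hx
      have c12 : ContDiffAt ℝ n (fun y => (f k y - f' y) • a k y + f' y • (a k y - a' y)) x :=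
        c1.add c2
      rw [e1, fun_iteratedFDeriv_add_apply c12 c3, fun_iteratedFDeriv_add_apply c1 c2,
        add_sub_cancel_right]
    rw [e2]
    have b1 : ‖iteratedFDeriv ℝ n (fun y => (f k y - f' y) • a k y) x‖ ≤ 2 ^ n * δ * Ca :=
      rgs_smul_bound hs hP h2 n hx
        (fun i hi => by
          rw [fun_iteratedFDeriv_sub_apply (rgs_cda hs h1 i hx) (rgs_cda hs hf.2.1 i hx)]
          exact h4 i (hi.trans hn) x hx)
        (fun i hi => h3 i (hi.trans hn) x hx)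
    have b2 : ‖iteratedFDeriv ℝ n (fun y => f' y • (a k y - a' y)) x‖ ≤ 2 ^ n * Cf * δ :=
      rgs_smul_bound hs hf.2.1 hQ n hx (fun i hi => hCf i (hi.trans hn) x hx)
        (fun i hi => by
          rw [fun_iteratedFDeriv_sub_apply (rgs_cda hs h2 i hx) (rgs_cda hs ha.2.1 i hx)]
          exact h5 i (hi.trans hn) x hx)
    calc _ ≤ 2 ^ n * δ * Ca + 2 ^ n * Cf * δ := (norm_add_le _ _).trans (add_le_add b1 b2)
      _ = (2 ^ n * (Ca + Cf)) * δ := by ring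
      _ ≤ (2 ^ n * (Ca + Cf) + 1) * δ := by nlinarith
      _ = ε := by rw [hδ]; field_simp

theorem rgs_comp_zero {f : ℕ → E m → ℝ} {f' : E m → ℝ} (hf : RgsOn s 0 f f')
    {Ω K : Set ℝ} (hK : IsCompact K) (hKΩ : K ⊆ Ω) (hm' : ∀ x ∈ s, f' x ∈ K)
    (hm : ∀ᶠ k in atTop, ∀ x ∈ s, f k x ∈ K) {Θ : ℝ → ℝ} (hΘ : ContDiffOn ℝ ∞ Θ Ω) :
    RgsOn s 0 (fun k x => Θ (f k x)) (fun x => Θ (f' x)) := by
  have hcK : ContinuousOn Θ K := hΘ.continuousOn.mono hKΩ
  refine ⟨?_, hΘ.comp hf.2.1 fun x hx => hKΩ (hm' x hx), fun n hn => ?_, fun n hn ε hε => ?_⟩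
  · filter_upwards [hf.1, hm] with k h1 h2 using hΘ.comp h1 fun x hx => hKΩ (h2 x hx)
  · obtain rfl : n = 0 := by omega
    obtain ⟨C, hC⟩ := hK.exists_bound_of_continuousOn hcK
    exact ⟨C, fun x hx => by rw [norm_iteratedFDeriv_zero]; exact hC _ (hm' x hx)⟩
  · obtain rfl : n = 0 := by omega
    obtain ⟨δ, hδ, hu⟩ := Metric.uniformContinuousOn_iff_le.1
      (hK.uniformContinuousOn_of_continuous hcK) ε hε
    filter_upwards [hm, hf.2.2.2 0 le_rfl δ hδ] with k h2 h3 x hx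
    have h4 := h3 x hx
    rw [rgs_norm_zero] at h4 ⊢
    have h5 := hu _ (h2 x hx) _ (hm' x hx) (by rw [dist_eq_norm]; exact h4)
    rwa [dist_eq_norm] at h5

theorem rgs_comp_on (hs : IsOpen s) {f : ℕ → E m → ℝ} {f' : E m → ℝ} (hf : ∀ N, RgsOn s N f f')
    {Ω K : Set ℝ} (hΩ : IsOpen Ω) (hK : IsCompact K) (hKΩ : K ⊆ Ω) (hm' : ∀ x ∈ s, f' x ∈ K)
    (hm : ∀ᶠ k in atTop, ∀ x ∈ s, f k x ∈ K) (N : ℕ) :
    ∀ Θ : ℝ → ℝ, ContDiffOn ℝ ∞ Θ Ω → RgsOn s N (fun k x => Θ (f k x)) (fun x => Θ (f' x)) := by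
  induction N with
  | zero => exact fun Θ hΘ => rgs_comp_zero (hf 0) hK hKΩ hm' hm hΘ
  | succ N ih =>
    intro Θ hΘ
    have chain : ∀ g : E m → ℝ, ContDiffOn ℝ ∞ g s → (∀ x ∈ s, g x ∈ K) →
        EqOn (fun x => fderiv ℝ (fun y => Θ (g y)) x) (fun x => deriv Θ (g x) • fderiv ℝ g x) s := by
      intro g hg hgK x hx
      have h1 : DifferentiableAt ℝ g x :=
        (hg.contDiffAt (hs.mem_nhds hx)).differentiableAt (by simp)
      have h2 : DifferentiableAt ℝ Θ (g x) :=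
        (hΘ.contDiffAt (hΩ.mem_nhds (hKΩ (hgK x hx)))).differentiableAt (by simp)
      exact (HasDerivAt.comp_hasFDerivAt x h2.hasDerivAt h1.hasFDerivAt).fderiv
    refine RgsOn.of_fderiv (rgs_comp_zero (hf 0) hK hKΩ hm' hm hΘ) ?_
    refine ((ih (deriv Θ) (hΘ.deriv_of_isOpen hΩ (by simp))).smul hs ((hf (N + 1)).fderiv hs)).congr hs
      ?_ (chain f' (hf 0).2.1 hm')
    filter_upwards [(hf 0).1, hm] with k h1 h2 using chain (f k) h1 h2

end on

/-! ## Section A (package L-Rg-SMC-A): basic API -/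

/-- constructor in `ε`-form. -/
theorem RgsAt.mk' {r : ℝ} (hr : 0 < r) (hs : ∀ᶠ k in atTop, ContDiffOn ℝ ∞ (a k) (ball u₀ r))
    (hs' : ContDiffOn ℝ ∞ a' (ball u₀ r))
    (hc : ∀ n : ℕ, ∀ ε > 0, ∀ᶠ k in atTop, ∀ x ∈ ball u₀ r,
      ‖iteratedFDeriv ℝ n (a k) x - iteratedFDeriv ℝ n a' x‖ ≤ ε) : RgsAt u₀ a a' := by
  refine ⟨r, hr, hs, hs', fun n => ?_⟩
  rw [Metric.tendstoUniformlyOn_iff]
  intro ε hε
  filter_upwards [hc n (ε / 2) (half_pos hε)] with k hk x hx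
  rw [dist_eq_norm, norm_sub_rev]
  exact (hk x hx).trans_lt (half_lt_self hε)

/-- normal form: every smaller radius works; all derivatives are bounded. -/
theorem RgsAt.nice (h : RgsAt u₀ a a') : ∃ r₀ > 0, ∀ r, 0 < r → r ≤ r₀ →
    (∀ᶠ k in atTop, ContDiffOn ℝ ∞ (a k) (ball u₀ r)) ∧ ContDiffOn ℝ ∞ a' (ball u₀ r) ∧
    (∀ n : ℕ, ∃ C : ℝ, (∀ x ∈ ball u₀ r, ‖iteratedFDeriv ℝ n a' x‖ ≤ C) ∧
      ∀ᶠ k in atTop, ∀ x ∈ ball u₀ r, ‖iteratedFDeriv ℝ n (a k) x‖ ≤ C) ∧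
    ∀ n : ℕ, ∀ ε > 0, ∀ᶠ k in atTop, ∀ x ∈ ball u₀ r,
      ‖iteratedFDeriv ℝ n (a k) x - iteratedFDeriv ℝ n a' x‖ ≤ ε := by
  obtain ⟨r, hr, h1, h2, h3⟩ := h
  refine ⟨r / 2, half_pos hr, fun r' _ hle => ?_⟩
  have hsub : ball u₀ r' ⊆ closedBall u₀ (r / 2) :=
    (ball_subset_ball hle).trans ball_subset_closedBall
  have hsub2 : closedBall u₀ (r / 2) ⊆ ball u₀ r := closedBall_subset_ball (half_lt_self hr)
  have hconv : ∀ n : ℕ, ∀ ε > 0, ∀ᶠ k in atTop, ∀ x ∈ ball u₀ r',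
      ‖iteratedFDeriv ℝ n (a k) x - iteratedFDeriv ℝ n a' x‖ ≤ ε := by
    intro n ε hε
    filter_upwards [Metric.tendstoUniformlyOn_iff.1 (h3 n) ε hε] with k hk x hx
    have h4 := hk x (hsub2 (hsub hx))
    rw [dist_eq_norm, norm_sub_rev] at h4
    exact h4.le
  refine ⟨?_, h2.mono (hsub.trans hsub2), fun n => ?_, hconv⟩
  · filter_upwards [h1] with k hk using hk.mono (hsub.trans hsub2)
  · obtain ⟨C, hC⟩ := (isCompact_closedBall u₀ (r / 2)).exists_bound_of_continuousOn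
      ((rgs_cont_iter isOpen_ball h2 n).mono hsub2)
    refine ⟨C + 1, fun x hx => (hC x (hsub hx)).trans (by linarith), ?_⟩
    filter_upwards [hconv n 1 one_pos] with k hk x hx
    calc ‖iteratedFDeriv ℝ n (a k) x‖
        = ‖(iteratedFDeriv ℝ n (a k) x - iteratedFDeriv ℝ n a' x) + iteratedFDeriv ℝ n a' x‖ := by
          rw [sub_add_cancel]
      _ ≤ ‖iteratedFDeriv ℝ n (a k) x - iteratedFDeriv ℝ n a' x‖ + ‖iteratedFDeriv ℝ n a' x‖ :=
          norm_add_le _ _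
      _ ≤ 1 + C := add_le_add (hk x hx) (hC x (hsub hx))
      _ = C + 1 := add_comm _ _

/-- bridge to the fixed-ball notion. -/
theorem RgsAt.on (h : RgsAt u₀ a a') : ∃ r₀ > 0, ∀ r, 0 < r → r ≤ r₀ →
    ∀ N, RgsOn (ball u₀ r) N a a' := by
  obtain ⟨r₀, hr₀, hn⟩ := h.nice
  refine ⟨r₀, hr₀, fun r hr hle N => ?_⟩
  obtain ⟨h1, h2, h3, h4⟩ := hn r hr hle
  exact ⟨h1, h2, fun n _ => (h3 n).imp fun C hC => hC.1, fun n _ => h4 n⟩

theorem RgsAt.of_on {r : ℝ} (hr : 0 < r) (h : ∀ N, RgsOn (ball u₀ r) N a a') : RgsAt u₀ a a' :=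
  RgsAt.mk' hr (h 0).1 (h 0).2.1 fun n => (h n).2.2.2 n le_rfl

/-- from `C^∞_loc` convergence on an open set. -/
theorem RgsAt.of_gmt {U : Set (E m)} (hU : IsOpen U) (hu : u₀ ∈ U)
    (hs : ∀ᶠ k in atTop, ContDiffOn ℝ ∞ (a k) U) (hs' : ContDiffOn ℝ ∞ a' U)
    (hc : Gmt.GmtSmoothConv U a a') : RgsAt u₀ a a' := by
  obtain ⟨r, hr, hrU⟩ := Metric.nhds_basis_closedBall.mem_iff.1 (hU.mem_nhds hu)
  refine ⟨r, hr, ?_, hs'.mono (ball_subset_closedBall.trans hrU), fun n => ?_⟩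
  · filter_upwards [hs] with k hk using hk.mono (ball_subset_closedBall.trans hrU)
  · exact (hc _ (isCompact_closedBall u₀ r) hrU n).mono ball_subset_closedBall

/-- a constant sequence. -/
theorem RgsAt.fixed {U : Set (E m)} (hU : U ∈ 𝓝 u₀) (h : ContDiffOn ℝ ∞ a' U) :
    RgsAt u₀ (fun _ => a') a' := by
  obtain ⟨r, hr, hrU⟩ := Metric.mem_nhds_iff.1 hU
  refine RgsAt.mk' hr (Eventually.of_forall fun _ => h.mono hrU) (h.mono hrU)
    fun n ε hε => Eventually.of_forall fun k x _ => ?_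
  rw [sub_self, norm_zero]
  exact hε.le

/-- only the germs at `u₀` (on one neighbourhood, for large `k`) matter. -/
theorem RgsAt.congr (h : RgsAt u₀ a a') {U : Set (E m)} (hU : U ∈ 𝓝 u₀)
    (he : ∀ᶠ k in atTop, EqOn (b k) (a k) U) (he' : EqOn b' a' U) : RgsAt u₀ b b' := by
  obtain ⟨r₀, hr₀, hn⟩ := h.on
  obtain ⟨r₁, hr₁, hrU⟩ := Metric.mem_nhds_iff.1 hU
  have hr : 0 < min r₀ r₁ := lt_min hr₀ hr₁
  have hsub : ball u₀ (min r₀ r₁) ⊆ U := (ball_subset_ball (min_le_right _ _)).trans hrU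
  refine RgsAt.of_on hr fun N => (hn _ hr (min_le_left _ _) N).congr isOpen_ball ?_ (he'.mono hsub)
  filter_upwards [he] with k hk using hk.mono hsub

/-- evaluation along a convergent sequence of points. -/
theorem RgsAt.eval (h : RgsAt u₀ a a') {u : ℕ → E m} (hu : Tendsto u atTop (𝓝 u₀)) :
    Tendsto (fun k => a k (u k)) atTop (𝓝 (a' u₀)) := by
  obtain ⟨r, hr, -, h2, h3⟩ := h
  have hunif : TendstoUniformlyOn a a' atTop (ball u₀ r) := by
    rw [Metric.tendstoUniformlyOn_iff]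
    intro ε hε
    filter_upwards [Metric.tendstoUniformlyOn_iff.1 (h3 0) ε hε] with k hk x hx
    have h4 := hk x hx
    rw [dist_eq_norm, rgs_norm_zero] at h4
    rwa [dist_eq_norm]
  refine hunif.tendsto_comp (h2.continuousOn.continuousWithinAt (mem_ball_self hr)) ?_
  exact tendsto_nhdsWithin_of_tendsto_nhds_of_eventually_within _ hu
    (hu.eventually (ball_mem_nhds _ hr))

/-- the limit is smooth near `u₀`. -/
theorem RgsAt.smooth (h : RgsAt u₀ a a') : ∃ U ∈ 𝓝 u₀, ContDiffOn ℝ ∞ a' U := by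
  obtain ⟨r, hr, -, h2, -⟩ := h
  exact ⟨ball u₀ r, ball_mem_nhds _ hr, h2⟩

/-- a strict inequality at the limit point holds uniformly near `u₀` for large `k`. -/
theorem RgsAt.eventually_lt {f : ℕ → E m → ℝ} {f' : E m → ℝ} (h : RgsAt u₀ f f') {c : ℝ}
    (hc : c < f' u₀) : ∃ U ∈ 𝓝 u₀, (∀ x ∈ U, c < f' x) ∧ ∀ᶠ k in atTop, ∀ x ∈ U, c < f k x := by
  obtain ⟨r, hr, -, h2, h3⟩ := h
  have hδ0 : 0 < (f' u₀ - c) / 2 := by linarith
  have hcont : ContinuousAt f' u₀ := h2.continuousOn.continuousAt (ball_mem_nhds _ hr)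
  have hU : {x | c + (f' u₀ - c) / 2 < f' x} ∈ 𝓝 u₀ :=
    hcont.eventually (lt_mem_nhds (by linarith))
  refine ⟨ball u₀ r ∩ {x | c + (f' u₀ - c) / 2 < f' x}, inter_mem (ball_mem_nhds _ hr) hU,
    fun x hx => ?_, ?_⟩
  · have h5 : c + (f' u₀ - c) / 2 < f' x := hx.2
    linarith
  · filter_upwards [Metric.tendstoUniformlyOn_iff.1 (h3 0) _ hδ0] with k hk x hx
    have h4 := hk x hx.1
    rw [dist_eq_norm, rgs_norm_zero, Real.norm_eq_abs] at h4
    have h6 := abs_lt.1 h4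
    have h5 : c + (f' u₀ - c) / 2 < f' x := hx.2
    linarith [h6.2]

/-! ## Section B (package L-Rg-SMC-B): linear operations -/

theorem RgsAt.add (ha : RgsAt u₀ a a') (hb : RgsAt u₀ b b') :
    RgsAt u₀ (fun k x => a k x + b k x) (fun x => a' x + b' x) := by
  obtain ⟨r₁, hr₁, h1⟩ := ha.on
  obtain ⟨r₂, hr₂, h2⟩ := hb.on
  have hr : 0 < min r₁ r₂ := lt_min hr₁ hr₂
  exact RgsAt.of_on hr fun N =>
    (h1 _ hr (min_le_left _ _) N).add isOpen_ball (h2 _ hr (min_le_right _ _) N)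

theorem RgsAt.neg (ha : RgsAt u₀ a a') : RgsAt u₀ (fun k x => -a k x) (fun x => -a' x) := by
  obtain ⟨r₁, hr₁, h1⟩ := ha.on
  have h2 := RgsAt.of_on hr₁ fun N =>
    (h1 _ hr₁ le_rfl N).clm isOpen_ball (-ContinuousLinearMap.id ℝ F)
  simpa using h2

theorem RgsAt.sub (ha : RgsAt u₀ a a') (hb : RgsAt u₀ b b') :
    RgsAt u₀ (fun k x => a k x - b k x) (fun x => a' x - b' x) := by
  simpa only [sub_eq_add_neg] using ha.add hb.neg

theorem RgsAt.sum {ι : Type} (s : Finset ι) {A : ι → ℕ → E m → F} {A' : ι → E m → F}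
    (h : ∀ i ∈ s, RgsAt u₀ (A i) (A' i)) :
    RgsAt u₀ (fun k x => ∑ i ∈ s, A i k x) (fun x => ∑ i ∈ s, A' i x) := by
  classical
  induction s using Finset.induction_on with
  | empty =>
    simp only [Finset.sum_empty]
    exact RgsAt.fixed (a' := fun _ : E m => (0 : F)) univ_mem contDiffOn_const
  | insert i s hi ih =>
    simp only [Finset.sum_insert hi]
    exact (h i (Finset.mem_insert_self i s)).add
      (ih fun j hj => h j (Finset.mem_insert_of_mem hj))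

/-- post-composition with a fixed continuous linear map. -/
theorem RgsAt.clm (L : F →L[ℝ] G) (ha : RgsAt u₀ a a') :
    RgsAt u₀ (fun k x => L (a k x)) (fun x => L (a' x)) := by
  obtain ⟨r₁, hr₁, h1⟩ := ha.on
  exact RgsAt.of_on hr₁ fun N => (h1 _ hr₁ le_rfl N).clm isOpen_ball L

/-- the derivatives converge. -/
theorem RgsAt.fderiv (ha : RgsAt u₀ a a') :
    RgsAt u₀ (fun k x => fderiv ℝ (a k) x) (fun x => fderiv ℝ a' x) := by
  obtain ⟨r₁, hr₁, h1⟩ := ha.on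
  exact RgsAt.of_on hr₁ fun N => (h1 _ hr₁ le_rfl (N + 1)).fderiv isOpen_ball

/-- partial derivatives. -/
theorem RgsAt.pdiff {f : ℕ → E m → ℝ} {f' : E m → ℝ} (h : RgsAt u₀ f f') (i : Fin m) :
    RgsAt u₀ (fun k x => pdiff (f k) i x) (fun x => pdiff f' i x) := by
  have h1 := h.fderiv.clm (ContinuousLinearMap.apply ℝ ℝ (EuclideanSpace.single i (1 : ℝ)))
  exact h1

/-! ## Section C (package L-Rg-SMC-C): products -/

theorem RgsAt.smul {f : ℕ → E m → ℝ} {f' : E m → ℝ} (hf : RgsAt u₀ f f') (ha : RgsAt u₀ a a') :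
    RgsAt u₀ (fun k x => f k x • a k x) (fun x => f' x • a' x) := by
  obtain ⟨r₁, hr₁, h1⟩ := hf.on
  obtain ⟨r₂, hr₂, h2⟩ := ha.on
  have hr : 0 < min r₁ r₂ := lt_min hr₁ hr₂
  exact RgsAt.of_on hr fun N =>
    (h1 _ hr (min_le_left _ _) N).smul isOpen_ball (h2 _ hr (min_le_right _ _) N)

theorem RgsAt.mul {f g : ℕ → E m → ℝ} {f' g' : E m → ℝ} (hf : RgsAt u₀ f f') (hg : RgsAt u₀ g g') :
    RgsAt u₀ (fun k x => f k x * g k x) (fun x => f' x * g' x) :=
  hf.smul hg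

theorem RgsAt.const_mul {f : ℕ → E m → ℝ} {f' : E m → ℝ} (c : ℝ) (hf : RgsAt u₀ f f') :
    RgsAt u₀ (fun k x => c * f k x) (fun x => c * f' x) :=
  (RgsAt.fixed (a' := fun _ : E m => c) univ_mem contDiffOn_const).mul hf

theorem RgsAt.pow {f : ℕ → E m → ℝ} {f' : E m → ℝ} (hf : RgsAt u₀ f f') (n : ℕ) :
    RgsAt u₀ (fun k x => f k x ^ n) (fun x => f' x ^ n) := by
  induction n with
  | zero =>
    simp only [pow_zero]
    exact RgsAt.fixed (a' := fun _ : E m => (1 : ℝ)) univ_mem contDiffOn_const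
  | succ n ih =>
    simp only [pow_succ]
    exact ih.mul hf

theorem RgsAt.prod {ι : Type} (s : Finset ι) {A : ι → ℕ → E m → ℝ} {A' : ι → E m → ℝ}
    (h : ∀ i ∈ s, RgsAt u₀ (A i) (A' i)) :
    RgsAt u₀ (fun k x => ∏ i ∈ s, A i k x) (fun x => ∏ i ∈ s, A' i x) := by
  classical
  induction s using Finset.induction_on with
  | empty =>
    simp only [Finset.prod_empty]
    exact RgsAt.fixed (a' := fun _ : E m => (1 : ℝ)) univ_mem contDiffOn_const
  | insert i s hi ih =>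
    simp only [Finset.prod_insert hi]
    exact (h i (Finset.mem_insert_self i s)).mul
      (ih fun j hj => h j (Finset.mem_insert_of_mem hj))

/-! ## Section D (package L-Rg-SMC-D): composition with a smooth function of one real variable -/

theorem RgsAt.comp_real {f : ℕ → E m → ℝ} {f' : E m → ℝ} (hf : RgsAt u₀ f f') {Θ : ℝ → ℝ}
    {Ω : Set ℝ} (hΩ : IsOpen Ω) (hΘ : ContDiffOn ℝ ∞ Θ Ω) (h0 : f' u₀ ∈ Ω) :
    RgsAt u₀ (fun k x => Θ (f k x)) (fun x => Θ (f' x)) := by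
  obtain ⟨r₀, hr₀, h1⟩ := hf.on
  obtain ⟨η, hη, hηΩ⟩ := Metric.nhds_basis_closedBall.mem_iff.1 (hΩ.mem_nhds h0)
  have hcont : ContinuousAt f' u₀ :=
    (h1 r₀ hr₀ le_rfl 0).2.1.continuousOn.continuousAt (ball_mem_nhds _ hr₀)
  obtain ⟨r₁, hr₁, hr₁U⟩ := Metric.mem_nhds_iff.1
    (hcont (Metric.closedBall_mem_nhds (f' u₀) (half_pos hη)))
  have hr : 0 < min r₀ r₁ := lt_min hr₀ hr₁
  have hon : ∀ N, RgsOn (ball u₀ (min r₀ r₁)) N f f' := h1 _ hr (min_le_left _ _)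
  have hm0 : ∀ x ∈ ball u₀ (min r₀ r₁), ‖f' x - f' u₀‖ ≤ η / 2 := by
    intro x hx
    have h2 : f' x ∈ closedBall (f' u₀) (η / 2) := hr₁U (ball_subset_ball (min_le_right _ _) hx)
    rwa [mem_closedBall, dist_eq_norm] at h2
  have hm' : ∀ x ∈ ball u₀ (min r₀ r₁), f' x ∈ closedBall (f' u₀) η := by
    intro x hx
    rw [mem_closedBall, dist_eq_norm]
    exact (hm0 x hx).trans (by linarith)
  have hm : ∀ᶠ k in atTop, ∀ x ∈ ball u₀ (min r₀ r₁), f k x ∈ closedBall (f' u₀) η := by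
    filter_upwards [(hon 0).2.2.2 0 le_rfl (η / 2) (half_pos hη)] with k hk x hx
    have h2 := hk x hx
    rw [rgs_norm_zero] at h2
    rw [mem_closedBall, dist_eq_norm]
    calc ‖f k x - f' u₀‖ = ‖(f k x - f' x) + (f' x - f' u₀)‖ := by rw [sub_add_sub_cancel]
      _ ≤ ‖f k x - f' x‖ + ‖f' x - f' u₀‖ := norm_add_le _ _
      _ ≤ η / 2 + η / 2 := add_le_add h2 (hm0 x hx)
      _ = η := add_halves η
  exact RgsAt.of_on hr fun N =>
    rgs_comp_on isOpen_ball hon hΩ (isCompact_closedBall _ _) hηΩ hm' hm N Θ hΘ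

theorem RgsAt.inv {f : ℕ → E m → ℝ} {f' : E m → ℝ} (hf : RgsAt u₀ f f') (h0 : f' u₀ ≠ 0) :
    RgsAt u₀ (fun k x => (f k x)⁻¹) (fun x => (f' x)⁻¹) := by
  refine hf.comp_real (Θ := fun s => s⁻¹) (Ω := {0}ᶜ) isOpen_compl_singleton ?_ h0
  exact contDiffOn_id.inv fun x hx => hx

theorem RgsAt.div {f g : ℕ → E m → ℝ} {f' g' : E m → ℝ} (hf : RgsAt u₀ f f') (hg : RgsAt u₀ g g')
    (h0 : g' u₀ ≠ 0) : RgsAt u₀ (fun k x => f k x / g k x) (fun x => f' x / g' x) := by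
  simp only [div_eq_mul_inv]
  exact hf.mul (hg.inv h0)

theorem RgsAt.sqrt {f : ℕ → E m → ℝ} {f' : E m → ℝ} (hf : RgsAt u₀ f f') (h0 : 0 < f' u₀) :
    RgsAt u₀ (fun k x => Real.sqrt (f k x)) (fun x => Real.sqrt (f' x)) := by
  refine hf.comp_real (Θ := Real.sqrt) (Ω := Ioi 0) isOpen_Ioi ?_ h0
  exact contDiffOn_id.sqrt fun x hx => (ne_of_gt hx)

end Claimed.Agent.R315
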