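import Claimed.Agent.R315.Pk.Thr
import Claimed.Agent.R315.Rg.Smc

/-!
# Row 315, package Rg (file Rg/Slow.lean): blending with SLOW cut-offs

WHY.  `pkBlend F T u` (helper29) uses the cut-offs `st (|t i z| - T (q z) - 1)`.  Their derivatives contain `dT`, `d²T`.  In P Appendix E (RULING 9 (5), stage 2) the blended functions are only
ASYMPTOTICALLY equal (no rate), the threshold has to majorise thresholds `T_K` for an exhaustion of the NONCOMPACT space `V`, and one needs `(discrepancy beyond T) * (1 + |dT|² + |d²T|)` small: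
this is circular and false in general.  FIX: cut-offs

  `rgSf F σ ϱ i z = st (σ |t i z| - ϱ (q z))`,

`ϱ : V → [1,∞)` a FIXED smooth proper function with bounded derivatives (`RgRad`), `σ` smooth, monotone, `0` on `(-∞,1]`, `|σ^(j)| ≤ c_j` with UNIVERSAL constants (`RgSlow`), `σ → ∞`
ARBITRARILY SLOWLY (`rg_exists_slow`: `σ (N m) ≤ m` for any prescribed `N`).  Then
 * `rgSf ≠ 0` over `{m ≤ ϱ}` forces `|t i z| > N m` (`rgSf_ne_zero`, `RgSlow.lt_of_lt`);
 * all ambient derivatives of the weights are bounded by constants which do NOT depend on `σ` (`rgSw_bound`);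
 * hence (`RgsAt.convex_comb`): if `σ_k` are slower and slower and all ACTIVE blended functions converge to the same limit in `C^∞` near a point, so does the blend
   (`∑_S w_S^k g_S^k - g = ∑_S w_S^k (g_S^k - g)`, Leibniz; the weights need not converge).

CONTENTS.
 1. abstract weights `rgWt f S z = ∏_{i ∈ S} f i z ∏_{i ∉ S} (1 - f i z)` and the blend of a FAMILY `u : Finset ι → W → X`:  `rgBl F f u z = ∑_S rgWt f S z • u S (dropS S z)`   (PROVED; generalises `Pk/Blend.lean`;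
    a family is needed for status-indexed ambient functions: `u S = v (α.faceS S)`).
 2. the slow cut-offs (algebra PROVED; leaves L-RG-SLOW-A: `rg_exists_slow`, `rg_exists_rad`; L-RG-SLOW-B: `rgSw_bound`, `rgSw_chart_bound`).
 3. `RgsAt.convex_comb` (leaf L-RG-SLOW-C, host-free).
Owner: helper209.
-/

set_option autoImplicit false
set_option linter.unusedSectionVars false
open scoped ContDiff Topology
open Claims.C0499 Set Filter

namespace Claimed.Agent.R315

variable {V W : Type} [NormedAddCommGroup V] [NormedSpace ℝ V] [NormedAddCommGroup W]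
  [NormedSpace ℝ W] {ι : Type}

/-! ## 1. abstract weights and blends -/

open Classical in
/-- multilinear weights of the cut-offs `f`. -/
noncomputable def rgWt [Fintype ι] (f : ι → W → ℝ) (S : Finset ι) (z : W) : ℝ :=
  ∏ i, if i ∈ S then f i z else 1 - f i z

/-- the blend of the family `u`. -/
noncomputable def rgBl [Fintype ι] {X : Type} [AddCommGroup X] [Module ℝ X] (F : Frame V W ι)
    (f : ι → W → ℝ) (u : Finset ι → W → X) (z : W) : X :=
  ∑ S : Finset ι, rgWt f S z • u S (F.dropS S z)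

section weights

variable [Fintype ι] {f : ι → W → ℝ}

theorem rgWt_nonneg {z : W} (h0 : ∀ i, 0 ≤ f i z) (h1 : ∀ i, f i z ≤ 1) (S : Finset ι) :
    0 ≤ rgWt f S z := by
  classical
  unfold rgWt
  refine Finset.prod_nonneg fun i _ => ?_
  split_ifs
  · exact h0 i
  · exact sub_nonneg.2 (h1 i)

theorem rgWt_sum (f : ι → W → ℝ) (z : W) : ∑ S : Finset ι, rgWt f S z = 1 := by
  classical
  have h := Finset.prod_add (fun i => f i z) (fun i => 1 - f i z) Finset.univ
  simp only [add_sub_cancel, Finset.prod_const_one, Finset.powerset_univ] at h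
  rw [h]
  refine Finset.sum_congr rfl fun S _ => ?_
  unfold rgWt
  rw [Finset.prod_ite]
  congr 1
  · refine Finset.prod_congr ?_ fun _ _ => rfl
    ext i; simp
  · refine Finset.prod_congr ?_ fun _ _ => rfl
    ext i; simp

theorem rgWt_ne_zero {S : Finset ι} {z : W} (h : rgWt f S z ≠ 0) :
    (∀ i ∈ S, f i z ≠ 0) ∧ ∀ i, i ∉ S → f i z ≠ 1 := by
  classical
  unfold rgWt at h
  rw [Finset.prod_ne_zero_iff] at h
  constructor
  · intro i hi
    have := h i (Finset.mem_univ i)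
    rwa [if_pos hi] at this
  · intro i hi h1
    have := h i (Finset.mem_univ i)
    rw [if_neg hi, h1, sub_self] at this
    exact this rfl

theorem rgWt_contDiff (hf : ∀ i, ContDiff ℝ ∞ (f i)) (S : Finset ι) : ContDiff ℝ ∞ (rgWt f S) := by
  classical
  unfold rgWt
  refine contDiff_prod fun i _ => ?_
  by_cases hi : i ∈ S
  · simp only [if_pos hi]; exact hf i
  · simp only [if_neg hi]; exact contDiff_const.sub (hf i)

theorem rgWt_eq_zero_of_notMem {S : Finset ι} {i : ι} {z : W} (hi : i ∉ S) (h : f i z = 1) :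
    rgWt f S z = 0 := by
  classical
  unfold rgWt
  refine Finset.prod_eq_zero (Finset.mem_univ i) ?_
  rw [if_neg hi, h, sub_self]

theorem rgWt_eq_zero_of_mem {S : Finset ι} {i : ι} {z : W} (hi : i ∈ S) (h : f i z = 0) :
    rgWt f S z = 0 := by
  classical
  unfold rgWt
  refine Finset.prod_eq_zero (Finset.mem_univ i) ?_
  rw [if_pos hi, h]

theorem rgWt_insert [DecidableEq ι] {S : Finset ι} {i : ι} {z z' : W} (hi : i ∉ S)
    (h : f i z = 1) (h0 : f i z' = 0) (hne : ∀ j, j ≠ i → f j z' = f j z) :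
    rgWt f (insert i S) z = rgWt f S z' := by
  unfold rgWt
  refine Finset.prod_congr rfl fun j _ => ?_
  by_cases hj : j = i
  · subst hj
    simp only [Finset.mem_insert_self, if_true, hi, if_false]
    rw [h, h0, sub_zero]
  · have e : (j ∈ insert i S) = (j ∈ S) := by simp [hj]
    simp only [e, hne j hj]

end weights

section blend

variable [Fintype ι] {X : Type} [AddCommGroup X] [Module ℝ X] {f : ι → W → ℝ}

/-- **where the `i`-th cut-off is one the blend is the blend of the faces, evaluated at the projected point.** -/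
theorem rgBl_face [DecidableEq ι] (F : Frame V W ι) (u : Finset ι → W → X) {i : ι} {z : W}
    (h1 : f i z = 1) (h0 : f i (F.drop i z) = 0) (hne : ∀ j, j ≠ i → f j (F.drop i z) = f j z) :
    rgBl F f u z = rgBl F f (fun S => u (insert i S)) (F.drop i z) := by
  have hu : (Finset.univ : Finset (Finset ι)) = (insert i (Finset.univ.erase i)).powerset := by
    rw [Finset.insert_erase (Finset.mem_univ i), Finset.powerset_univ]
  have hni : i ∉ (Finset.univ : Finset ι).erase i := Finset.notMem_erase i _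
  unfold rgBl
  rw [hu, Finset.sum_powerset_insert hni, Finset.sum_powerset_insert hni]
  have hmem : ∀ S ∈ ((Finset.univ : Finset ι).erase i).powerset, i ∉ S := fun S hS hiS =>
    hni (Finset.mem_powerset.1 hS hiS)
  have e1 : ∑ S ∈ ((Finset.univ : Finset ι).erase i).powerset,
      rgWt f (insert i S) (F.drop i z) •
        u (insert i (insert i S)) (F.dropS (insert i S) (F.drop i z)) = 0 :=
    Finset.sum_eq_zero fun S _ => by
      rw [rgWt_eq_zero_of_mem (Finset.mem_insert_self i S) h0, zero_smul]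
  have e2 : ∑ S ∈ ((Finset.univ : Finset ι).erase i).powerset,
      rgWt f S z • u S (F.dropS S z) = 0 :=
    Finset.sum_eq_zero fun S hS => by
      rw [rgWt_eq_zero_of_notMem (hmem S hS) h1, zero_smul]
  rw [e1, e2, add_zero, zero_add]
  refine Finset.sum_congr rfl fun S hS => ?_
  rw [rgWt_insert (hmem S hS) h1 h0 hne, F.dropS_insert (hmem S hS)]

/-- if all active values agree the blend is this value. -/
theorem rgBl_eq_of_forall (F : Frame V W ι) (u : Finset ι → W → X) {z : W} {c : X}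
    (h : ∀ S, rgWt f S z ≠ 0 → u S (F.dropS S z) = c) : rgBl F f u z = c := by
  classical
  unfold rgBl
  have : ∀ S ∈ (Finset.univ : Finset (Finset ι)),
      rgWt f S z • u S (F.dropS S z) = rgWt f S z • c := by
    intro S _
    by_cases hS : rgWt f S z = 0
    · rw [hS, zero_smul, zero_smul]
    · rw [h S hS]
  rw [Finset.sum_congr rfl this, ← Finset.sum_smul, rgWt_sum, one_smul]

/-- in the central part nothing happens. -/
theorem rgBl_central (F : Frame V W ι) (u : Finset ι → W → X) {z : W} (h : ∀ i, f i z = 0) :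
    rgBl F f u z = u ∅ z := by
  refine rgBl_eq_of_forall F u fun S hS => ?_
  have hS' : S = ∅ := by
    rw [Finset.eq_empty_iff_forall_notMem]
    intro i hi
    exact (rgWt_ne_zero hS).1 i hi (h i)
  rw [hS', F.dropS_empty]

/-- convex constraints. -/
theorem rgBl_mem_convex (F : Frame V W ι) (u : Finset ι → W → X) {z : W} (h0 : ∀ i, 0 ≤ f i z)
    (h1 : ∀ i, f i z ≤ 1) {C : Set X} (hC : Convex ℝ C)
    (h : ∀ S, rgWt f S z ≠ 0 → u S (F.dropS S z) ∈ C) : rgBl F f u z ∈ C := by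
  classical
  unfold rgBl
  have hne : ∃ S, rgWt f S z ≠ 0 := by
    by_contra hc
    push Not at hc
    have := rgWt_sum f z
    rw [Finset.sum_eq_zero fun S _ => hc S] at this
    exact zero_ne_one this
  obtain ⟨S0, hS0⟩ := hne
  let v : Finset ι → X := fun S => if rgWt f S z = 0 then u S0 (F.dropS S0 z) else u S (F.dropS S z)
  have e : ∑ S : Finset ι, rgWt f S z • u S (F.dropS S z) = ∑ S : Finset ι, rgWt f S z • v S := by
    refine Finset.sum_congr rfl fun S _ => ?_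
    by_cases hS : rgWt f S z = 0
    · rw [hS, zero_smul, zero_smul]
    · simp only [v, if_neg hS]
  rw [e]
  refine hC.sum_mem (fun S _ => rgWt_nonneg h0 h1 S) (rgWt_sum f z) fun S _ => ?_
  by_cases hS : rgWt f S z = 0
  · simp only [v, if_pos hS]; exact h S0 hS0
  · simp only [v, if_neg hS]; exact h S hS

/-- only the active values matter. -/
theorem rgBl_congr (F : Frame V W ι) {u u' : Finset ι → W → X} {z : W}
    (h : ∀ S, rgWt f S z ≠ 0 → u S (F.dropS S z) = u' S (F.dropS S z)) :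
    rgBl F f u z = rgBl F f u' z := by
  unfold rgBl
  refine Finset.sum_congr rfl fun S _ => ?_
  by_cases hS : rgWt f S z = 0
  · rw [hS, zero_smul, zero_smul]
  · rw [h S hS]

end blend

theorem rgBl_contDiff [Fintype ι] {X : Type} [NormedAddCommGroup X] [NormedSpace ℝ X]
    (F : Frame V W ι) {f : ι → W → ℝ} (hf : ∀ i, ContDiff ℝ ∞ (f i)) {u : Finset ι → W → X}
    (hu : ∀ S, ContDiff ℝ ∞ (u S)) : ContDiff ℝ ∞ (rgBl F f u) := by
  unfold rgBl
  exact ContDiff.sum fun S _ => (rgWt_contDiff hf S).smul ((hu S).comp (F.contDiff_dropS S))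

/-! ## 2. the slow cut-offs -/

/-- universal bounds of the derivatives of the smooth transition. -/
noncomputable def rgStC (j : ℕ) : ℝ := ⨆ x : ℝ, ‖iteratedDeriv j Real.smoothTransition x‖

/-- the class of slow profiles. -/
structure RgSlow (σ : ℝ → ℝ) : Prop where
  smooth : ContDiff ℝ ∞ σ
  mono : Monotone σ
  zero : ∀ x, x ≤ 1 → σ x = 0
  bd : ∀ j : ℕ, 1 ≤ j → ∀ x, ‖iteratedDeriv j σ x‖ ≤ rgStC j
  top : Tendsto σ atTop atTop

/-- radius functions on `V`. -/
structure RgRad (ϱ : V → ℝ) : Prop where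
  smooth : ContDiff ℝ ∞ ϱ
  one_le : ∀ y, 1 ≤ ϱ y
  proper : ∀ m : ℝ, IsCompact {y | ϱ y ≤ m}
  bd : ∀ j : ℕ, 1 ≤ j → ∃ c : ℝ, ∀ y, ‖iteratedFDeriv ℝ j ϱ y‖ ≤ c

/-- **leaf L-RG-SLOW-A (1)**: slow profiles exist.
PLAN.  Choose recursively `a : ℕ → ℝ`, `a 0 ≥ max 1 (N 0)`, `a (m+1) ≥ max (a m + 1) (N (m+1))`.  `σ x = ∑' m, st (x - a m)` (`st = Real.smoothTransition`).  On `Iio (a (m+1))` only the terms `0..m` do not vanish:
`σ = ∑_{l ≤ m} st (· - a l)` there (`tsum_eq_sum`), so `σ` is smooth (`contDiff_iff_contDiffAt`, `ContDiffAt.congr_of_eventuallyEq`), monotone, `σ x = 0` for `x ≤ a 0`.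
On `Ioo (a m) (a (m+1))` (and near `a m`, from the left all derivatives of `st (· - a m)` vanish) `σ = m + st (· - a m)`: `iteratedDeriv j σ x = iteratedDeriv j st (x - a m)` for `j ≥ 1`
(`iteratedDeriv_comp_sub_const`/`iteratedDeriv_const_add`); `≤ rgStC j` by `le_ciSup` (bounded: `iteratedDeriv j st` is continuous and vanishes off `[0,1]`).
`σ (N m) ≤ σ (a m) = m` (the terms `l < m` are `1` since `a m ≥ a l + 1`, the others vanish).  `σ (a m + 1) ≥ m + 1`: `Tendsto`. -/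
theorem rg_exists_slow (N : ℕ → ℝ) : ∃ σ : ℝ → ℝ, RgSlow σ ∧ ∀ m : ℕ, σ (N m) ≤ m := by
  sorry

/-- **leaf L-RG-SLOW-A (2)**: radius functions exist.
PLAN.  `L : V ≃L[ℝ] EuclideanSpace ℝ (Fin (finrank ℝ V))` (`ContinuousLinearEquiv.ofFinrankEq`/`toEuclidean`), `ϱ y = √(1 + ‖L y‖²)`.  Smooth (`contDiff_norm_sq`, `Real.sqrt` away from `0`), `≥ 1`,
`{ϱ ≤ m}` is closed and bounded.  Bounds: `ϱ = Θ ∘ L`, `Θ x = √(1+‖x‖²)`; `D^j Θ` is bounded for `j ≥ 1`: by induction `D^j Θ (x)` is a sum of terms `c (1+|x|²)^{1/2 - a} x^{⊗ b} ⊗ δ^{⊗ c'}` with `b ≤ 2a - 1`...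
ALTERNATIVE (shorter): `ϱ y = 1 + ∑_l κ (L y l) + κ (- L y l)`, `κ x = ∫_0^x st`: `κ' = st ∈ [0,1]`, `κ^(j) = st^(j-1)` bounded, `κ x ≥ x - 1`; `D^j ϱ` = sum of `κ^(j)(L y l)` times the `j`-th tensor power of the
continuous linear form `y ↦ L y l` (`iteratedFDeriv_comp` with a linear map: `ContinuousLinearMap.iteratedFDeriv_comp_right`, `norm_iteratedFDeriv_eq_norm_iteratedDeriv`). -/
theorem rg_exists_rad [FiniteDimensional ℝ V] : ∃ ϱ : V → ℝ, RgRad ϱ := by
  sorry

theorem RgSlow.nonneg {σ : ℝ → ℝ} (h : RgSlow σ) (x : ℝ) : 0 ≤ σ x := by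
  rcases le_total x 1 with h1 | h1
  · exact (h.zero x h1).ge
  · rw [← h.zero 1 le_rfl]; exact h.mono h1

/-- `σ x > m ≥ σ (N)` forces `x > N`. -/
theorem RgSlow.lt_of_lt {σ : ℝ → ℝ} (h : RgSlow σ) {x N m : ℝ} (hN : σ N ≤ m) (hx : m < σ x) :
    N < x := by
  by_contra hc
  exact absurd (h.mono (not_lt.1 hc)) (not_le.2 (lt_of_le_of_lt hN hx))

/-- the slow cut-off of the `i`-th tail. -/
noncomputable def rgSf (F : Frame V W ι) (σ : ℝ → ℝ) (ϱ : V → ℝ) (i : ι) (z : W) : ℝ :=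
  Real.smoothTransition (σ |F.t i z| - ϱ (F.q z))

section sf

variable (F : Frame V W ι) {σ : ℝ → ℝ} {ϱ : V → ℝ}

theorem rgSf_nonneg (σ : ℝ → ℝ) (ϱ : V → ℝ) (i : ι) (z : W) : 0 ≤ rgSf F σ ϱ i z :=
  Real.smoothTransition.nonneg _

theorem rgSf_le_one (σ : ℝ → ℝ) (ϱ : V → ℝ) (i : ι) (z : W) : rgSf F σ ϱ i z ≤ 1 :=
  Real.smoothTransition.le_one _

theorem rgSf_eq_zero {i : ι} {z : W} (h : σ |F.t i z| ≤ ϱ (F.q z)) : rgSf F σ ϱ i z = 0 :=
  Real.smoothTransition.zero_of_nonpos (by linarith)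

theorem rgSf_eq_one {i : ι} {z : W} (h : ϱ (F.q z) + 1 ≤ σ |F.t i z|) : rgSf F σ ϱ i z = 1 :=
  Real.smoothTransition.one_of_one_le (by linarith)

theorem rgSf_ne_zero {i : ι} {z : W} (h : rgSf F σ ϱ i z ≠ 0) : ϱ (F.q z) < σ |F.t i z| := by
  by_contra hc
  exact h (rgSf_eq_zero F (not_lt.1 hc))

theorem rgSf_ne_one {i : ι} {z : W} (h : rgSf F σ ϱ i z ≠ 1) : σ |F.t i z| < ϱ (F.q z) + 1 := by
  by_contra hc
  exact h (rgSf_eq_one F (not_lt.1 hc))

theorem rgSf_drop_ne (σ : ℝ → ℝ) (ϱ : V → ℝ) {i j : ι} (h : j ≠ i) (z : W) :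
    rgSf F σ ϱ j (F.drop i z) = rgSf F σ ϱ j z := by
  simp only [rgSf, F.t_drop_ne h, F.q_drop]

theorem rgSf_drop_self (hσ : RgSlow σ) (hϱ : RgRad ϱ) (i : ι) (z : W) :
    rgSf F σ ϱ i (F.drop i z) = 0 := by
  apply rgSf_eq_zero
  rw [F.t_drop_self, abs_zero, hσ.zero 0 zero_le_one]
  have := hϱ.one_le (F.q (F.drop i z))
  linarith

/-- invariance under translations in other directions. -/
theorem rgSf_add_smul (σ : ℝ → ℝ) (ϱ : V → ℝ) {i j : ι} (h : j ≠ i) (z : W) (s : ℝ) :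
    rgSf F σ ϱ j (z + s • F.e i) = rgSf F σ ϱ j z := by
  simp only [rgSf, map_add, map_smul, F.t_e_ne j i h, F.q_e, smul_zero, add_zero]

theorem rgSf_eq (hσ : RgSlow σ) (i : ι) (z : W) :
    rgSf F σ ϱ i z = Real.smoothTransition (σ (F.t i z) + σ (-F.t i z) - ϱ (F.q z)) := by
  unfold rgSf
  rcases le_total 0 (F.t i z) with h | h
  · rw [abs_of_nonneg h, hσ.zero (-F.t i z) (by linarith), add_zero]
  · rw [abs_of_nonpos h, hσ.zero (F.t i z) (by linarith), zero_add]

theorem rgSf_contDiff (hσ : RgSlow σ) (hϱ : RgRad ϱ) (i : ι) : ContDiff ℝ ∞ (rgSf F σ ϱ i) := by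
  have h : rgSf F σ ϱ i = fun z =>
      Real.smoothTransition (σ (F.t i z) + σ (-F.t i z) - ϱ (F.q z)) := funext (rgSf_eq F hσ i)
  rw [h]
  have h1 : ContDiff ℝ ∞ fun z => F.t i z := (F.t i).contDiff
  have h2 : ContDiff ℝ ∞ fun z => ϱ (F.q z) := hϱ.smooth.comp F.q.contDiff
  exact Real.smoothTransition.contDiff.comp
    (((hσ.smooth.comp h1).add (hσ.smooth.comp h1.neg)).sub h2)

end sf

/-- the slow blend of a family. -/
noncomputable def rgSb [Fintype ι] {X : Type} [AddCommGroup X] [Module ℝ X] (F : Frame V W ι)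
    (σ : ℝ → ℝ) (ϱ : V → ℝ) (u : Finset ι → W → X) (z : W) : X :=
  rgBl F (rgSf F σ ϱ) u z

section sb

variable [Fintype ι] {X : Type} [AddCommGroup X] [Module ℝ X] (F : Frame V W ι) {σ : ℝ → ℝ}
  {ϱ : V → ℝ}

/-- active sets: all entries of `S` are far out, all others are not too far. -/
theorem rgSw_ne_zero {S : Finset ι} {z : W} (h : rgWt (rgSf F σ ϱ) S z ≠ 0) :
    (∀ i ∈ S, ϱ (F.q z) < σ |F.t i z|) ∧ ∀ i, i ∉ S → σ |F.t i z| < ϱ (F.q z) + 1 :=
  ⟨fun i hi => rgSf_ne_zero F ((rgWt_ne_zero h).1 i hi),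
    fun i hi => rgSf_ne_one F ((rgWt_ne_zero h).2 i hi)⟩

/-- **exact compatibility of the slow blend**, whatever the family is. -/
theorem rgSb_face [DecidableEq ι] (hσ : RgSlow σ) (hϱ : RgRad ϱ) (u : Finset ι → W → X) {i : ι}
    {z : W} (h : ϱ (F.q z) + 1 ≤ σ |F.t i z|) :
    rgSb F σ ϱ u z = rgSb F σ ϱ (fun S => u (insert i S)) (F.drop i z) :=
  rgBl_face F u (rgSf_eq_one F h) (rgSf_drop_self F hσ hϱ i z)
    fun _ hj => rgSf_drop_ne F σ ϱ hj z

/-- for a single function: `rgSb u (drop i z) = rgSb u z` far out. -/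
theorem rgSb_drop (hσ : RgSlow σ) (hϱ : RgRad ϱ) (u : W → X) {i : ι} {z : W}
    (h : ϱ (F.q z) + 1 ≤ σ |F.t i z|) :
    rgSb F σ ϱ (fun _ => u) (F.drop i z) = rgSb F σ ϱ (fun _ => u) z := by
  classical
  exact (rgSb_face F hσ hϱ (fun _ => u) h).symm

theorem rgSb_central (u : Finset ι → W → X) {z : W} (h : ∀ i, σ |F.t i z| ≤ ϱ (F.q z)) :
    rgSb F σ ϱ u z = u ∅ z :=
  rgBl_central F u fun i => rgSf_eq_zero F (h i)

theorem rgSb_mem_convex (u : Finset ι → W → X) {z : W} {C : Set X} (hC : Convex ℝ C)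
    (h : ∀ S, rgWt (rgSf F σ ϱ) S z ≠ 0 → u S (F.dropS S z) ∈ C) : rgSb F σ ϱ u z ∈ C :=
  rgBl_mem_convex F u (fun i => rgSf_nonneg F σ ϱ i z) (fun i => rgSf_le_one F σ ϱ i z) hC h

/-- the threshold of the slow blend over a compact set. -/
theorem rgSb_compat (hσ : RgSlow σ) (hϱ : RgRad ϱ) (u : W → X) {E : Stat ι → Set W} :
    Compat F E (rgSb F σ ϱ fun _ => u) := by
  intro i K hK
  obtain ⟨C, hC⟩ := (hK.image hϱ.smooth.continuous).bddAbove
  obtain ⟨R, hR⟩ := (hσ.top.eventually_ge_atTop (C + 1)).exists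
  refine ⟨R, fun z _ hq hlt => rgSb_drop F hσ hϱ u ?_⟩
  have h1 := hC ⟨_, hq, rfl⟩
  have h2 := hσ.mono hlt.le
  linarith

end sb

/-- **leaf L-RG-SLOW-B (1)**: all ambient derivatives of the slow weights are bounded INDEPENDENTLY of `σ`.
PLAN.  `rgSf = st ∘ φ`, `φ z = σ (t i z) + σ (- t i z) - ϱ (q z)`; `‖D^j φ‖ ≤ 2 rgStC j ‖t i‖^j + c_j(ϱ) ‖q‖^j` for `j ≥ 1` (`ContinuousLinearMap.iteratedFDeriv_comp_right`,
`norm_iteratedFDeriv_eq_norm_iteratedDeriv`); Faà di Bruno bound `norm_iteratedFDeriv_comp_le` (needs bounds of `D^j st` for `j ≤ n`: `rgStC`, and of `D^j φ` for `1 ≤ j ≤ n` in the form `D^j`);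
products: `norm_iteratedFDeriv_prod_le` / `ContinuousLinearMap.norm_iteratedFDeriv_le_of_bilinear` by induction over `ι`. -/
theorem rgSw_bound [Fintype ι] (F : Frame V W ι) {ϱ : V → ℝ} (hϱ : RgRad ϱ) (n : ℕ) :
    ∃ c : ℝ, ∀ σ : ℝ → ℝ, RgSlow σ → ∀ (S : Finset ι) (z : W),
      ‖iteratedFDeriv ℝ n (rgWt (rgSf F σ ϱ) S) z‖ ≤ c := by
  sorry

/-- **leaf L-RG-SLOW-B (2)**: the same in moving charts: `ψ k → ψ'` in `C^∞` near `u₀` modulo translations `b k`.
PLAN: `nice` for `hψ` (bounds of all derivatives of `ψ k`), `rgSw_bound`, `norm_iteratedFDeriv_comp_le` (translations do not change derivatives). -/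
theorem rgSw_chart_bound [Fintype ι] (F : Frame V W ι) {ϱ : V → ℝ} (hϱ : RgRad ϱ) {m : ℕ}
    {u₀ : E m} {ψ : ℕ → E m → W} {ψ' : E m → W} (hψ : RgsAt u₀ ψ ψ') (b : ℕ → W)
    (σ : ℕ → ℝ → ℝ) (hσ : ∀ k, RgSlow (σ k)) (S : Finset ι) :
    ∃ r > 0, (∀ᶠ k in atTop, ContDiffOn ℝ ∞ (fun x => rgWt (rgSf F (σ k) ϱ) S (ψ k x + b k))
        (Metric.ball u₀ r)) ∧
      ∀ n : ℕ, ∃ c : ℝ, ∀ᶠ k in atTop, ∀ x ∈ Metric.ball u₀ r,
        ‖iteratedFDeriv ℝ n (fun x => rgWt (rgSf F (σ k) ϱ) S (ψ k x + b k)) x‖ ≤ c := by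
  sorry

/-! ## 3. convex combinations with bounded weights -/

/-- **leaf L-RG-SLOW-C**: a convex combination, with weights which are only BOUNDED in `C^∞`, of sequences which converge to the SAME limit (or whose weight vanishes) converges to this limit.
PLAN.  `∑_S w_S^k A_S^k - a' = ∑_S w_S^k (A_S^k - a')` on the ball where `∑ w = 1`.  For `S` of the first kind `A_S^k - a' → 0` in `C^∞` (`RgsAt.sub`, `nice`), and the Leibniz rule
`ContinuousLinearMap.norm_iteratedFDerivWithin_le_of_bilinear` gives `‖D^n (w (A - a'))‖ ≤ ∑ binom ‖D^i w‖ ‖D^{n-i}(A - a')‖ → 0`.  For `S` of the second kind the term vanishes on the ball.  Finish with `RgsAt.mk'`. -/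
theorem RgsAt.convex_comb {m : ℕ} {G : Type} [NormedAddCommGroup G] [NormedSpace ℝ G] {κ : Type}
    [Fintype κ] {u₀ : E m} {w : κ → ℕ → E m → ℝ} {A : κ → ℕ → E m → G} {a' : E m → G} {r : ℝ}
    (hr : 0 < r)
    (hws : ∀ S, ∀ᶠ k in atTop, ContDiffOn ℝ ∞ (w S k) (Metric.ball u₀ r))
    (hwb : ∀ S, ∀ n : ℕ, ∃ c : ℝ, ∀ᶠ k in atTop, ∀ x ∈ Metric.ball u₀ r,
      ‖iteratedFDeriv ℝ n (w S k) x‖ ≤ c)
    (hsum : ∀ᶠ k in atTop, ∀ x ∈ Metric.ball u₀ r, ∑ S, w S k x = 1)
    (ha' : ContDiffOn ℝ ∞ a' (Metric.ball u₀ r))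
    (hA : ∀ S, RgsAt u₀ (A S) a' ∨ ∀ᶠ k in atTop, ∀ x ∈ Metric.ball u₀ r, w S k x = 0) :
    RgsAt u₀ (fun k x => ∑ S, w S k x • A S k x) a' := by
  sorry

end Claimed.Agent.R315
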