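import Claimed.Agent.R315.Rg.Super
import Claimed.Agent.R315.Rg.Slow

/-!
# Row 315, package Rg, STAGE 1 of RULING 9 (file Rg/Sz.lean): compatible AMBIENT supersolutions on the TRUE pieces  (abstract form)

SITUATION (RULING 9 (2)).  The true pieces `X α` (level sets built from the true defining function, intersected with the open set where they are manifolds) are only ASYMPTOTIC to products in the old tails:
they do NOT form a diagram.  What is exact is the ambient space.  So the supersolutions are AMBIENT and STATUS-INDEXED: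

  `v : Stat ι → W → ℝ`,  `v α` smooth and positive on ALL of `W`,  `v α z = v (α.face i) (drop i z)` for ALL `z` with `q z ∈ K`, `|t i z| > R(K)`  (an identity of ambient functions),
  `L_α (v α) ≥ δ v α` AT THE POINTS of the closed required set `D α ⊆ X α`;   `L_α = rgL (n - hits α) (X α) h θ C (Dsc_{X α} - Vs)`.

(No neighbourhoods in contracts: a strict inequality between functions which are continuous along `X α` holds on a relatively open set.)

INPUT (`RgzSys`): geometry of the pieces, signs of the tail coordinates, closed required sets, form GAP `e₀` on `X α ∩ O`, `O ⊇ D α` open (from BUD + SEAM), a locally finite family of pairwise disjoint open sets over compact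
subsets of `V` which covers `D α` (`piece`; confinement), and the TAIL TRANSFER:
 * `tt1`: for every family `v` which is already good on the lower levels: far out in the `i`-th tail the face copy `v (α.face i) ∘ drop i` is a supersolution with constant `(3/4) δ` at the points of `D α`,
   and `|⟨d(face copy), dt_j⟩| ≤ κ₁ (face copy)`;
 * `tt2`: `|Δ_θ t_j| ≤ κ₁`, `|dt_j|² ≤ κ₁` at the points of `D α` over a compact set.
 (Both by contradiction: escaping sequences, (AC), the soft lemma, cylinder calculus: `Rg/SzI.lean`.)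
OUTPUT (`rgz_super`).

PROOF.  Induction over the level `rgLv α` (faces first), as in `Rg/Super.lean`.  One status `α` of level `k`:
 `ψ = rgzPsi F T v α` = blend (`rgBl`, `Rg/Slow.lean`) of the constant `1` and of the functions `v (α.faceS S) ∘ dropS S` with helper29's cut-offs `pkF F T i` in the tails of `α`; `T` a threshold function of the compatibility on
 the lower levels.  `ψ` is smooth, positive, and `ψ z = v (α.face i) (drop i z)` if `T (q z) + 2 ≤ |t i z|` (`rgzPsi_face`, PROVED).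
 On every piece `U c`: `rg_glue_super` on the manifold `X α ∩ U c` gives `v_c = ψ` off a compact set; `f_c` = ambient extension of `v_c - ψ` with compact support in `U c` (`rgz_piece`, leaf).
 `v α = ψ + ∑ f_c` (`rgz_status`, leaf).
Owner: helper209.
-/

set_option autoImplicit false
set_option linter.unusedSectionVars false
open scoped ContDiff Topology
open Claims.C0499 Set MeasureTheory Filter

namespace Claimed.Agent.R315

variable {V W : Type} [NormedAddCommGroup V] [NormedSpace ℝ V] [NormedAddCommGroup W]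
  [NormedSpace ℝ W] {ι : Type}

/-- the induction hypothesis: everything is done on the statuses of level `< k`. -/
structure RgzLow [Fintype ι] (n : ℕ) (F : Frame V W ι) (X : Stat ι → Set W) (h : Ten W)
    (θ Vs : W → ℝ) (D : Stat ι → Set W) (C : ℝ) (k : ℕ) (v : Stat ι → W → ℝ) (δ : ℝ) : Prop where
  sm : ∀ α, ContDiff ℝ ∞ (v α)
  pos : ∀ α z, 0 < v α z
  compat : ∀ K : Set V, IsCompact K → ∃ R : ℝ, ∀ α, rgLv α < k → ∀ i, α i ≠ 0 → ∀ z, F.q z ∈ K →
    R < |F.t i z| → v α z = v (α.face i) (F.drop i z)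
  sup : ∀ α, rgLv α < k → ∀ z ∈ D α,
    δ * v α z ≤ rgL (n - hits α) (X α) h θ C (rgW n X h θ Vs α) (v α) z

/-- **the input of stage 1.** -/
structure RgzSys [Fintype ι] [MeasurableSpace W] [BorelSpace W] (n : ℕ) (F : Frame V W ι)
    (X : Stat ι → Set W) (h : Ten W) (θ Vs : W → ℝ) (D : Stat ι → Set W) (C e₀ : ℝ) : Prop where
  geo : ∀ α, CtGeo (n - hits α) (X α) h θ
  pot : ∀ α, SmoothAlong (n - hits α) (X α) Vs
  t_hit : ∀ α, ∀ z ∈ X α, ∀ i, α i = 0 → F.t i z = 0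
  t_sign : ∀ α, ∀ z ∈ X α, ∀ i, 0 ≤ (α i : ℝ) * F.t i z
  D_sub : ∀ α, D α ⊆ X α
  D_closed : ∀ α, IsClosed (D α)
  gap : ∀ α, ∃ O : Set W, IsOpen O ∧ D α ⊆ O ∧
    GsGap (n - hits α) (X α ∩ O) h θ C (rgW n X h θ Vs α) e₀
  /-- confinement -/
  piece : ∀ α, ∃ (κ : Type) (U : κ → Set W) (Kc : κ → Set V), (∀ c, IsOpen (U c)) ∧
    (Pairwise fun c c' => Disjoint (U c) (U c')) ∧ D α ⊆ ⋃ c, U c ∧ (∀ c, IsCompact (Kc c)) ∧
    (∀ c, ∀ z ∈ U c, F.q z ∈ Kc c) ∧
    ∀ K : Set V, IsCompact K → {c | ∃ z ∈ U c, F.q z ∈ K}.Finite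
  /-- tail transfer of the face copies -/
  tt1 : ∀ (k : ℕ) (v : Stat ι → W → ℝ) (δ : ℝ), 0 < δ → RgzLow n F X h θ Vs D C k v δ →
    ∀ α, rgLv α = k → ∀ K : Set V, IsCompact K → ∃ T κ₁ : ℝ, ∀ i, α i ≠ 0 → ∀ z ∈ D α,
      F.q z ∈ K → T < |F.t i z| →
      3 / 4 * δ * v (α.face i) (F.drop i z) ≤
          rgL (n - hits α) (X α) h θ C (rgW n X h θ Vs α) (fun y => v (α.face i) (F.drop i y)) z ∧
        ∀ j, |gradIp (n - hits α) (X α) h (fun y => v (α.face i) (F.drop i y)) (fun y => F.t j y) z|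
          ≤ κ₁ * v (α.face i) (F.drop i z)
  /-- the tail coordinates on the true pieces -/
  tt2 : ∀ α, ∀ K : Set V, IsCompact K → ∃ κ₁ : ℝ, ∀ z ∈ D α, F.q z ∈ K → ∀ j,
    |wlap (n - hits α) (X α) h θ (fun y => F.t j y) z| ≤ κ₁ ∧
      gradSq (n - hits α) (X α) h (fun y => F.t j y) z ≤ κ₁
  C_pos : 0 < C
  e_pos : 0 < e₀

/-! ### the function prescribed at infinity -/

/-- cut-offs in the tails of `α`. -/
noncomputable def rgzF (F : Frame V W ι) (T : V → ℝ) (α : Stat ι) (i : ι) (z : W) : ℝ :=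
  if α i = 0 then 0 else pkF F T i z

open Classical in
/-- the blended family: `1` in the centre, the functions of the faces in the tails. -/
noncomputable def rgzU (v : Stat ι → W → ℝ) (α : Stat ι) (S : Finset ι) : W → ℝ :=
  if S = ∅ then fun _ => 1 else v (α.faceS S)

/-- the function prescribed at infinity. -/
noncomputable def rgzPsi [Fintype ι] (F : Frame V W ι) (T : V → ℝ) (v : Stat ι → W → ℝ)
    (α : Stat ι) (z : W) : ℝ :=
  rgBl F (rgzF F T α) (rgzU v α) z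

section psi

variable [Fintype ι] {F : Frame V W ι} {T : V → ℝ} {v : Stat ι → W → ℝ}

theorem rgzF_contDiff (hT0 : ∀ x, 0 ≤ T x) (hTs : ContDiff ℝ ∞ T) (α : Stat ι) (i : ι) :
    ContDiff ℝ ∞ (rgzF F T α i) := by
  by_cases h : α i = 0
  · have : rgzF F T α i = fun _ => 0 := by funext z; simp [rgzF, h]
    rw [this]; exact contDiff_const
  · have : rgzF F T α i = pkF F T i := by funext z; simp [rgzF, h]
    rw [this]; exact pkF_contDiff F hT0 hTs i

theorem rgzPsi_contDiff (hT0 : ∀ x, 0 ≤ T x) (hTs : ContDiff ℝ ∞ T)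
    (hv : ∀ α, ContDiff ℝ ∞ (v α)) (α : Stat ι) : ContDiff ℝ ∞ (rgzPsi F T v α) := by
  refine rgBl_contDiff F (rgzF_contDiff hT0 hTs α) fun S => ?_
  unfold rgzU
  split_ifs
  · exact contDiff_const
  · exact hv _

theorem rgzPsi_pos (hv : ∀ α z, 0 < v α z) (α : Stat ι) (z : W) : 0 < rgzPsi F T v α z := by
  refine rgBl_mem_convex (C := Ioi (0 : ℝ)) F (rgzU v α) (fun i => ?_) (fun i => ?_)
    (convex_Ioi 0) fun S _ => ?_
  · unfold rgzF; split_ifs
    · exact le_rfl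
    · exact pkF_nonneg F T i z
  · unfold rgzF; split_ifs
    · exact zero_le_one
    · exact pkF_le_one F T i z
  · unfold rgzU
    split_ifs
    · exact (one_pos : (0 : ℝ) < 1)
    · exact hv _ _

theorem rgLv_face_le (α : Stat ι) (i : ι) : rgLv (α.face i) ≤ rgLv α := by
  classical
  by_cases h : α i = 0
  · have : α.face i = α := by
      funext j
      by_cases hj : j = i
      · subst hj; simp [Stat.face, h]
      · simp [Stat.face, Function.update_of_ne hj]
    rw [this]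
  · exact (rgLv_face_lt α h).le

/-- iterated compatibility beyond a threshold function. -/
theorem rgz_thr_dropS {k : ℕ}
    (hTc : ∀ β, rgLv β < k → ∀ j, β j ≠ 0 → ∀ y, T (F.q y) < |F.t j y| →
      v β y = v (β.face j) (F.drop j y)) (S : Finset ι) :
    ∀ (β : Stat ι) (y : W), rgLv β < k → (∀ j ∈ S, β j ≠ 0 ∧ T (F.q y) < |F.t j y|) →
      v β y = v (β.faceS S) (F.dropS S y) := by
  classical
  induction S using Finset.induction_on with
  | empty =>
    intro β y _ _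
    rw [F.dropS_empty, Stat.faceS_empty]
  | insert j S hj ih =>
    intro β y hβ hS
    obtain ⟨h1, h2⟩ := hS j (Finset.mem_insert_self j S)
    rw [F.dropS_insert hj, ← Stat.faceS_insert, hTc β hβ j h1 y h2]
    refine ih (β.face j) (F.drop j y) (lt_of_le_of_lt (rgLv_face_le β j) hβ) fun l hl => ?_
    have hlj : l ≠ j := fun h => hj (h ▸ hl)
    obtain ⟨h3, h4⟩ := hS l (Finset.mem_insert_of_mem hl)
    refine ⟨?_, ?_⟩
    · simpa [Stat.face, Function.update_of_ne hlj] using h3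
    · rw [F.q_drop, F.t_drop_ne hlj]; exact h4

/-- **far out in the `i`-th tail `ψ` is the face copy.** -/
theorem rgzPsi_face (hT0 : ∀ x, 0 ≤ T x) {k : ℕ}
    (hTc : ∀ β, rgLv β < k → ∀ j, β j ≠ 0 → ∀ y, T (F.q y) < |F.t j y| →
      v β y = v (β.face j) (F.drop j y))
    {α : Stat ι} (hα : rgLv α = k) {i : ι} (hi : α i ≠ 0) {z : W}
    (hz : T (F.q z) + 2 ≤ |F.t i z|) : rgzPsi F T v α z = v (α.face i) (F.drop i z) := by
  classical
  unfold rgzPsi
  have h1 : rgzF F T α i z = 1 := by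
    simp only [rgzF, if_neg hi]; exact pkF_eq_one F hz
  have h0 : rgzF F T α i (F.drop i z) = 0 := by
    simp only [rgzF, if_neg hi]; exact pkF_drop_self F hT0 i z
  have hne : ∀ j, j ≠ i → rgzF F T α j (F.drop i z) = rgzF F T α j z := by
    intro j hj
    simp only [rgzF, pkF_drop_ne F T hj]
  rw [rgBl_face F (rgzU v α) h1 h0 hne]
  refine rgBl_eq_of_forall F _ fun S hS => ?_
  have hlv : rgLv (α.face i) < k := hα ▸ rgLv_face_lt α hi
  have hact := (rgWt_ne_zero hS).1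
  have e1 : rgzU v α (insert i S) = v ((α.face i).faceS S) := by
    unfold rgzU
    rw [if_neg (Finset.insert_ne_empty i S), Stat.faceS_insert]
  rw [e1]
  refine (rgz_thr_dropS hTc S (α.face i) (F.drop i z) hlv fun j hj => ?_).symm
  have h2 := hact j hj
  have hji : j ≠ i := by
    rintro rfl
    exact h2 h0
  have hαj : α j ≠ 0 := by
    intro h
    apply h2
    simp [rgzF, h]
  refine ⟨by simpa [Stat.face, Function.update_of_ne hji] using hαj, ?_⟩
  have h3 : pkF F T j (F.drop i z) ≠ 0 := by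
    simpa [rgzF, hαj] using h2
  have := pkF_ne_zero F h3
  linarith

end psi

/-! ### auxiliary calculus for RGZ-PIECE -/

section aux1d

/-- primitive of the smooth transition. -/
noncomputable def rgzKap (x : ℝ) : ℝ := ∫ y in (0:ℝ)..x, Real.smoothTransition y

theorem rgzKap_contDiff : ContDiff ℝ ∞ rgzKap := (rg1d_prim Real.smoothTransition.contDiff).1

theorem rgzKap_deriv : deriv rgzKap = Real.smoothTransition :=
  (rg1d_prim Real.smoothTransition.contDiff).2

theorem rgzKap_of_nonpos {x : ℝ} (hx : x ≤ 0) : rgzKap x = 0 := by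
  have : ∫ y in (0:ℝ)..x, Real.smoothTransition y = ∫ y in (0:ℝ)..x, (0 : ℝ) := by
    refine intervalIntegral.integral_congr fun y hy => ?_
    rw [uIcc_of_ge hx] at hy
    exact Real.smoothTransition.zero_of_nonpos hy.2
  unfold rgzKap
  rw [this]
  simp

theorem rgzKap_nonneg (x : ℝ) : 0 ≤ rgzKap x := by
  rcases le_total x 0 with h | h
  · rw [rgzKap_of_nonpos h]
  · exact intervalIntegral.integral_nonneg h fun y _ => Real.smoothTransition.nonneg y

theorem rgzKap_pos_imp {x : ℝ} (h : 0 < rgzKap x) : 0 < x := by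
  by_contra hx
  rw [rgzKap_of_nonpos (not_lt.1 hx)] at h
  exact lt_irrefl _ h

theorem rgzKap_ge (x : ℝ) : x - 1 ≤ rgzKap x := by
  rcases le_total x 1 with h | h
  · exact (sub_nonpos.2 h).trans (rgzKap_nonneg x)
  · have hint : ∀ a b, IntervalIntegrable Real.smoothTransition volume a b := fun a b =>
      Real.smoothTransition.continuous.intervalIntegrable _ _
    have h1 : ∫ y in (0:ℝ)..x, Real.smoothTransition y =
        (∫ y in (0:ℝ)..1, Real.smoothTransition y) + ∫ y in (1:ℝ)..x, Real.smoothTransition y :=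
      (intervalIntegral.integral_add_adjacent_intervals (hint _ _) (hint _ _)).symm
    have h2 : ∫ y in (1:ℝ)..x, Real.smoothTransition y = ∫ y in (1:ℝ)..x, (1 : ℝ) := by
      refine intervalIntegral.integral_congr fun y hy => ?_
      rw [uIcc_of_le h] at hy
      exact Real.smoothTransition.one_of_one_le hy.1
    have h3 : 0 ≤ ∫ y in (0:ℝ)..1, Real.smoothTransition y := rgzKap_nonneg 1
    unfold rgzKap
    rw [h1, h2]
    simp only [intervalIntegral.integral_const, smul_eq_mul, mul_one]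
    linarith

theorem rgzKap_comp (a c : ℝ) : ContDiff ℝ ∞ (fun s => rgzKap (a * s - c)) ∧
    (deriv (fun s => rgzKap (a * s - c)) = fun s => a * Real.smoothTransition (a * s - c)) ∧
    (deriv (deriv (fun s => rgzKap (a * s - c))) =
      fun s => a ^ 2 * deriv Real.smoothTransition (a * s - c)) := by
  have hlin : ∀ s : ℝ, HasDerivAt (fun s : ℝ => a * s - c) a s := fun s => by
    simpa using ((hasDerivAt_id s).const_mul a).sub_const c
  have h1 : deriv (fun s => rgzKap (a * s - c)) = fun s => a * Real.smoothTransition (a * s - c) := by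
    funext s
    have hk : HasDerivAt rgzKap (Real.smoothTransition (a * s - c)) (a * s - c) := by
      have := (rgzKap_contDiff.differentiable (by simp) (a * s - c)).hasDerivAt
      rwa [rgzKap_deriv] at this
    have := hk.comp s (hlin s)
    rw [show (fun s => rgzKap (a * s - c)) = rgzKap ∘ fun s : ℝ => a * s - c from rfl, this.deriv]
    ring
  refine ⟨rgzKap_contDiff.comp ((contDiff_const.mul contDiff_id).sub contDiff_const), h1, ?_⟩
  rw [h1]
  funext s
  have hk : HasDerivAt Real.smoothTransition (deriv Real.smoothTransition (a * s - c))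
      (a * s - c) :=
    ((Real.smoothTransition.contDiff (n := 1)).differentiable (by simp) _).hasDerivAt
  have := (hk.comp s (hlin s)).const_mul a
  rw [show (fun s => a * Real.smoothTransition (a * s - c)) =
    fun s => a * (Real.smoothTransition ∘ fun s : ℝ => a * s - c) s from rfl, this.deriv]
  ring

end aux1d

section auxM

variable {W : Type} [NormedAddCommGroup W] [NormedSpace ℝ W] [FiniteDimensional ℝ W]
  {d : ℕ} {M : Set W} {h : Ten W} {t : W → ℝ} {x : W}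

theorem rgz_ip_sum_right {κ : Type} (hM : IsMfd d M) (hh : IsMetricOn d M h) (s : Finset κ)
    {r : κ → W → ℝ} (hr : ∀ j, SmoothAlong d M (r j)) {l : W → ℝ} (hl : SmoothAlong d M l)
    (hx : x ∈ M) :
    gradIp d M h l (fun y => ∑ j ∈ s, r j y) x = ∑ j ∈ s, gradIp d M h l (r j) x := by
  classical
  induction s using Finset.induction_on with
  | empty => simpa using gs_ip_const_right hM hh 0 hl hx
  | insert a s ha ih =>
    simp only [Finset.sum_insert ha]
    rw [gs_ip_add_right hM hh (hr a) (gs_sm_sum s fun j _ => hr j) hl hx, ih]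

theorem rgz_wlap_sum {κ : Type} (hM : IsMfd d M) (hh : IsMetricOn d M h)
    (ht : SmoothAlong d M t) (s : Finset κ)
    {r : κ → W → ℝ} (hr : ∀ j, SmoothAlong d M (r j)) (hx : x ∈ M) :
    wlap d M h t (fun y => ∑ j ∈ s, r j y) x = ∑ j ∈ s, wlap d M h t (r j) x := by
  classical
  induction s using Finset.induction_on with
  | empty => simpa using gs_wlap_const hM hh ht 0 hx
  | insert a s ha ih =>
    simp only [Finset.sum_insert ha]
    rw [gs_wlap_add hM hh ht (hr a) (gs_sm_sum s fun j _ => hr j) hx, ih]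

/-- bounds for `ρ = ∑ κ(a_j τ_j - c) - 1` at one point. -/
theorem rgz_rho_bounds {ι : Type} [Fintype ι] (hM : IsMfd d M) (hh : IsMetricOn d M h)
    (ht : SmoothAlong d M t) {τ : ι → W → ℝ} (hτ : ∀ j, SmoothAlong d M (τ j)) {ψ : W → ℝ}
    (hψ : SmoothAlong d M ψ) (a : ι → ℝ) (ha : ∀ j, |a j| ≤ 1) (c : ℝ) {cf : ℝ}
    (hcf : ∀ x, 0 ≤ deriv Real.smoothTransition x ∧ deriv Real.smoothTransition x ≤ cf)
    (hx : x ∈ M) {b₁ κ₂ : ℝ} (hκ₂ : 0 ≤ κ₂)
    (h1 : ∀ j, |gradIp d M h ψ (τ j) x| ≤ b₁)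
    (h2 : ∀ j, |wlap d M h t (τ j) x| ≤ κ₂ ∧ gradSq d M h (τ j) x ≤ κ₂) :
    |gradIp d M h ψ (fun y => ∑ j, rgzKap (a j * τ j y - c) - 1) x| ≤ Fintype.card ι * b₁ ∧
      gradSq d M h (fun y => ∑ j, rgzKap (a j * τ j y - c) - 1) x ≤ (Fintype.card ι : ℝ) ^ 2 * κ₂ ∧
      |wlap d M h t (fun y => ∑ j, rgzKap (a j * τ j y - c) - 1) x| ≤
        Fintype.card ι * (κ₂ + cf * κ₂) := by
  classical
  set G : ι → ℝ → ℝ := fun j s => rgzKap (a j * s - c) with hGdef
  have hGs : ∀ j, ContDiff ℝ ∞ (G j) := fun j => (rgzKap_comp (a j) c).1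
  have hG1 : ∀ j s, deriv (G j) s = a j * Real.smoothTransition (a j * s - c) := fun j s =>
    congrFun (rgzKap_comp (a j) c).2.1 s
  have hG2 : ∀ j s, deriv (deriv (G j)) s = a j ^ 2 * deriv Real.smoothTransition (a j * s - c) :=
    fun j s => congrFun (rgzKap_comp (a j) c).2.2 s
  have hG1b : ∀ j s, |deriv (G j) s| ≤ 1 := fun j s => by
    rw [hG1, abs_mul, abs_of_nonneg (Real.smoothTransition.nonneg _)]
    exact mul_le_one₀ (ha j) (Real.smoothTransition.nonneg _) (Real.smoothTransition.le_one _)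
  have ha2 : ∀ j, a j ^ 2 ≤ 1 := fun j => by
    have := ha j
    rw [← sq_abs]
    exact pow_le_one₀ (abs_nonneg _) this
  have hcf0 : 0 ≤ cf := (hcf 0).1.trans (hcf 0).2
  have hG2b : ∀ j s, |deriv (deriv (G j)) s| ≤ cf := fun j s => by
    rw [hG2, abs_mul, abs_of_nonneg (sq_nonneg _), abs_of_nonneg (hcf _).1]
    calc a j ^ 2 * deriv Real.smoothTransition (a j * s - c)
        ≤ 1 * cf := mul_le_mul (ha2 j) (hcf _).2 (hcf _).1 zero_le_one
      _ = cf := one_mul _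
  set r : ι → W → ℝ := fun j y => G j (τ j y) with hrdef
  have hr : ∀ j, SmoothAlong d M (r j) := fun j => gs_sm_comp' (hGs j) (hτ j)
  have hS : SmoothAlong d M (fun y => ∑ j, r j y) := gs_sm_sum _ fun j _ => hr j
  have hone : SmoothAlong d M (fun _ : W => (1 : ℝ)) := gs_sm_const 1
  have hipr : ∀ (l : W → ℝ), SmoothAlong d M l → ∀ j,
      gradIp d M h l (r j) x = deriv (G j) (τ j x) * gradIp d M h l (τ j) x := fun l hl j =>
    gs_ip_comp_right hM hh isOpen_univ (hGs j).contDiffOn (hτ j) (fun _ _ => mem_univ _) hl hx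
  have hsqr : ∀ j, gradSq d M h (r j) x ≤ κ₂ := fun j => by
    have e : gradSq d M h (r j) x = deriv (G j) (τ j x) ^ 2 * gradSq d M h (τ j) x :=
      gs_sq_comp hM hh isOpen_univ (hGs j).contDiffOn (hτ j) (fun _ _ => mem_univ _) hx
    rw [e]
    have h3 : deriv (G j) (τ j x) ^ 2 ≤ 1 := by
      rw [← sq_abs]
      exact pow_le_one₀ (abs_nonneg _) (hG1b j _)
    calc deriv (G j) (τ j x) ^ 2 * gradSq d M h (τ j) x
        ≤ 1 * gradSq d M h (τ j) x :=
          mul_le_mul_of_nonneg_right h3 (gs_sq_nonneg hM hh (hτ j) hx)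
      _ ≤ κ₂ := by rw [one_mul]; exact (h2 j).2
  refine ⟨?_, ?_, ?_⟩
  · show |gradIp d M h ψ (fun y => (∑ j, r j y) - 1) x| ≤ _
    rw [gs_ip_sub_right hM hh hS hone hψ hx, gs_ip_const_right hM hh 1 hψ hx, sub_zero,
      rgz_ip_sum_right hM hh _ hr hψ hx]
    calc |∑ j, gradIp d M h ψ (r j) x| ≤ ∑ j, |gradIp d M h ψ (r j) x| :=
          Finset.abs_sum_le_sum_abs _ _
      _ ≤ ∑ _j : ι, b₁ := Finset.sum_le_sum fun j _ => by
          rw [hipr ψ hψ j, abs_mul]
          exact (mul_le_of_le_one_left (abs_nonneg _) (hG1b j _)).trans (h1 j)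
      _ = Fintype.card ι * b₁ := by simp
  · show gradSq d M h (fun y => (∑ j, r j y) - 1) x ≤ _
    rw [gs_sq_sub hM hh hS hone hx, gs_ip_const_right hM hh 1 hS hx, gs_sq_const hM hh 1 hx]
    have e1 : gradSq d M h (fun y => ∑ j, r j y) x =
        ∑ j, ∑ i, gradIp d M h (r j) (r i) x := by
      rw [if_gradSq_eq_gradIp, rgz_ip_sum_right hM hh _ hr hS hx]
      refine Finset.sum_congr rfl fun j _ => ?_
      rw [gs_ip_comm hM hh hS (hr j) hx, rgz_ip_sum_right hM hh _ hr (hr j) hx]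
    rw [e1]
    have h4 : ∀ j i, gradIp d M h (r j) (r i) x ≤ κ₂ := fun j i => by
      have h5 := gs_ip_cs hM hh (hr j) (hr i) hx
      have h6 : gradIp d M h (r j) (r i) x ^ 2 ≤ κ₂ ^ 2 := by
        refine h5.trans ?_
        rw [sq]
        exact mul_le_mul (hsqr j) (hsqr i) (gs_sq_nonneg hM hh (hr i) hx) hκ₂
      exact (le_abs_self _).trans (abs_le_of_sq_le_sq h6 hκ₂)
    calc ∑ j, ∑ i, gradIp d M h (r j) (r i) x - 2 * 0 + 0
        = ∑ j, ∑ i, gradIp d M h (r j) (r i) x := by ring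
      _ ≤ ∑ _j : ι, ∑ _i : ι, κ₂ :=
          Finset.sum_le_sum fun j _ => Finset.sum_le_sum fun i _ => h4 j i
      _ = (Fintype.card ι : ℝ) ^ 2 * κ₂ := by simp; ring
  · show |wlap d M h t (fun y => (∑ j, r j y) - 1) x| ≤ _
    rw [gs_wlap_sub hM hh ht hS hone hx, gs_wlap_const hM hh ht 1 hx, sub_zero,
      rgz_wlap_sum hM hh ht _ hr hx]
    calc |∑ j, wlap d M h t (r j) x| ≤ ∑ j, |wlap d M h t (r j) x| :=
          Finset.abs_sum_le_sum_abs _ _
      _ ≤ ∑ _j : ι, (κ₂ + cf * κ₂) := Finset.sum_le_sum fun j _ => by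
          have e : wlap d M h t (r j) x = deriv (G j) (τ j x) * wlap d M h t (τ j) x +
              deriv (deriv (G j)) (τ j x) * gradSq d M h (τ j) x :=
            gs_wlap_comp hM hh ht isOpen_univ (hGs j).contDiffOn (hτ j) (fun _ _ => mem_univ _) hx
          rw [e]
          refine (abs_add_le _ _).trans (add_le_add ?_ ?_)
          · rw [abs_mul]
            exact (mul_le_of_le_one_left (abs_nonneg _) (hG1b j _)).trans (h2 j).1
          · rw [abs_mul, abs_of_nonneg (gs_sq_nonneg hM hh (hτ j) hx)]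
            exact mul_le_mul (hG2b j _) (h2 j).2 (gs_sq_nonneg hM hh (hτ j) hx) hcf0
      _ = Fintype.card ι * (κ₂ + cf * κ₂) := by
          rw [Finset.sum_const, Finset.card_univ, nsmul_eq_mul]

/-- a smooth bump which is `1` on a compact set, with compact support in a given open set. -/
theorem rgz_exists_bump {K O : Set W} (hK : IsCompact K) (hO : IsOpen O) (hKO : K ⊆ O) :
    ∃ χ : W → ℝ, ContDiff ℝ ∞ χ ∧ HasCompactSupport χ ∧ tsupport χ ⊆ O ∧
      (∀ x, 0 ≤ χ x ∧ χ x ≤ 1) ∧ ∀ x ∈ K, χ x = 1 := by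
  obtain ⟨L, hL, hKL, hLO⟩ := exists_compact_between hK hO hKO
  obtain ⟨f, h1, h0, hf⟩ := exists_contMDiffMap_one_nhds_of_subset_interior (n := ⊤)
    (modelWithCornersSelf ℝ W) hK.isClosed hKL
  have hsupp : tsupport (f : W → ℝ) ⊆ L := by
    refine closure_minimal (fun x hx => ?_) hL.isClosed
    by_contra hxL
    exact hx (h0 x hxL)
  refine ⟨f, f.contMDiff.contDiff, hL.of_isClosed_subset (isClosed_tsupport _) hsupp,
    hsupp.trans hLO, fun x => hf x, fun x hx => ?_⟩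
  exact h1.self_of_nhdsSet x hx

end auxM

theorem rgz_sign_abs_le (a : SignType) : |(a : ℝ)| ≤ 1 := by
  cases a <;> simp

theorem rgz_sign_abs_eq {a : SignType} (ha : a ≠ 0) {s : ℝ} (h : 0 ≤ (a : ℝ) * s) :
    |s| = (a : ℝ) * s := by
  cases a
  · exact absurd rfl ha
  · simp only [SignType.neg_eq_neg_one, SignType.coe_neg, SignType.coe_one, neg_mul, one_mul] at h ⊢
    exact abs_of_nonpos (by linarith)
  · simp only [SignType.pos_eq_one, SignType.coe_one, one_mul] at h ⊢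
    exact abs_of_nonneg h

variable [FiniteDimensional ℝ V] [FiniteDimensional ℝ W] [Fintype ι] [MeasurableSpace W]
  [BorelSpace W] {n : ℕ} {F : Frame V W ι} {X : Stat ι → Set W} {h : Ten W}
  {θ Vs : W → ℝ} {D : Stat ι → Set W} {C e₀ : ℝ}

/-- **leaf RGZ-PIECE**: the correction on one piece.
PLAN.  `d = n - hits α`, `A = X α ∩ U` (`CtGeo.inter`), `D_U = D α ∩ U`, `ψ = rgzPsi F T v α` (`rgzPsi_contDiff`, `rgzPsi_pos`; smooth along `A`: `if_smoothAlong_of_contDiff`).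
1. CONSTANTS.  `T₁, κ₁` from `H.tt1 k v δ hδ hv α hα K hK`, `κ₂` from `H.tt2 α K hK`; `T_c ≥ max T₁ (sup_K T)`, `T_c ≥ 0`.
2. `κ x = ∫ y in 0..x, Real.smoothTransition y` (smooth, `0` on `(-∞,0]`, `0 ≤ κ' ≤ 1`, `|κ''| ≤ c_f`, `κ x ≥ x - 1`);  `ρ z = ∑ i, κ ((α i) * t i z - T_c - 2) - 1`  (ambient, smooth).
   At `z ∈ D_U` with `ρ z > -1`: some `i` with `α i ≠ 0`, `(α i) t i z > T_c + 2`, so `|t i y| > T (q y) + 2` for `y` near `z` in `U` and `ψ = v (α.face i) ∘ drop i` near `z` (`rgzPsi_face`, `rg_L_congr_near`,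
   `gs_ip_congr_near`): `L ψ (z) ≥ (3/4) δ ψ z`, `|⟨dψ,dt_j⟩| ≤ κ₁ ψ`.   Chain rules of `Gs/Calc.lean`:  `⟨dψ,dρ⟩ = ∑ κ' (α j) ⟨dψ,dt_j⟩`, `Δ_θ ρ = ∑ κ' (α j) Δ_θ t_j + κ'' |dt_j|²`,
   `|dρ|² ≤ (card ι)² κ₂` (Cauchy-Schwarz `gs_ip_cs`).  So with `κ₃ = 1 + card ι (κ₁ + κ₂ (1 + c_f)) + (card ι)² κ₂` all three bounds hold with `κ₃ - 1` at the points of `D_U ∩ {ρ > -1}`.
3. OPEN SET.  The functions `L ψ`, `⟨dψ,dρ⟩`, `|dρ|²`, `Δ_θ ρ`, `ψ` are continuous along `A` (smooth: `gs_wlap_sm`, `if_gradIp_smoothAlong`, `if_gradSq_smoothAlong`, `gs_Dsc_sm`; `if_smoothAlong_continuousOn`), so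
   `G = {x ∈ A | (δ/2) ψ < L ψ, |⟨dψ,dρ⟩| < κ₃ ψ, |dρ|² < κ₃, |Δ_θρ| < κ₃}` is relatively open: `G = A ∩ O₁`, `O₁` open; `D_U ∩ {ρ > -1} ⊆ O₁`.  `O = O_gap ∩ U ∩ (O₁ ∪ {ρ < 0})`.
   `D_U ⊆ O`; at `x ∈ A ∩ O` with `0 < ρ x`: `x ∈ O₁`.   Gap on `A ∩ O = X α ∩ O`: `gs_gap_mono`; operators of `A` and of `X α` agree on `A` (`rg_L_inter`, `if_Dsc_inter`, ...).
4. `D_U ∩ {ρ ≤ s}` is compact: closed (`hDU`), over `K`, `t i = 0` if `α i = 0` (`H.t_hit`), `0 ≤ (α i) t i ≤ T_c + 4 + s` (`H.t_sign`, `κ x ≥ x - 1`, all summands `≥ 0`): `Frame.isCompact_box`.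
5. `rg_glue_super` (with `δ/2`): `v_A > 0` smooth along `A`, `= ψ` off a compact `K' ⊆ A ∩ O`, `L v_A ≥ min(e₀/4, δ/4) v_A` on `A ∩ O'`, `D_U ⊆ O'`.
6. AMBIENT EXTENSION.  `g = v_A - ψ` is smooth along `A`; `if_exists_extension`: `g'` smooth on an open `Ω ⊇ A`, `g' = g` on `A`.  `Ω' = Ω ∩ O ∩ {ψ + g' > 0}` is open (in `Ω`, `g'` is continuous) and contains `K'`.
   `χ` a smooth bump, `χ = 1` near `K'`, `tsupport χ` compact `⊆ Ω'` (`exists_contDiff_tsupport_subset` / `exists_smooth_one_nhds_of_subset_interior`), `0 ≤ χ ≤ 1`.  `f = χ g'` (`:= 0` off `Ω`): smooth (`ContDiff` is local: on `Ω` a product, off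
   `tsupport χ` zero).  `ψ + f = (1-χ) ψ + χ (ψ + g') > 0`.  On `A`: `f = g` (on `K'`: `χ = 1`; off `K'`: `g = 0`).  So `ψ + f = v_A` on `A`: `rg_L_congr_near`, `rg_L_inter`. -/
theorem rgz_piece (H : RgzSys n F X h θ Vs D C e₀) {k : ℕ} {v : Stat ι → W → ℝ} {δ : ℝ}
    (hδ : 0 < δ) (hv : RgzLow n F X h θ Vs D C k v δ) (α : Stat ι) (hα : rgLv α = k) {T : V → ℝ}
    (hTs : ContDiff ℝ ∞ T) (hT0 : ∀ x, 0 ≤ T x)
    (hTc : ∀ β, rgLv β < k → ∀ j, β j ≠ 0 → ∀ y, T (F.q y) < |F.t j y| →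
      v β y = v (β.face j) (F.drop j y))
    {U : Set W} (hU : IsOpen U) {K : Set V} (hK : IsCompact K) (hUK : ∀ z ∈ U, F.q z ∈ K)
    (hDU : IsClosed (D α ∩ U)) :
    ∃ f : W → ℝ, ContDiff ℝ ∞ f ∧ HasCompactSupport f ∧ tsupport f ⊆ U ∧
      (∀ z, 0 < rgzPsi F T v α z + f z) ∧
      ∀ z ∈ D α ∩ U, min (e₀ / 4) (δ / 4) * (rgzPsi F T v α z + f z) ≤
        rgL (n - hits α) (X α) h θ C (rgW n X h θ Vs α) (fun y => rgzPsi F T v α y + f y) z := by
  classical
  have hG : CtGeo (n - hits α) (X α) h θ := H.geo α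
  have hM := hG.mfd
  have hh := hG.met
  have hθ := hG.drift
  have hWs : SmoothAlong (n - hits α) (X α) (rgW n X h θ Vs α) :=
    gs_sm_sub (gs_Dsc_sm hh hθ) (H.pot α)
  set d := n - hits α with hd
  set Wp := rgW n X h θ Vs α with hWp
  set ψ := rgzPsi F T v α with hψdef
  have hψc : ContDiff ℝ ∞ ψ := rgzPsi_contDiff hT0 hTs hv.sm α
  have hψp : ∀ z, 0 < ψ z := rgzPsi_pos hv.pos α
  have hψs : SmoothAlong d (X α) ψ := if_smoothAlong_of_contDiff hψc
  -- constants
  obtain ⟨T₁, κ₁, htt1⟩ := H.tt1 k v δ hδ hv α hα K hK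
  obtain ⟨κ₂₀, htt2⟩ := H.tt2 α K hK
  obtain ⟨cf, hcf0, hcf⟩ := rg1d_dT_bound
  obtain ⟨B, hB⟩ := hK.bddAbove_image hTs.continuous.continuousOn
  have hB' : ∀ x ∈ K, T x ≤ B := fun x hx => hB (mem_image_of_mem T hx)
  set Tc := max (max T₁ B) 0 with hTcdef
  have hTc0 : 0 ≤ Tc := le_max_right _ _
  have hTc1 : T₁ ≤ Tc := (le_max_left _ _).trans (le_max_left _ _)
  have hTcB : B ≤ Tc := (le_max_right _ _).trans (le_max_left _ _)
  set κ₂ := max κ₂₀ 0 with hκ₂def
  have hκ₂0 : 0 ≤ κ₂ := le_max_right _ _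
  set a : ι → ℝ := fun i => (α i : ℝ) with hadef
  set τ : ι → W → ℝ := fun j y => F.t j y with hτdef
  have hτs : ∀ j, SmoothAlong d (X α) (τ j) := fun j =>
    if_smoothAlong_of_contDiff (F.t j).contDiff
  set ρ : W → ℝ := fun y => ∑ j, rgzKap (a j * τ j y - (Tc + 2)) - 1 with hρdef
  have hρc : ContDiff ℝ ∞ ρ := by
    refine ContDiff.sub (ContDiff.sum fun j _ => ?_) contDiff_const
    exact rgzKap_contDiff.comp ((contDiff_const.mul (F.t j).contDiff).sub contDiff_const)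
  have hρs : SmoothAlong d (X α) ρ := if_smoothAlong_of_contDiff hρc
  set N : ℝ := (Fintype.card ι : ℝ) with hNdef
  have hN0 : 0 ≤ N := Nat.cast_nonneg _
  set κ₃ : ℝ := 1 + |N * κ₁| + N ^ 2 * κ₂ + N * (κ₂ + cf * κ₂) with hκ₃def
  have hp1 : 0 ≤ N ^ 2 * κ₂ := by positivity
  have hp2 : 0 ≤ N * (κ₂ + cf * κ₂) := by positivity
  have hκ₃a : N * κ₁ < κ₃ := by
    have := le_abs_self (N * κ₁)
    linarith
  have hκ₃b : N ^ 2 * κ₂ < κ₃ := by
    have := abs_nonneg (N * κ₁)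
    linarith
  have hκ₃c : N * (κ₂ + cf * κ₂) < κ₃ := by
    have := abs_nonneg (N * κ₁)
    linarith
  have hκ₃0 : 0 < κ₃ := lt_of_le_of_lt hp1 hκ₃b
  -- the bounds at the points of the required set
  have key : ∀ z ∈ D α ∩ U, -1 < ρ z →
      δ / 2 * ψ z < rgL d (X α) h θ C Wp ψ z ∧ |gradIp d (X α) h ψ ρ z| < κ₃ * ψ z ∧
        gradSq d (X α) h ρ z < κ₃ ∧ |wlap d (X α) h θ ρ z| < κ₃ := by
    rintro z ⟨hzD, hzU⟩ hρz
    have hzX : z ∈ X α := H.D_sub α hzD
    have hsum : 0 < ∑ j, rgzKap (a j * τ j z - (Tc + 2)) := by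
      have : ρ z = ∑ j, rgzKap (a j * τ j z - (Tc + 2)) - 1 := rfl
      linarith
    obtain ⟨i, hi⟩ : ∃ i, 0 < rgzKap (a i * τ i z - (Tc + 2)) := by
      by_contra hcon
      push Not at hcon
      exact absurd hsum (not_lt.2 (Finset.sum_nonpos fun j _ => hcon j))
    have hi' : 0 < a i * τ i z - (Tc + 2) := rgzKap_pos_imp hi
    have hαi : α i ≠ 0 := by
      intro h0
      have : a i = 0 := by simp [hadef, h0]
      rw [this] at hi'
      linarith
    have habs : ∀ y, a i * τ i y ≤ |F.t i y| := fun y => by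
      calc a i * τ i y ≤ |a i * τ i y| := le_abs_self _
        _ = |a i| * |F.t i y| := abs_mul _ _
        _ ≤ |F.t i y| := mul_le_of_le_one_left (abs_nonneg _) (rgz_sign_abs_le _)
    set Nb : Set W := U ∩ {y | 0 < a i * τ i y - (Tc + 2)} with hNb
    have hNbo : IsOpen Nb := hU.inter (isOpen_lt continuous_const
      ((continuous_const.mul (F.t i).continuous).sub continuous_const))
    have hNbz : Nb ∈ 𝓝 z := hNbo.mem_nhds ⟨hzU, hi'⟩
    set φ : W → ℝ := fun y => v (α.face i) (F.drop i y) with hφ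
    have hψφ : ∀ y ∈ Nb, ψ y = φ y := by
      rintro y ⟨hyU, hy⟩
      refine rgzPsi_face hT0 hTc hα hαi ?_
      have h1 := hB' _ (hUK y hyU)
      have h2 := habs y
      have hy' : 0 < a i * τ i y - (Tc + 2) := hy
      linarith
    obtain ⟨hL, hip⟩ := htt1 i hαi z hzD (hUK z hzU) (by have := habs z; linarith)
    have eL : rgL d (X α) h θ C Wp ψ z = rgL d (X α) h θ C Wp φ z :=
      rg_L_congr_near hNbz hzX fun y hy => hψφ y hy.2
    have eip : ∀ j, gradIp d (X α) h ψ (τ j) z = gradIp d (X α) h φ (τ j) z := fun j =>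
      gs_ip_congr_near hNbz (fun y hy => hψφ y hy.2) (fun _ _ => rfl)
    have eψ : ψ z = φ z := hψφ z ⟨hzU, hi'⟩
    have hb := rgz_rho_bounds hM hh hθ hτs hψs a (fun j => rgz_sign_abs_le _) (Tc + 2) hcf hzX
      hκ₂0 (b₁ := κ₁ * ψ z) (fun j => by rw [eip j, eψ]; exact hip j)
      (fun j => ⟨((htt2 z hzD (hUK z hzU) j).1).trans (le_max_left _ _),
        ((htt2 z hzD (hUK z hzU) j).2).trans (le_max_left _ _)⟩)
    have hψz := hψp z
    refine ⟨?_, ?_, lt_of_le_of_lt hb.2.1 hκ₃b, lt_of_le_of_lt hb.2.2 hκ₃c⟩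
    · rw [eL]
      refine lt_of_lt_of_le ?_ hL
      show δ / 2 * ψ z < 3 / 4 * δ * φ z
      rw [← eψ]
      nlinarith
    · refine lt_of_le_of_lt hb.1 ?_
      have := mul_lt_mul_of_pos_right hκ₃a hψz
      calc N * (κ₁ * ψ z) = N * κ₁ * ψ z := by ring
        _ < κ₃ * ψ z := this
  -- the open set
  have hcψ : ContinuousOn ψ (X α) := hψc.continuous.continuousOn
  have hcL : ContinuousOn (rgL d (X α) h θ C Wp ψ) (X α) := by
    have h1 := if_smoothAlong_continuousOn hM (gs_wlap_sm hh hθ hψs)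
    have h2 := if_smoothAlong_continuousOn hM hWs
    exact (continuousOn_const.mul h1).add (h2.mul hcψ)
  have hcip := if_smoothAlong_continuousOn hM (if_gradIp_smoothAlong hh hψs hρs)
  have hcsq := if_smoothAlong_continuousOn hM (if_gradSq_smoothAlong hh hρs)
  have hcwl := if_smoothAlong_continuousOn hM (gs_wlap_sm hh hθ hρs)
  set m : W → ℝ := fun x => min (min (rgL d (X α) h θ C Wp ψ x - δ / 2 * ψ x)
      (κ₃ * ψ x - |gradIp d (X α) h ψ ρ x|))
    (min (κ₃ - gradSq d (X α) h ρ x) (κ₃ - |wlap d (X α) h θ ρ x|)) with hmdef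
  have hcm : ContinuousOn m (X α) := by
    have c1 : ContinuousOn (fun x => rgL d (X α) h θ C Wp ψ x - δ / 2 * ψ x) (X α) :=
      hcL.sub (continuousOn_const.mul hcψ)
    have c2 : ContinuousOn (fun x => κ₃ * ψ x - |gradIp d (X α) h ψ ρ x|) (X α) :=
      (continuousOn_const.mul hcψ).sub hcip.abs
    have c3 : ContinuousOn (fun x => κ₃ - gradSq d (X α) h ρ x) (X α) :=
      continuousOn_const.sub hcsq
    have c4 : ContinuousOn (fun x => κ₃ - |wlap d (X α) h θ ρ x|) (X α) :=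
      continuousOn_const.sub hcwl.abs
    exact (c1.inf c2).inf (c3.inf c4)
  obtain ⟨O₁, hO₁, hO₁e⟩ := continuousOn_iff'.1 hcm (Ioi 0) isOpen_Ioi
  obtain ⟨Og, hOg, hDOg, hgap⟩ := H.gap α
  set O : Set W := Og ∩ U ∩ (O₁ ∪ {y | ρ y < 0}) with hOdef
  have hOo : IsOpen O :=
    (hOg.inter hU).inter (hO₁.union (isOpen_lt hρc.continuous continuous_const))
  have hDO : D α ∩ U ⊆ O := by
    rintro z hz
    refine ⟨⟨hDOg hz.1, hz.2⟩, ?_⟩
    by_cases hρz : -1 < ρ z
    · left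
      obtain ⟨k1, k2, k3, k4⟩ := key z hz hρz
      have : z ∈ m ⁻¹' Ioi 0 ∩ X α := by
        refine ⟨?_, H.D_sub α hz.1⟩
        show 0 < m z
        simp only [hmdef, lt_min_iff, sub_pos]
        exact ⟨⟨k1, k2⟩, k3, k4⟩
      rw [hO₁e] at this
      exact this.1
    · right
      show ρ z < 0
      linarith [not_lt.1 hρz]
  have hO1 : ∀ x ∈ X α ∩ O, 0 < ρ x →
      δ / 2 * ψ x < rgL d (X α) h θ C Wp ψ x ∧ |gradIp d (X α) h ψ ρ x| < κ₃ * ψ x ∧
        gradSq d (X α) h ρ x < κ₃ ∧ |wlap d (X α) h θ ρ x| < κ₃ := by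
    rintro x ⟨hxX, -, hx⟩ hρx
    rcases hx with hx | hx
    · have h1 : x ∈ m ⁻¹' Ioi 0 ∩ X α := by rw [hO₁e]; exact ⟨hx, hxX⟩
      have h2 : 0 < m x := h1.1
      simp only [hmdef, lt_min_iff, sub_pos] at h2
      exact ⟨h2.1.1, h2.1.2, h2.2.1, h2.2.2⟩
    · exact absurd hx (not_lt.2 hρx.le)
  -- compactness
  have hDc : ∀ s : ℝ, IsCompact ((D α ∩ U) ∩ {x | ρ x ≤ s}) := by
    intro s
    refine (F.isCompact_box hK (max (Tc + 4 + s) 0)).of_isClosed_subset
      (hDU.inter (isClosed_le hρc.continuous continuous_const)) ?_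
    rintro z ⟨⟨hzD, hzU⟩, hzs⟩
    refine ⟨hUK z hzU, fun i => ?_⟩
    have hzX := H.D_sub α hzD
    by_cases hαi : α i = 0
    · rw [H.t_hit α z hzX i hαi, abs_zero]
      exact le_max_right _ _
    · rw [rgz_sign_abs_eq hαi (H.t_sign α z hzX i)]
      have h1 : rgzKap (a i * τ i z - (Tc + 2)) ≤ ∑ j, rgzKap (a j * τ j z - (Tc + 2)) :=
        Finset.single_le_sum (f := fun j => rgzKap (a j * τ j z - (Tc + 2)))
          (fun j _ => rgzKap_nonneg _) (Finset.mem_univ i)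
      have h2 := rgzKap_ge (a i * τ i z - (Tc + 2))
      have h3 : ρ z ≤ s := hzs
      have h4 : ρ z = ∑ j, rgzKap (a j * τ j z - (Tc + 2)) - 1 := rfl
      refine le_trans ?_ (le_max_left _ _)
      show a i * τ i z ≤ _
      linarith
  -- gluing
  obtain ⟨vA, s, O', hvs, hvp, -, ⟨K', hK', hK'sub, hvK'⟩, hO', hDO', hsup⟩ :=
    rg_glue_super hG hWs H.C_pos H.e_pos (half_pos hδ) hκ₃0 hψs (fun x _ => hψp x) hρs
      (fun x hx => H.D_sub α hx.1) hDc hOo hDO
      (gs_gap_mono hG hOg hOo (fun x hx => hx.1.1) hgap)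
      (fun x hx hp => (hO1 x hx hp).1.le) (fun x hx hp => (hO1 x hx hp).2.1.le)
      (fun x hx hp => (hO1 x hx hp).2.2.1.le) (fun x hx hp => (hO1 x hx hp).2.2.2.le)
  -- ambient extension
  have hgs : SmoothAlong d (X α) (fun y => vA y - ψ y) := gs_sm_sub hvs hψs
  obtain ⟨g', ⟨Ω, hΩ, hXΩ, hg'⟩, hg'e⟩ := if_exists_extension hM hgs
  set Ω' : Set W := (Ω ∩ O) ∩ (fun y => ψ y + g' y) ⁻¹' Ioi 0 with hΩ'def
  have hΩ'o : IsOpen Ω' := by
    have hc : ContinuousOn (fun y => ψ y + g' y) (Ω ∩ O) :=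
      hψc.continuous.continuousOn.add (hg'.continuousOn.mono inter_subset_left)
    exact hc.isOpen_inter_preimage (hΩ.inter hOo) isOpen_Ioi
  have hK'Ω : K' ⊆ Ω' := fun x hx => ⟨⟨hXΩ (hK'sub hx).1, (hK'sub hx).2⟩, by
    show 0 < ψ x + g' x
    rw [hg'e (hK'sub hx).1]
    simpa using hvp x (hK'sub hx).1⟩
  obtain ⟨χ, hχc, hχcs, hχsub, hχ01, hχ1⟩ := rgz_exists_bump hK' hΩ'o hK'Ω
  set f : W → ℝ := fun y => χ y * g' y with hfdef
  have hfts : tsupport f ⊆ tsupport χ := tsupport_mul_subset_left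
  have hfc : ContDiff ℝ ∞ f := by
    rw [contDiff_iff_contDiffAt]
    intro x
    by_cases hx : x ∈ Ω
    · exact hχc.contDiffAt.mul (hg'.contDiffAt (hΩ.mem_nhds hx))
    · have hx' : x ∉ tsupport f := fun h => hx (hχsub (hfts h)).1.1
      exact contDiffAt_const.congr_of_eventuallyEq (notMem_tsupport_iff_eventuallyEq.mp hx')
  have hfX : ∀ y ∈ X α, ψ y + f y = vA y := by
    intro y hy
    have e1 : g' y = vA y - ψ y := hg'e hy
    by_cases hyK : y ∈ K'
    · show ψ y + χ y * g' y = _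
      rw [hχ1 y hyK, e1]
      ring
    · show ψ y + χ y * g' y = _
      rw [e1, hvK' y hy hyK]
      ring
  refine ⟨f, hfc, hχcs.mul_right, (hfts.trans hχsub).trans (fun x hx => hx.1.2.1.2), ?_, ?_⟩
  · intro z
    by_cases hz : χ z = 0
    · show 0 < ψ z + χ z * g' z
      rw [hz]
      simpa using hψp z
    · have hzΩ : z ∈ Ω' := hχsub (subset_tsupport _ hz)
      have h1 : 0 < ψ z + g' z := hzΩ.2
      have h2 := hχ01 z
      have h3 : 0 < χ z := lt_of_le_of_ne h2.1 (Ne.symm hz)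
      show 0 < ψ z + χ z * g' z
      have e : ψ z + χ z * g' z = (1 - χ z) * ψ z + χ z * (ψ z + g' z) := by ring
      rw [e]
      have h4 : 0 ≤ (1 - χ z) * ψ z := mul_nonneg (by linarith) (hψp z).le
      have h5 : 0 < χ z * (ψ z + g' z) := mul_pos h3 h1
      linarith
  · rintro z hz
    have hzX := H.D_sub α hz.1
    have e : rgL d (X α) h θ C Wp (fun y => ψ y + f y) z = rgL d (X α) h θ C Wp vA z :=
      rg_L_congr_near Filter.univ_mem hzX fun y hy => hfX y hy.1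
    rw [e, hfX z hzX]
    have := hsup z ⟨hzX, hDO' hz⟩
    rwa [show δ / 2 / 2 = δ / 4 by ring] at this

/-- **leaf RGZ-STATUS**: one status.
PLAN.  1. `T` : `pk_thr_of_local` for `Pr R x = ∀ β, rgLv β < k → ∀ j, β j ≠ 0 → ∀ y, q y = x → R < |t j y| → v β y = v (β.face j) (drop j y)` (monotone in `R`; local version = `hv.compat`).
2. `κ, U, Kc` from `H.piece α`.  `D α ∩ U c = D α \ ⋃_{c' ≠ c} U c'` is closed.  `rgz_piece` gives `f c` (`choose`).   `vα z = rgzPsi F T v α z + ∑ᶠ c, f c z`.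
3. The supports `tsupport (f c) ⊆ U c` are pairwise disjoint and LOCALLY FINITE: a point `z₀` has the neighbourhood `q ⁻¹' ball (q z₀) 1`, over the compact `closedBall (q z₀) 1`, which meets only finitely many `U c`.
   So `∑ᶠ` is smooth (`LocallyFinite` + `ContDiff`: `contDiff_finsum`/`ContDiffAt.congr_of_eventuallyEq` with a finite sum), and at every point at most one term is nonzero: `vα z = ψ z + f c z` for `z ∈ U c`, `= ψ z` off `⋃ U c`: positive.
4. COMPATIBILITY over `K`: the finitely many `c` with `U c` over `K`; `R = max (sup_K T + 2) (max_c sup_{tsupport (f c)} |t i|)`: beyond `R` all `f c` vanish and `ψ z = v (α.face i) (drop i z)` (`rgzPsi_face`).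
5. `z ∈ D α`: `z ∈ U c`, `vα = ψ + f c` on the neighbourhood `U c` of `z`: `rg_L_congr_near`. -/
theorem rgz_status (H : RgzSys n F X h θ Vs D C e₀) {k : ℕ} {v : Stat ι → W → ℝ} {δ : ℝ}
    (hδ : 0 < δ) (hv : RgzLow n F X h θ Vs D C k v δ) (α : Stat ι) (hα : rgLv α = k) :
    ∃ vα : W → ℝ, ContDiff ℝ ∞ vα ∧ (∀ z, 0 < vα z) ∧
      (∀ K : Set V, IsCompact K → ∃ R : ℝ, ∀ i, α i ≠ 0 → ∀ z, F.q z ∈ K → R < |F.t i z| →
        vα z = v (α.face i) (F.drop i z)) ∧
      ∀ z ∈ D α, min (e₀ / 4) (δ / 4) * vα z ≤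
        rgL (n - hits α) (X α) h θ C (rgW n X h θ Vs α) vα z := by
  classical
  -- 1. the threshold function
  obtain ⟨T, hTs, hT0, hT⟩ := pk_thr_of_local
    (Pr := fun R x => ∀ β : Stat ι, rgLv β < k → ∀ j, β j ≠ 0 → ∀ y, F.q y = x →
      R < |F.t j y| → v β y = v (β.face j) (F.drop j y))
    (fun R R' x hRR h β hβ j hj y hy hlt => h β hβ j hj y hy (lt_of_le_of_lt hRR hlt))
    (fun K hK => by
      obtain ⟨R, hR⟩ := hv.compat K hK
      exact ⟨R, fun x hx β hβ j hj y hy hlt => hR β hβ j hj y (hy ▸ hx) hlt⟩)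
  have hTc : ∀ β, rgLv β < k → ∀ j, β j ≠ 0 → ∀ y, T (F.q y) < |F.t j y| →
      v β y = v (β.face j) (F.drop j y) :=
    fun β hβ j hj y hlt => hT (F.q y) β hβ j hj y rfl hlt
  -- 2. the pieces
  obtain ⟨κ, U, Kc, hUo, hUd, hDU, hKc, hUK, hfin⟩ := H.piece α
  have hdisj : ∀ c c', c ≠ c' → ∀ z, z ∈ U c → z ∉ U c' := fun c c' hcc z hz hz' =>
    Set.disjoint_left.1 (hUd hcc) hz hz'
  have hclosed : ∀ c, IsClosed (D α ∩ U c) := by
    intro c
    have e : D α ∩ U c = D α ∩ (⋃ c' ∈ {c' | c' ≠ c}, U c')ᶜ := by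
      ext z
      constructor
      · rintro ⟨hzD, hzc⟩
        refine ⟨hzD, fun hz => ?_⟩
        simp only [mem_iUnion] at hz
        obtain ⟨c', hc', hzc'⟩ := hz
        exact hdisj c c' (Ne.symm hc') z hzc hzc'
      · rintro ⟨hzD, hz⟩
        refine ⟨hzD, ?_⟩
        obtain ⟨c', hzc'⟩ := mem_iUnion.1 (hDU hzD)
        by_cases hcc : c' = c
        · exact hcc ▸ hzc'
        · exact absurd (mem_iUnion₂.2 ⟨c', hcc, hzc'⟩) hz
    rw [e]
    exact (H.D_closed α).inter (isOpen_biUnion fun c' _ => hUo c').isClosed_compl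
  choose f hfc hfcs hfsub hfpos hfsup using fun c =>
    rgz_piece H hδ hv α hα hTs hT0 hTc (hUo c) (hKc c) (hUK c) (hclosed c)
  set ψ := rgzPsi F T v α with hψdef
  have hψc : ContDiff ℝ ∞ ψ := rgzPsi_contDiff hT0 hTs hv.sm α
  have hf0 : ∀ c z, z ∉ U c → f c z = 0 := fun c z hz => by
    by_contra hne
    exact hz (hfsub c (subset_tsupport _ hne))
  -- 3. local finiteness
  have hlf : LocallyFinite (fun c => Function.support (f c)) := by
    intro z₀
    refine ⟨F.q ⁻¹' Metric.ball (F.q z₀) 1,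
      (Metric.isOpen_ball.preimage F.q.continuous).mem_nhds (by simp), ?_⟩
    refine (hfin (Metric.closedBall (F.q z₀) 1) (isCompact_closedBall _ _)).subset ?_
    rintro c ⟨z, hz1, hz2⟩
    exact ⟨z, hfsub c (subset_tsupport _ hz1), Metric.ball_subset_closedBall hz2⟩
  have hsm : ContDiff ℝ ∞ (fun z => ∑ᶠ c, f c z) :=
    (contMDiff_finsum (I' := modelWithCornersSelf ℝ W) (I := modelWithCornersSelf ℝ ℝ)
      (fun c => (hfc c).contMDiff) hlf).contDiff
  have hin : ∀ c z, z ∈ U c → ∑ᶠ c', f c' z = f c z := fun c z hz =>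
    finsum_eq_single _ c fun c' hc' => hf0 c' z (hdisj c c' (Ne.symm hc') z hz)
  have hout : ∀ z, (∀ c, z ∉ U c) → ∑ᶠ c', f c' z = 0 := fun z hz =>
    finsum_eq_zero_of_forall_eq_zero fun c => hf0 c z (hz c)
  refine ⟨fun z => ψ z + ∑ᶠ c, f c z, hψc.add hsm, fun z => ?_, fun K hK => ?_, fun z hz => ?_⟩
  · by_cases hz : ∃ c, z ∈ U c
    · obtain ⟨c, hc⟩ := hz
      show 0 < ψ z + ∑ᶠ c, f c z
      rw [hin c z hc]
      exact hfpos c z
    · push Not at hz
      show 0 < ψ z + ∑ᶠ c, f c z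
      rw [hout z hz, add_zero]
      exact rgzPsi_pos hv.pos α z
  · -- 4. compatibility
    have hCs := hfin K hK
    have hbd : ∀ c, ∃ R : ℝ, ∀ z ∈ tsupport (f c), ∀ i, |F.t i z| ≤ R := by
      intro c
      obtain ⟨R, hR⟩ := (hfcs c).exists_bound_of_continuousOn (f := fun z => ∑ i, |F.t i z|)
        (continuous_finsetSum _ fun i _ => (F.t i).continuous.abs).continuousOn
      refine ⟨R, fun z hz i => ?_⟩
      have h1 : |F.t i z| ≤ ∑ j, |F.t j z| :=
        Finset.single_le_sum (f := fun j => |F.t j z|) (fun j _ => abs_nonneg _)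
          (Finset.mem_univ i)
      exact h1.trans ((le_abs_self _).trans (hR z hz))
    choose Rc hRc using hbd
    obtain ⟨R₁, hR₁⟩ := (hCs.image Rc).bddAbove
    obtain ⟨B, hB⟩ := hK.bddAbove_image hTs.continuous.continuousOn
    refine ⟨max (B + 2) R₁, fun i hi z hq hlt => ?_⟩
    have h1 : B + 2 < |F.t i z| := lt_of_le_of_lt (le_max_left _ _) hlt
    have h2 : R₁ < |F.t i z| := lt_of_le_of_lt (le_max_right _ _) hlt
    have h3 : ∀ c, f c z = 0 := by
      intro c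
      by_contra hne
      have hzs : z ∈ tsupport (f c) := subset_tsupport _ hne
      have hc : c ∈ {c | ∃ z ∈ U c, F.q z ∈ K} := ⟨z, hfsub c hzs, hq⟩
      have h4 := hRc c z hzs i
      have h5 : Rc c ≤ R₁ := hR₁ (mem_image_of_mem Rc hc)
      linarith
    show ψ z + ∑ᶠ c, f c z = _
    rw [finsum_eq_zero_of_forall_eq_zero h3, add_zero]
    refine rgzPsi_face hT0 hTc hα hi ?_
    have h6 : T (F.q z) ≤ B := hB (mem_image_of_mem T hq)
    linarith
  · -- 5. the inequality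
    obtain ⟨c, hc⟩ := mem_iUnion.1 (hDU hz)
    have e : rgL (n - hits α) (X α) h θ C (rgW n X h θ Vs α) (fun z => ψ z + ∑ᶠ c, f c z) z =
        rgL (n - hits α) (X α) h θ C (rgW n X h θ Vs α) (fun y => ψ y + f c y) z :=
      rg_L_congr_near ((hUo c).mem_nhds hc) (H.D_sub α hz) fun y hy => by
        show ψ y + ∑ᶠ c, f c y = _
        rw [hin c y hy.2]
    rw [e]
    show min (e₀ / 4) (δ / 4) * (ψ z + ∑ᶠ c, f c z) ≤ _
    rw [hin c z hc]
    exact hfsup c z ⟨hz, hc⟩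

/-- one level. -/
theorem rgz_level_step (H : RgzSys n F X h θ Vs D C e₀) {k : ℕ} {v : Stat ι → W → ℝ} {δ : ℝ}
    (hδ : 0 < δ) (hv : RgzLow n F X h θ Vs D C k v δ) :
    ∃ v' : Stat ι → W → ℝ, RgzLow n F X h θ Vs D C (k + 1) v' (min (e₀ / 4) (δ / 4)) := by
  classical
  have hex : ∀ α : Stat ι, ∃ vα : W → ℝ, rgLv α = k →
      (ContDiff ℝ ∞ vα ∧ (∀ z, 0 < vα z) ∧
      (∀ K : Set V, IsCompact K → ∃ R : ℝ, ∀ i, α i ≠ 0 → ∀ z, F.q z ∈ K → R < |F.t i z| →
        vα z = v (α.face i) (F.drop i z)) ∧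
      ∀ z ∈ D α, min (e₀ / 4) (δ / 4) * vα z ≤
        rgL (n - hits α) (X α) h θ C (rgW n X h θ Vs α) vα z) := by
    intro α
    by_cases hα : rgLv α = k
    · obtain ⟨vα, h1⟩ := rgz_status H hδ hv α hα
      exact ⟨vα, fun _ => h1⟩
    · exact ⟨v α, fun h' => absurd h' hα⟩
  choose w hw using hex
  let v' : Stat ι → W → ℝ := fun α => if rgLv α = k then w α else v α
  have hv'k : ∀ α, rgLv α = k → v' α = w α := fun α hα => by simp only [v', if_pos hα]
  have hv'n : ∀ α, rgLv α ≠ k → v' α = v α := fun α hα => by simp only [v', if_neg hα]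
  have hδ' : min (e₀ / 4) (δ / 4) ≤ δ := (min_le_right _ _).trans (by linarith)
  refine ⟨v', ⟨fun α => ?_, fun α z => ?_, fun K hK => ?_, fun α hα z hz => ?_⟩⟩
  · by_cases hα : rgLv α = k
    · rw [hv'k α hα]; exact (hw α hα).1
    · rw [hv'n α hα]; exact hv.sm α
  · by_cases hα : rgLv α = k
    · rw [hv'k α hα]; exact (hw α hα).2.1 z
    · rw [hv'n α hα]; exact hv.pos α z
  · obtain ⟨R1, hR1⟩ := hv.compat K hK
    have hex2 : ∀ α : Stat ι, ∃ R : ℝ, rgLv α = k → ∀ i, α i ≠ 0 → ∀ z, F.q z ∈ K →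
        R < |F.t i z| → w α z = v (α.face i) (F.drop i z) := by
      intro α
      by_cases hα : rgLv α = k
      · obtain ⟨R, hR⟩ := (hw α hα).2.2.1 K hK
        exact ⟨R, fun _ => hR⟩
      · exact ⟨0, fun h' => absurd h' hα⟩
    choose R3 hR3 using hex2
    obtain ⟨R4, hR4⟩ := (Set.finite_range R3).bddAbove
    refine ⟨max R1 R4, fun α hα i hi z hq hlt => ?_⟩
    have h1 : R1 < |F.t i z| := lt_of_le_of_lt (le_max_left _ _) hlt
    have h4 : R4 < |F.t i z| := lt_of_le_of_lt (le_max_right _ _) hlt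
    have hlv : rgLv (α.face i) < rgLv α := rgLv_face_lt α hi
    rw [hv'n (α.face i) (by omega)]
    by_cases hαk : rgLv α = k
    · rw [hv'k α hαk]
      exact hR3 α hαk i hi z hq (lt_of_le_of_lt (hR4 ⟨α, rfl⟩) h4)
    · rw [hv'n α hαk]
      exact hR1 α (by omega) i hi z hq h1
  · by_cases hαk : rgLv α = k
    · rw [hv'k α hαk]
      exact (hw α hαk).2.2.2 z hz
    · rw [hv'n α hαk]
      exact (mul_le_mul_of_nonneg_right hδ' (hv.pos α z).le).trans (hv.sup α (by omega) z hz)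

/-- all levels. -/
theorem rgz_levels (H : RgzSys n F X h θ Vs D C e₀) (k : ℕ) :
    ∃ (v : Stat ι → W → ℝ) (δ : ℝ), 0 < δ ∧ RgzLow n F X h θ Vs D C k v δ := by
  induction k with
  | zero =>
    exact ⟨fun _ _ => 1, 1, one_pos, ⟨fun _ => contDiff_const, fun _ _ => one_pos,
      fun K _ => ⟨0, fun α hα => absurd hα (Nat.not_lt_zero _)⟩,
      fun α hα => absurd hα (Nat.not_lt_zero _)⟩⟩
  | succ k ih =>
    obtain ⟨v, δ, hδ, hv⟩ := ih
    obtain ⟨v', hv'⟩ := rgz_level_step H hδ hv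
    exact ⟨v', _, lt_min (by have := H.e_pos; positivity) (by positivity), hv'⟩

/-- **STAGE 1: compatible ambient supersolutions on the true pieces.** -/
theorem rgz_super (H : RgzSys n F X h θ Vs D C e₀) :
    ∃ (v : Stat ι → W → ℝ) (δ : ℝ), 0 < δ ∧ (∀ α, ContDiff ℝ ∞ (v α)) ∧ (∀ α z, 0 < v α z) ∧
      (∀ K : Set V, IsCompact K → ∃ R : ℝ, ∀ α i, α i ≠ 0 → ∀ z, F.q z ∈ K → R < |F.t i z| →
        v α z = v (α.face i) (F.drop i z)) ∧
      ∀ α, ∀ z ∈ D α, δ * v α z ≤ rgL (n - hits α) (X α) h θ C (rgW n X h θ Vs α) (v α) z := by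
  obtain ⟨v, δ, hδ, hv⟩ := rgz_levels H (Fintype.card ι + 1)
  have hlt : ∀ α : Stat ι, rgLv α < Fintype.card ι + 1 := fun α =>
    Nat.lt_succ_of_le (rgLv_le_card α)
  refine ⟨v, δ, hδ, hv.sm, hv.pos, fun K hK => ?_, fun α z hz => hv.sup α (hlt α) z hz⟩
  obtain ⟨R, hR⟩ := hv.compat K hK
  exact ⟨R, fun α i hi z hq hlt' => hR α (hlt α) i hi z hq hlt'⟩

end Claimed.Agent.R315
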