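import Claimed.Agent.R315.Rg.FinV

/-!
# Row 315, package Rg, STAGE 1 (file Rg/SzT.lean): DIAGRAM TRANSFER = helper266's abstract transfer `rgf_xfer`, `rgf_soft_*` (`Rg/FinT, FinU, FinV`) in the diagram of the true pieces

Setting: `C : ShCtx`, `RgTrue C P1 Ω U`, `RgWid C w k`, `E₀ = C.EO Ω`.  `α'` a status of the new diagram, `J` a set of tails of `α'` (`none` allowed), `s m` escapes in `J` (`RgfEsc α' J s`), `a m = F.ext.vec J (s m)`,
`β' = α'.faceS J`, `Cy = F.ext.cyl J (rgY E₀ β')` (the limit ambient manifold), `u m` a MOVING sequence of defining functions whose translates converge to `U ∘ dropS` on the member of the parent diagram (for `u m = U` this is (AC)).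

* `rgzt_loc`     : `RgfLoc` for the true structure;
* `rgzt_win`     : windows: eventually `rgY E₀ α' - a m = Cy` on `ball y' 1`, with the metric;
* `rgzt_compat`, `rgzt_conv_sc`, `rgzt_conv_u` : convergence of the translated data along `Cy`;
* `rgztQ`, `rgzt_Q_local`, `rgzt_Q_conv` : the defining functions (`none ∈ J`: near the points the piece is `{u m = 0}`, the second summand of `rgG` vanishes identically);
* `rgzt_soft_ip`, `rgzt_soft_wlap` : convergence of `gradIp`, `wlap` on the moving pieces;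
* **`rgzt_xfer`** : `LL[splitE E₀ (u m) w k] α' (f m) (y m + a m) → LL[splitE E₀ U w k] β' f₀ y'`.
Owner: helper209.
-/

set_option autoImplicit false
set_option linter.unusedSectionVars false
open scoped ContDiff Topology
open Claims.C0499 Set Filter

namespace Claimed.Agent.R315

variable {V W : Type} [NormedAddCommGroup V] [NormedSpace ℝ V] [NormedAddCommGroup W]
  [NormedSpace ℝ W] {ι : Type}

/-! ### locality of the operators in the set -/

section loc0

variable {d : ℕ} {A A' O : Set W} {x : W}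

theorem rgzt_ip_local (hO : IsOpen O) (hx : x ∈ O) (he : A ∩ O = A' ∩ O) (h : Ten W)
    (f g : W → ℝ) : gradIp d A h f g x = gradIp d A' h f g x := by
  rw [← if_gradIp_inter' h f g hO hx, he, if_gradIp_inter' h f g hO hx]

theorem rgzt_wlap_local (hO : IsOpen O) (hx : x ∈ O) (he : A ∩ O = A' ∩ O) (h : Ten W)
    (t f : W → ℝ) : wlap d A h t f x = wlap d A' h t f x := by
  unfold wlap
  rw [← if_lap_inter' h f hO hx, he, if_lap_inter' h f hO hx, rgzt_ip_local hO hx he]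

theorem rgzt_Dsc_local (hO : IsOpen O) (hx : x ∈ O) (he : A ∩ O = A' ∩ O) (h : Ten W)
    (t : W → ℝ) : Dsc d A h t x = Dsc d A' h t x := by
  rw [← if_Dsc_inter' h t hO hx, he, if_Dsc_inter' h t hO hx]

theorem rgzt_L_local (hO : IsOpen O) (hx : x ∈ O) (he : A ∩ O = A' ∩ O) (h : Ten W)
    (t : W → ℝ) (c : ℝ) (Vs f : W → ℝ) :
    rgL d A h t c (fun z => Dsc d A h t z - Vs z) f x =
      rgL d A' h t c (fun z => Dsc d A' h t z - Vs z) f x := by
  show -c * wlap d A h t f x + (Dsc d A h t x - Vs x) * f x =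
    -c * wlap d A' h t f x + (Dsc d A' h t x - Vs x) * f x
  rw [rgzt_wlap_local hO hx he, rgzt_Dsc_local hO hx he]

end loc0

/-! ### escape data, cylinders -/

theorem RgfEsc.par {α' : Stat (Option ι)} {J : Finset (Option ι)} {s : ℕ → Option ι → ℝ}
    (h : RgfEsc α' J s) : RgfEsc α'.par J.eraseNone (fun m i => s m (some i)) :=
  ⟨fun _ hj => h.1 _ (Finset.mem_eraseNone.1 hj), fun _ hj => h.2 _ (Finset.mem_eraseNone.1 hj)⟩

theorem rgzt_faceS_hit (α' : Stat (Option ι)) (J : Finset (Option ι)) :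
    ∀ j ∈ J, (α'.faceS J) j = 0 := fun j hj => by simp [Stat.faceS, hj]

/-- the cylinder over the ambient manifold of a face. -/
theorem rgzt_cyl [FiniteDimensional ℝ W] [Fintype ι] {n : ℕ} {F : Frame V W ι}
    {E₀ : Stat ι → Set W} {h : Ten W} {dr U w : W → ℝ} {k : ℝ → ℝ}
    (H : RgfLoc n F E₀ h dr U w k) {γ' : Stat (Option ι)} {J : Finset (Option ι)}
    (hJ : ∀ j ∈ J, γ' j = 0) (hd : hits γ'.par + 1 ≤ n) :
    CtGeo (n - hits γ' + J.card + 1) (F.ext.cyl J (rgY E₀ γ'))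
        (fun z => extTen h (F.ext.dropS J z)) (fun z => dr (F.ext.dropS J z).1) ∧
      ∀ f : W × ℝ → ℝ, SmoothAlong (n - hits γ' + 1) (rgY E₀ γ') f →
        SmoothAlong (n - hits γ' + J.card + 1) (F.ext.cyl J (rgY E₀ γ'))
          (fun z => f (F.ext.dropS J z)) := by
  have hY := H.baseY hJ
  rw [rgf_rgYd_eq hd] at hY
  have K := hY.cylOK
  have e1 : n - hits γ' + 1 + J.card = n - hits γ' + J.card + 1 := by omega
  exact ⟨e1 ▸ K.geo, fun f hf => e1 ▸ K.smooth f hf⟩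

section ctx

variable [FiniteDimensional ℝ V] [FiniteDimensional ℝ W] [Fintype ι] [MeasurableSpace W]
  [BorelSpace W] {C : ShCtx V W ι} {P1 : PData W ι C.B.J} {Ω : Set W} {U w : W → ℝ}
  {k : ℝ → ℝ} {α' : Stat (Option ι)} {J : Finset (Option ι)} {s : ℕ → Option ι → ℝ}

/-- the local geometry of the true structure. -/
theorem rgzt_loc (hC : C.Ok) (hT : RgTrue C P1 Ω U) (hw : RgWid C w k) :
    RgfLoc C.B.n C.F (C.EO Ω) C.P.h C.P.dr U w k where
  mfd := fun α => if_mfd_inter (hC.inv.diag.mfd α) hT.isOpen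
  met := fun α => if_isMetricOn_inter (hC.inv.met.met α) hT.isOpen
  dr_sm := fun α => if_smoothAlong_inter (hC.inv.dr_sc.1 α) hT.isOpen
  U_sm := hT.smooth
  w_sm := fun α => if_smoothAlong_inter (hw.w_sc.1 α) hT.isOpen
  w_pos := fun α z hz => hw.w_pos z (mem_tot.2 ⟨α, hz.1⟩)
  reg := hT.reg
  corner := hw.corner
  dim := fun α hne => by
    obtain ⟨z, hz⟩ := hne
    have := hC.dim α ⟨z, hz.1⟩
    omega
  t_hit := fun α z hz => hC.inv.diag.t_hit α z hz.1
  normal := fun α z hz => hC.inv.met.normal α z hz.1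

/-! ### windows -/

/-- the windows of the parent diagram, with `Ω`. -/
theorem rgzt_par_win (hC : C.Ok) (hT : RgTrue C P1 Ω U) {α : Stat ι} {J₀ : Finset ι}
    {s₀ : ℕ → ι → ℝ} (hs : RgfEsc α J₀ s₀) {K : Set W} (hK : IsCompact K) :
    ∀ᶠ m in atTop, ∀ x ∈ K, (x + C.F.vec J₀ (s₀ m) ∈ C.EO Ω α ↔
      C.F.dropS J₀ x ∈ C.EO Ω (α.faceS J₀)) := by
  have hD := hC.inv.diag
  filter_upwards [ct_window hD α J₀ hs.1 s₀ hs.2 hK,
    ct_window_compat hD α J₀ hs.1 s₀ hs.2 hK hT.compat] with m h1 h2 x hx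
  constructor
  · rintro ⟨a1, a2⟩
    exact ⟨(h1 x hx).1 a1, Eq.mp (h2 x hx a1) a2⟩
  · rintro ⟨a1, a2⟩
    have a3 := (h1 x hx).2 a1
    exact ⟨a3, Eq.mpr (h2 x hx a3) a2⟩

theorem rgzt_fst_mem {y' z : W × ℝ} (hz : z ∈ Metric.ball y' 1) :
    z.1 ∈ Prod.fst '' Metric.closedBall y' 1 := ⟨z, Metric.ball_subset_closedBall hz, rfl⟩

theorem rgzt_fst_compact (y' : W × ℝ) : IsCompact (Prod.fst '' Metric.closedBall y' 1) :=
  (isCompact_closedBall y' 1).image continuous_fst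

/-- membership in the cylinder over `rgY`. -/
theorem rgzt_mem_cyl {E₀ : Stat ι → Set W} {F : Frame V W ι} {z : W × ℝ}
    (hz : z ∈ F.ext.cyl J (rgY E₀ (α'.faceS J))) :
    F.dropS J.eraseNone z.1 ∈ E₀ (α'.par.faceS J.eraseNone) := by
  have h1 : (F.ext.dropS J z).1 ∈ E₀ (α'.faceS J).par := hz.1
  rwa [rgf_ext_dropS, rgf_par_faceS] at h1

/-- compatible data in the windows. -/
theorem rgzt_compat (hC : C.Ok) (hs : RgfEsc α' J s) (y' : W × ℝ) {X : Type} {φ : W → X}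
    (hφ : Compat C.F C.P.E φ) :
    ∀ᶠ m in atTop, ∀ z ∈ C.F.ext.cyl J (rgY (C.EO Ω) (α'.faceS J)) ∩ Metric.ball y' 1,
      φ (z + C.F.ext.vec J (s m)).1 = φ (C.F.ext.dropS J z).1 := by
  have hD := hC.inv.diag
  have hK := rgzt_fst_compact y'
  filter_upwards [ct_window hD _ _ hs.par.1 _ hs.par.2 hK,
    ct_window_compat hD _ _ hs.par.1 _ hs.par.2 hK hφ] with m h2 h3 z hz
  have hz1 := (rgzt_mem_cyl hz.1).1
  have hzE := (h2 z.1 (rgzt_fst_mem hz.2)).2 hz1
  have := h3 z.1 (rgzt_fst_mem hz.2) hzE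
  rw [rgf_ext_vec, rgf_ext_dropS]
  exact this

/-- **windows**: far out in the tails `J` the ambient manifold `rgY E₀ α'` is a translate of the cylinder over `rgY E₀ (α'.faceS J)`. -/
theorem rgzt_win (hC : C.Ok) (hT : RgTrue C P1 Ω U) (hs : RgfEsc α' J s) (y' : W × ℝ) :
    ∀ᶠ m in atTop, RgfWin (rgY (C.EO Ω) α') (C.F.ext.cyl J (rgY (C.EO Ω) (α'.faceS J)))
      (extTen C.P.h) (fun z => extTen C.P.h (C.F.ext.dropS J z)) (C.F.ext.vec J (s m))
      (Metric.ball y' 1) := by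
  classical
  filter_upwards [rgzt_par_win hC hT hs.par (rgzt_fst_compact y'),
    rgzt_compat (Ω := Ω) hC hs y' hC.inv.met.compat] with m h1 h3
  refine ⟨Metric.isOpen_ball, fun z hz => ?_, fun z hz => ?_⟩
  · have e1 : z + C.F.ext.vec J (s m) ∈ rgY (C.EO Ω) α' ↔
        (z.1 + C.F.vec J.eraseNone (fun i => s m (some i)) ∈ C.EO Ω α'.par ∧
          (α' none = 0 → z.2 + (if none ∈ J then s m none else 0) = 0)) := by
      rw [rgf_ext_vec]; rfl
    have e2 : z ∈ C.F.ext.cyl J (rgY (C.EO Ω) (α'.faceS J)) ↔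
        (C.F.dropS J.eraseNone z.1 ∈ C.EO Ω (α'.par.faceS J.eraseNone) ∧
          ((α'.faceS J) none = 0 → (if none ∈ J then 0 else z.2) = 0)) := by
      show C.F.ext.dropS J z ∈ rgY (C.EO Ω) (α'.faceS J) ↔ _
      rw [rgf_ext_dropS, ← rgf_par_faceS]; rfl
    rw [e1, e2, h1 z.1 (rgzt_fst_mem hz), rgf_faceS_none]
    by_cases hn : none ∈ J
    · have := hs.1 none hn
      simp [hn, this]
    · simp [hn]
  · have := h3 z hz
    unfold extTen
    rw [this]

/-! ### convergence of the translated data along the limit cylinder -/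

/-- smooth compatible functions of the parent diagram. -/
theorem rgzt_conv_sc (hC : C.Ok) (hT : RgTrue C P1 Ω U) (hw : RgWid C w k) (hs : RgfEsc α' J s)
    (y' : W × ℝ) (hd : hits (α'.faceS J).par + 1 ≤ C.B.n) {φ : W → ℝ}
    (hφ : SC C.B.n C.F C.P.E φ) :
    RgfConv (C.B.n - hits (α'.faceS J) + J.card + 1)
      (C.F.ext.cyl J (rgY (C.EO Ω) (α'.faceS J)))
      (fun m z => φ (z + C.F.ext.vec J (s m)).1) (fun z => φ (C.F.ext.dropS J z).1) y' := by
  have H := rgzt_loc hC hT hw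
  have hsm : SmoothAlong (C.B.n - hits (α'.faceS J) + 1) (rgY (C.EO Ω) (α'.faceS J))
      (fun z : W × ℝ => φ z.1) :=
    pk_smoothAlong_fst (H.mfd _) (rgY_sub_fst _ (α'.faceS J))
      (if_smoothAlong_inter (hφ.1 (α'.faceS J).par) hT.isOpen)
  exact rgfConv_of_eventually_eq ((rgzt_cyl H (rgzt_faceS_hit α' J) hd).2 _ hsm)
    (Metric.ball_mem_nhds y' one_pos) (rgzt_compat hC hs y' hφ.2)

/-- the moving defining functions. -/
theorem rgzt_conv_u (hC : C.Ok) {y' : W × ℝ}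
    (hy' : y' ∈ C.F.ext.cyl J (rgY (C.EO Ω) (α'.faceS J))) {u : ℕ → W → ℝ}
    (hu : RgfConv (mdim C.B.n (α'.par.faceS J.eraseNone) J.eraseNone)
      (C.F.cyl J.eraseNone (C.P.E (α'.par.faceS J.eraseNone)))
      (fun m x => u m (x + C.F.vec J.eraseNone (fun i => s m (some i))))
      (fun x => U (C.F.dropS J.eraseNone x)) y'.1) (D : ℕ) :
    RgfConv D (C.F.ext.cyl J (rgY (C.EO Ω) (α'.faceS J)))
      (fun m z => u m (z + C.F.ext.vec J (s m)).1) (fun z => U (C.F.ext.dropS J z).1) y' := by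
  have hgeo := ct_mem_geo hC.inv.pgeo (α'.par.faceS J.eraseNone) J.eraseNone
    (fun j hj => by simp [Stat.faceS, hj])
  have h1 := RgfConv.comp_map (d := D) (X := C.F.ext.cyl J (rgY (C.EO Ω) (α'.faceS J)))
    hgeo.mfd (π := Prod.fst) isOpen_univ (mem_univ y') contDiff_fst.contDiffOn
    (fun z hz => (rgzt_mem_cyl hz.1).1) hy' hu
  refine h1.congr univ_mem (Eventually.of_forall fun m z _ => ?_) fun z _ => ?_
  · rw [rgf_ext_vec]; rfl
  · rw [rgf_ext_dropS]

theorem RgfConv.div' {X : Type} [NormedAddCommGroup X] [NormedSpace ℝ X] [FiniteDimensional ℝ X]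
    {d : ℕ} {M : Set X} {a b : ℕ → X → ℝ} {a' b' : X → ℝ} {y : X} (hM : IsMfd d M) (hy : y ∈ M)
    (ha : RgfConv d M a a' y) (hb : RgfConv d M b b' y) (h0 : b' y ≠ 0) :
    RgfConv d M (fun m z => a m z / b m z) (fun z => a' z / b' z) y :=
  ((ha.ct hM hy).div hM hy (hb.ct hM hy) h0).rgf

open Classical in
/-- the defining function which is used near the escaping points. -/
noncomputable def rgztQ (u w : W → ℝ) (k : ℝ → ℝ) (α' : Stat (Option ι)) (J : Finset (Option ι))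
    (z : W × ℝ) : ℝ :=
  if none ∈ J then u z.1 else rgG u w k α' z

/-- **convergence of the defining functions.** -/
theorem rgzt_Q_conv (hC : C.Ok) (hT : RgTrue C P1 Ω U) (hw : RgWid C w k) (hs : RgfEsc α' J s)
    {y' : W × ℝ} (hy' : y' ∈ C.F.ext.cyl J (rgY (C.EO Ω) (α'.faceS J))) {u : ℕ → W → ℝ}
    (hu : RgfConv (mdim C.B.n (α'.par.faceS J.eraseNone) J.eraseNone)
      (C.F.cyl J.eraseNone (C.P.E (α'.par.faceS J.eraseNone)))
      (fun m x => u m (x + C.F.vec J.eraseNone (fun i => s m (some i))))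
      (fun x => U (C.F.dropS J.eraseNone x)) y'.1) :
    RgfConv (C.B.n - hits (α'.faceS J) + J.card + 1)
      (C.F.ext.cyl J (rgY (C.EO Ω) (α'.faceS J)))
      (fun m z => rgztQ (u m) w k α' J (z + C.F.ext.vec J (s m)))
      (fun z => rgG U w k (α'.faceS J) (C.F.ext.dropS J z)) y' := by
  classical
  have H := rgzt_loc hC hT hw
  have hd : hits (α'.faceS J).par + 1 ≤ C.B.n := H.dim _ ⟨_, hy'.1⟩
  have hU := rgzt_conv_u hC hy' hu (C.B.n - hits (α'.faceS J) + J.card + 1)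
  by_cases hn : none ∈ J
  · refine hU.congr univ_mem (Eventually.of_forall fun m z _ => ?_) fun z _ => ?_
    · simp only [rgztQ, if_pos hn]
    · have : (α'.faceS J) none = 0 := rgzt_faceS_hit α' J none hn
      simp only [rgG, if_pos this]
  · have hf : (α'.faceS J) none = α' none := by rw [rgf_faceS_none, if_neg hn]
    by_cases h0 : α' none = 0
    · refine hU.congr univ_mem (Eventually.of_forall fun m z _ => ?_) fun z _ => ?_
      · simp only [rgztQ, if_neg hn, rgG, if_pos h0]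
      · simp only [rgG, hf, if_pos h0]
    · have hG := (rgzt_cyl H (rgzt_faceS_hit α' J) hd).1
      have hW := rgzt_conv_sc hC hT hw hs y' hd hw.w_sc
      have hw0 : w (C.F.ext.dropS J y').1 ≠ 0 := (H.w_pos _ _ hy'.1).ne'
      have hτ : RgfConv (C.B.n - hits (α'.faceS J) + J.card + 1)
          (C.F.ext.cyl J (rgY (C.EO Ω) (α'.faceS J)))
          (fun _ z => z.2) (fun z => z.2) y' :=
        rgfConv_fixed (if_smoothAlong_of_contDiff contDiff_snd)
      have hk : ContDiffOn ℝ ∞ k univ := hw.corner.smooth.contDiffOn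
      have c1 := (RgfConv.div' hG.mfd hy' ((rgfConv_const (α' none : ℝ)).mul hU) hW hw0).comp_real
        isOpen_univ hk (mem_univ _)
      have c2 := (RgfConv.div' hG.mfd hy' ((rgfConv_const (α' none : ℝ)).mul hτ) hW hw0).comp_real
        isOpen_univ hk (mem_univ _)
      refine ((c1.add c2).sub (rgfConv_const 1)).congr univ_mem
        (Eventually.of_forall fun m z _ => ?_) fun z _ => ?_
      · have e2 : (z + C.F.ext.vec J (s m)).2 = z.2 := by
          rw [rgf_ext_vec, if_neg hn]; simp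
        simp only [rgztQ, if_neg hn, rgG, if_neg h0, e2]
      · have e2 : (C.F.ext.dropS J z).2 = z.2 := by
          rw [rgf_ext_dropS, if_neg hn]
        simp only [rgG, hf, if_neg h0, e2]

/-- **locality**: near the escaping points the moving piece is the zero set of `rgztQ`. -/
theorem rgzt_Q_local (hC : C.Ok) (hw : RgWid C w k) (hs : RgfEsc α' J s) (y' : W × ℝ)
    (u : ℕ → W → ℝ) :
    ∀ᶠ m in atTop, splitE (C.EO Ω) (u m) w k α' ∩
        {z | z - C.F.ext.vec J (s m) ∈ Metric.ball y' 1} =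
      rm_Lv (rgY (C.EO Ω) α') (rgztQ (u m) w k α' J) 0 ∩
        {z | z - C.F.ext.vec J (s m) ∈ Metric.ball y' 1} := by
  classical
  by_cases hn : none ∈ J
  · have hD := hC.inv.diag
    have hK := rgzt_fst_compact y'
    have hK₂ : IsCompact (C.P.E (α'.par.faceS J.eraseNone) ∩
        C.F.dropS J.eraseNone '' (Prod.fst '' Metric.closedBall y' 1)) :=
      (hK.image (C.F.continuous_dropS _)).inter_left (hD.closed _)
    have hwc : ContinuousOn w (C.P.E (α'.par.faceS J.eraseNone)) :=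
      if_smoothAlong_continuousOn (hD.mfd _) (hw.w_sc.1 _)
    obtain ⟨B, hB⟩ := hK₂.bddAbove_image (hwc.mono inter_subset_left)
    have hσ := hs.1 none hn
    filter_upwards [ct_window hD _ _ hs.par.1 _ hs.par.2 hK,
      ct_window_compat hD _ _ hs.par.1 _ hs.par.2 hK hw.w_sc.2,
      (hs.2 none hn).eventually_ge_atTop (B + |y'.2| + 1)] with m h1 h2 h3
    ext z
    simp only [mem_inter_iff]
    refine and_congr_left fun hzO => ?_
    obtain ⟨z₀, hz₀, rfl⟩ : ∃ z₀ ∈ Metric.ball y' 1, z = z₀ + C.F.ext.vec J (s m) :=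
      ⟨z - C.F.ext.vec J (s m), hzO, by abel⟩
    have e1 : (z₀ + C.F.ext.vec J (s m)).1 =
        z₀.1 + C.F.vec J.eraseNone (fun i => s m (some i)) := by
      rw [rgf_ext_vec]; rfl
    have e2 : (z₀ + C.F.ext.vec J (s m)).2 = z₀.2 + s m none := by
      rw [rgf_ext_vec, if_pos hn]; rfl
    have key : (z₀ + C.F.ext.vec J (s m)).1 ∈ C.P.E α'.par →
        1 ≤ (α' none : ℝ) * (z₀ + C.F.ext.vec J (s m)).2 / w (z₀ + C.F.ext.vec J (s m)).1 := by
      intro hzE
      have a4 : 0 < w (z₀ + C.F.ext.vec J (s m)).1 := hw.w_pos _ (mem_tot.2 ⟨_, hzE⟩)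
      have hx := rgzt_fst_mem hz₀
      rw [e1] at hzE
      have a1 := (h1 z₀.1 hx).1 hzE
      have a2 := h2 z₀.1 hx hzE
      have a3 : w (C.F.dropS J.eraseNone z₀.1) ≤ B := hB ⟨_, ⟨a1, ⟨z₀.1, hx, rfl⟩⟩, rfl⟩
      rw [one_le_div a4, e1, a2, e2, mul_add]
      have a5 : |z₀.2 - y'.2| < 1 := by
        have h5 : dist z₀ y' < 1 := hz₀
        rw [Prod.dist_eq] at h5
        have h6 := lt_of_le_of_lt (le_max_right _ _) h5
        rwa [Real.dist_eq] at h6
      have a6 : |z₀.2| ≤ |y'.2| + 1 := by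
        have := abs_sub_abs_le_abs_sub z₀.2 y'.2
        linarith
      have a7 := ct_sign_mul_ge (α' none) z₀.2
      linarith
    constructor
    · rintro ⟨hz1, hz2⟩
      rcases hz2 with h | ⟨_, heq⟩
      · exact absurd h.1 hσ
      · refine ⟨⟨hz1, fun h => absurd h hσ⟩, ?_⟩
        simp only [rgztQ, if_pos hn]
        rw [hw.corner.far _ (key hz1.1), add_zero] at heq
        have h4 := hw.corner.eq_one_iff.1 heq
        have a4 : 0 < w (z₀ + C.F.ext.vec J (s m)).1 := hw.w_pos _ (mem_tot.2 ⟨_, hz1.1⟩)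
        rcases div_eq_zero_iff.1 h4 with h5 | h5
        · exact (mul_eq_zero.1 h5).resolve_left (rgf_sign_ne hσ)
        · exact absurd h5 a4.ne'
    · rintro ⟨⟨hz1, _⟩, hq⟩
      simp only [rgztQ, if_pos hn] at hq
      refine ⟨hz1, Or.inr ⟨hσ, ?_⟩⟩
      rw [hq, mul_zero, zero_div, hw.corner.zero, hw.corner.far _ (key hz1.1), add_zero]
  · refine Eventually.of_forall fun m => ?_
    have : rgztQ (u m) w k α' J = rgG (u m) w k α' := by
      funext z; simp only [rgztQ, if_neg hn]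
    rw [this, splitE_eq_Lv]

/-! ### the standing hypotheses of the transfer -/

/-- `y m + vec J (s m)` are points of the moving pieces `splitE E₀ (u m) w k α'` which escape in the tails `J`; `y m → y'`, a point of the true piece of the face; the translates of `u m` converge to `U ∘ dropS`. -/
structure RgztCtx (C : ShCtx V W ι) (Ω : Set W) (U w : W → ℝ) (k : ℝ → ℝ)
    (α' : Stat (Option ι)) (J : Finset (Option ι)) (s : ℕ → Option ι → ℝ) (y : ℕ → W × ℝ)
    (y' : W × ℝ) (u : ℕ → W → ℝ) : Prop where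
  esc : RgfEsc α' J s
  lim : Tendsto y atTop (𝓝 y')
  conv : RgfConv (mdim C.B.n (α'.par.faceS J.eraseNone) J.eraseNone)
    (C.F.cyl J.eraseNone (C.P.E (α'.par.faceS J.eraseNone)))
    (fun m x => u m (x + C.F.vec J.eraseNone (fun i => s m (some i))))
    (fun x => U (C.F.dropS J.eraseNone x)) y'.1
  mem : ∀ᶠ m in atTop, y m + C.F.ext.vec J (s m) ∈ splitE (C.EO Ω) (u m) w k α'
  mem' : y' ∈ splitE (C.EO Ω) U w k (α'.faceS J)

namespace RgztCtx

variable {y : ℕ → W × ℝ} {y' : W × ℝ} {u : ℕ → W → ℝ}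

theorem fix (X : RgztCtx C Ω U w k α' J s y y' u) (hC : C.Ok) (hT : RgTrue C P1 Ω U)
    (hw : RgWid C w k) : C.F.ext.dropS J y' = y' := by
  have hb := (rgzt_loc hC hT hw).baseX (rgzt_faceS_hit α' J)
  unfold Frame.dropS
  rw [Finset.sum_eq_zero, sub_zero]
  intro j hj
  rw [hb.flat y' X.mem' j hj, zero_smul]

theorem memCy (X : RgztCtx C Ω U w k α' J s y y' u) (hC : C.Ok) (hT : RgTrue C P1 Ω U)
    (hw : RgWid C w k) : y' ∈ C.F.ext.cyl J (rgY (C.EO Ω) (α'.faceS J)) := by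
  show C.F.ext.dropS J y' ∈ rgY (C.EO Ω) (α'.faceS J)
  rw [X.fix hC hT hw]
  exact splitE_sub_rgY _ _ _ _ _ X.mem'

theorem dimY (X : RgztCtx C Ω U w k α' J s y y' u) (hC : C.Ok) (hT : RgTrue C P1 Ω U)
    (hw : RgWid C w k) : hits (α'.faceS J).par + 1 ≤ C.B.n :=
  (rgzt_loc hC hT hw).dim _ ⟨_, X.mem'.1⟩

theorem dim (X : RgztCtx C Ω U w k α' J s y y' u) (hC : C.Ok) (hT : RgTrue C P1 Ω U)
    (hw : RgWid C w k) : C.B.n - hits (α'.faceS J) + J.card = C.B.n - hits α' := by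
  have h1 := ct_hits_faceS α' J X.esc.1
  have h2 := X.dimY hC hT hw
  have h3 := rgf_hits_par (α'.faceS J)
  have h4 : (if (α'.faceS J) none = 0 then 1 else 0) ≤ 1 := by split_ifs <;> simp
  omega

theorem zero (X : RgztCtx C Ω U w k α' J s y y' u) (hC : C.Ok) (hT : RgTrue C P1 Ω U)
    (hw : RgWid C w k) : rgG U w k (α'.faceS J) (C.F.ext.dropS J y') = 0 := by
  rw [X.fix hC hT hw]
  have := X.mem'
  rw [splitE_eq_Lv] at this
  exact this.2

/-- regularity of the limit defining function on the base. -/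
theorem reg₀ (X : RgztCtx C Ω U w k α' J s y y' u) (hC : C.Ok) (hT : RgTrue C P1 Ω U)
    (hw : RgWid C w k) :
    0 < gradSq (C.B.n - hits (α'.faceS J) + 1) (rgY (C.EO Ω) (α'.faceS J)) (extTen C.P.h)
      (rgG U w k (α'.faceS J)) (C.F.ext.dropS J y') := by
  have := (rgzt_loc hC hT hw).regG (α'.faceS J) (X.memCy hC hT hw) (X.zero hC hT hw)
  rwa [rgf_rgYd_eq (X.dimY hC hT hw)] at this

/-- regularity of the limit defining function on the cylinder. -/
theorem reg (X : RgztCtx C Ω U w k α' J s y y' u) (hC : C.Ok) (hT : RgTrue C P1 Ω U)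
    (hw : RgWid C w k) :
    0 < gradSq (C.B.n - hits (α'.faceS J) + J.card + 1)
      (C.F.ext.cyl J (rgY (C.EO Ω) (α'.faceS J))) (fun z => extTen C.P.h (C.F.ext.dropS J z))
      (fun z => rgG U w k (α'.faceS J) (C.F.ext.dropS J z)) y' := by
  have H := rgzt_loc hC hT hw
  have hY := H.baseY (rgzt_faceS_hit α' J)
  have hg := H.smG (α'.faceS J)
  rw [rgf_rgYd_eq (X.dimY hC hT hw)] at hY hg
  have e1 : C.B.n - hits (α'.faceS J) + 1 + J.card = C.B.n - hits (α'.faceS J) + J.card + 1 := by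
    omega
  have h1 := hY.cylOK.ip_eq _ _ hg hg y' (X.memCy hC hT hw)
  rw [e1] at h1
  rw [if_gradSq_eq_gradIp, h1]
  exact X.reg₀ hC hT hw

/-- the points: locality, membership, zeros. -/
theorem pts (X : RgztCtx C Ω U w k α' J s y y' u) (hC : C.Ok) (hw : RgWid C w k) :
    ∀ᶠ m in atTop, (splitE (C.EO Ω) (u m) w k α' ∩
        {z | z - C.F.ext.vec J (s m) ∈ Metric.ball y' 1} =
      rm_Lv (rgY (C.EO Ω) α') (rgztQ (u m) w k α' J) 0 ∩
        {z | z - C.F.ext.vec J (s m) ∈ Metric.ball y' 1}) ∧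
      y m + C.F.ext.vec J (s m) ∈ {z | z - C.F.ext.vec J (s m) ∈ Metric.ball y' 1} ∧
      y m + C.F.ext.vec J (s m) ∈ rgY (C.EO Ω) α' ∧
      rgztQ (u m) w k α' J (y m + C.F.ext.vec J (s m)) = 0 := by
  filter_upwards [rgzt_Q_local (Ω := Ω) hC hw X.esc y' u, X.mem,
    X.lim (Metric.ball_mem_nhds y' one_pos)] with m h1 h2 h3
  have h4 : y m + C.F.ext.vec J (s m) ∈ {z | z - C.F.ext.vec J (s m) ∈ Metric.ball y' 1} := by
    show y m + C.F.ext.vec J (s m) - C.F.ext.vec J (s m) ∈ Metric.ball y' 1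
    rw [add_sub_cancel_right]; exact h3
  have h5 : y m + C.F.ext.vec J (s m) ∈ rm_Lv (rgY (C.EO Ω) α') (rgztQ (u m) w k α' J) 0 ∩
      {z | z - C.F.ext.vec J (s m) ∈ Metric.ball y' 1} := h1 ▸ ⟨h2, h4⟩
  exact ⟨h1, h4, h5.1.1, h5.1.2⟩

theorem isOpen_win (a : W × ℝ) (y' : W × ℝ) : IsOpen {z : W × ℝ | z - a ∈ Metric.ball y' 1} :=
  Metric.isOpen_ball.preimage (continuous_id.sub continuous_const)

theorem evCy (X : RgztCtx C Ω U w k α' J s y y' u) (hC : C.Ok) (hT : RgTrue C P1 Ω U)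
    (hw : RgWid C w k) :
    ∀ᶠ m in atTop, y m ∈ C.F.ext.cyl J (rgY (C.EO Ω) (α'.faceS J)) := by
  filter_upwards [rgzt_win hC hT X.esc y', X.pts hC hw,
    X.lim (Metric.ball_mem_nhds y' one_pos)] with m h1 h2 h3
  exact (h1.set _ h3).1 h2.2.2.1

/-- **`gradIp` on the moving pieces converges.** -/
theorem soft_ip (X : RgztCtx C Ω U w k α' J s y y' u) (hC : C.Ok) (hT : RgTrue C P1 Ω U)
    (hw : RgWid C w k) {f g : ℕ → W × ℝ → ℝ} {f' g' : W × ℝ → ℝ}
    (hf : RgfConv (C.B.n - hits (α'.faceS J) + J.card + 1)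
      (C.F.ext.cyl J (rgY (C.EO Ω) (α'.faceS J))) (fun m z => f m (z + C.F.ext.vec J (s m))) f' y')
    (hg : RgfConv (C.B.n - hits (α'.faceS J) + J.card + 1)
      (C.F.ext.cyl J (rgY (C.EO Ω) (α'.faceS J))) (fun m z => g m (z + C.F.ext.vec J (s m))) g' y') :
    ∃ L : ℝ, Tendsto (fun m => gradIp (C.B.n - hits α') (splitE (C.EO Ω) (u m) w k α')
      (extTen C.P.h) (f m) (g m) (y m + C.F.ext.vec J (s m))) atTop (𝓝 L) := by
  have G := (rgzt_cyl (rgzt_loc hC hT hw) (rgzt_faceS_hit α' J) (X.dimY hC hT hw)).1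
  have h1 := rgf_soft_ip G.mfd G.met (rgzt_win hC hT X.esc y') (Metric.mem_ball_self one_pos)
    (rgzt_Q_conv hC hT hw X.esc (X.memCy hC hT hw) X.conv) hf hg (X.memCy hC hT hw)
    (X.reg hC hT hw) (X.evCy hC hT hw) X.lim
  refine ⟨_, h1.congr' ?_⟩
  filter_upwards [X.pts hC hw] with m hm
  rw [hm.2.2.2, X.dim hC hT hw]
  exact (rgzt_ip_local (isOpen_win _ y') hm.2.1 hm.1 _ _ _).symm

/-- **`wlap` on the moving pieces converges.** -/
theorem soft_wlap (X : RgztCtx C Ω U w k α' J s y y' u) (hC : C.Ok) (hT : RgTrue C P1 Ω U)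
    (hw : RgWid C w k) {f : ℕ → W × ℝ → ℝ} {f' : W × ℝ → ℝ}
    (hf : RgfConv (C.B.n - hits (α'.faceS J) + J.card + 1)
      (C.F.ext.cyl J (rgY (C.EO Ω) (α'.faceS J))) (fun m z => f m (z + C.F.ext.vec J (s m))) f' y') :
    ∃ L : ℝ, Tendsto (fun m => wlap (C.B.n - hits α') (splitE (C.EO Ω) (u m) w k α')
      (extTen C.P.h) (fun z => C.P.dr z.1) (f m) (y m + C.F.ext.vec J (s m))) atTop (𝓝 L) := by
  have G := (rgzt_cyl (rgzt_loc hC hT hw) (rgzt_faceS_hit α' J) (X.dimY hC hT hw)).1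
  have h1 := rgf_soft_wlap (τ := fun _ z => C.P.dr z.1) G.mfd G.met (rgzt_win hC hT X.esc y')
    (Metric.mem_ball_self one_pos)
    (rgzt_conv_sc hC hT hw X.esc y' (X.dimY hC hT hw) hC.inv.dr_sc)
    (rgzt_Q_conv hC hT hw X.esc (X.memCy hC hT hw) X.conv) hf (X.memCy hC hT hw)
    (X.reg hC hT hw) (X.evCy hC hT hw) X.lim
  refine ⟨_, h1.congr' ?_⟩
  filter_upwards [X.pts hC hw] with m hm
  rw [hm.2.2.2, X.dim hC hT hw]
  exact (rgzt_wlap_local (isOpen_win _ y') hm.2.1 hm.1 _ _ _).symm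

/-- **DIAGRAM TRANSFER** of the operator `LL`. -/
theorem xfer (X : RgztCtx C Ω U w k α' J s y y' u) (hC : C.Ok) (hS : ShieldOK C P1)
    (hT : RgTrue C P1 Ω U) (hw : RgWid C w k) (s' : ℝ) {f : ℕ → W × ℝ → ℝ} {f₀ : W × ℝ → ℝ}
    (hf₀ : SmoothAlong (C.B.n - hits (α'.faceS J)) (splitE (C.EO Ω) U w k (α'.faceS J)) f₀)
    (hf : RgfConv (C.B.n - hits (α'.faceS J) + J.card + 1)
      (C.F.ext.cyl J (rgY (C.EO Ω) (α'.faceS J))) (fun m z => f m (z + C.F.ext.vec J (s m)))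
      (fun z => f₀ (C.F.ext.dropS J z)) y') :
    Tendsto (fun m => C.LL P1 s' (splitE (C.EO Ω) (u m) w k) α' (f m)
      (y m + C.F.ext.vec J (s m))) atTop
      (𝓝 (C.LL P1 s' (splitE (C.EO Ω) U w k) (α'.faceS J) f₀ y')) := by
  have H := rgzt_loc hC hT hw
  have hd := X.dimY hC hT hw
  have hJ := rgzt_faceS_hit α' J
  have hY := H.baseY hJ
  have hg := H.smG (α'.faceS J)
  rw [rgf_rgYd_eq hd] at hY hg
  have hX := H.baseX hJ
  have G := (rgzt_cyl H hJ hd).1
  -- the potential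
  have hE := hS.E_eq
  have hD1 : IsDiag C.B.n C.B.M C.F P1.E := hE ▸ hC.inv.diag
  have hpas : ∀ K : Set V, IsCompact K →
      {j | j ∈ C.R ∧ ∃ z ∈ tot P1.E, C.F.q z ∈ K ∧ ¬ P1.Passive C.B.pst C.c j z}.Finite := by
    rw [hE]; exact hS.passive
  have hpot : SC C.B.n C.F C.P.E (P1.potSum C.R) :=
    hE ▸ rg_potSum_sc hC.base hD1 (fun j hj => (hS.label j hj).pot_sc) hpas
  have hp := (rgzt_conv_sc hC hT hw X.esc y' hd hpot).eval G.mfd (X.memCy hC hT hw)
    (X.evCy hC hT hw) X.lim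
  have hVs : Tendsto (fun m => rgVs P1 C.R C.s s' (y m + C.F.ext.vec J (s m))) atTop
      (𝓝 (rgVs P1 C.R C.s s' (C.F.ext.dropS J y'))) := by
    simp only [rgVs_eq]
    exact (hp.const_mul _).const_mul _ |>.const_add _
  rw [splitE_eq_Lv] at hX hf₀
  have h1 := rgf_xfer (t := fun z => C.P.dr z.1) (q := fun m => rgztQ (u m) w k α' J)
    (Vs := fun _ => rgVs P1 C.R C.s s') (Vs₀ := rgVs P1 C.R C.s s') hY hX hg hf₀
    (rgzt_win hC hT X.esc y') (Metric.mem_ball_self one_pos)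
    (rgzt_conv_sc hC hT hw X.esc y' hd hC.inv.dr_sc)
    (rgzt_Q_conv hC hT hw X.esc (X.memCy hC hT hw) X.conv) hf (X.memCy hC hT hw)
    (X.zero hC hT hw) (X.reg₀ hC hT hw) ((X.pts hC hw).mono fun m hm => hm.2.2.1)
    ((X.pts hC hw).mono fun m hm => hm.2.2.2) X.lim 4 hVs
  rw [X.fix hC hT hw, ← splitE_eq_Lv] at h1
  refine h1.congr' ?_
  filter_upwards [X.pts hC hw] with m hm
  rw [X.dim hC hT hw]
  exact (rgzt_L_local (isOpen_win _ y') hm.2.1 hm.1 _ _ _ _ _).symm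

end RgztCtx

end ctx

end Claimed.Agent.R315
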