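import Claimed.Agent.R315.Rg.Defs
import Claimed.Agent.R315.Rg.Sz
import Claimed.Agent.R315.Rg.SzT

/-!
# Row 315, package Rg, STAGE 1 of RULING 9 (file Rg/SzI.lean): the true pieces satisfy `RgzSys`;  `rg_super0_pf` = contract `rg_super0` of `Rg/Top.lean`

Context (`Rg/Defs.lean`): `C : ShCtx`, `P1`, `RgTrue C P1 Ω U`, `RgWid C w k`, `RgGap C P1 s' Ω U w k`.   `X0 α' = splitE (C.EO Ω) U w k α'`, `D0 α' = C.req P1 X0 α'`, frame `C.F.ext`, metric `extTen C.P.h`,
drift `C.P.dr ∘ fst`, potential `rgVs P1 C.R C.s s'`, `c = 4`, gap `C.e0`.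

`rg_super0_pf` is PROVED from `rgz_super` (`Rg/Sz.lean`) and the fields of `RgzSys`:

| field            | here            | status |
|------------------|-----------------|--------|
| `geo`            | `rgzi_geo`      | PROVED (`rg_split_mfd'` = general form of `pk_split_mfd`, `rgzi_regular`) |
| `pot`            | `rgzi_pot`      | proved from `rg_potSum_sc` |
| `t_hit`,`t_sign` | `rgzi_t_hit`, `rgzi_t_sign` | proved |
| `D_closed`       | `rgzi_closed`   | PROVED (from `rg_cnt_closed`) |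
| `gap`            | = `RgGap`       | |
| `piece`          | `rgzi_piece`    | leaf RGZI-PIECE (confinement; `SepConf` + (AC) + exact tails of the parent diagram) |
| `tt1`, `tt2`     | `rgzi_tt1`, `rgzi_tt2` | leaves RGZI-TT, from `rgzi_escape` (PROVED) and `rgzi_transfer` (PROVED, `Rg/SzT.lean`) |
Owner: helper209.
-/

set_option autoImplicit false
set_option linter.unusedSectionVars false
open scoped ContDiff Topology
open Claims.C0499 Set MeasureTheory Filter

namespace Claimed.Agent.R315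

variable {V W : Type} [NormedAddCommGroup V] [NormedSpace ℝ V] [NormedAddCommGroup W]
  [NormedSpace ℝ W] {ι : Type}

/-! ### manifolds -/

/-- **RGZI-MFD (1)** (PROVED = helper29's proof of `pk_split_mfd`, which uses nothing else): the pieces of a split are manifolds; LOCAL hypotheses only (the status spaces need not be closed, nothing has to be compatible).  `pk_split_mfd` (`Pk/Split.lean`, PK-SPLIT-MFD #7407) is the special case
`hD.mfd, hC.u_sc.1, hC.reg, hC.w_sc.1, hC.w_pos, hC.corner`: ONE proof for both.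
PLAN.  `α = α'.par`, `d = n - hits α`.
(a) `α' none = 0`: `hits α' = hits α + 1`, the piece is `{z | z ∈ Y ∧ G z = 0}`, `Y = {z | z.1 ∈ E α ∧ z.2 = 0}` (`pk_mfd_slice`), `G z = u z.1`.  If `d = 0`: empty (`pk_regular_zero`).  If `d = d₀ + 1`: `pk_mfd_level`, parametrisations
`b ↦ (ψ b, 0)` of `Y`, `G ∘ (ψ,0) = u ∘ ψ`, regular by `hreg`.
(b) `α' none ≠ 0`: `hits α' = hits α`, `Y = Prod.fst ⁻¹' E α` (`pk_mfd_prod`, dimension `d + 1`), `G z = k (σ u z.1 / w z.1) + k (σ z.2 / w z.1) - 1`; product parametrisation `pk_param_prod`.  At a zero, `a = σ u/w ≥ 0`, `b = σ τ/w ≥ 0`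
(`IsCorner.nonneg_of_add`).  If `b < 1`: the derivative in the direction of the line is `k'(b) σ / w ≠ 0` (`IsCorner.anti`).  If `b ≥ 1`: `k b = 0`, `k a = 1`, `a = 0` (`IsCorner.eq_one_iff`), `u = 0`; `k` is constant `0` near... NO: only on `[1,∞)`; but all derivatives
of `k` vanish at `b ≥ 1` (`k` is smooth and `0` on `[1,∞)`; for `b = 1` use one sided limits: `deriv k 1 = 0` since `k ≥ 0 = k 1` has a minimum), so `dG = k'(0) σ du / w` on vectors tangent to `E α` (the terms with `dw` carry the factors `a = 0` resp. `k'(b) = 0`), `≠ 0` by `hreg`. -/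
theorem rg_split_mfd' [FiniteDimensional ℝ W] [Fintype ι] {n : ℕ} {E : Stat ι → Set W}
    {u w : W → ℝ} {k : ℝ → ℝ} (hE : ∀ α, IsMfd (n - hits α) (E α))
    (hu : ∀ α, SmoothAlong (n - hits α) (E α) u) (hreg : ∀ α, RegularOn (n - hits α) (E α) u)
    (hw : ∀ α, SmoothAlong (n - hits α) (E α) w) (hw0 : ∀ z ∈ tot E, 0 < w z) (hk : IsCorner k)
    (α' : Stat (Option ι)) : IsMfd (n - hits α') (splitE E u w k α') := by
  set α : Stat ι := fun i => α' (some i) with hα
  have hX := hE α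
  by_cases h0 : α' none = 0
  · have hh : hits α' = hits α + 1 := by rw [pk_hits_parent, if_pos h0]
    have e : splitE E u w k α' = {z : W × ℝ | z.1 ∈ {x | x ∈ E α ∧ u x = 0} ∧ z.2 = 0} := by
      ext z
      simp only [splitE, h0, Set.mem_ofPred_eq, true_and, ne_eq, not_true_eq_false, false_and,
        or_false, and_assoc]
      exact Iff.rfl
    rw [e, hh]
    rcases Nat.eq_zero_or_pos (n - hits α) with hd | hd
    · have h1 : {x | x ∈ E α ∧ u x = 0} = ∅ := pk_regular_zero (hd ▸ hX) (hd ▸ hreg α)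
      rw [h1]
      rintro p ⟨hp, -⟩
      exact absurd hp (Set.notMem_empty _)
    · obtain ⟨d₀, hd₀⟩ : ∃ d₀, n - hits α = d₀ + 1 := ⟨n - hits α - 1, by omega⟩
      have hd₁ : n - (hits α + 1) = d₀ := by omega
      rw [hd₁]
      refine pk_mfd_slice (pk_mfd_level fun z hz hz0 => ?_)
      rw [hd₀] at hX
      obtain ⟨ψ, U, hp, a, ha, rfl⟩ := hX z hz
      have hsm := hu α
      have hreg := hreg α
      rw [hd₀] at hsm hreg
      exact ⟨ψ, U, a, hp, ha, rfl, hsm ψ U hp, hreg ψ U hp a ha hz0⟩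
  · have hh : hits α' = hits α := by rw [pk_hits_parent, if_neg h0, add_zero]
    set s : ℝ := (α' none : ℝ) with hs
    have hs0 : s ≠ 0 := by
      rw [hs]
      rcases SignType.trichotomy (α' none) with h | h | h
      · rw [h]; simp
      · exact absurd h h0
      · rw [h]; simp
    set G : W × ℝ → ℝ := fun z => k (s * u z.1 / w z.1) + k (s * z.2 / w z.1) - 1 with hG
    have e : splitE E u w k α' = {z : W × ℝ | z ∈ (Prod.fst ⁻¹' E α : Set (W × ℝ)) ∧ G z = 0} := by
      ext z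
      simp only [splitE, h0, Set.mem_ofPred_eq, false_and, ne_eq, not_false_eq_true, true_and,
        false_or, Set.mem_preimage, hG, sub_eq_zero]
      exact Iff.rfl
    rw [e, hh]
    set d := n - hits α with hd
    refine pk_mfd_level fun z hz hz0 => ?_
    obtain ⟨ψ, U, hp, a₀, ha₀, hza⟩ := hX z.1 hz
    have hU₁ : ContDiffOn ℝ ∞ (u ∘ ψ) U := hu α ψ U hp
    have hW₁ : ContDiffOn ℝ ∞ (w ∘ ψ) U := hw α ψ U hp
    have hWpos : ∀ b ∈ U, 0 < w (ψ b) := fun b hb => hw0 _ (mem_tot.2 ⟨α, if_mem hp hb⟩)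
    have hmaps : Set.MapsTo (rm_tl d) {b : R315.E (d + 1) | rm_tl d b ∈ U} U := fun b hb => hb
    have hopen : IsOpen {b : R315.E (d + 1) | rm_tl d b ∈ U} :=
      (if_open hp).preimage (rm_tl d).continuous
    have haU : rm_J z.2 a₀ ∈ {b : R315.E (d + 1) | rm_tl d b ∈ U} := by
      show rm_tl d (rm_J z.2 a₀) ∈ U
      rw [rm_tl_J]; exact ha₀
    have hsm : ContDiffOn ℝ ∞ (G ∘ fun b : R315.E (d + 1) => (ψ (rm_tl d b), b 0))
        {b | rm_tl d b ∈ U} := by
      have h1 : ContDiffOn ℝ ∞ (fun b : R315.E (d + 1) => u (ψ (rm_tl d b))) {b | rm_tl d b ∈ U} :=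
        hU₁.comp (rm_tl d).contDiff.contDiffOn hmaps
      have h2 : ContDiffOn ℝ ∞ (fun b : R315.E (d + 1) => w (ψ (rm_tl d b))) {b | rm_tl d b ∈ U} :=
        hW₁.comp (rm_tl d).contDiff.contDiffOn hmaps
      have h3 : ContDiffOn ℝ ∞ (fun b : R315.E (d + 1) => b 0) {b | rm_tl d b ∈ U} :=
        (if_pr (0 : Fin (d + 1))).contDiff.contDiffOn
      have hne : ∀ b ∈ {b : R315.E (d + 1) | rm_tl d b ∈ U}, w (ψ (rm_tl d b)) ≠ 0 := fun b hb =>
        (hWpos _ hb).ne'
      exact ((hk.smooth.comp_contDiffOn ((contDiffOn_const.mul h1).div h2 hne)).add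
        (hk.smooth.comp_contDiffOn ((contDiffOn_const.mul h3).div h2 hne))).sub contDiffOn_const
    refine ⟨_, _, rm_J z.2 a₀, pk_param_prod hp, haU, ?_, hsm, ?_⟩
    · show (ψ (rm_tl d (rm_J z.2 a₀)), rm_J z.2 a₀ 0) = z
      rw [rm_tl_J, rm_J_zero, hza]
    have hdiff : DifferentiableAt ℝ (G ∘ fun b : R315.E (d + 1) => (ψ (rm_tl d b), b 0))
        (rm_J z.2 a₀) := (hsm.contDiffAt (hopen.mem_nhds haU)).differentiableAt (by simp)
    have hw₀ : 0 < w z.1 := hza ▸ hWpos a₀ ha₀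
    have hsum : k (s * u z.1 / w z.1) + k (s * z.2 / w z.1) = 1 := by
      have : G z = 0 := hz0
      simp only [hG] at this
      linarith
    have hkd : ∀ x, HasDerivAt k (deriv k x) x := fun x =>
      (hk.smooth.differentiable (by simp) x).hasDerivAt
    rcases lt_or_ge (s * z.2 / w z.1) 1 with hB | hB
    · -- derivative in the direction of the line
      refine pk_fderiv_ne_of_curve hdiff (c := fun t => rm_J t a₀) (t₀ := z.2)
        (D := deriv k (s * z.2 / w z.1) * (s / w z.1)) ?_ rfl ?_ ?_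
      · unfold rm_J
        exact (differentiableAt_id.smul_const _).add_const _
      · have h1 : (fun t => (G ∘ fun b : R315.E (d + 1) => (ψ (rm_tl d b), b 0)) (rm_J t a₀)) =
            fun t => k (s * u z.1 / w z.1) + k (s * t / w z.1) - 1 := by
          funext t
          simp only [Function.comp_apply, hG, rm_tl_J, rm_J_zero, hza]
        rw [h1]
        have h2 : HasDerivAt (fun t : ℝ => s * t / w z.1) (s / w z.1) z.2 := by
          have := ((hasDerivAt_id z.2).const_mul s).div_const (w z.1)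
          simpa using this
        exact (((hkd _).comp z.2 h2).const_add _).sub_const _
      · exact mul_ne_zero (hk.anti _ hB).ne (div_ne_zero hs0 hw₀.ne')
    · -- on the cylinder: `u = 0`
      have hkB : k (s * z.2 / w z.1) = 0 := hk.far _ hB
      have hA : s * u z.1 / w z.1 = 0 := by
        rw [hkB, add_zero] at hsum
        exact hk.eq_one_iff.1 hsum
      have hu0 : u z.1 = 0 := by
        rcases div_eq_zero_iff.1 hA with h | h
        · exact (mul_eq_zero.1 h).resolve_left hs0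
        · exact absurd h hw₀.ne'
      have hreg := hreg α ψ U hp a₀ ha₀ (hza ▸ hu0)
      obtain ⟨v, hv⟩ : ∃ v, fderiv ℝ (u ∘ ψ) a₀ v ≠ 0 := by
        by_contra hcon
        push Not at hcon
        exact hreg (ContinuousLinearMap.ext hcon)
      have hl : HasDerivAt (fun t : ℝ => a₀ + t • v) v 0 := by
        have := ((hasDerivAt_id (0 : ℝ)).smul_const v).const_add a₀
        simpa using this
      have hl0 : a₀ = a₀ + (0 : ℝ) • v := by simp
      have hUd : HasDerivAt (fun t : ℝ => u (ψ (a₀ + t • v))) (fderiv ℝ (u ∘ ψ) a₀ v) 0 :=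
        HasFDerivAt.comp_hasDerivAt_of_eq 0 ((hU₁.contDiffAt ((if_open hp).mem_nhds
          ha₀)).differentiableAt (by simp)).hasFDerivAt hl hl0
      have hWd : HasDerivAt (fun t : ℝ => w (ψ (a₀ + t • v))) (fderiv ℝ (w ∘ ψ) a₀ v) 0 :=
        HasFDerivAt.comp_hasDerivAt_of_eq 0 ((hW₁.contDiffAt ((if_open hp).mem_nhds
          ha₀)).differentiableAt (by simp)).hasFDerivAt hl hl0
      have hw1 : w (ψ (a₀ + (0 : ℝ) • v)) = w z.1 := by rw [← hl0, hza]
      have hu1 : u (ψ (a₀ + (0 : ℝ) • v)) = 0 := by rw [← hl0, hza, hu0]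
      have hq1 := (hUd.const_mul s).div hWd (by rw [hw1]; exact hw₀.ne')
      have hq2 := (hasDerivAt_const (0 : ℝ) (s * z.2)).div hWd (by rw [hw1]; exact hw₀.ne')
      have hk1 := HasDerivAt.comp_of_eq (0 : ℝ) (hkd (s * u z.1 / w z.1)) hq1
        (by simp only [Pi.div_apply, hu1, hw1, hu0])
      have hk2 := HasDerivAt.comp_of_eq (0 : ℝ) (hkd (s * z.2 / w z.1)) hq2
        (by simp only [Pi.div_apply, hw1])
      rw [hk.deriv_far hB, zero_mul] at hk2
      refine pk_fderiv_ne_of_curve hdiff (c := fun t => rm_J z.2 (a₀ + t • v)) (t₀ := 0)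
        ?_ (by simp) (((hk1.add hk2).sub_const 1).congr_of_eventuallyEq
          (Filter.Eventually.of_forall fun t => ?_)) ?_
      · exact ((rm_J_hasFDerivAt z.2 _).comp_hasDerivAt (0 : ℝ) hl).differentiableAt
      · simp only [Function.comp_apply, hG, rm_tl_J, rm_J_zero, Pi.add_apply, Pi.div_apply]
      · rw [add_zero, hA, hu1, hw1]
        refine mul_ne_zero (hk.anti 0 one_pos).ne ?_
        refine div_ne_zero ?_ (pow_ne_zero 2 hw₀.ne')
        rw [mul_zero, zero_mul, sub_zero]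
        exact mul_ne_zero (mul_ne_zero hs0 hv) hw₀.ne'

/-- **RGZI-MFD (2)** (PROVED): regular zeros in terms of `gradSq`.
PLAN: `gs_sq_eq`: `gradSq d X h u (ψ a) = gradSqC (cm h ψ) (u ∘ ψ) a`, a quadratic expression in the partial derivatives `pdiff (u ∘ ψ) i a = fderiv ℝ (u ∘ ψ) a (eb i)`: it vanishes if `fderiv ℝ (u ∘ ψ) a = 0`. -/
theorem rgzi_regular [FiniteDimensional ℝ W] {d : ℕ} {X : Set W} {h : Ten W} {u : W → ℝ}
    (hh : IsMetricOn d X h) (hu : SmoothAlong d X u)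
    (hreg : ∀ z ∈ X, u z = 0 → 0 < gradSq d X h u z) : RegularOn d X u := by
  intro ψ U hp a ha h0 hd
  have h1 := hreg (ψ a) (if_mem hp ha) h0
  rw [if_gradSq_eq hh hu hp ha] at h1
  unfold gradSqC pdiff at h1
  rw [hd] at h1
  simp at h1

/-! ### the extended frame -/

theorem Frame.dropS_add_vec_self (F : Frame V W ι) (J : Finset ι) (z : W) :
    F.dropS J z + F.vec J (fun j => F.t j z) = z := by
  simp [Frame.dropS, Frame.vec]

open Classical in
/-- `dropS` in the extended frame. -/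
theorem Frame.ext_dropS (F : Frame V W ι) (J : Finset (Option ι)) (z : W × ℝ) :
    F.ext.dropS J z = (F.dropS (Finset.eraseNone J) z.1, if none ∈ J then 0 else z.2) := by
  refine F.ext.eq_of_coords ?_ fun i => ?_
  · rw [F.ext.q_dropS]
    show F.q z.1 = F.q (F.dropS (Finset.eraseNone J) z.1)
    rw [F.q_dropS]
  · rcases i with _ | i
    · by_cases h : none ∈ J
      · rw [F.ext.t_dropS_mem h, if_pos h]; rfl
      · rw [F.ext.t_dropS_notMem h, if_neg h]; rfl
    · by_cases h : some i ∈ J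
      · rw [F.ext.t_dropS_mem h]
        show 0 = F.t i (F.dropS (Finset.eraseNone J) z.1)
        rw [F.t_dropS_mem (Finset.mem_eraseNone.2 h)]
      · rw [F.ext.t_dropS_notMem h]
        show F.t i z.1 = F.t i (F.dropS (Finset.eraseNone J) z.1)
        rw [F.t_dropS_notMem (fun h' => h (Finset.mem_eraseNone.1 h'))]

theorem rgzi_sign_cast_ne {s : SignType} (h : s ≠ 0) : (s : ℝ) ≠ 0 := by
  rcases signType_cast_cases s h with ⟨-, h⟩ | ⟨-, h⟩ <;> rw [h] <;> norm_num

theorem Stat.par_faceS (α' : Stat (Option ι)) (J : Finset (Option ι)) :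
    (α'.faceS J).par = α'.par.faceS (Finset.eraseNone J) := by
  funext i
  by_cases h : some i ∈ J
  · have h' : i ∈ Finset.eraseNone J := Finset.mem_eraseNone.2 h
    simp [Stat.par, Stat.faceS, h, h']
  · have h' : i ∉ Finset.eraseNone J := fun h' => h (Finset.mem_eraseNone.1 h')
    simp [Stat.par, Stat.faceS, h, h']

theorem rgzi_hits_faceS_le [Fintype ι] (α : Stat ι) (J : Finset ι) :
    hits α ≤ hits (α.faceS J) := by
  unfold hits
  refine Finset.sum_le_sum fun i _ => ?_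
  by_cases h : α i = 0
  · have : α.faceS J i = 0 := by simp [Stat.faceS, h]
    rw [if_pos h, if_pos this]
  · rw [if_neg h]; exact Nat.zero_le _

/-- a point of a face is fixed by the projection. -/
theorem rgzi_dropS_fix [Fintype ι] {n : ℕ} {M : Set V} {F : Frame V W ι} {E : Stat ι → Set W}
    (hD : IsDiag n M F E) (α : Stat ι) (J : Finset ι) {y : W} (hy : y ∈ E (α.faceS J)) :
    F.dropS J y = y := by
  unfold Frame.dropS
  rw [Finset.sum_eq_zero, sub_zero]
  intro j hj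
  rw [hD.t_hit _ y hy j (by simp [Stat.faceS, hj]), zero_smul]

/-- constants do not change `gradIp`. -/
theorem rgzi_ip_sub_const [FiniteDimensional ℝ W] {d : ℕ} {M : Set W} {h : Ten W} {a b : W → ℝ}
    (hM : IsMfd d M) (hh : IsMetricOn d M h) (ha : SmoothAlong d M a) (hb : SmoothAlong d M b)
    (c c' : ℝ) {x : W} (hx : x ∈ M) :
    gradIp d M h (fun z => a z - c) (fun z => b z - c') x = gradIp d M h a b x := by
  rw [gs_ip_sub_left hM hh ha (gs_sm_const c) (gs_sm_sub hb (gs_sm_const c')) hx,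
    gs_ip_const_left hM hh c (gs_sm_sub hb (gs_sm_const c')) hx, sub_zero,
    gs_ip_sub_right hM hh hb (gs_sm_const c') ha hx, gs_ip_const_right hM hh c' ha hx, sub_zero]

theorem rgzi_bdd_of_tendsto {a : ℕ → ℝ} (h : ∃ L, Tendsto a atTop (𝓝 L)) :
    ∃ B, ∀ m, |a m| ≤ B := by
  obtain ⟨L, hL⟩ := h
  obtain ⟨B, hB⟩ := hL.abs.bddAbove_range
  exact ⟨B, fun m => hB ⟨m, rfl⟩⟩

section ctx

variable [FiniteDimensional ℝ V] [FiniteDimensional ℝ W] [Fintype ι] [MeasurableSpace W]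
  [BorelSpace W] {C : ShCtx V W ι} {P1 : PData W ι C.B.J} {s' : ℝ} {Ω : Set W} {U w : W → ℝ}
  {k : ℝ → ℝ}

theorem rgzi_EO_mfd (hC : C.Ok) (hT : RgTrue C P1 Ω U) (α : Stat ι) :
    IsMfd (C.B.n - hits α) (C.EO Ω α) :=
  if_mfd_inter (hC.inv.diag.mfd α) hT.isOpen

theorem rgzi_tot_EO {z : W} (hz : z ∈ tot (C.EO Ω)) : z ∈ tot C.P.E := by
  obtain ⟨α, hα⟩ := mem_tot.1 hz
  exact mem_tot.2 ⟨α, hα.1⟩

/-- the true pieces are manifolds with metric and drift. -/
theorem rgzi_geo (hC : C.Ok) (hT : RgTrue C P1 Ω U) (hw : RgWid C w k) (α' : Stat (Option ι)) :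
    CtGeo (C.B.n - hits α') (splitE (C.EO Ω) U w k α') (extTen C.P.h) (fun y => C.P.dr y.1) := by
  have hD := hC.inv.diag
  have hsub : splitE (C.EO Ω) U w k α' ⊆ Prod.fst ⁻¹' C.P.E (fun i => α' (some i)) :=
    fun z hz => hz.1.1
  refine ⟨rg_split_mfd' (rgzi_EO_mfd hC hT) hT.smooth (fun α => ?_) (fun α => ?_)
    (fun z hz => hw.w_pos z (rgzi_tot_EO hz)) hw.corner α', ?_, ?_⟩
  · exact rgzi_regular (if_isMetricOn_inter (hC.inv.met.met α) hT.isOpen) (hT.smooth α) (hT.reg α)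
  · exact if_smoothAlong_inter (hw.w_sc.1 α) hT.isOpen
  · exact pk_isMetricOn_ext (hD.mfd _) hsub (hC.inv.met.met _)
  · exact pk_smoothAlong_fst (hD.mfd _) hsub (hC.inv.dr_sc.1 _)

/-- the potential `V*` is smooth along the true pieces. -/
theorem rgzi_pot (hC : C.Ok) (hS : ShieldOK C P1) (α' : Stat (Option ι)) :
    SmoothAlong (C.B.n - hits α') (splitE (C.EO Ω) U w k α') (rgVs P1 C.R C.s s') := by
  have hE := hS.E_eq
  have hD : IsDiag C.B.n C.B.M C.F P1.E := hE ▸ hC.inv.diag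
  have hpas : ∀ K : Set V, IsCompact K →
      {j | j ∈ C.R ∧ ∃ z ∈ tot P1.E, C.F.q z ∈ K ∧ ¬ P1.Passive C.B.pst C.c j z}.Finite := by
    rw [hE]; exact hS.passive
  have h1 := rg_potSum_sc hC.base hD (fun j hj => (hS.label j hj).pot_sc) hpas
  have hsub : splitE (C.EO Ω) U w k α' ⊆ Prod.fst ⁻¹' P1.E (fun i => α' (some i)) :=
    fun z hz => by rw [hE]; exact hz.1.1
  have h2 : SmoothAlong (C.B.n - hits α') (splitE (C.EO Ω) U w k α')
      (fun z : W × ℝ => P1.potSum C.R z.1) := pk_smoothAlong_fst (hD.mfd _) hsub (h1.1 _)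
  have e : rgVs P1 C.R C.s s' =
      fun z => pkL s' + pkB s' * rgKap C.s s' * P1.potSum C.R z.1 := by
    funext z; rw [rgVs_eq]; ring
  rw [e]
  exact gs_sm_add (gs_sm_const _) (gs_sm_smul _ h2)

theorem rgzi_t_hit (hC : C.Ok) (α' : Stat (Option ι)) (z : W × ℝ)
    (hz : z ∈ splitE (C.EO Ω) U w k α') (i : Option ι) (hi : α' i = 0) : C.F.ext.t i z = 0 := by
  rcases i with _ | i
  · rcases hz.2 with h | h
    · exact h.2.2
    · exact absurd hi h.1
  · exact hC.inv.diag.t_hit _ z.1 hz.1.1 i hi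

theorem rgzi_t_sign (hC : C.Ok) (hw : RgWid C w k) (α' : Stat (Option ι)) (z : W × ℝ)
    (hz : z ∈ splitE (C.EO Ω) U w k α') (i : Option ι) : 0 ≤ (α' i : ℝ) * C.F.ext.t i z := by
  rcases i with _ | i
  · have hw0 : 0 < w z.1 := hw.w_pos _ (mem_tot.2 ⟨_, hz.1.1⟩)
    rcases hz.2 with h | h
    · rw [h.1]; simp
    · have h2 := (hw.corner.nonneg_of_add h.2).2
      rw [le_div_iff₀ hw0, zero_mul] at h2
      exact h2
  · have := hC.inv.diag.sign_mul hz.1.1 i
    show 0 ≤ (α' (some i) : ℝ) * C.F.t i z.1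
    rw [this]; exact abs_nonneg _

/-- the sign of `U` on the true pieces. -/
theorem rgzi_U_sign (hw : RgWid C w k) {α' : Stat (Option ι)} {z : W × ℝ}
    (hz : z ∈ splitE (C.EO Ω) U w k α') : 0 ≤ (α' none : ℝ) * U z.1 ∧ (α' none = 0 → U z.1 = 0) := by
  have hw0 : 0 < w z.1 := hw.w_pos _ (mem_tot.2 ⟨_, hz.1.1⟩)
  rcases hz.2 with h | h
  · exact ⟨by rw [h.1]; simp, fun _ => h.2.1⟩
  · have h2 := (hw.corner.nonneg_of_add h.2).1
    rw [le_div_iff₀ hw0, zero_mul] at h2
    exact ⟨h2, fun h0 => absurd h0 h.1⟩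

/-- the points of the required sets project into the guard. -/
theorem rgzi_req_guard (α' : Stat (Option ι)) {z : W × ℝ}
    (hz : z ∈ C.req P1 (splitE (C.EO Ω) U w k) α') : z.1 ∈ C.guard P1 α'.par := by
  refine ⟨hz.1.1.1, hz.2.rg_mono ?_⟩
  have := hits_le_parent α'
  show C.B.n - hits α'.par - 2 ≤ C.B.n - hits α' - 1
  have e : hits α'.par = hits (fun i => α' (some i)) := rfl
  omega

/-- **RGZI-CLOSED** (PROVED): the required sets of the true pieces are closed in `W × ℝ` (although the true pieces are not).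
PLAN.  `Γ = {x | x ∈ E α ∧ P1.Cnt R (n - hits α' - 1) x}`, `α = α'.par`, is closed (`rg_cnt_closed`, with `P1.E = C.P.E`) and `Γ ⊆ C.guard P1 α ⊆ Ω` (`rgzi_req_guard`, `hT.guard`).  `U` and `w` are continuous on `E α ∩ Ω ⊇ Γ`
(`if_smoothAlong_continuousOn`), `w > 0`.  `D0 α' = {z | z.1 ∈ Γ ∧ (...)}` is the preimage of a closed set under a function which is continuous on the closed set `Prod.fst ⁻¹' Γ`
(`ContinuousOn.preimage_isClosed_of_isClosed`), exactly as in `pk_split_closed`. -/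
theorem rgzi_closed (hC : C.Ok) (hS : ShieldOK C P1) (hT : RgTrue C P1 Ω U) (hw : RgWid C w k)
    (α' : Stat (Option ι)) : IsClosed (C.req P1 (splitE (C.EO Ω) U w k) α') := by
  set α : Stat ι := α'.par with hα
  have hE := hS.E_eq
  have hD : IsDiag C.B.n C.B.M C.F P1.E := hE ▸ hC.inv.diag
  have hpas : ∀ K : Set V, IsCompact K →
      {j | j ∈ C.R ∧ ∃ z ∈ tot P1.E, C.F.q z ∈ K ∧ ¬ P1.Passive C.B.pst C.c j z}.Finite := by
    rw [hE]; exact hS.passive
  have hΓc : IsClosed {x | x ∈ P1.E α ∧ P1.Cnt C.R (C.B.n - hits α' - 1) x} :=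
    (rg_cnt_closed hD hS.label hpas _).1 α
  set Γ : Set W := {x | x ∈ P1.E α ∧ P1.Cnt C.R (C.B.n - hits α' - 1) x} with hΓ
  have hΓΩ : Γ ⊆ C.EO Ω α := by
    intro x hx
    have hxE : x ∈ C.P.E α := by rw [← hE]; exact hx.1
    refine ⟨hxE, hT.guard α ⟨hxE, hx.2.rg_mono ?_⟩⟩
    have := hits_le_parent α'
    show C.B.n - hits α'.par - 2 ≤ C.B.n - hits α' - 1
    have e : hits α'.par = hits (fun i => α' (some i)) := rfl
    omega
  have hX : IsClosed (Prod.fst ⁻¹' Γ : Set (W × ℝ)) := hΓc.preimage continuous_fst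
  have hu : ContinuousOn (fun z : W × ℝ => U z.1) (Prod.fst ⁻¹' Γ) :=
    ((if_smoothAlong_continuousOn (rgzi_EO_mfd hC hT α) (hT.smooth α)).mono hΓΩ).comp
      continuous_fst.continuousOn fun z hz => hz
  have hwc : ContinuousOn (fun z : W × ℝ => w z.1) (Prod.fst ⁻¹' Γ) :=
    ((if_smoothAlong_continuousOn (hC.inv.diag.mfd α) (hw.w_sc.1 α)).mono
      fun x hx => (hΓΩ hx).1).comp continuous_fst.continuousOn fun z hz => hz
  have hw0 : ∀ z ∈ (Prod.fst ⁻¹' Γ : Set (W × ℝ)), w z.1 ≠ 0 := fun z hz =>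
    (hw.w_pos z.1 (mem_tot.2 ⟨α, (hΓΩ hz).1⟩)).ne'
  by_cases h0 : α' none = 0
  · have e : C.req P1 (splitE (C.EO Ω) U w k) α' =
        (Prod.fst ⁻¹' Γ ∩ (fun z : W × ℝ => U z.1) ⁻¹' {0}) ∩ (Prod.snd ⁻¹' {0}) := by
      ext z
      constructor
      · rintro ⟨⟨h1, h2⟩, h3⟩
        rcases h2 with h2 | h2
        · exact ⟨⟨⟨by rw [hE]; exact h1.1, h3⟩, h2.2.1⟩, h2.2.2⟩
        · exact absurd h0 h2.1
      · rintro ⟨⟨h1, h2⟩, h3⟩
        exact ⟨⟨hΓΩ h1, Or.inl ⟨h0, h2, h3⟩⟩, h1.2⟩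
    rw [e]
    exact (hu.preimage_isClosed_of_isClosed hX isClosed_singleton).inter
      (isClosed_singleton.preimage continuous_snd)
  · have hG : ContinuousOn (fun z : W × ℝ => k ((α' none : ℝ) * U z.1 / w z.1) +
        k ((α' none : ℝ) * z.2 / w z.1)) (Prod.fst ⁻¹' Γ) := by
      refine ContinuousOn.add ?_ ?_
      · exact hw.corner.smooth.continuous.comp_continuousOn
          ((continuousOn_const.mul hu).div hwc hw0)
      · exact hw.corner.smooth.continuous.comp_continuousOn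
          ((continuousOn_const.mul continuous_snd.continuousOn).div hwc hw0)
    have e : C.req P1 (splitE (C.EO Ω) U w k) α' = Prod.fst ⁻¹' Γ ∩ (fun z : W × ℝ =>
        k ((α' none : ℝ) * U z.1 / w z.1) + k ((α' none : ℝ) * z.2 / w z.1)) ⁻¹' {1} := by
      ext z
      constructor
      · rintro ⟨⟨h1, h2⟩, h3⟩
        rcases h2 with h2 | h2
        · exact absurd h2.1 h0
        · exact ⟨⟨by rw [hE]; exact h1.1, h3⟩, h2.2⟩
      · rintro ⟨h1, h2⟩
        exact ⟨⟨hΓΩ h1, Or.inr ⟨h0, h2⟩⟩, h1.2⟩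
    rw [e]
    exact hG.preimage_isClosed_of_isClosed hX isClosed_singleton

/-- limits of the count, `Ω`, `U`, `w` along a sequence of the parent diagram which escapes exactly in `J₀`. -/
theorem rgzi_parent_lim (hC : C.Ok) (hS : ShieldOK C P1) (hT : RgTrue C P1 Ω U) (hw : RgWid C w k)
    (α : Stat ι) (J₀ : Finset ι) (hJ₀ : ∀ j ∈ J₀, α j ≠ 0) {X : ℕ → W} (hX : ∀ m, X m ∈ C.P.E α)
    (hesc : ∀ j ∈ J₀, Tendsto (fun m => (α j : ℝ) * C.F.t j (X m)) atTop atTop) {y₀ : W}
    (hy₀ : y₀ ∈ C.P.E (α.faceS J₀)) (hlim : Tendsto (fun m => C.F.dropS J₀ (X m)) atTop (𝓝 y₀))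
    {c : ℕ} (hc : C.m α - 2 ≤ c) (hcnt : ∀ m, P1.Cnt C.R c (X m)) :
    P1.Cnt C.R c y₀ ∧ y₀ ∈ Ω ∧ Tendsto (fun m => U (X m)) atTop (𝓝 (U y₀)) ∧
      Tendsto (fun m => w (X m)) atTop (𝓝 (w y₀)) := by
  have hD := hC.inv.diag
  have hE := hS.E_eq
  have hD1 : IsDiag C.B.n C.B.M C.F P1.E := hE ▸ hD
  have hpas : ∀ K : Set V, IsCompact K →
      {j | j ∈ C.R ∧ ∃ z ∈ tot P1.E, C.F.q z ∈ K ∧ ¬ P1.Passive C.B.pst C.c j z}.Finite := by
    rw [hE]; exact hS.passive
  obtain ⟨hcl, hcomp⟩ := rg_cnt_closed hD1 hS.label hpas c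
  set β := α.faceS J₀ with hβ
  set Y : ℕ → W := fun m => C.F.dropS J₀ (X m) with hY
  set S : ℕ → ι → ℝ := fun m j => C.F.t j (X m) with hSdef
  have hXY : ∀ m, Y m + C.F.vec J₀ (S m) = X m := fun m => C.F.dropS_add_vec_self J₀ (X m)
  have hYY : ∀ m, C.F.dropS J₀ (Y m) = Y m := by
    intro m
    rw [← C.F.dropS_add_vec J₀ (S m) (Y m), hXY]
  have hK' : IsCompact (insert y₀ (range Y)) := hlim.isCompact_insert_range
  have hYK : ∀ m, Y m ∈ insert y₀ (range Y) := fun m => Or.inr ⟨m, rfl⟩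
  have hYβ : ∀ᶠ m in atTop, Y m ∈ C.P.E β := by
    filter_upwards [ct_window hD α J₀ hJ₀ S hesc hK'] with m hm
    have := (hm (Y m) (hYK m)).1 (by rw [hXY]; exact hX m)
    rwa [hYY] at this
  have hcY : ∀ᶠ m in atTop, P1.Cnt C.R c (Y m) := by
    have hcomp' : Compat C.F C.P.E (fun z => P1.Cnt C.R c z) := hE ▸ hcomp
    filter_upwards [ct_window_compat hD α J₀ hJ₀ S hesc hK' hcomp'] with m hm
    have := hm (Y m) (hYK m) (by rw [hXY]; exact hX m)
    rw [hXY, hYY] at this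
    rw [← this]; exact hcnt m
  have hcy : y₀ ∈ {z | z ∈ P1.E β ∧ P1.Cnt C.R c z} := (hcl β).mem_of_tendsto hlim (by
    filter_upwards [hYβ, hcY] with m h1 h2
    exact ⟨by rw [hE]; exact h1, h2⟩)
  have hΩ : y₀ ∈ Ω := by
    refine hT.guard β ⟨hy₀, hcy.2.rg_mono ?_⟩
    have := rgzi_hits_faceS_le α J₀
    have e1 : C.m β = C.B.n - hits (α.faceS J₀) := rfl
    have e2 : C.m α = C.B.n - hits α := rfl
    omega
  have hfix : C.F.dropS J₀ y₀ = y₀ := rgzi_dropS_fix hD α J₀ hy₀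
  have hac := hT.ac α J₀ hJ₀ S hesc y₀ (by rw [hfix]; exact ⟨hy₀, hΩ⟩)
  have hgeo := ct_mem_geo hC.inv.pgeo β J₀ (fun j hj => by simp [hβ, Stat.faceS, hj])
  have hU := hac.tendsto hgeo.mfd (x := Y)
    (show C.F.dropS J₀ y₀ ∈ C.P.E β by rw [hfix]; exact hy₀)
    (hYβ.mono fun m hm => show C.F.dropS J₀ (Y m) ∈ C.P.E β by rw [hYY]; exact hm) hlim
  simp only [hXY, hfix] at hU
  have hwc : ContinuousOn w (C.P.E β) := if_smoothAlong_continuousOn (hD.mfd β) (hw.w_sc.1 β)
  have hwY : Tendsto (fun m => w (Y m)) atTop (𝓝 (w y₀)) :=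
    (hwc y₀ hy₀).tendsto.comp (tendsto_nhdsWithin_iff.2 ⟨hlim, hYβ⟩)
  have hwX : ∀ᶠ m in atTop, w (X m) = w (Y m) := by
    filter_upwards [ct_window_compat hD α J₀ hJ₀ S hesc hK' hw.w_sc.2] with m hm
    have := hm (Y m) (hYK m) (by rw [hXY]; exact hX m)
    rwa [hXY, hYY] at this
  exact ⟨hcy.2, hΩ, hU, hwY.congr' (hwX.mono fun m h => h.symm)⟩

/-! ### confinement -/

/-- separation of a closed set which is a disjoint union of relatively open nonempty pieces. -/
theorem rgzi_sep {Z κ : Type} [PseudoMetricSpace Z] {D : Set Z} {A : κ → Set Z}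
    (hne : ∀ c, (A c).Nonempty) (hsub : ∀ c, A c ⊆ D)
    (hdis : ∀ c c', c ≠ c' → Disjoint (A c) (A c')) (hcl : ∀ c, IsClosed (D \ A c)) :
    ∃ Uc : κ → Set Z, (∀ c, IsOpen (Uc c)) ∧ (Pairwise fun c c' => Disjoint (Uc c) (Uc c')) ∧
      (∀ c, A c ⊆ Uc c) ∧ ∀ c, ∀ z ∈ Uc c, ∃ x ∈ A c, dist z x < 1 := by
  refine ⟨fun c => {z | Metric.infDist z (A c) < 1 ∧
    (D \ A c = ∅ ∨ Metric.infDist z (A c) < Metric.infDist z (D \ A c))},
    fun c => ?_, fun c c' hcc => ?_, fun c z hz => ?_, fun c z hz => ?_⟩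
  · beta_reduce
    have h1 : IsOpen {z | Metric.infDist z (A c) < 1} :=
      isOpen_lt (Metric.continuous_infDist_pt _) continuous_const
    by_cases he : D \ A c = ∅
    · have : {z | Metric.infDist z (A c) < 1 ∧
          (D \ A c = ∅ ∨ Metric.infDist z (A c) < Metric.infDist z (D \ A c))} =
          {z | Metric.infDist z (A c) < 1} := by
        ext z
        simp [he]
      rw [this]
      exact h1
    · have h2 : IsOpen {z | Metric.infDist z (A c) < Metric.infDist z (D \ A c)} :=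
        isOpen_lt (Metric.continuous_infDist_pt _) (Metric.continuous_infDist_pt _)
      have : {z | Metric.infDist z (A c) < 1 ∧
          (D \ A c = ∅ ∨ Metric.infDist z (A c) < Metric.infDist z (D \ A c))} =
          {z | Metric.infDist z (A c) < 1} ∩
            {z | Metric.infDist z (A c) < Metric.infDist z (D \ A c)} := by
        ext z
        simp [he]
      rw [this]
      exact h1.inter h2
  · beta_reduce
    rw [Set.disjoint_left]
    rintro z ⟨-, h1⟩ ⟨-, h2⟩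
    have s1 : A c' ⊆ D \ A c := fun x hx =>
      ⟨hsub c' hx, fun hx' => Set.disjoint_left.1 (hdis c c' hcc) hx' hx⟩
    have s2 : A c ⊆ D \ A c' := fun x hx =>
      ⟨hsub c hx, fun hx' => Set.disjoint_left.1 (hdis c c' hcc) hx hx'⟩
    have n1 : D \ A c ≠ ∅ := ((hne c').mono s1).ne_empty
    have n2 : D \ A c' ≠ ∅ := ((hne c).mono s2).ne_empty
    have i1 := (h1.resolve_left n1).trans_le (Metric.infDist_le_infDist_of_subset s1 (hne c'))
    have i2 := (h2.resolve_left n2).trans_le (Metric.infDist_le_infDist_of_subset s2 (hne c))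
    exact lt_asymm i1 i2
  · have h0 : Metric.infDist z (A c) = 0 := Metric.infDist_zero_of_mem hz
    refine ⟨by rw [h0]; exact one_pos, ?_⟩
    by_cases he : D \ A c = ∅
    · exact Or.inl he
    · right
      rw [h0]
      exact ((hcl c).notMem_iff_infDist_pos (Set.nonempty_iff_ne_empty.2 he)).1 fun h => h.2 hz
  · exact (Metric.infDist_lt_iff (hne c)).1 hz.1

/-- the part of `E α` far out in the tails `J` over a small connected piece of the face which avoids the closure of a compatible set `N` is connected and avoids the closure of `N`. -/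
theorem rgzi_tail_conn {n : ℕ} {M : Set V} {F : Frame V W ι} {E : Stat ι → Set W}
    (hD : IsDiag n M F E) {N : Set W} (hN : Compat F E (fun z => z ∈ N)) (α : Stat ι)
    (J : Finset ι) (hJ : ∀ j ∈ J, α j ≠ 0) {y : W} (hy : y ∈ E (α.faceS J))
    (hyN : y ∉ closure (N ∩ E (α.faceS J))) :
    ∃ (O S : Set W) (R : ℝ), IsOpen O ∧ y ∈ O ∧ IsPreconnected S ∧
      S ⊆ E α \ closure (N ∩ E α) ∧
      ∀ x ∈ E α, F.dropS J x ∈ O → (∀ j ∈ J, R < (α j : ℝ) * F.t j x) → x ∈ S := by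
  classical
  set β := α.faceS J with hβ
  have hβ0 : ∀ j ∈ J, β j = 0 := fun j hj => by simp [hβ, Stat.faceS, hj]
  set G : Set W := (closure (N ∩ E β))ᶜ ∩ Metric.ball y 1 with hG
  have hGo : IsOpen G := isClosed_closure.isOpen_compl.inter Metric.isOpen_ball
  have hyG : y ∈ G := ⟨hyN, Metric.mem_ball_self one_pos⟩
  obtain ⟨O, hO, hyO, hpre⟩ := pk_exists_conn_nhd (if_mfd_inter (hD.mfd β) hGo) (y := y) ⟨hy, hyG⟩
  set KB : Set V := F.q '' Metric.closedBall y 1 with hKB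
  have hKBc : IsCompact KB := (isCompact_closedBall y 1).image F.q.continuous
  have hK : IsCompact (Metric.cthickening 1 KB) := hKBc.cthickening
  obtain ⟨R1, -, hR1⟩ := sh_unif_thr hD hK
  obtain ⟨R2, -, hR2⟩ := sh_unif_compat hD hN hK
  set R := max R1 R2 with hR
  have hfc : Continuous fun p : W × (ι → ℝ) => p.1 + F.vec J p.2 := by
    unfold Frame.vec
    exact continuous_fst.add (continuous_finsetSum _ fun j _ =>
      ((continuous_apply j).comp continuous_snd).smul continuous_const)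
  have hQc : Convex ℝ {s : ι → ℝ | ∀ j ∈ J, R < (α j : ℝ) * s j} := by
    have : {s : ι → ℝ | ∀ j ∈ J, R < (α j : ℝ) * s j} =
        ⋂ j ∈ J, {s : ι → ℝ | R < (α j : ℝ) * s j} := by
      ext s
      simp
    rw [this]
    refine convex_iInter₂ fun j _ => convex_halfSpace_gt ⟨fun a b => ?_, fun c a => ?_⟩ R
    · simp [mul_add]
    · simp only [Pi.smul_apply, smul_eq_mul]
      ring
  refine ⟨G ∩ O, (fun p : W × (ι → ℝ) => p.1 + F.vec J p.2) ''
    (((E β ∩ G) ∩ O) ×ˢ {s : ι → ℝ | ∀ j ∈ J, R < (α j : ℝ) * s j}), R, hGo.inter hO, ⟨hyG, hyO⟩,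
    (hpre.prod hQc.isPreconnected).image _ hfc.continuousOn, ?_, ?_⟩
  · rintro _ ⟨⟨b, s⟩, ⟨⟨⟨hbE, hbG⟩, hbO⟩, hs⟩, rfl⟩
    have hs' : ∀ j ∈ J, R < (α j : ℝ) * s j := hs
    show b + F.vec J s ∈ E α \ closure (N ∩ E α)
    have htb : ∀ j ∈ J, F.t j b = 0 := fun j hj => hD.t_hit β b hbE j (hβ0 j hj)
    have hdz : F.dropS J (b + F.vec J s) = b := by rw [F.dropS_add_vec, F.dropS_eq_self htb]
    have htz : ∀ j ∈ J, F.t j (b + F.vec J s) = s j := fun j hj => by
      rw [map_add, htb j hj, F.t_vec_mem hj, zero_add]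
    have hqb : F.q b ∈ KB := ⟨b, Metric.ball_subset_closedBall hbG.2, rfl⟩
    have hqz : F.q (b + F.vec J s) = F.q b := by rw [map_add, F.q_vec, add_zero]
    have hzE : b + F.vec J s ∈ E α :=
      (hR1 J α _ (by rw [hqz]; exact Metric.self_subset_cthickening _ hqb) fun i hi =>
        ⟨hJ i hi, by rw [htz i hi]; exact lt_of_le_of_lt (le_max_left _ _) (hs' i hi)⟩).2
        (by rw [hdz]; exact hbE)
    refine ⟨hzE, fun hcl => hbG.1 ?_⟩
    have hG'o : IsOpen {p : W | F.q p ∈ Metric.thickening 1 KB ∧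
        ∀ j ∈ J, R < (α j : ℝ) * F.t j p} := by
      have h1 : IsOpen {p : W | F.q p ∈ Metric.thickening 1 KB} :=
        Metric.isOpen_thickening.preimage F.q.continuous
      have h2 : IsOpen {p : W | ∀ j ∈ J, R < (α j : ℝ) * F.t j p} := by
        have : {p : W | ∀ j ∈ J, R < (α j : ℝ) * F.t j p} =
            ⋂ j ∈ J, {p | R < (α j : ℝ) * F.t j p} := by
          ext p
          simp
        rw [this]
        exact isOpen_biInter_finset fun j _ =>
          isOpen_lt continuous_const (continuous_const.mul (F.t j).continuous)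
      exact h1.inter h2
    have hzG' : b + F.vec J s ∈ {p : W | F.q p ∈ Metric.thickening 1 KB ∧
        ∀ j ∈ J, R < (α j : ℝ) * F.t j p} :=
      ⟨by rw [hqz]; exact Metric.self_subset_thickening one_pos _ hqb,
        fun j hj => by rw [htz j hj]; exact hs' j hj⟩
    have h1 := hG'o.inter_closure ⟨hzG', hcl⟩
    have h2 := map_mem_closure (F.continuous_dropS J) h1 (t := N ∩ E β) (fun p hp => by
      obtain ⟨⟨hpq, hpt⟩, hpN, hpE⟩ := hp
      have hpq' := Metric.thickening_subset_cthickening 1 KB hpq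
      refine ⟨?_, (hR1 J α p hpq' fun i hi =>
        ⟨hJ i hi, lt_of_le_of_lt (le_max_left _ _) (hpt i hi)⟩).1 hpE⟩
      have h3 := hR2 J p (mem_tot.2 ⟨α, hpE⟩) hpq' fun i hi => by
        rw [← hD.sign_mul hpE i]
        exact lt_of_le_of_lt (le_max_right _ _) (hpt i hi)
      show F.dropS J p ∈ N
      rw [h3]
      exact hpN)
    rwa [hdz] at h2
  · intro x hx hxO hxt
    have hq : F.q x ∈ KB := ⟨F.dropS J x, Metric.ball_subset_closedBall hxO.1.2, F.q_dropS J x⟩
    have hdE : F.dropS J x ∈ E β := (hR1 J α x (Metric.self_subset_cthickening _ hq) fun i hi =>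
      ⟨hJ i hi, lt_of_le_of_lt (le_max_left _ _) (hxt i hi)⟩).1 hx
    exact ⟨(F.dropS J x, fun j => F.t j x), ⟨⟨⟨hdE, hxO.1⟩, hxO.2⟩, hxt⟩, F.dropS_add_vec_self J x⟩

/-- `rgzi_piece` for an abstract core `N` and sign `ε`. -/
theorem rgzi_piece_aux (hC : C.Ok) (hS : ShieldOK C P1) (hT : RgTrue C P1 Ω U) (hw : RgWid C w k)
    (α' : Stat (Option ι)) {N : Set W} {ε : ℝ} (hNc : Compat C.F C.P.E (fun z => z ∈ N))
    (hNcl : ∀ γ, ∀ x ∈ C.EO Ω γ, 0 ≤ ε * U x → x ∉ closure (N ∩ C.P.E γ))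
    (hNsep : ∀ c : Set W, c ⊆ C.P.E α'.par → IsPreconnected c → Disjoint c N →
      ∃ K : Set V, IsCompact K ∧ ∀ y ∈ c, C.F.q y ∈ K)
    (hDs : ∀ z ∈ C.req P1 (splitE (C.EO Ω) U w k) α', 0 ≤ ε * U z.1) :
    ∃ (κ : Type) (Uc : κ → Set (W × ℝ)) (Kc : κ → Set V), (∀ c, IsOpen (Uc c)) ∧
      (Pairwise fun c c' => Disjoint (Uc c) (Uc c')) ∧
      C.req P1 (splitE (C.EO Ω) U w k) α' ⊆ ⋃ c, Uc c ∧ (∀ c, IsCompact (Kc c)) ∧
      (∀ c, ∀ z ∈ Uc c, C.F.ext.q z ∈ Kc c) ∧
      ∀ K : Set V, IsCompact K → {c | ∃ z ∈ Uc c, C.F.ext.q z ∈ K}.Finite := by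
  classical
  have hD := hC.inv.diag
  set α := α'.par with hα
  set D := C.req P1 (splitE (C.EO Ω) U w k) α' with hDdef
  have hDc : IsClosed D := rgzi_closed hC hS hT hw α'
  have hGo : IsOpen (closure (N ∩ C.P.E α))ᶜ := isClosed_closure.isOpen_compl
  set Y : Set W := C.P.E α ∩ (closure (N ∩ C.P.E α))ᶜ with hY
  have hYm : IsMfd (C.B.n - hits α) Y := if_mfd_inter (hD.mfd α) hGo
  have hDY : ∀ z ∈ D, z.1 ∈ Y := fun z hz => ⟨hz.1.1.1, hNcl α z.1 hz.1.1 (hDs z hz)⟩
  -- (FC)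
  have hFC : ∀ K : Set V, IsCompact K →
      {c : Set W | ∃ z ∈ D, C.F.q z.1 ∈ K ∧ c = connectedComponentIn Y z.1}.Finite := by
    intro K hK
    by_contra hinf
    have hinf' : {c : Set W | ∃ z ∈ D, C.F.q z.1 ∈ K ∧
      c = connectedComponentIn Y z.1}.Infinite := hinf
    choose z hzD hzq hzc using fun m => (hinf'.natEmbedding _ m).2
    have hinj : ∀ m m', connectedComponentIn Y (z m).1 = connectedComponentIn Y (z m').1 →
        m = m' := by
      intro m m' h
      apply (hinf'.natEmbedding _).injective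
      apply Subtype.ext
      rw [hzc m, hzc m', h]
    obtain ⟨φ, J, y, hφ, hJ, hesc, hy, hlim⟩ := ct_escape hD α (fun m => (z m).1)
      (fun m => (hzD m).1.1.1) hK hzq
    have hc : C.m α - 2 ≤ C.B.n - hits α' - 1 := by
      have := hits_le_parent α'
      show C.B.n - hits α'.par - 2 ≤ C.B.n - hits α' - 1
      have e : hits α'.par = hits (fun i => α' (some i)) := rfl
      omega
    obtain ⟨-, hΩ, hU, -⟩ := rgzi_parent_lim hC hS hT hw α J hJ (X := fun m => (z (φ m)).1)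
      (fun m => (hzD _).1.1.1) hesc hy hlim hc (fun m => (hzD _).2)
    have hUy : 0 ≤ ε * U y := ge_of_tendsto' (hU.const_mul ε) fun m => hDs _ (hzD _)
    have hyN := hNcl (α.faceS J) y ⟨hy, hΩ⟩ hUy
    obtain ⟨O, S, R, hO, hyO, hSp, hSY, hSx⟩ := rgzi_tail_conn hD hNc α J hJ hy hyN
    have ev1 : ∀ᶠ m in atTop, C.F.dropS J (z (φ m)).1 ∈ O := hlim.eventually (hO.mem_nhds hyO)
    have ev2 : ∀ᶠ m in atTop, ∀ j ∈ J, R < (α j : ℝ) * C.F.t j (z (φ m)).1 := by
      rw [Filter.eventually_all_finset]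
      exact fun j hj => (hesc j hj).eventually_gt_atTop _
    obtain ⟨m0, hm0⟩ := eventually_atTop.1 (ev1.and ev2)
    have hS0 : (z (φ m0)).1 ∈ S := hSx _ (hzD _).1.1.1 (hm0 m0 le_rfl).1 (hm0 m0 le_rfl).2
    have hS1 : (z (φ (m0 + 1))).1 ∈ S :=
      hSx _ (hzD _).1.1.1 (hm0 (m0 + 1) (Nat.le_succ _)).1 (hm0 _ (Nat.le_succ _)).2
    have hsub : S ⊆ Y := fun x hx => ⟨(hSY hx).1, (hSY hx).2⟩
    have h1 := connectedComponentIn_eq (hSp.subset_connectedComponentIn hS0 hsub hS1)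
    have h2 := hφ.injective (hinj _ _ h1)
    omega
  -- the pieces
  let κ : Type := {c : Set W // ∃ z ∈ D, c = connectedComponentIn Y z.1}
  let A : κ → Set (W × ℝ) := fun c => {z | z ∈ D ∧ z.1 ∈ c.1}
  have hAne : ∀ c : κ, (A c).Nonempty := by
    rintro ⟨c, z, hz, rfl⟩
    exact ⟨z, hz, mem_connectedComponentIn (hDY z hz)⟩
  have hAsub : ∀ c, A c ⊆ D := fun c z hz => hz.1
  have hAeq : ∀ (c : κ) (z : W × ℝ), z ∈ A c → c.1 = connectedComponentIn Y z.1 := by
    rintro ⟨c, z0, hz0, rfl⟩ z hz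
    exact connectedComponentIn_eq hz.2
  have hAdis : ∀ c c' : κ, c ≠ c' → Disjoint (A c) (A c') := by
    intro c c' hcc
    rw [Set.disjoint_left]
    intro z h1 h2
    exact hcc (Subtype.ext ((hAeq c z h1).trans (hAeq c' z h2).symm))
  have hAcl : ∀ c, IsClosed (D \ A c) := by
    rintro ⟨c, z0, hz0, rfl⟩
    obtain ⟨O, hO, hOe⟩ := pk_comp_inter hYm z0.1
    have : D \ A ⟨_, z0, hz0, rfl⟩ = D ∩ (Prod.fst ⁻¹' O)ᶜ := by
      ext z
      constructor
      · rintro ⟨h1, h2⟩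
        refine ⟨h1, fun h3 => h2 ⟨h1, ?_⟩⟩
        show z.1 ∈ connectedComponentIn Y z0.1
        rw [hOe]
        exact ⟨hDY z h1, h3⟩
      · rintro ⟨h1, h2⟩
        refine ⟨h1, fun h3 => h2 ?_⟩
        have h4 : z.1 ∈ connectedComponentIn Y z0.1 := h3.2
        rw [hOe] at h4
        exact h4.2
    rw [this]
    exact hDc.inter (hO.preimage continuous_fst).isClosed_compl
  obtain ⟨Uc, hUo, hUd, hAU, hUx⟩ := rgzi_sep hAne hAsub hAdis hAcl
  have hK0 : ∀ c : κ, ∃ K : Set V, IsCompact K ∧ ∀ y ∈ c.1, C.F.q y ∈ K := by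
    rintro ⟨c, z0, hz0, rfl⟩
    refine hNsep _ ((connectedComponentIn_subset _ _).trans inter_subset_left)
      isPreconnected_connectedComponentIn ?_
    rw [Set.disjoint_left]
    intro x hx hxN
    have hxY := connectedComponentIn_subset _ _ hx
    exact hxY.2 (subset_closure ⟨hxN, hxY.1⟩)
  choose K0 hK0c hK0q using hK0
  have hq : ∀ z x : W × ℝ, dist z x < 1 → dist (C.F.ext.q z) (C.F.ext.q x) ≤ ‖C.F.ext.q‖ := by
    intro z x h
    rw [dist_eq_norm, ← map_sub]
    calc ‖C.F.ext.q (z - x)‖ ≤ ‖C.F.ext.q‖ * ‖z - x‖ := C.F.ext.q.le_opNorm _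
      _ ≤ ‖C.F.ext.q‖ * 1 := by
          refine mul_le_mul_of_nonneg_left ?_ (norm_nonneg _)
          rw [← dist_eq_norm]
          exact h.le
      _ = ‖C.F.ext.q‖ := mul_one _
  refine ⟨κ, Uc, fun c => Metric.cthickening ‖C.F.ext.q‖ (K0 c), hUo, hUd, ?_,
    fun c => (hK0c c).cthickening, ?_, ?_⟩
  · intro z hz
    exact mem_iUnion.2 ⟨⟨_, z, hz, rfl⟩, hAU _ ⟨hz, mem_connectedComponentIn (hDY z hz)⟩⟩
  · intro c z hz
    obtain ⟨x, hx, hd⟩ := hUx c z hz
    exact Metric.mem_cthickening_of_dist_le _ (C.F.ext.q x) _ _ (hK0q c x.1 hx.2) (hq z x hd)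
  · intro K hK
    have hfin := hFC _ (hK.cthickening (r := ‖C.F.ext.q‖))
    refine (hfin.preimage Subtype.val_injective.injOn).subset ?_
    rintro c ⟨z, hz, hzK⟩
    obtain ⟨x, hx, hd⟩ := hUx c z hz
    refine ⟨x, hx.1, ?_, hAeq c x hx⟩
    exact Metric.mem_cthickening_of_dist_le (C.F.ext.q x) (C.F.ext.q z) _ _ hzK
      (by rw [dist_comm]; exact hq z x hd)

/-- **leaf RGZI-PIECE**: a locally finite family of pairwise disjoint open sets over compact subsets of `V` which covers the required set.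
PLAN.  `α = α'.par`, `σ = α' none`, `D = C.req .. α'` (closed: `rgzi_closed`).  `N = C.P.Un C.j0` if `σ ≥ 0` (`σ = 0` or `1`), `N = C.P.Up C.j0` if `σ = -1`.  `Y = E α \ closure (N ∩ E α)`: relatively open in the manifold `E α`, so locally connected:
its connected components `c` are relatively open (`pk_exists_conn_nhd`).
1. `z ∈ D ⟹ z.1 ∈ Y`: `σ U z.1 ≥ 0` (`rgzi_U_sign`), so `z.1 ∉ ctOut` (`hT.neg`; resp. `∉ ctIn`, `hT.pos`), and `closure (Un ∩ E α) ⊆ ctOut` (`hC.cut.un`; resp. `hC.cut.up`).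
2. every component `c` of `Y` lies over a compact `K_c` (`hsep α c`: connected, disjoint from `N`).
3. (FC) for `K` compact only finitely many components contain a point `z.1`, `z ∈ D`, `q z.1 ∈ K`.  Otherwise: `z_m ∈ D`, `x_m = z_m.1` in pairwise different components.  `ct_escape` (parent diagram): subsequence, `J`, `y_m = dropS J x_m → y ∈ E (α.faceS J)`,
   `x_m = y_m + vec J s_m`, `s_m j = t j x_m`.  The count sets are closed and compatible (`rg_cnt_closed`): `y` lies in the guard of `α.faceS J`, so `y ∈ Ω`.  (AC) at `x' = y` and `CtConvAt.tendsto`: `U x_m → U y`, so `σ U y ≥ 0` and as in 1. `y ∉ closure (N ∩ E (α.faceS J))`.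
   Let `B` be a connected relative neighbourhood of `y` in `E (α.faceS J) \ closure (N ∩ ..)` over a compact set.  For `R` large (thresholds of the diagram and of `N`: `LabelOk.un_compat` of `hC.inv.label j0`) the set `{b + vec J s | b ∈ B, (α j) s j > R}` is connected (image of a product of
   connected sets), contained in `E α` and disjoint from `closure (N ∩ E α)` (a limit of points of `N ∩ E α` in the open tail region projects to a limit of points of `N ∩ E (α.faceS J)`).  It contains `x_m` for all large `m`: contradiction.  (`J = ∅` is included.)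
4. `A_c = {z ∈ D | z.1 ∈ c}`: closed (complement in `D` of a relatively open set), pairwise disjoint, cover `D`.  Index set `κ = {c // A_c ≠ ∅}`.
   `U_c = {z | infDist z A_c < 1 ∧ (D \ A_c = ∅ ∨ infDist z A_c < infDist z (D \ A_c))}`: open, pairwise disjoint, `A_c ⊆ U_c` (`IsClosed.notMem_iff_infDist_pos`).  `z ∈ U_c` has a point `x ∈ A_c` with `‖z - x‖ < 1`: `q z.1 ∈ cthickening ‖q‖ K_c`; and if `q z.1 ∈ K` then
   `A_c` meets `q ⁻¹' (cthickening ‖q‖ K)`: finitely many `c` by (FC). -/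
theorem rgzi_piece (hC : C.Ok) (hS : ShieldOK C P1) (hsep : SepConf C.F C.P C.j0)
    (hT : RgTrue C P1 Ω U) (hw : RgWid C w k) (α' : Stat (Option ι)) :
    ∃ (κ : Type) (Uc : κ → Set (W × ℝ)) (Kc : κ → Set V), (∀ c, IsOpen (Uc c)) ∧
      (Pairwise fun c c' => Disjoint (Uc c) (Uc c')) ∧
      C.req P1 (splitE (C.EO Ω) U w k) α' ⊆ ⋃ c, Uc c ∧ (∀ c, IsCompact (Kc c)) ∧
      (∀ c, ∀ z ∈ Uc c, C.F.ext.q z ∈ Kc c) ∧
      ∀ K : Set V, IsCompact K → {c | ∃ z ∈ Uc c, C.F.ext.q z ∈ K}.Finite := by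
  have hL := hC.inv.label C.j0 hC.j0_mem
  by_cases hσ : α' none = -1
  · refine rgzi_piece_aux hC hS hT hw α' (N := C.P.Up C.j0) (ε := -1) hL.up_compat ?_ ?_ ?_
    · intro γ x hx h0 hcl
      have h1 := (hT.pos γ x hx).2 (hC.cut.up γ hcl)
      linarith
    · intro c hc hp hd
      exact hsep _ c hc hp (Or.inr hd)
    · intro z hz
      have h1 := (rgzi_U_sign hw hz.1).1
      rw [hσ] at h1
      simpa using h1
  · refine rgzi_piece_aux hC hS hT hw α' (N := C.P.Un C.j0) (ε := 1) hL.un_compat ?_ ?_ ?_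
    · intro γ x hx h0 hcl
      have h1 := (hT.neg γ x hx).2 (hC.cut.un γ hcl)
      linarith
    · intro c hc hp hd
      exact hsep _ c hc hp (Or.inl hd)
    · intro z hz
      obtain ⟨h1, h2⟩ := rgzi_U_sign hw hz.1
      rcases SignType.trichotomy (α' none) with h | h | h
      · exact absurd h hσ
      · rw [h2 h]
        simp
      · rw [h] at h1
        simpa using h1

/-! ### escaping sequences and the transfer to the faces -/

/-- `z k = y k + vec J (s k)` escapes in the tails `J` of `α'`, `y k → y'`, `y'` lies in the face. -/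
structure RgziEsc (C : ShCtx V W ι) (α' : Stat (Option ι)) (J : Finset (Option ι))
    (s : ℕ → Option ι → ℝ) (y : ℕ → W × ℝ) (y' : W × ℝ) : Prop where
  tails : ∀ j ∈ J, α' j ≠ 0
  esc : ∀ j ∈ J, Tendsto (fun k => (α' j : ℝ) * s k j) atTop atTop
  lim : Tendsto y atTop (𝓝 y')
  flat : ∀ k, ∀ j ∈ J, C.F.ext.t j (y k) = 0

/-- the core of `rgzi_escape`: the subsequence has been chosen. -/
theorem rgzi_escape_core (hC : C.Ok) (hS : ShieldOK C P1) (hT : RgTrue C P1 Ω U)
    (hw : RgWid C w k) (α' : Stat (Option ι)) (Z : ℕ → W × ℝ)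
    (hZ : ∀ m, Z m ∈ C.req P1 (splitE (C.EO Ω) U w k) α') (J : Finset (Option ι))
    (hJ₀ : ∀ j ∈ Finset.eraseNone J, α'.par j ≠ 0)
    (hesc : ∀ j ∈ Finset.eraseNone J,
      Tendsto (fun m => (α'.par j : ℝ) * C.F.t j (Z m).1) atTop atTop) {y₀ : W}
    (hy₀ : y₀ ∈ C.P.E (α'.par.faceS (Finset.eraseNone J)))
    (hlim : Tendsto (fun m => C.F.dropS (Finset.eraseNone J) (Z m).1) atTop (𝓝 y₀)) (τ' : ℝ)
    (hτ : (none ∈ J ∧ Tendsto (fun m => (α' none : ℝ) * (Z m).2) atTop atTop ∧ τ' = 0) ∨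
      (none ∉ J ∧ Tendsto (fun m => (Z m).2) atTop (𝓝 τ'))) :
    RgziEsc C α' J (fun m j => C.F.ext.t j (Z m)) (fun m => C.F.ext.dropS J (Z m)) (y₀, τ') ∧
      (y₀, τ') ∈ C.req P1 (splitE (C.EO Ω) U w k) (α'.faceS J) := by
  classical
  have hc : C.m α'.par - 2 ≤ C.B.n - hits α' - 1 := by
    have := hits_le_parent α'
    show C.B.n - hits α'.par - 2 ≤ C.B.n - hits α' - 1
    have e : hits α'.par = hits (fun i => α' (some i)) := rfl
    omega
  obtain ⟨hcnt, hΩ, hU, hwl⟩ := rgzi_parent_lim hC hS hT hw α'.par (Finset.eraseNone J) hJ₀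
    (X := fun m => (Z m).1) (fun m => (hZ m).1.1.1) hesc hy₀ hlim hc (fun m => (hZ m).2)
  have hw0 : 0 < w y₀ := hw.w_pos _ (mem_tot.2 ⟨_, hy₀⟩)
  have hwm : ∀ m, 0 < w (Z m).1 := fun m => hw.w_pos _ (mem_tot.2 ⟨_, (hZ m).1.1.1⟩)
  have hk := hw.corner
  have htails : ∀ j ∈ J, α' j ≠ 0 := by
    rintro (_ | i) hj
    · rcases hτ with ⟨-, h, -⟩ | ⟨h, -⟩
      · intro h0
        obtain ⟨m, hm⟩ := (h.eventually_gt_atTop 0).exists
        rw [h0] at hm
        simp at hm
      · exact absurd hj h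
    · exact hJ₀ i (Finset.mem_eraseNone.2 hj)
  refine ⟨⟨htails, ?_, ?_, fun m j hj => C.F.ext.t_dropS_mem hj _⟩, ⟨⟨?_, ?_⟩, ?_⟩⟩
  · rintro (_ | i) hj
    · rcases hτ with ⟨-, h, -⟩ | ⟨h, -⟩
      · exact h
      · exact absurd hj h
    · exact hesc i (Finset.mem_eraseNone.2 hj)
  · simp only [Frame.ext_dropS]
    refine hlim.prodMk_nhds ?_
    rcases hτ with ⟨h, -, h0⟩ | ⟨h, h1⟩
    · simp only [if_pos h, h0]; exact tendsto_const_nhds
    · simp only [if_neg h]; exact h1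
  · show y₀ ∈ C.EO Ω (α'.faceS J).par
    rw [Stat.par_faceS]
    exact ⟨hy₀, hΩ⟩
  · rcases hτ with ⟨h, h1, h0⟩ | ⟨h, h1⟩
    · left
      refine ⟨by simp [Stat.faceS, h], ?_, h0⟩
      have ev1 : ∀ᶠ m in atTop, w (Z m).1 < w y₀ + 1 :=
        (tendsto_order.1 hwl).2 _ (by linarith)
      have ev2 := h1.eventually_ge_atTop (w y₀ + 1)
      have ev : ∀ᶠ m in atTop, U (Z m).1 = 0 := by
        filter_upwards [ev1, ev2] with m e1 e2
        rcases (hZ m).1.2 with h2 | ⟨hne, heq⟩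
        · exact h2.2.1
        · have h3 : 1 ≤ (α' none : ℝ) * (Z m).2 / w (Z m).1 := by
            rw [one_le_div (hwm m)]; linarith
          rw [hk.far _ h3, add_zero] at heq
          have h4 := hk.eq_one_iff.1 heq
          rcases div_eq_zero_iff.1 h4 with h5 | h5
          · rcases mul_eq_zero.1 h5 with h6 | h6
            · exact absurd h6 (rgzi_sign_cast_ne hne)
            · exact h6
          · exact absurd h5 (hwm m).ne'
      exact tendsto_nhds_unique hU (tendsto_const_nhds.congr' (ev.mono fun m h => h.symm))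
    · have hface : (α'.faceS J) none = α' none := by simp [Stat.faceS, h]
      by_cases h0 : α' none = 0
      · left
        have hz0 : ∀ m, U (Z m).1 = 0 ∧ (Z m).2 = 0 := by
          intro m
          rcases (hZ m).1.2 with h2 | h2
          · exact h2.2
          · exact absurd h0 h2.1
        refine ⟨by rw [hface, h0], ?_, ?_⟩
        · exact tendsto_nhds_unique hU (tendsto_const_nhds.congr fun m => (hz0 m).1.symm)
        · exact tendsto_nhds_unique h1 (tendsto_const_nhds.congr fun m => (hz0 m).2.symm)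
      · right
        rw [hface]
        refine ⟨h0, ?_⟩
        have hz1 : ∀ m, k ((α' none : ℝ) * U (Z m).1 / w (Z m).1) +
            k ((α' none : ℝ) * (Z m).2 / w (Z m).1) = 1 := by
          intro m
          rcases (hZ m).1.2 with h2 | h2
          · exact absurd h2.1 h0
          · exact h2.2
        have hf : Tendsto (fun m => k ((α' none : ℝ) * U (Z m).1 / w (Z m).1) +
            k ((α' none : ℝ) * (Z m).2 / w (Z m).1)) atTop
            (𝓝 (k ((α' none : ℝ) * U y₀ / w y₀) + k ((α' none : ℝ) * τ' / w y₀))) :=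
          ((hk.smooth.continuous.tendsto _).comp ((tendsto_const_nhds.mul hU).div hwl hw0.ne')).add
            ((hk.smooth.continuous.tendsto _).comp ((tendsto_const_nhds.mul h1).div hwl hw0.ne'))
        exact tendsto_nhds_unique hf (tendsto_const_nhds.congr fun m => (hz1 m).symm)
  · refine hcnt.rg_mono ?_
    have := rgzi_hits_faceS_le α' J
    omega

/-- **RGZI-ESC** (PROVED): every sequence in a required set over a compact subset of `V` has a subsequence which escapes exactly in a set `J` of tails, and the limit lies in the required set of the face.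
PLAN.  `x k = (z k).1 ∈ E α`, `α = α'.par`: `ct_escape` gives `φ₁`, `J₀`, `dropS J₀ (x (φ₁ k)) → y₀ ∈ E (α.faceS J₀)`.  `τ k = (z k).2`: along a further subsequence bounded and convergent, or `σ τ k → ∞` (`ct_escape_aux`; `σ τ ≥ 0`: `rgzi_t_sign`).
`J = J₀.image some` (`∪ {none}` in the second case), `s k j = t j (z (φ k))`, `y k = dropS J (z (φ k))`.  `y' = (y₀, lim τ)` resp. `(y₀, 0)`.
`y' ∈ D0 (α'.faceS J)`:  count: `Cnt R m` is compatible and closed (`rg_cnt_closed`), and `n - hits (α'.faceS J) - 1 ≤ n - hits α' - 1`.  So `y₀` is in the guard, `y₀ ∈ Ω`.  (AC) + `CtConvAt.tendsto`: `U (x (φ k)) → U y₀`; `w (x (φ k)) = w (dropS J₀ ..) → w y₀ > 0` (`ct_window_compat`, continuity).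
Pass to the limit in the equation of `splitE` (`k` continuous).  If `none ∈ J`: `σ τ / w ≥ 1` eventually, so `k (σ U / w) = 1`, `U (x (φ k)) = 0`, `U y₀ = 0`: `y' = (y₀, 0)` lies in the wall piece `(α'.faceS J) none = 0`. -/
theorem rgzi_escape (hC : C.Ok) (hS : ShieldOK C P1) (hT : RgTrue C P1 Ω U) (hw : RgWid C w k)
    (α' : Stat (Option ι)) (z : ℕ → W × ℝ)
    (hz : ∀ m, z m ∈ C.req P1 (splitE (C.EO Ω) U w k) α') {K : Set V} (hK : IsCompact K)
    (hq : ∀ m, C.F.ext.q (z m) ∈ K) :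
    ∃ (φ : ℕ → ℕ) (J : Finset (Option ι)) (s : ℕ → Option ι → ℝ) (y : ℕ → W × ℝ) (y' : W × ℝ),
      StrictMono φ ∧ RgziEsc C α' J s y y' ∧ (∀ m, z (φ m) = y m + C.F.ext.vec J (s m)) ∧
      y' ∈ C.req P1 (splitE (C.EO Ω) U w k) (α'.faceS J) := by
  classical
  have hD := hC.inv.diag
  obtain ⟨φ₁, J₀, y₀, hφ₁, hJ₀, hesc₀, hy₀, hlim₀⟩ := ct_escape hD α'.par (fun m => (z m).1)
    (fun m => (hz m).1.1.1) hK hq
  by_cases hA : Tendsto (fun m => (α' none : ℝ) * (z (φ₁ m)).2) atTop atTop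
  · have hJ : Finset.eraseNone (Finset.insertNone J₀) = J₀ := Finset.eraseNone_insertNone J₀
    obtain ⟨h1, h2⟩ := rgzi_escape_core hC hS hT hw α' (fun m => z (φ₁ m)) (fun m => hz _)
      (Finset.insertNone J₀) (by rw [hJ]; exact hJ₀) (by rw [hJ]; exact hesc₀)
      (by rw [hJ]; exact hy₀) (by rw [hJ]; exact hlim₀) 0
      (Or.inl ⟨Finset.none_mem_insertNone, hA, rfl⟩)
    exact ⟨φ₁, _, _, _, _, hφ₁, h1, fun m => (C.F.ext.dropS_add_vec_self _ _).symm, h2⟩
  · rw [Filter.tendsto_atTop] at hA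
    push Not at hA
    obtain ⟨b, hb⟩ := hA
    obtain ⟨ψ, hψ, hψb⟩ := Filter.extraction_of_frequently_atTop hb
    have hbd : ∀ m, (z (φ₁ (ψ m))).2 ∈ Icc (-(max b 0)) (max b 0) := by
      intro m
      have h1 : 0 ≤ (α' none : ℝ) * (z (φ₁ (ψ m))).2 :=
        rgzi_t_sign hC hw α' _ (hz (φ₁ (ψ m))).1 none
      have h2 : (α' none : ℝ) * (z (φ₁ (ψ m))).2 < b := hψb m
      have h3 := le_max_left b 0
      have h4 := le_max_right b 0
      by_cases h0 : α' none = 0
      · have h5 : (z (φ₁ (ψ m))).2 = 0 := rgzi_t_hit hC α' _ (hz (φ₁ (ψ m))).1 none h0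
        rw [h5]
        exact ⟨by linarith, h4⟩
      · rcases signType_cast_cases _ h0 with ⟨-, h5⟩ | ⟨-, h5⟩
        · rw [h5] at h1 h2
          exact ⟨by linarith, by linarith⟩
        · rw [h5] at h1 h2
          exact ⟨by linarith, by linarith⟩
    obtain ⟨τ', -, ψ₂, hψ₂, hτ'⟩ := isCompact_Icc.tendsto_subseq hbd
    have hJ : Finset.eraseNone (J₀.map Function.Embedding.some) = J₀ := Finset.eraseNone_map_some J₀
    have hnone : none ∉ J₀.map Function.Embedding.some := by simp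
    have hsub : Tendsto (fun m => ψ (ψ₂ m)) atTop atTop := (hψ.comp hψ₂).tendsto_atTop
    obtain ⟨h1, h2⟩ := rgzi_escape_core hC hS hT hw α' (fun m => z (φ₁ (ψ (ψ₂ m))))
      (fun m => hz _) (J₀.map Function.Embedding.some) (by rw [hJ]; exact hJ₀)
      (by rw [hJ]; exact fun j hj => (hesc₀ j hj).comp hsub)
      (by rw [hJ]; exact hy₀) (by rw [hJ]; exact hlim₀.comp hsub) τ' (Or.inr ⟨hnone, hτ'⟩)
    exact ⟨fun m => φ₁ (ψ (ψ₂ m)), _, _, _, _, hφ₁.comp (hψ.comp hψ₂), h1,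
      fun m => (C.F.ext.dropS_add_vec_self _ _).symm, h2⟩

/-- **RGZI-TRANSFER** (PROVED from `RgztCtx.xfer`, `.soft_ip`, `.soft_wlap`, `Rg/SzT.lean` = helper266's `rgf_xfer`, `rgf_soft_*` in the diagram; case `u m = U`): the operators of the true piece `X0 α'` at escaping points converge to the operators of the face.
`φ` = any ambient smooth function.
PLAN.  `β = α'.faceS J`, `v_k = vec J (s k)`.  Ambient manifold `M = F.ext.cyl J (rgY (C.EO Ω) β)` (cylinder over the ambient manifold of the face; dimension `n - hits α' + 1`), metric `h_J z = extTen h (dropS J z)`, drift `θ_J = θ ∘ dropS J`.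
1. TRANSLATION (`Ct/ProdA`: `ct_translate_*`; the same for `gradIp`, `wlap`): operators of `X0 α'` at `y k + v_k` for `(h', θ', a)` = operators of `X0 α' - v_k` at `y k` for the translated data `(h'(· + v_k), θ'(· + v_k), a(· + v_k))`.
2. WINDOW (`ct_window`, `ct_window_compat` for the parent diagram, `hT.compat`): on a fixed neighbourhood `O` of `y'`, for large `k`: `(rgY (C.EO Ω) α' - v_k) ∩ O = M ∩ O`, `h'(· + v_k) = h_J`, `θ'(· + v_k) = θ_J`, `w(· + v_k) = w ∘ dropS J`, `V*(· + v_k) = V* ∘ dropS J` on it.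
   So `(X0 α' - v_k) ∩ O = rm_Lv M G_k 0 ∩ O`, `G_k = rgG U w k α' (· + v_k)` (`splitE_eq_Lv`); locality of all operators (`if_*_inter`, `if_*_congr`).
3. (AC) + calculus of `CtConvAt` (`Rg/Csc.lean`: `.comp`, `.div`, `.add`, pull-back by `Prod.fst`): `G_k → G'` near `y'`, `G' = rgG (U ∘ dropS) (w ∘ dropS) k α'` if `none ∉ J`; if `none ∈ J` the second summand vanishes identically near `y'` for large `k` (`IsCorner.far`): `G' = k (σ U ∘ dropS / w ∘ dropS) - 1`.
   `G'` is regular at `y'` (as in `rg_split_mfd'`), `rm_Lv M G' 0 = F.ext.cyl J (X0 β)` near `y'`.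
4. SOFT LEMMA (`rg_soft_L`, `rg_soft_ip`, `rg_soft_wlap`, `rg_soft_Dsc`) on `M`: convergence to the operators of `cyl J (X0 β)` at `y'`.  The functions: `φ ∘ dropS J` is invariant under `v_k`; `t j (· + v_k) = t j + const`: constants do not change `gradIp`, `wlap`.
5. CYLINDER CALCULUS, one direction after the other (`Ct/ProdB`: `ct_cyl_Dsc`; `Rg/Tail.lean`: `rg_cyl_ip`, `rg_cyl_wlap`): `L_cyl (φ ∘ dropS J)(y') = (L_β φ)(y')` (`dropS J y' = y'`).  Convergent sequences are bounded. -/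
theorem rgzi_transfer (hC : C.Ok) (hS : ShieldOK C P1) (hT : RgTrue C P1 Ω U) (hw : RgWid C w k)
    (s' : ℝ) {α' : Stat (Option ι)} {J : Finset (Option ι)} {s : ℕ → Option ι → ℝ}
    {y : ℕ → W × ℝ} {y' : W × ℝ} (hE : RgziEsc C α' J s y y')
    (hz : ∀ m, y m + C.F.ext.vec J (s m) ∈ C.req P1 (splitE (C.EO Ω) U w k) α')
    (hy' : y' ∈ C.req P1 (splitE (C.EO Ω) U w k) (α'.faceS J)) {φ : W × ℝ → ℝ}
    (hφ : ContDiff ℝ ∞ φ) :
    Tendsto (fun m => C.LL P1 s' (splitE (C.EO Ω) U w k) α' (fun x => φ (C.F.ext.dropS J x))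
        (y m + C.F.ext.vec J (s m))) atTop
      (𝓝 (C.LL P1 s' (splitE (C.EO Ω) U w k) (α'.faceS J) φ y')) ∧
    ∃ B : ℝ, ∀ m, ∀ j,
      |gradIp (C.B.n - hits α') (splitE (C.EO Ω) U w k α') (extTen C.P.h)
        (fun x => φ (C.F.ext.dropS J x)) (fun x => C.F.ext.t j x) (y m + C.F.ext.vec J (s m))| ≤ B ∧
      |wlap (C.B.n - hits α') (splitE (C.EO Ω) U w k α') (extTen C.P.h) (fun x => C.P.dr x.1)
        (fun x => C.F.ext.t j x) (y m + C.F.ext.vec J (s m))| ≤ B ∧
      gradSq (C.B.n - hits α') (splitE (C.EO Ω) U w k α') (extTen C.P.h)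
        (fun x => C.F.ext.t j x) (y m + C.F.ext.vec J (s m)) ≤ B := by
  have hD := hC.inv.diag
  have hesc : RgfEsc α' J s := ⟨hE.tails, hE.esc⟩
  have hy1 : y'.1 ∈ C.EO Ω (α'.par.faceS J.eraseNone) := by
    have : y'.1 ∈ C.EO Ω (α'.faceS J).par := hy'.1.1
    rwa [rgf_par_faceS] at this
  have X : RgztCtx C Ω U w k α' J s y y' (fun _ => U) :=
    { esc := hesc
      lim := hE.lim
      conv := (hT.ac α'.par J.eraseNone hesc.par.1 _ hesc.par.2 y'.1
        (by rw [rgzi_dropS_fix hD _ _ hy1.1]; exact hy1)).rgf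
      mem := Eventually.of_forall fun m => (hz m).1
      mem' := hy'.1 }
  have G := rgzi_geo hC hT hw α'
  have hφs : ContDiff ℝ ∞ (fun x => φ (C.F.ext.dropS J x)) := hφ.comp (C.F.ext.contDiff_dropS J)
  have hf : RgfConv (C.B.n - hits (α'.faceS J) + J.card + 1)
      (C.F.ext.cyl J (rgY (C.EO Ω) (α'.faceS J)))
      (fun m z => (fun _ x => φ (C.F.ext.dropS J x)) m (z + C.F.ext.vec J (s m)))
      (fun z => φ (C.F.ext.dropS J z)) y' := by
    simp only [Frame.dropS_add_vec]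
    exact rgfConv_fixed (if_smoothAlong_of_contDiff hφs)
  refine ⟨X.xfer hC hS hT hw s' (f := fun _ x => φ (C.F.ext.dropS J x))
    (if_smoothAlong_of_contDiff hφ) hf, ?_⟩
  have hts : ∀ j, ContDiff ℝ ∞ (fun x => C.F.ext.t j x) := fun j => (C.F.ext.t j).contDiff
  have hg : ∀ j, RgfConv (C.B.n - hits (α'.faceS J) + J.card + 1)
      (C.F.ext.cyl J (rgY (C.EO Ω) (α'.faceS J)))
      (fun m z => (fun m x => C.F.ext.t j x - C.F.ext.t j (C.F.ext.vec J (s m))) m
        (z + C.F.ext.vec J (s m))) (fun z => C.F.ext.t j z) y' := by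
    intro j
    simp only [map_add, add_sub_cancel_right]
    exact rgfConv_fixed (if_smoothAlong_of_contDiff (hts j))
  have hex : ∀ j, ∃ B : ℝ, ∀ m,
      |gradIp (C.B.n - hits α') (splitE (C.EO Ω) U w k α') (extTen C.P.h)
        (fun x => φ (C.F.ext.dropS J x)) (fun x => C.F.ext.t j x) (y m + C.F.ext.vec J (s m))| ≤ B ∧
      |wlap (C.B.n - hits α') (splitE (C.EO Ω) U w k α') (extTen C.P.h) (fun x => C.P.dr x.1)
        (fun x => C.F.ext.t j x) (y m + C.F.ext.vec J (s m))| ≤ B ∧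
      gradSq (C.B.n - hits α') (splitE (C.EO Ω) U w k α') (extTen C.P.h)
        (fun x => C.F.ext.t j x) (y m + C.F.ext.vec J (s m)) ≤ B := by
    intro j
    have hsj : SmoothAlong (C.B.n - hits α') (splitE (C.EO Ω) U w k α')
        (fun x => C.F.ext.t j x) := if_smoothAlong_of_contDiff (hts j)
    obtain ⟨B1, hB1⟩ := rgzi_bdd_of_tendsto (X.soft_ip hC hT hw
      (f := fun _ x => φ (C.F.ext.dropS J x))
      (g := fun m x => C.F.ext.t j x - C.F.ext.t j (C.F.ext.vec J (s m))) hf (hg j))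
    obtain ⟨B2, hB2⟩ := rgzi_bdd_of_tendsto (X.soft_wlap hC hT hw
      (f := fun m x => C.F.ext.t j x - C.F.ext.t j (C.F.ext.vec J (s m))) (hg j))
    obtain ⟨B3, hB3⟩ := rgzi_bdd_of_tendsto (X.soft_ip hC hT hw
      (f := fun m x => C.F.ext.t j x - C.F.ext.t j (C.F.ext.vec J (s m)))
      (g := fun m x => C.F.ext.t j x - C.F.ext.t j (C.F.ext.vec J (s m))) (hg j) (hg j))
    refine ⟨max B1 (max B2 B3), fun m => ⟨?_, ?_, ?_⟩⟩
    · refine le_trans (le_of_eq ?_) ((hB1 m).trans (le_max_left _ _))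
      have := rgzi_ip_sub_const G.mfd G.met (if_smoothAlong_of_contDiff hφs) hsj 0
        (C.F.ext.t j (C.F.ext.vec J (s m))) (hz m).1
      simp only [sub_zero] at this
      rw [this]
    · refine le_trans (le_of_eq ?_) ((hB2 m).trans ((le_max_left _ _).trans (le_max_right _ _)))
      rw [gs_wlap_sub G.mfd G.met G.drift hsj (gs_sm_const _) (hz m).1,
        gs_wlap_const G.mfd G.met G.drift _ (hz m).1, sub_zero]
    · refine le_trans (le_of_eq ?_) (((le_abs_self _).trans (hB3 m)).trans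
        ((le_max_right _ _).trans (le_max_right _ _)))
      rw [rgzi_ip_sub_const G.mfd G.met hsj hsj _ _ (hz m).1]
      rfl
  choose B hB using hex
  obtain ⟨B', hB'⟩ := (Set.finite_range B).bddAbove
  exact ⟨B', fun m j => ⟨((hB j m).1).trans (hB' ⟨j, rfl⟩), ((hB j m).2.1).trans (hB' ⟨j, rfl⟩),
    ((hB j m).2.2).trans (hB' ⟨j, rfl⟩)⟩⟩

/-- the level does not increase on faces. -/
theorem rgzi_lv_faceS {κ : Type} [Fintype κ] (β : Stat κ) (S : Finset κ) :
    rgLv (β.faceS S) ≤ rgLv β := by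
  classical
  induction S using Finset.induction_on generalizing β with
  | empty => rw [Stat.faceS_empty]
  | insert j S _ ih =>
    rw [← Stat.faceS_insert]
    exact (ih (β.face j)).trans (rgLv_face_le β j)

/-- **RGZI-TT (1)** for one tail. -/
theorem rgzi_tt1_one (hC : C.Ok) (hS : ShieldOK C P1) (hT : RgTrue C P1 Ω U) (hw : RgWid C w k)
    (s' : ℝ) (k₀ : ℕ) (v : Stat (Option ι) → W × ℝ → ℝ) (δ : ℝ) (hδ : 0 < δ)
    (hv : RgzLow C.B.n C.F.ext (splitE (C.EO Ω) U w k) (extTen C.P.h) (fun y => C.P.dr y.1)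
      (rgVs P1 C.R C.s s') (C.req P1 (splitE (C.EO Ω) U w k)) 4 k₀ v δ)
    (α' : Stat (Option ι)) (hα : rgLv α' = k₀) (K : Set V) (hK : IsCompact K) (i : Option ι)
    (hi : α' i ≠ 0) :
    ∃ m : ℕ, ∀ z ∈ C.req P1 (splitE (C.EO Ω) U w k) α', C.F.ext.q z ∈ K →
      (m : ℝ) < |C.F.ext.t i z| →
      3 / 4 * δ * v (α'.face i) (C.F.ext.drop i z) ≤
          rgL (C.B.n - hits α') (splitE (C.EO Ω) U w k α') (extTen C.P.h) (fun y => C.P.dr y.1) 4
            (rgW C.B.n (splitE (C.EO Ω) U w k) (extTen C.P.h) (fun y => C.P.dr y.1)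
              (rgVs P1 C.R C.s s') α') (fun y => v (α'.face i) (C.F.ext.drop i y)) z ∧
        ∀ j, |gradIp (C.B.n - hits α') (splitE (C.EO Ω) U w k α') (extTen C.P.h)
            (fun y => v (α'.face i) (C.F.ext.drop i y)) (fun y => C.F.ext.t j y) z|
          ≤ (m : ℝ) * v (α'.face i) (C.F.ext.drop i z) := by
  classical
  by_contra hcon
  push Not at hcon
  choose z hzD hzq hzt hbad using hcon
  obtain ⟨φ, J, s, y, y', hφ, hE, hzφ, hy'⟩ := rgzi_escape hC hS hT hw α' z hzD hK hzq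
  set F' := C.F.ext with hF'
  have hφt : Tendsto (fun m => (φ m : ℝ)) atTop atTop :=
    tendsto_natCast_atTop_atTop.comp hφ.tendsto_atTop
  -- `i ∈ J`
  have hiJ : i ∈ J := by
    by_contra hiJ
    have h1 : ∀ m, F'.t i (z (φ m)) = F'.t i (y m) := fun m => by
      rw [hzφ m, map_add, F'.t_vec_notMem hiJ, add_zero]
    have h2 : Tendsto (fun m => |F'.t i (y m)|) atTop (𝓝 |F'.t i y'|) :=
      (((F'.t i).continuous.tendsto y').comp hE.lim).abs
    have h3 : Tendsto (fun m => |F'.t i (y m)|) atTop atTop :=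
      tendsto_atTop_mono (fun m => by rw [← h1 m]; exact (hzt (φ m)).le) hφt
    exact not_tendsto_nhds_of_tendsto_atTop h3 _ h2
  set β := α'.faceS J with hβ
  have hJe : insert i (J.erase i) = J := Finset.insert_erase hiJ
  have hβe : (α'.face i).faceS (J.erase i) = β := by rw [Stat.faceS_insert, hJe]
  have hlvi : rgLv (α'.face i) < k₀ := hα ▸ rgLv_face_lt α' hi
  have hlv : rgLv β < k₀ := by
    rw [← hβe]
    exact lt_of_le_of_lt (rgzi_lv_faceS _ _) hlvi
  -- a threshold function which is constant on a compact neighbourhood of `K`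
  have hK' : IsCompact (Metric.cthickening 1 K) := hK.cthickening
  obtain ⟨R, hR⟩ := hv.compat _ hK'
  choose Rx hRx using fun x : V => hv.compat {x} isCompact_singleton
  set T : V → ℝ := fun x => if x ∈ Metric.cthickening 1 K then R else Rx x with hTdef
  have hTc : ∀ γ, rgLv γ < k₀ → ∀ j, γ j ≠ 0 → ∀ x, T (F'.q x) < |F'.t j x| →
      v γ x = v (γ.face j) (F'.drop j x) := by
    intro γ hγ j hj x hx
    by_cases hq : F'.q x ∈ Metric.cthickening 1 K
    · simp only [hTdef, if_pos hq] at hx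
      exact hR γ hγ j hj x hq hx
    · simp only [hTdef, if_neg hq] at hx
      exact hRx (F'.q x) γ hγ j hj x rfl hx
  -- the neighbourhoods
  set N : Set (W × ℝ) := {x | F'.q x ∈ Metric.thickening 1 K ∧ ∀ j ∈ J, R < |F'.t j x|} with hN
  have hNo : IsOpen N := by
    have h1 : IsOpen {x : W × ℝ | F'.q x ∈ Metric.thickening 1 K} :=
      Metric.isOpen_thickening.preimage F'.q.continuous
    have h2 : IsOpen {x : W × ℝ | ∀ j ∈ J, R < |F'.t j x|} := by
      have : {x : W × ℝ | ∀ j ∈ J, R < |F'.t j x|} = ⋂ j ∈ J, {x | R < |F'.t j x|} := by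
        ext x
        simp
      rw [this]
      exact isOpen_biInter_finset fun j _ => isOpen_lt continuous_const (F'.t j).continuous.abs
    exact h1.inter h2
  have hcopy : ∀ x ∈ N, v (α'.face i) (F'.drop i x) = v β (F'.dropS J x) := by
    intro x hx
    have h1 := rgz_thr_dropS hTc (J.erase i) (α'.face i) (F'.drop i x) hlvi fun j hj => by
      have hji : j ≠ i := Finset.ne_of_mem_erase hj
      have hjJ : j ∈ J := Finset.mem_of_mem_erase hj
      refine ⟨by rw [(Stat.isFace_face α' hi).2.2 j hji]; exact hE.tails j hjJ, ?_⟩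
      rw [F'.q_drop, F'.t_drop_ne hji]
      simp only [hTdef, if_pos (Metric.thickening_subset_cthickening 1 K hx.1)]
      exact hx.2 j hjJ
    rw [h1, hβe, ← F'.dropS_insert (Finset.notMem_erase i J), hJe]
  have htj : ∀ m, ∀ j ∈ J, F'.t j (z (φ m)) = s m j := fun m j hj => by
    rw [hzφ m, map_add, hE.flat m j hj, F'.t_vec_mem hj, zero_add]
  have hzN : ∀ᶠ m in atTop, z (φ m) ∈ N := by
    have h1 : ∀ᶠ m in atTop, ∀ j ∈ J, R < (α' j : ℝ) * s m j := by
      rw [Filter.eventually_all_finset]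
      exact fun j hj => (hE.esc j hj).eventually_gt_atTop _
    filter_upwards [h1] with m hm
    refine ⟨Metric.self_subset_thickening one_pos K (hzq (φ m)), fun j hj => ?_⟩
    rw [htj m j hj]
    refine lt_of_lt_of_le (hm j hj) ?_
    have h2 : |(α' j : ℝ)| ≤ 1 := by
      rcases SignType.trichotomy (α' j) with h | h | h <;> rw [h] <;> simp
    calc (α' j : ℝ) * s m j ≤ |(α' j : ℝ) * s m j| := le_abs_self _
      _ = |(α' j : ℝ)| * |s m j| := abs_mul _ _
      _ ≤ 1 * |s m j| := mul_le_mul_of_nonneg_right h2 (abs_nonneg _)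
      _ = |s m j| := one_mul _
  have hdrop : ∀ m, F'.dropS J (z (φ m)) = y m := fun m => by
    rw [hzφ m, F'.dropS_add_vec, F'.dropS_eq_self (hE.flat m)]
  have hvy : Tendsto (fun m => v β (y m)) atTop (𝓝 (v β y')) :=
    ((hv.sm β).continuous.tendsto y').comp hE.lim
  have hvpos : 0 < v β y' := hv.pos β y'
  obtain ⟨hlim, B, hB⟩ := rgzi_transfer hC hS hT hw s' hE (fun m => hzφ m ▸ hzD (φ m)) hy'
    (φ := v β) (hv.sm β)
  have hsup := hv.sup β hlv y' hy'
  -- the first inequality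
  have e1 : ∀ᶠ m in atTop, 3 / 4 * δ * v β (y m) <
      C.LL P1 s' (splitE (C.EO Ω) U w k) α' (fun x => v β (F'.dropS J x))
        (y m + F'.vec J (s m)) := by
    refine (hvy.const_mul (3 / 4 * δ)).eventually_lt hlim ?_
    refine lt_of_lt_of_le ?_ hsup
    have := mul_pos hδ hvpos
    nlinarith
  -- the second inequality
  have e2 : ∀ᶠ m in atTop, B ≤ (φ m : ℝ) * v β (y m) :=
    (hφt.atTop_mul_pos hvpos hvy).eventually_ge_atTop B
  obtain ⟨m, hm1, hm2, hm3⟩ := (e1.and (e2.and hzN)).exists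
  have hNn : N ∈ 𝓝 (z (φ m)) := hNo.mem_nhds hm3
  have hcz : v (α'.face i) (F'.drop i (z (φ m))) = v β (y m) := by
    rw [hcopy _ hm3, hdrop]
  obtain ⟨j, hj⟩ := hbad (φ m) (by
    rw [hcz, rg_L_congr_near hNn (hzD (φ m)).1 (f' := fun x => v β (F'.dropS J x))
      fun x hx => hcopy x hx.2]
    rw [← hzφ m] at hm1
    exact hm1.le)
  rw [hcz, gs_ip_congr_near hNn (f' := fun x => v β (F'.dropS J x)) (k' := fun x => F'.t j x)
    (fun x hx => hcopy x hx.2) fun _ _ => rfl] at hj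
  have h5 := (hB m j).1
  rw [← hzφ m] at h5
  exact absurd (h5.trans hm2) (not_le.2 hj)

/-- **leaf RGZI-TT (1)**: tail transfer of the face copies.
PLAN (contradiction).  Fix `i` (finitely many).  If no `(T, κ₁)` works for `i`: for every `m : ℕ` a point `z m ∈ D0 α'` over `K` with `m < |t i (z m)|` at which the first inequality fails, or the second fails with `κ₁ = m` for some `j`.
`rgzi_escape`: `φ, J, s, y, y'`; `i ∈ J` (since `|t i (z (φ m))| → ∞` while `t i (y m)` converges and `t i (vec J s) = 0` for `i ∉ J`).  `β = α'.faceS J` has level `< k` (`rgLv_face_lt` + `rgLv_face_le`, `J ∋ i`).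
Near `z (φ m)`, for large `m`: `v (α'.face i) (drop i x) = v β (dropS J x)` (`rgz_thr_dropS` for the status `α'.face i` and the set `J.erase i`, thresholds of `hv.compat` over a compact neighbourhood of `K`; all `|t j|`, `j ∈ J`, are large near `z (φ m)`): `rg_L_congr_near`, `gs_ip_congr_near`.
`rgzi_transfer` with `φ = v β` (`hv.sm β`):  `L (v β ∘ dropS J)(z (φ m)) → (L_β v β)(y') ≥ δ v β y'` (`hv.sup β`), and `v β (dropS J (z (φ m))) = v β (y m) → v β y' > 0`: the first inequality holds for large `m`; `|gradIp| ≤ B ≤ m * v β (y m)` for large `m`. -/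
theorem rgzi_tt1 (hC : C.Ok) (hS : ShieldOK C P1) (hT : RgTrue C P1 Ω U) (hw : RgWid C w k)
    (s' : ℝ) (k₀ : ℕ) (v : Stat (Option ι) → W × ℝ → ℝ) (δ : ℝ) (hδ : 0 < δ)
    (hv : RgzLow C.B.n C.F.ext (splitE (C.EO Ω) U w k) (extTen C.P.h) (fun y => C.P.dr y.1)
      (rgVs P1 C.R C.s s') (C.req P1 (splitE (C.EO Ω) U w k)) 4 k₀ v δ)
    (α' : Stat (Option ι)) (hα : rgLv α' = k₀) (K : Set V) (hK : IsCompact K) :
    ∃ T κ₁ : ℝ, ∀ i, α' i ≠ 0 → ∀ z ∈ C.req P1 (splitE (C.EO Ω) U w k) α', C.F.ext.q z ∈ K →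
      T < |C.F.ext.t i z| →
      3 / 4 * δ * v (α'.face i) (C.F.ext.drop i z) ≤
          rgL (C.B.n - hits α') (splitE (C.EO Ω) U w k α') (extTen C.P.h) (fun y => C.P.dr y.1) 4
            (rgW C.B.n (splitE (C.EO Ω) U w k) (extTen C.P.h) (fun y => C.P.dr y.1)
              (rgVs P1 C.R C.s s') α') (fun y => v (α'.face i) (C.F.ext.drop i y)) z ∧
        ∀ j, |gradIp (C.B.n - hits α') (splitE (C.EO Ω) U w k α') (extTen C.P.h)
            (fun y => v (α'.face i) (C.F.ext.drop i y)) (fun y => C.F.ext.t j y) z|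
          ≤ κ₁ * v (α'.face i) (C.F.ext.drop i z) := by
  classical
  have hex : ∀ i : Option ι, ∃ m : ℕ, α' i ≠ 0 →
      ∀ z ∈ C.req P1 (splitE (C.EO Ω) U w k) α', C.F.ext.q z ∈ K →
      (m : ℝ) < |C.F.ext.t i z| →
      3 / 4 * δ * v (α'.face i) (C.F.ext.drop i z) ≤
          rgL (C.B.n - hits α') (splitE (C.EO Ω) U w k α') (extTen C.P.h) (fun y => C.P.dr y.1) 4
            (rgW C.B.n (splitE (C.EO Ω) U w k) (extTen C.P.h) (fun y => C.P.dr y.1)
              (rgVs P1 C.R C.s s') α') (fun y => v (α'.face i) (C.F.ext.drop i y)) z ∧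
        ∀ j, |gradIp (C.B.n - hits α') (splitE (C.EO Ω) U w k α') (extTen C.P.h)
            (fun y => v (α'.face i) (C.F.ext.drop i y)) (fun y => C.F.ext.t j y) z|
          ≤ (m : ℝ) * v (α'.face i) (C.F.ext.drop i z) := by
    intro i
    by_cases hi : α' i = 0
    · exact ⟨0, fun h => absurd hi h⟩
    · obtain ⟨m, hm⟩ := rgzi_tt1_one hC hS hT hw s' k₀ v δ hδ hv α' hα K hK i hi
      exact ⟨m, fun _ => hm⟩
  choose m hm using hex
  obtain ⟨Mx, hMx⟩ := (Set.finite_range fun i => (m i : ℝ)).bddAbove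
  have hle : ∀ i, (m i : ℝ) ≤ Mx := fun i => hMx ⟨i, rfl⟩
  refine ⟨Mx, Mx, fun i hi z hz hq hlt => ?_⟩
  obtain ⟨h1, h2⟩ := hm i hi z hz hq (lt_of_le_of_lt (hle i) hlt)
  exact ⟨h1, fun j => (h2 j).trans (mul_le_mul_of_nonneg_right (hle i) (hv.pos _ _).le)⟩

/-- **leaf RGZI-TT (2)**: the tail coordinates on the true pieces.
PLAN (contradiction): `z m ∈ D0 α'` over `K` where one of the two bounds fails with `κ₁ = m`; `rgzi_escape` (`J = ∅` allowed) and the bounds `B` of `rgzi_transfer` (any `φ`, e.g. `φ = 1`). -/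
theorem rgzi_tt2 (hC : C.Ok) (hS : ShieldOK C P1) (hT : RgTrue C P1 Ω U) (hw : RgWid C w k)
    (α' : Stat (Option ι)) (K : Set V) (hK : IsCompact K) :
    ∃ κ₁ : ℝ, ∀ z ∈ C.req P1 (splitE (C.EO Ω) U w k) α', C.F.ext.q z ∈ K → ∀ j,
      |wlap (C.B.n - hits α') (splitE (C.EO Ω) U w k α') (extTen C.P.h) (fun y => C.P.dr y.1)
        (fun y => C.F.ext.t j y) z| ≤ κ₁ ∧
      gradSq (C.B.n - hits α') (splitE (C.EO Ω) U w k α') (extTen C.P.h)
        (fun y => C.F.ext.t j y) z ≤ κ₁ := by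
  by_contra hcon
  push Not at hcon
  choose z hzD hzq j hj using fun m : ℕ => hcon (m : ℝ)
  obtain ⟨φ, J, s, y, y', hφ, hE, hzφ, hy'⟩ := rgzi_escape hC hS hT hw α' z hzD hK hzq
  obtain ⟨-, B, hB⟩ := rgzi_transfer hC hS hT hw 0 hE (fun m => hzφ m ▸ hzD (φ m)) hy'
    (φ := fun _ => 1) contDiff_const
  obtain ⟨m, hm⟩ := exists_nat_gt B
  have hm' : B ≤ (φ m : ℝ) := hm.le.trans (by exact_mod_cast hφ.le_apply)
  have h1 := hB m (j (φ m))
  rw [← hzφ m] at h1
  exact absurd (hj (φ m) (h1.2.1.trans hm')) (not_lt.2 (h1.2.2.trans hm'))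

/-! ### the system and the export -/

theorem rgzi_sys (hC : C.Ok) (hS : ShieldOK C P1) (hsep : SepConf C.F C.P C.j0) (s' : ℝ)
    (hT : RgTrue C P1 Ω U) (hw : RgWid C w k) (hG : RgGap C P1 s' Ω U w k) :
    RgzSys C.B.n C.F.ext (splitE (C.EO Ω) U w k) (extTen C.P.h) (fun y => C.P.dr y.1)
      (rgVs P1 C.R C.s s') (C.req P1 (splitE (C.EO Ω) U w k)) 4 C.e0 where
  geo := rgzi_geo hC hT hw
  pot := rgzi_pot hC hS
  t_hit := rgzi_t_hit hC
  t_sign := rgzi_t_sign hC hw
  D_sub := fun _ _ hz => hz.1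
  D_closed := rgzi_closed hC hS hT hw
  gap := hG
  piece := rgzi_piece hC hS hsep hT hw
  tt1 := fun k₀ v δ hδ hv α' hα K hK => rgzi_tt1 hC hS hT hw s' k₀ v δ hδ hv α' hα K hK
  tt2 := rgzi_tt2 hC hS hT hw
  C_pos := by norm_num
  e_pos := hC.e0_pos

/-- **STAGE 1** (statement of `rg_super0`, `Rg/Top.lean`). -/
theorem rg_super0_pf (C : ShCtx V W ι) (hC : C.Ok) (P1 : PData W ι C.B.J) (hS : ShieldOK C P1)
    (hsep : SepConf C.F C.P C.j0) (s' : ℝ) (hs : C.s < s') (hs' : s' ≤ 1) {Ω : Set W}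
    {U w : W → ℝ} {k : ℝ → ℝ} (hT : RgTrue C P1 Ω U) (hw : RgWid C w k)
    (hG : RgGap C P1 s' Ω U w k) : ∃ v, RgSuper C P1 s' Ω U w k v := by
  obtain ⟨v, δ, hδ, hsm, hpos, hcomp, hsup⟩ := rgz_super (rgzi_sys hC hS hsep s' hT hw hG)
  refine ⟨v, fun α' => if_smoothAlong_of_contDiff (hsm α'), fun α' z _ => hpos α' z,
    fun i' K hK => ?_, fun α' z hz => ?_⟩
  · obtain ⟨R, hR⟩ := hcomp K hK
    exact ⟨R, fun α' hα z _ hq hlt => (hR α' i' hα z hq hlt).symm⟩
  · exact lt_of_lt_of_le (mul_pos hδ (hpos α' z)) (hsup α' z hz)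

end ctx

end Claimed.Agent.R315
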