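import Claimed.Agent.R315.Rg.SmcOp
import Claimed.Agent.R315.Pack008
import Claimed.Agent.R315.Pack006
import Claimed.Agent.R315.Rm.Glob
import Claimed.Agent.R315.Pack002

/-!
# Row 315, package Rg-SL: THE OPERATORS OF A LEVEL SET IN ANY PARAMETRISATION OF THE AMBIENT MANIFOLD (merged file: former `LvlC`, `LvlA`, `LvlB`, `Lvl`; helper83 + helper48).  NO SORRY IN THIS FILE.

Part C: chart formulas `rgl*C` + continuity under `RgsAt`.  Part A: naturality (germs, smoothness, pull-back).  Part B: lapse form.  Part D: `rgl_ip`, `rgl_lap`, `rgl_scal`.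
-/

/-!
## PART (formerly `Rg/LvlC.lean`)

### Row 315, package Rg-SL (architect helper83): AMBIENT FORMULAS for the operators of a level set, coordinate form

`(A, g)`: metric matrix and a function without critical point on an open set of `E (d+1)`;  `s = |dg|²`, `ν = ∇g/|∇g|`, `v = 1/|dg|` (lapse).
* `rglN A g f  = ν f = ⟨dg,df⟩/|dg|`,   `rglV A g = v`,   `rglH A g = H = Δg/|dg| - ⟨dg,ds⟩/(2|dg|³)` (mean curvature of the level sets),
* `rglIpC A g f k = ⟨df,dk⟩_L = ⟨df,dk⟩ - ⟨dg,df⟩⟨dg,dk⟩/s`,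
* `rglLapC A g f = Δ_L f = Δf - ν(νf) - H νf - ⟨dv,df⟩_L/v`,
* `rglRicC A g = Ric(ν,ν)`,
* `rglScalC A g = Scal_L = Scal - Ric(ν,ν) + H² + νH + Δ_L v/v`      (Gauss equation + Riccati equation `νH = -|II|² - Ric(ν,ν) - Δ_L v/v`).
NO slice parametrisation, NO inverse function theorem: the operators of the level set through a point are universal expressions in the jets of `(A, g, f)` at the point.
Here: the definitions and their continuity for `RgsAt` (PROVED from `Rg/Smc.lean`).   The geometric identities are in `Rg/Lvl.lean`.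
-/
set_option autoImplicit false
open scoped ContDiff Topology
open Filter Metric Set Claims.C0499

namespace Claimed.Agent.R315

variable {d : ℕ}

/-- `ν f = ⟨dg,df⟩/|dg|`. -/
noncomputable def rglN (A : E d → Matrix (Fin d) (Fin d) ℝ) (g f : E d → ℝ) (w : E d) : ℝ :=
  gradIpC A g f w / Real.sqrt (gradSqC A g w)

/-- the lapse `v = 1/|dg|`. -/
noncomputable def rglV (A : E d → Matrix (Fin d) (Fin d) ℝ) (g : E d → ℝ) (w : E d) : ℝ :=
  (Real.sqrt (gradSqC A g w))⁻¹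

/-- mean curvature of the level sets. -/
noncomputable def rglH (A : E d → Matrix (Fin d) (Fin d) ℝ) (g : E d → ℝ) (w : E d) : ℝ :=
  lapC A g w / Real.sqrt (gradSqC A g w) -
    gradIpC A g (gradSqC A g) w / (2 * Real.sqrt (gradSqC A g w) ^ 3)

/-- `⟨df,dk⟩` on the level set. -/
noncomputable def rglIpC (A : E d → Matrix (Fin d) (Fin d) ℝ) (g f k : E d → ℝ) (w : E d) : ℝ :=
  gradIpC A f k w - gradIpC A g f w * gradIpC A g k w / gradSqC A g w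

/-- the Laplacian of the level set. -/
noncomputable def rglLapC (A : E d → Matrix (Fin d) (Fin d) ℝ) (g f : E d → ℝ) (w : E d) : ℝ :=
  lapC A f w - rglN A g (rglN A g f) w - rglH A g w * rglN A g f w -
    rglIpC A g (rglV A g) f w / rglV A g w

/-- `Ric(∇g,∇g)`. -/
noncomputable def rglRicQ (A : E d → Matrix (Fin d) (Fin d) ℝ) (g : E d → ℝ) (w : E d) : ℝ :=
  ∑ i : Fin d, ∑ j : Fin d, ricciCoord A w i j *
    (∑ a : Fin d, (A w)⁻¹ i a * pdiff g a w) * (∑ b : Fin d, (A w)⁻¹ j b * pdiff g b w)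

/-- `Ric(ν,ν)`. -/
noncomputable def rglRicC (A : E d → Matrix (Fin d) (Fin d) ℝ) (g : E d → ℝ) (w : E d) : ℝ :=
  rglRicQ A g w / gradSqC A g w

/-- the scalar curvature of the level set. -/
noncomputable def rglScalC (A : E d → Matrix (Fin d) (Fin d) ℝ) (g : E d → ℝ) (w : E d) : ℝ :=
  scalarCoord A w - rglRicC A g w + rglH A g w ^ 2 + rglN A g (rglH A g) w +
    rglLapC A g (rglV A g) w / rglV A g w

theorem rglC_eqns_cite : True := by
  have := @rglN.eq_1; have := @rglV.eq_1; have := @rglH.eq_1; have := @rglIpC.eq_1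
  have := @rglLapC.eq_1; have := @rglRicQ.eq_1; have := @rglRicC.eq_1; have := @rglScalC.eq_1
  trivial

variable {u₀ : E d} {A : ℕ → E d → Matrix (Fin d) (Fin d) ℝ}
  {A' : E d → Matrix (Fin d) (Fin d) ℝ} {g f k : ℕ → E d → ℝ} {g' f' k' : E d → ℝ}

theorem rgs_rglN (hA : RgsMat u₀ A A') (h0 : (A' u₀).det ≠ 0) (hg : RgsAt u₀ g g')
    (hs : 0 < gradSqC A' g' u₀) (hf : RgsAt u₀ f f') :
    RgsAt u₀ (fun n => rglN (A n) (g n) (f n)) (rglN A' g' f') :=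
  (rgs_gradIpC hA h0 hg hf).div ((rgs_gradSqC hA h0 hg).sqrt hs) (Real.sqrt_pos.2 hs).ne'

theorem rgs_rglV (hA : RgsMat u₀ A A') (h0 : (A' u₀).det ≠ 0) (hg : RgsAt u₀ g g')
    (hs : 0 < gradSqC A' g' u₀) : RgsAt u₀ (fun n => rglV (A n) (g n)) (rglV A' g') :=
  ((rgs_gradSqC hA h0 hg).sqrt hs).inv (Real.sqrt_pos.2 hs).ne'

theorem rgs_rglH (hA : RgsMat u₀ A A') (h0 : 0 < (A' u₀).det) (hg : RgsAt u₀ g g')
    (hs : 0 < gradSqC A' g' u₀) : RgsAt u₀ (fun n => rglH (A n) (g n)) (rglH A' g') := by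
  have hq := (rgs_gradSqC hA h0.ne' hg).sqrt hs
  have hq0 := (Real.sqrt_pos.2 hs).ne'
  refine ((rgs_lapC hA h0 hg).div hq hq0).sub
    ((rgs_gradIpC hA h0.ne' hg (rgs_gradSqC hA h0.ne' hg)).div ((hq.pow 3).const_mul 2) ?_)
  exact mul_ne_zero two_ne_zero (pow_ne_zero 3 hq0)

theorem rgs_rglIpC (hA : RgsMat u₀ A A') (h0 : (A' u₀).det ≠ 0) (hg : RgsAt u₀ g g')
    (hs : 0 < gradSqC A' g' u₀) (hf : RgsAt u₀ f f') (hk : RgsAt u₀ k k') :
    RgsAt u₀ (fun n => rglIpC (A n) (g n) (f n) (k n)) (rglIpC A' g' f' k') :=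
  (rgs_gradIpC hA h0 hf hk).sub
    (((rgs_gradIpC hA h0 hg hf).mul (rgs_gradIpC hA h0 hg hk)).div (rgs_gradSqC hA h0 hg) hs.ne')

theorem rglV_ne {A' : E d → Matrix (Fin d) (Fin d) ℝ} {g' : E d → ℝ} {u₀ : E d}
    (hs : 0 < gradSqC A' g' u₀) : rglV A' g' u₀ ≠ 0 :=
  inv_ne_zero (Real.sqrt_pos.2 hs).ne'

theorem rgs_rglLapC (hA : RgsMat u₀ A A') (h0 : 0 < (A' u₀).det) (hg : RgsAt u₀ g g')
    (hs : 0 < gradSqC A' g' u₀) (hf : RgsAt u₀ f f') :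
    RgsAt u₀ (fun n => rglLapC (A n) (g n) (f n)) (rglLapC A' g' f') := by
  have hN := rgs_rglN hA h0.ne' hg hs hf
  have hV := rgs_rglV hA h0.ne' hg hs
  exact (((rgs_lapC hA h0 hf).sub (rgs_rglN hA h0.ne' hg hs hN)).sub
    ((rgs_rglH hA h0 hg hs).mul hN)).sub ((rgs_rglIpC hA h0.ne' hg hs hV hf).div hV (rglV_ne hs))

theorem rgs_rglRicC (hA : RgsMat u₀ A A') (h0 : (A' u₀).det ≠ 0) (hg : RgsAt u₀ g g')
    (hs : 0 < gradSqC A' g' u₀) : RgsAt u₀ (fun n => rglRicC (A n) (g n)) (rglRicC A' g') := by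
  refine RgsAt.div ?_ (rgs_gradSqC hA h0 hg) hs.ne'
  exact RgsAt.sum _ fun i _ => RgsAt.sum _ fun j _ =>
    ((rgs_ricci hA h0 i j).mul (RgsAt.sum _ fun a _ => (hA.inv h0 i a).mul (hg.pdiff a))).mul
      (RgsAt.sum _ fun b _ => (hA.inv h0 j b).mul (hg.pdiff b))

theorem rgs_rglScalC (hA : RgsMat u₀ A A') (h0 : 0 < (A' u₀).det) (hg : RgsAt u₀ g g')
    (hs : 0 < gradSqC A' g' u₀) : RgsAt u₀ (fun n => rglScalC (A n) (g n)) (rglScalC A' g') := by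
  have hH := rgs_rglH hA h0 hg hs
  have hV := rgs_rglV hA h0.ne' hg hs
  exact ((((rgs_scalar hA h0.ne').sub (rgs_rglRicC hA h0.ne' hg hs)).add (hH.pow 2)).add
    (rgs_rglN hA h0.ne' hg hs hH)).add ((rgs_rglLapC hA h0 hg hs hV).div hV (rglV_ne hs))

end Claimed.Agent.R315

/-!
## PART (formerly `Rg/LvlA.lean`)

### Row 315, package Rg-SL, part A: the chart formulas `rgl*C` of `Rg/LvlC.lean` are NATURAL (germs, smoothness, pull-back)

PACKAGE L-RG-LVL-A: PROVED (helper48), no sorry in this file.  Architect helper48 (formulas: helper83).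

CONTENT.  `G' ` a metric matrix on the open set `U`, `g` a smooth function on `U` without critical points, `τ : T → U` a local diffeomorphism, `G = τ^* G'` (`if_PullC T U τ G G'`, `If/Pull.lean`).
Then every expression `rglX` satisfies `rglX G (g ∘ τ) (f ∘ τ) u = rglX G' g f (τ u)`.

PLANS.
* Section 1 (germs).  `pdiff` only depends on the germ (`rm_pdiff_eventuallyEq`, `rm_pdiff_congr`); `rm_ip_congr`, `rm_lap_congr` (`Rm/Ops.lean`) give equality at ONE point; apply them at all points `y` near `u` through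
  `Filter.EventuallyEq.eventuallyEq_nhds : f =ᶠ[𝓝 u] f₁ → ∀ᶠ y in 𝓝 u, f =ᶠ[𝓝 y] f₁`.  The other lemmas: unfold and combine (`Filter.EventuallyEq.div/sub/mul/add/pow`, `.fun_comp`), nested arguments by the previous lemmas.
* Section 2 (smoothness).  `if_gradIpC_contDiffOn`, `if_gradSqC_contDiffOn`, `if_lapC_contDiffOn` (`If/Smooth.lean`; or the `rm_` versions at the end of `Rm/Eng.lean`), `ContDiffOn.sqrt`, `.div`, `.inv` with `0 < gradSqC G g y`.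
* Section 3 (pull-back).  Basic laws: `if_PullC.gradIp`, `if_PullC.gradSq`, `rm_pull_lap`, `if_PullC.scalar`, `rm_pull_ric`.  They give `rgl_pull_N/V/Ip` directly.  NESTED arguments: on the open set `T` (`h.metT.isOpen`)
  `gradSqC G (g ∘ τ) = (gradSqC G' g) ∘ τ`, so `gradIpC G (g ∘ τ) (gradSqC G (g ∘ τ)) u = gradIpC G (g ∘ τ) ((gradSqC G' g) ∘ τ) u` (Section 1; `Filter.eventuallyEq_of_mem (h.metT.isOpen.mem_nhds hu)`) `= gradIpC G' g (gradSqC G' g) (τ u)`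
  (`if_PullC.gradIp`, differentiability from Section 2).  In the same way `rglN G (g∘τ) (rglN G (g∘τ) (f∘τ)) u = rglN G' g (rglN G' g f) (τ u)`, etc.
* `rgl_pull_RicQ`.  `X = ∑ i, (∑ a, (G u)⁻¹ i a * pdiff (g ∘ τ) a u) • eb i` is the gradient: `if_bil (G u) X Z = fderiv (g ∘ τ) u Z` for all `Z`; the same for `X'` at `τ u`.  `fderiv τ u X = X'` : both sides `Y` satisfy
  `if_bil (G' (τ u)) Y (fderiv τ u Z) = fderiv g (τ u) (fderiv τ u Z)` (`h.rel_bil`, chain rule), `fderiv τ u` is onto (`h.surj`), `if_bil_nondeg`.  `rglRicQ G (g∘τ) u = if_bil (Matrix.of (ricciCoord G u)) X X` (`if_bil_apply`) `= if_ric (if_Gam G) u X X`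
  (`if_ric_eb`, `if_ric_bil`) `= if_ric (if_Gam G') (τ u) X' X'` (`h.ric`).
-/
set_option autoImplicit false
set_option linter.unusedSectionVars false
open scoped ContDiff Topology
open Filter Metric Set Claims.C0499

namespace Claimed.Agent.R315

variable {d : ℕ} {G G' : rm_MF d} {U T : Set (E d)} {τ : E d → E d} {u : E d}
  {g f k g₁ f₁ k₁ : E d → ℝ}

/-! ## Section 1: germs -/

theorem rgl_ev_ip (hf : f =ᶠ[𝓝 u] f₁) (hk : k =ᶠ[𝓝 u] k₁) :
    gradIpC G f k =ᶠ[𝓝 u] gradIpC G f₁ k₁ := by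
  filter_upwards [hf.eventuallyEq_nhds, hk.eventuallyEq_nhds] with y h1 h2
  exact rm_ip_congr h1 h2

theorem rgl_ev_sq (hf : f =ᶠ[𝓝 u] f₁) : gradSqC G f =ᶠ[𝓝 u] gradSqC G f₁ := rgl_ev_ip hf hf

theorem rgl_ev_lap (hf : f =ᶠ[𝓝 u] f₁) : lapC G f =ᶠ[𝓝 u] lapC G f₁ := by
  filter_upwards [hf.eventuallyEq_nhds] with y h1
  exact rm_lap_congr h1

theorem rgl_ev_N (hg : g =ᶠ[𝓝 u] g₁) (hf : f =ᶠ[𝓝 u] f₁) :
    rglN G g f =ᶠ[𝓝 u] rglN G g₁ f₁ := by
  filter_upwards [rgl_ev_ip (G := G) hg hf, rgl_ev_sq (G := G) hg] with y h1 h2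
  unfold rglN
  rw [h1, h2]

theorem rgl_ev_V (hg : g =ᶠ[𝓝 u] g₁) : rglV G g =ᶠ[𝓝 u] rglV G g₁ := by
  filter_upwards [rgl_ev_sq (G := G) hg] with y h2
  unfold rglV
  rw [h2]

theorem rgl_ev_H (hg : g =ᶠ[𝓝 u] g₁) : rglH G g =ᶠ[𝓝 u] rglH G g₁ := by
  filter_upwards [rgl_ev_lap (G := G) hg, rgl_ev_sq (G := G) hg,
    rgl_ev_ip (G := G) hg (rgl_ev_sq (G := G) hg)] with y h1 h2 h3
  unfold rglH
  rw [h1, h2, h3]

theorem rgl_ev_Ip (hg : g =ᶠ[𝓝 u] g₁) (hf : f =ᶠ[𝓝 u] f₁) (hk : k =ᶠ[𝓝 u] k₁) :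
    rglIpC G g f k =ᶠ[𝓝 u] rglIpC G g₁ f₁ k₁ := by
  filter_upwards [rgl_ev_ip (G := G) hf hk, rgl_ev_ip (G := G) hg hf, rgl_ev_ip (G := G) hg hk,
    rgl_ev_sq (G := G) hg] with y h1 h2 h3 h4
  unfold rglIpC
  rw [h1, h2, h3, h4]

theorem rgl_ev_Lap (hg : g =ᶠ[𝓝 u] g₁) (hf : f =ᶠ[𝓝 u] f₁) :
    rglLapC G g f =ᶠ[𝓝 u] rglLapC G g₁ f₁ := by
  filter_upwards [rgl_ev_lap (G := G) hf, rgl_ev_N (G := G) hg (rgl_ev_N (G := G) hg hf),
    rgl_ev_H (G := G) hg, rgl_ev_N (G := G) hg hf,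
    rgl_ev_Ip (G := G) hg (rgl_ev_V (G := G) hg) hf, rgl_ev_V (G := G) hg] with y h1 h2 h3 h4 h5 h6
  unfold rglLapC
  rw [h1, h2, h3, h4, h5, h6]

theorem rgl_ev_Ric (hg : g =ᶠ[𝓝 u] g₁) : rglRicC G g =ᶠ[𝓝 u] rglRicC G g₁ := by
  filter_upwards [hg.eventuallyEq_nhds, rgl_ev_sq (G := G) hg] with y h1 h2
  unfold rglRicC rglRicQ
  simp only [rm_pdiff_congr h1]
  rw [h2]

theorem rgl_ev_Scal (hg : g =ᶠ[𝓝 u] g₁) : rglScalC G g =ᶠ[𝓝 u] rglScalC G g₁ := by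
  filter_upwards [rgl_ev_Ric (G := G) hg, rgl_ev_H (G := G) hg,
    rgl_ev_N (G := G) hg (rgl_ev_H (G := G) hg),
    rgl_ev_Lap (G := G) hg (rgl_ev_V (G := G) hg), rgl_ev_V (G := G) hg] with y h1 h2 h3 h4 h5
  unfold rglScalC
  rw [h1, h2, h3, h4, h5]

/-! ## Section 2: smoothness -/

theorem rgl_sm_ip (h : rm_Met G U) (hf : ContDiffOn ℝ ∞ f U) (hk : ContDiffOn ℝ ∞ k U) :
    ContDiffOn ℝ ∞ (gradIpC G f k) U :=
  if_gradIpC_contDiffOn h.opn h.smooth (rm_det_ne h) hf hk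

theorem rgl_sm_sqrt (h : rm_Met G U) (hg : ContDiffOn ℝ ∞ g U)
    (hreg : ∀ y ∈ U, 0 < gradSqC G g y) :
    ContDiffOn ℝ ∞ (fun y => Real.sqrt (gradSqC G g y)) U :=
  (rgl_sm_ip h hg hg).sqrt fun y hy => (hreg y hy).ne'

theorem rgl_sm_N (h : rm_Met G U) (hg : ContDiffOn ℝ ∞ g U)
    (hreg : ∀ y ∈ U, 0 < gradSqC G g y) (hf : ContDiffOn ℝ ∞ f U) :
    ContDiffOn ℝ ∞ (rglN G g f) U :=
  (rgl_sm_ip h hg hf).div (rgl_sm_sqrt h hg hreg) fun y hy => (Real.sqrt_pos.2 (hreg y hy)).ne'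

theorem rgl_sm_V (h : rm_Met G U) (hg : ContDiffOn ℝ ∞ g U)
    (hreg : ∀ y ∈ U, 0 < gradSqC G g y) : ContDiffOn ℝ ∞ (rglV G g) U :=
  (rgl_sm_sqrt h hg hreg).inv fun y hy => (Real.sqrt_pos.2 (hreg y hy)).ne'

theorem rgl_sm_H (h : rm_Met G U) (hg : ContDiffOn ℝ ∞ g U)
    (hreg : ∀ y ∈ U, 0 < gradSqC G g y) : ContDiffOn ℝ ∞ (rglH G g) U := by
  have hs := rgl_sm_sqrt h hg hreg
  have h0 : ∀ y ∈ U, Real.sqrt (gradSqC G g y) ≠ 0 := fun y hy => (Real.sqrt_pos.2 (hreg y hy)).ne'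
  refine ((if_lapC_contDiffOn h.opn h.smooth (fun y hy => rm_det_pos h hy) hg).div hs h0).sub
    ((rgl_sm_ip h hg (rgl_sm_ip h hg hg)).div (contDiffOn_const.mul (hs.pow 3)) fun y hy => ?_)
  exact mul_ne_zero two_ne_zero (pow_ne_zero 3 (h0 y hy))

/-! ## Section 3: pull-back -/

theorem rgl_pull_da (h : if_PullC T U τ G G') (hg : ContDiffOn ℝ ∞ g U) (hu : u ∈ T) :
    DifferentiableAt ℝ g (τ u) :=
  (hg.contDiffAt (h.metU.isOpen.mem_nhds (h.mapsTo hu))).differentiableAt (by simp)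

/-- a pointwise pull-back law as an equality of germs. -/
theorem rgl_pull_ev (h : if_PullC T U τ G G') {a b : E d → ℝ} (H : ∀ y ∈ T, a y = b (τ y))
    (hu : u ∈ T) : a =ᶠ[𝓝 u] b ∘ τ :=
  Filter.eventuallyEq_of_mem (h.metT.isOpen.mem_nhds hu) H

theorem rgl_pull_N (h : if_PullC T U τ G G') (hg : ContDiffOn ℝ ∞ g U)
    (hf : ContDiffOn ℝ ∞ f U) (hu : u ∈ T) :
    rglN G (g ∘ τ) (f ∘ τ) u = rglN G' g f (τ u) := by
  unfold rglN
  rw [h.gradIp hu (rgl_pull_da h hg hu) (rgl_pull_da h hf hu), h.gradSq hu (rgl_pull_da h hg hu)]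

theorem rgl_pull_V (h : if_PullC T U τ G G') (hg : ContDiffOn ℝ ∞ g U) (hu : u ∈ T) :
    rglV G (g ∘ τ) u = rglV G' g (τ u) := by
  unfold rglV
  rw [h.gradSq hu (rgl_pull_da h hg hu)]

theorem rgl_pull_H (h : if_PullC T U τ G G') (hg : ContDiffOn ℝ ∞ g U) (hu : u ∈ T) :
    rglH G (g ∘ τ) u = rglH G' g (τ u) := by
  have hs : gradSqC G (g ∘ τ) =ᶠ[𝓝 u] gradSqC G' g ∘ τ :=
    rgl_pull_ev h (fun y hy => h.gradSq hy (rgl_pull_da h hg hy)) hu
  unfold rglH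
  rw [rm_pull_lap h hu hg, h.gradSq hu (rgl_pull_da h hg hu),
    rm_ip_congr (EventuallyEq.refl _ _) hs,
    h.gradIp (k' := gradSqC G' g) hu (rgl_pull_da h hg hu)
      (rgl_pull_da h (rgl_sm_ip h.metU.toRm hg hg) hu)]

theorem rgl_pull_Ip (h : if_PullC T U τ G G') (hg : ContDiffOn ℝ ∞ g U)
    (hf : ContDiffOn ℝ ∞ f U) (hk : ContDiffOn ℝ ∞ k U) (hu : u ∈ T) :
    rglIpC G (g ∘ τ) (f ∘ τ) (k ∘ τ) u = rglIpC G' g f k (τ u) := by
  unfold rglIpC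
  rw [h.gradIp hu (rgl_pull_da h hf hu) (rgl_pull_da h hk hu),
    h.gradIp hu (rgl_pull_da h hg hu) (rgl_pull_da h hf hu),
    h.gradIp hu (rgl_pull_da h hg hu) (rgl_pull_da h hk hu), h.gradSq hu (rgl_pull_da h hg hu)]

theorem rgl_pull_Lap (h : if_PullC T U τ G G') (hg : ContDiffOn ℝ ∞ g U)
    (hreg : ∀ y ∈ U, 0 < gradSqC G' g y) (hf : ContDiffOn ℝ ∞ f U) (hu : u ∈ T) :
    rglLapC G (g ∘ τ) (f ∘ τ) u = rglLapC G' g f (τ u) := by
  have hN : rglN G (g ∘ τ) (f ∘ τ) =ᶠ[𝓝 u] rglN G' g f ∘ τ :=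
    rgl_pull_ev h (fun y hy => rgl_pull_N h hg hf hy) hu
  have hV : rglV G (g ∘ τ) =ᶠ[𝓝 u] rglV G' g ∘ τ :=
    rgl_pull_ev h (fun y hy => rgl_pull_V h hg hy) hu
  unfold rglLapC
  rw [rm_pull_lap h hu hf, (rgl_ev_N (EventuallyEq.refl _ _) hN).self_of_nhds,
    rgl_pull_N h hg (rgl_sm_N h.metU.toRm hg hreg hf) hu, rgl_pull_H h hg hu,
    rgl_pull_N h hg hf hu,
    (rgl_ev_Ip (EventuallyEq.refl _ _) hV (EventuallyEq.refl _ _)).self_of_nhds,
    rgl_pull_Ip h hg (rgl_sm_V h.metU.toRm hg hreg) hf hu, rgl_pull_V h hg hu]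

/-- the gradient vector. -/
noncomputable def rglGrad (G : rm_MF d) (g : E d → ℝ) (u : E d) : E d :=
  ∑ i : Fin d, (∑ a : Fin d, (G u)⁻¹ i a * pdiff g a u) • (eb i : E d)

theorem rglGrad_eqns_cite : True := by have := @rglGrad.eq_1; trivial

theorem rglGrad_apply (G : rm_MF d) (g : E d → ℝ) (u : E d) (i : Fin d) :
    rglGrad G g u i = ∑ a : Fin d, (G u)⁻¹ i a * pdiff g a u := by
  unfold rglGrad
  simp [Finset.sum_apply, Pi.single_apply, Finset.sum_ite_eq]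

/-- `G(∇g, Z) = dg(Z)`. -/
theorem rglGrad_bil (h : rm_Met G U) (hu : u ∈ U) (g : E d → ℝ) (Z : E d) :
    if_bil (G u) (rglGrad G g u) Z = fderiv ℝ g u Z := by
  rw [if_bil_apply, if_clm_expand (fderiv ℝ g u) Z]
  simp only [rglGrad_apply]
  rw [Finset.sum_comm]
  refine Finset.sum_congr rfl fun l _ => ?_
  have key : ∑ k : Fin d, G u k l * ∑ j : Fin d, (G u)⁻¹ k j * pdiff g j u = pdiff g l u := by
    simp only [Finset.mul_sum]
    rw [Finset.sum_comm]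
    have : ∀ j, ∑ k : Fin d, G u k l * ((G u)⁻¹ k j * pdiff g j u) =
        (if l = j then 1 else 0) * pdiff g j u := by
      intro j
      rw [← rm_mul_inv h hu l j, Finset.sum_mul]
      exact Finset.sum_congr rfl fun k _ => by rw [rm_symm h hu k l]; ring
    simp only [this]; simp
  calc ∑ k : Fin d, G u k l * ((∑ j : Fin d, (G u)⁻¹ k j * pdiff g j u) * Z l)
      = (∑ k : Fin d, G u k l * ∑ j : Fin d, (G u)⁻¹ k j * pdiff g j u) * Z l := by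
        rw [Finset.sum_mul]
        exact Finset.sum_congr rfl fun k _ => by ring
    _ = Z l * fderiv ℝ g u (eb l) := by
        rw [key]; unfold pdiff; ring

theorem rglRicQ_eq (G : rm_MF d) (g : E d → ℝ) (u : E d) :
    rglRicQ G g u = if_bil (Matrix.of fun a b => ricciCoord G u a b) (rglGrad G g u)
      (rglGrad G g u) := by
  rw [if_bil_apply]
  unfold rglRicQ
  simp only [rglGrad_apply, Matrix.of_apply, mul_assoc]

/-- the gradient is natural. -/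
theorem rglGrad_pull (h : if_PullC T U τ G G') (hg : ContDiffOn ℝ ∞ g U) (hu : u ∈ T) :
    fderiv ℝ τ u (rglGrad G (g ∘ τ) u) = rglGrad G' g (τ u) := by
  have hu' := h.mapsTo hu
  rw [← sub_eq_zero]
  refine if_bil_nondeg (h.metU.isUnit hu') (h.metU.isSymm hu') _ fun w => ?_
  obtain ⟨Z, rfl⟩ := h.surj hu w
  rw [map_sub, sub_apply, ← h.rel_bil hu, rglGrad_bil h.metT.toRm hu,
    rglGrad_bil h.metU.toRm hu',
    fderiv_comp u (rgl_pull_da h hg hu) ((h.contDiffAt hu).differentiableAt (by simp))]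
  simp

theorem rgl_pull_RicQ (h : if_PullC T U τ G G') (hg : ContDiffOn ℝ ∞ g U) (hu : u ∈ T) :
    rglRicQ G (g ∘ τ) u = rglRicQ G' g (τ u) := by
  rw [rglRicQ_eq, rglRicQ_eq, ← rglGrad_pull h hg hu]
  exact if_bil_of_basis (fun i j => by rw [Matrix.of_apply]; exact rm_pull_ric h hu i j) _ _

theorem rgl_pull_Ric (h : if_PullC T U τ G G') (hg : ContDiffOn ℝ ∞ g U) (hu : u ∈ T) :
    rglRicC G (g ∘ τ) u = rglRicC G' g (τ u) := by
  unfold rglRicC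
  rw [rgl_pull_RicQ h hg hu, h.gradSq hu
    ((hg.contDiffAt (h.metU.isOpen.mem_nhds (h.mapsTo hu))).differentiableAt (by simp))]

theorem rgl_pull_Scal (h : if_PullC T U τ G G') (hg : ContDiffOn ℝ ∞ g U)
    (hreg : ∀ y ∈ U, 0 < gradSqC G' g y) (hu : u ∈ T) :
    rglScalC G (g ∘ τ) u = rglScalC G' g (τ u) := by
  have hH : rglH G (g ∘ τ) =ᶠ[𝓝 u] rglH G' g ∘ τ :=
    rgl_pull_ev h (fun y hy => rgl_pull_H h hg hy) hu
  have hV : rglV G (g ∘ τ) =ᶠ[𝓝 u] rglV G' g ∘ τ :=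
    rgl_pull_ev h (fun y hy => rgl_pull_V h hg hy) hu
  unfold rglScalC
  rw [h.scalar hu, rgl_pull_Ric h hg hu, rgl_pull_H h hg hu,
    (rgl_ev_N (EventuallyEq.refl _ _) hH).self_of_nhds,
    rgl_pull_N h hg (rgl_sm_H h.metU.toRm hg hreg) hu,
    (rgl_ev_Lap (EventuallyEq.refl _ _) hV).self_of_nhds,
    rgl_pull_Lap h hg hreg (rgl_sm_V h.metU.toRm hg hreg) hu, rgl_pull_V h hg hu]

end Claimed.Agent.R315

/-!
## PART (formerly `Rg/LvlB.lean`)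

### Row 315, package Rg-SL, part B: the chart formulas `rgl*C` in LAPSE coordinates are the operators of the slices

PACKAGE L-RG-LVL-B: PROVED (helper48), no sorry in this file.  Architect helper48 (formulas helper83, all identities of the ADM calculus are PROVED by helper39 in `Rm/Adm.lean`, `Rm/Orth.lean`).

`G` a metric matrix on the open set `U ⊆ E (d+1)` with `G 0 a = 0` (`rm_Orth`), `g = rm_q0 d` the first coordinate, `v = rm_lps G` the lapse, `e = v⁻¹ ∂_0` (`rm_e`), `H = rm_H G`.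
PLANS (each statement holds at EVERY point of the open set `U`; for nested arguments turn the previous statement into `=ᶠ[𝓝 u]` by `Filter.eventuallyEq_of_mem (h.opn.mem_nhds hu)` and use Section 1 of `LvlA.lean`).
* `rgl_orth_sqrt` : `rm_dict_sq`, `Real.sqrt_inv`/`← inv_pow`, `Real.sqrt_sq` (see the proof of `rm_glob_gradN`, `Rm/Glob.lean`).
* `rgl_orth_N` : `rm_dict_ip` : `⟨dg,dF⟩ = e F / v`, divide by `|dg| = v⁻¹`.   `rgl_orth_V` : `inv_inv`.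
* `rgl_orth_H` : `rm_dict_lap`, `rm_dict_ip`, and `e (v⁻²) = -2 e v / v³` : this is the computation `h3` in the proof of `rm_glob_wmc` (`Rm/Glob.lean`) with `t = 0`; or use `rm_dict_H` (`Rm/Orth.lean`) and `d √s = ds/(2√s)`.
* `rgl_orth_Ip` : `rm_adm_ip` : `⟨dF,dK⟩ = ⟨dF,dK⟩_S + e F e K`.
* `rgl_orth_Lap` : `rm_adm_lap` : `Δ F = Δ_S F + e (e F) + H e F + ⟨dv,dF⟩_S / v`.
* `rgl_orth_Ric` : `∑ a, G⁻¹ i a ∂_a g = G⁻¹ i 0` (`rm_pdiff_q0`), `= v⁻²` for `i = 0`, `= 0` otherwise (`rm_blk_inv00`, `rm_blk_invs0`, `rm_lps_sq`); so `rglRicQ = Ric 0 0 / v⁴`.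
* `rgl_orth_Scal` : `rm_adm_scal` and `rm_adm_ric00` : eliminate `rm_Jsq`.
-/
set_option autoImplicit false
set_option linter.unusedSectionVars false
open scoped ContDiff Topology
open Filter Metric Set Claims.C0499

namespace Claimed.Agent.R315

variable {d : ℕ} {G : rm_MF (d + 1)} {U : Set (E (d + 1))} {u : E (d + 1)}
  {F K : E (d + 1) → ℝ}

theorem rgl_orth_sqrt (h : rm_Met G U) (ho : rm_Orth G U) (hu : u ∈ U) :
    Real.sqrt (gradSqC G (rm_q0 d) u) = (rm_lps G u)⁻¹ := by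
  rw [rm_dict_sq h ho hu, ← inv_pow, Real.sqrt_sq (inv_pos.2 (rm_lps_pos h hu)).le]

theorem rgl_orth_N (h : rm_Met G U) (ho : rm_Orth G U) (hu : u ∈ U) (F : E (d + 1) → ℝ) :
    rglN G (rm_q0 d) F u = rm_e G F u := by
  have hv := rm_lps_pos h hu
  unfold rglN
  rw [rm_dict_ip h ho hu, rgl_orth_sqrt h ho hu]
  field_simp

theorem rgl_orth_V (h : rm_Met G U) (ho : rm_Orth G U) (hu : u ∈ U) :
    rglV G (rm_q0 d) u = rm_lps G u := by
  unfold rglV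
  rw [rgl_orth_sqrt h ho hu, inv_inv]

theorem rgl_orth_H (h : rm_Met G U) (ho : rm_Orth G U) (hu : u ∈ U) :
    rglH G (rm_q0 d) u = rm_H G u := by
  have hv := rm_lps_pos h hu
  have hd := rm_da h.opn (rm_lps_smooth h) hu
  unfold rglH
  rw [rm_dict_lap h ho hu, rm_dict_ip h ho hu, rgl_orth_sqrt h ho hu]
  have h3 : rm_e G (gradSqC G (rm_q0 d)) u = -2 * rm_e G (rm_lps G) u / rm_lps G u ^ 3 := by
    unfold rm_e
    rw [rm_pdiff_congr_on h.opn hu (fun w hw => rm_dict_sq h ho hw),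
      rm_pdiff_inv (f := fun w => rm_lps G w ^ 2) (hd.pow 2) (pow_ne_zero 2 hv.ne')]
    have h4 : pdiff (fun w => rm_lps G w ^ 2) 0 u = 2 * rm_lps G u * pdiff (rm_lps G) 0 u := by
      have := rm_pdiff_mul (i := 0) hd hd
      simp only [pow_two]
      rw [this]
      ring
    rw [h4]
    field_simp
  rw [h3]
  field_simp
  ring

/-- the statements above as germs. -/
theorem rgl_orth_N_ev (h : rm_Met G U) (ho : rm_Orth G U) (hu : u ∈ U) (F : E (d + 1) → ℝ) :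
    rglN G (rm_q0 d) F =ᶠ[𝓝 u] rm_e G F :=
  Filter.eventuallyEq_of_mem (h.opn.mem_nhds hu) fun _ hw => rgl_orth_N h ho hw F

theorem rgl_orth_V_ev (h : rm_Met G U) (ho : rm_Orth G U) (hu : u ∈ U) :
    rglV G (rm_q0 d) =ᶠ[𝓝 u] rm_lps G :=
  Filter.eventuallyEq_of_mem (h.opn.mem_nhds hu) fun _ hw => rgl_orth_V h ho hw

theorem rgl_orth_H_ev (h : rm_Met G U) (ho : rm_Orth G U) (hu : u ∈ U) :
    rglH G (rm_q0 d) =ᶠ[𝓝 u] rm_H G :=
  Filter.eventuallyEq_of_mem (h.opn.mem_nhds hu) fun _ hw => rgl_orth_H h ho hw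

theorem rgl_orth_Ip (h : rm_Met G U) (ho : rm_Orth G U) (hu : u ∈ U)
    (hF : ContDiffOn ℝ ∞ F U) (hK : ContDiffOn ℝ ∞ K U) :
    rglIpC G (rm_q0 d) F K u = rm_ipS G F K u := by
  have hv := rm_lps_pos h hu
  unfold rglIpC
  rw [rm_adm_ip h ho hu hF hK, rm_dict_ip h ho hu, rm_dict_ip h ho hu, rm_dict_sq h ho hu]
  field_simp
  ring

theorem rgl_orth_Lap (h : rm_Met G U) (ho : rm_Orth G U) (hu : u ∈ U)
    (hF : ContDiffOn ℝ ∞ F U) : rglLapC G (rm_q0 d) F u = rm_lapS G F u := by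
  unfold rglLapC
  rw [(rgl_ev_N (EventuallyEq.refl _ _) (rgl_orth_N_ev h ho hu F)).self_of_nhds,
    rgl_orth_N h ho hu, rgl_orth_N h ho hu, rgl_orth_H h ho hu, rgl_orth_V h ho hu,
    (rgl_ev_Ip (EventuallyEq.refl _ _) (rgl_orth_V_ev h ho hu)
      (EventuallyEq.refl _ F)).self_of_nhds,
    rgl_orth_Ip h ho hu (rm_lps_smooth h) hF, rm_adm_lap h ho hu hF]
  ring

theorem rgl_orth_Ric (h : rm_Met G U) (ho : rm_Orth G U) (hu : u ∈ U) :
    rglRicC G (rm_q0 d) u = ricciCoord G u 0 0 / rm_lps G u ^ 2 := by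
  have hv := rm_lps_pos h hu
  have hX : ∀ i : Fin (d + 1), (∑ a : Fin (d + 1), (G u)⁻¹ i a * pdiff (rm_q0 d) a u) =
      (G u)⁻¹ i 0 := by
    intro i
    simp only [rm_pdiff_q0, mul_ite, mul_one, mul_zero, Finset.sum_ite_eq', Finset.mem_univ,
      if_true]
  unfold rglRicC rglRicQ
  simp only [hX]
  rw [Fin.sum_univ_succ]
  simp only [rm_blk_invs0 h ho hu, mul_zero, zero_mul, Finset.sum_const_zero, add_zero]
  rw [Fin.sum_univ_succ]
  simp only [rm_blk_invs0 h ho hu, mul_zero, Finset.sum_const_zero, add_zero,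
    rm_blk_inv00 h ho hu, ← rm_lps_sq h hu, rm_dict_sq h ho hu]
  field_simp

theorem rgl_orth_Scal (h : rm_Met G U) (ho : rm_Orth G U) (hu : u ∈ U) :
    rglScalC G (rm_q0 d) u = rm_scalS G u := by
  unfold rglScalC
  rw [(rgl_ev_N (EventuallyEq.refl _ _) (rgl_orth_H_ev h ho hu)).self_of_nhds,
    rgl_orth_N h ho hu, rgl_orth_H h ho hu, rgl_orth_V h ho hu,
    (rgl_ev_Lap (EventuallyEq.refl _ _) (rgl_orth_V_ev h ho hu)).self_of_nhds,
    rgl_orth_Lap h ho hu (rm_lps_smooth h), rgl_orth_Ric h ho hu, rm_adm_ric00 h ho hu,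
    rm_adm_scal h ho hu]
  ring

end Claimed.Agent.R315

/-!
## PART (formerly `Rg/Lvl.lean`)

### Row 315, package Rg-SL, part C: the operators of a level set `rm_Lv M q (q x)` in ANY parametrisation of the ambient manifold `M`

`gradIp`, `lap`, `scal` (hence `wlap`, `Dsc`) of the level set of `q` through `x = ψ u` are the universal chart expressions `rglIpC`, `rglLapC`, `rglScalC` (`Rg/LvlC.lean`) of `(cm h ψ, q ∘ ψ, f ∘ ψ)` at `u`, for EVERY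
parametrisation `(ψ,U)` of `M`; `q` has to be smooth on an open piece `M ∩ O ∋ x` and regular at `x` only.  GLUE (this file): lapse coordinates `τ` in the chart (`rm_orth_chart`), `ψ ∘ τ` is a lapse parametrisation
(`rm_LapseP`), slices (`rm_slice_*`, `Rm/Glob.lean`), lapse form of the expressions (`Rg/LvlB.lean`), naturality (`Rg/LvlA.lean`).
-/
set_option autoImplicit false
set_option linter.unusedSectionVars false
open scoped ContDiff Topology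
open Filter Metric Set Claims.C0499

namespace Claimed.Agent.R315

variable {V : Type} [NormedAddCommGroup V] [NormedSpace ℝ V] [FiniteDimensional ℝ V]
variable {d : ℕ} {M : Set V} {h : Ten V} {q f k t : V → ℝ} {ψ : E (d + 1) → V}
  {U : Set (E (d + 1))} {u : E (d + 1)}

/-- lapse coordinates subordinate to a given parametrisation. -/
structure RglLapse (M : Set V) (h : Ten V) (q : V → ℝ) (ψ : E (d + 1) → V) (u : E (d + 1))
    (U₁ : Set (E (d + 1))) (τ : E (d + 1) → E (d + 1)) (r : ℝ) : Prop where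
  par₁ : IsParam M ψ U₁
  reg : ∀ y ∈ U₁, 0 < gradSqC (cm h ψ) (q ∘ ψ) y
  lapse : rm_LapseP M h q (ψ u) (ψ ∘ τ) r
  pull : if_PullC (rm_box d (q (ψ u)) r) U₁ τ (cm h (ψ ∘ τ)) (cm h ψ)
  base : τ (rm_J (q (ψ u)) 0) = u

theorem rgl_exists_lapse (hh : IsMetricOn (d + 1) M h) (hq : SmoothAlong (d + 1) M q)
    (hψ : IsParam M ψ U) (hu : u ∈ U) (hreg : 0 < gradSqC (cm h ψ) (q ∘ ψ) u) :
    ∃ (U₁ : Set (E (d + 1))) (τ : E (d + 1) → E (d + 1)) (r : ℝ), RglLapse M h q ψ u U₁ τ r := by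
  have hmet := if_metC hh hψ
  have hsq : ContDiffOn ℝ ∞ (fun y => gradSqC (cm h ψ) (q ∘ ψ) y) U :=
    if_gradSqC_contDiffOn (if_open hψ) hmet.smooth (fun y hy => (hmet.posDef y hy).det_pos.ne')
      (hq ψ U hψ)
  set U₁ : Set (E (d + 1)) := U ∩ (fun y => gradSqC (cm h ψ) (q ∘ ψ) y) ⁻¹' Ioi 0 with hU₁
  have hU₁o : IsOpen U₁ := hsq.continuousOn.isOpen_inter_preimage (if_open hψ) isOpen_Ioi
  have hu₁ : u ∈ U₁ := ⟨hu, hreg⟩
  have hψ₁ : IsParam M ψ U₁ := if_mono hψ hU₁o inter_subset_left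
  obtain ⟨τ, r, hL⟩ := rm_orth_chart (if_metC hh hψ₁).toRm (hq ψ U₁ hψ₁) hu₁ hreg
  have hbox : IsOpen (rm_box d ((q ∘ ψ) u) r) := rm_box_open _ _
  have hcm : ∀ w ∈ rm_box d ((q ∘ ψ) u) r, cm h (ψ ∘ τ) w = rm_pull τ (cm h ψ) w := fun w hw =>
    rm_cm_comp h (if_differentiableAt hψ₁ (hL.pull.mapsTo hw))
      ((hL.pull.contDiffAt hw).differentiableAt (by simp))
  have hpar : IsParam M (ψ ∘ τ) (rm_box d ((q ∘ ψ) u) r) :=
    if_comp hψ₁ hbox hL.pull.smooth hL.inj hL.pull.inj hL.pull.mapsTo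
  refine ⟨U₁, τ, r, hψ₁, fun y hy => hy.2, ⟨hL.pos, hpar, ?_, fun w hw => hL.lvl w hw,
    fun w hw a => ?_⟩, ⟨if_metC hh hpar, if_metC hh hψ₁, hL.pull.smooth, hL.pull.mapsTo,
      hL.pull.inj, fun w hw i j => ?_⟩, hL.base⟩
  · show ψ (τ (rm_J ((q ∘ ψ) u) 0)) = ψ u
    rw [hL.base]
  · rw [hcm w hw]
    exact hL.orth w hw a
  · rw [hcm w hw]
    rfl

section ident

variable {U₁ : Set (E (d + 1))} {τ : E (d + 1) → E (d + 1)} {r : ℝ}

theorem RglLapse.mem (H : RglLapse M h q ψ u U₁ τ r) :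
    rm_J (q (ψ u)) (0 : E d) ∈ rm_box d (q (ψ u)) r := by
  refine ⟨by rw [rm_J_zero, sub_self, abs_zero]; exact H.lapse.pos, ?_⟩
  rw [rm_tl_J, norm_zero]; exact H.lapse.pos

theorem RglLapse.q_ev (H : RglLapse M h q ψ u U₁ τ r) :
    rm_q0 d =ᶠ[𝓝 (rm_J (q (ψ u)) (0 : E d))] (q ∘ ψ) ∘ τ :=
  Filter.eventuallyEq_of_mem ((rm_box_open _ _).mem_nhds H.mem) fun w hw => (H.lapse.lvl w hw).symm

theorem RglLapse.ip (H : RglLapse M h q ψ u U₁ τ r) (hM : IsMfd (d + 1) M)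
    (hh : IsMetricOn (d + 1) M h) (hq : SmoothAlong (d + 1) M q) (hf : SmoothAlong (d + 1) M f)
    (hk : SmoothAlong (d + 1) M k) :
    gradIp d (rm_Lv M q (q (ψ u))) h f k (ψ u) =
      rglIpC (cm h ψ) (q ∘ ψ) (f ∘ ψ) (k ∘ ψ) u := by
  have hw := H.mem
  have h1 := rm_slice_ip (F := (f ∘ ψ) ∘ τ) (K := (k ∘ ψ) ∘ τ) hM hh hf hk H.lapse hw
    (fun _ _ => rfl) (fun _ _ => rfl)
  rw [rm_J_zero, H.lapse.base] at h1
  rw [h1, ← rgl_orth_Ip (F := (f ∘ ψ) ∘ τ) (K := (k ∘ ψ) ∘ τ) (H.lapse.met hh) H.lapse.orth hw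
    (hf _ _ H.lapse.par) (hk _ _ H.lapse.par), (rgl_ev_Ip H.q_ev EventuallyEq.rfl EventuallyEq.rfl).self_of_nhds,
    rgl_pull_Ip H.pull (hq _ _ H.par₁) (hf _ _ H.par₁) (hk _ _ H.par₁) hw, H.base]

theorem RglLapse.lap (H : RglLapse M h q ψ u U₁ τ r) (hM : IsMfd (d + 1) M)
    (hh : IsMetricOn (d + 1) M h) (hq : SmoothAlong (d + 1) M q)
    (hf : SmoothAlong (d + 1) M f) :
    lap d (rm_Lv M q (q (ψ u))) h f (ψ u) = rglLapC (cm h ψ) (q ∘ ψ) (f ∘ ψ) u := by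
  have hw := H.mem
  have h1 := rm_slice_lap (F := (f ∘ ψ) ∘ τ) hM hh hf H.lapse hw (fun _ _ => rfl)
  rw [rm_J_zero, H.lapse.base] at h1
  rw [h1, ← rgl_orth_Lap (F := (f ∘ ψ) ∘ τ) (H.lapse.met hh) H.lapse.orth hw
    (hf _ _ H.lapse.par),
    (rgl_ev_Lap H.q_ev EventuallyEq.rfl).self_of_nhds,
    rgl_pull_Lap H.pull (hq _ _ H.par₁) H.reg (hf _ _ H.par₁) hw, H.base]

theorem RglLapse.scal (H : RglLapse M h q ψ u U₁ τ r) (hM : IsMfd (d + 1) M)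
    (hh : IsMetricOn (d + 1) M h) (hq : SmoothAlong (d + 1) M q) :
    scal d (rm_Lv M q (q (ψ u))) h (ψ u) = rglScalC (cm h ψ) (q ∘ ψ) u := by
  have hw := H.mem
  have h1 := if_scal_eq (rm_sub_metric (d := d) (rm_Lv_sub M q ((rm_J (q (ψ u)) (0 : E d)) 0)) hM hh)
    (H.lapse.slice' hw) (H.lapse.tl_mem hw)
  rw [rm_J_tl, rm_scalar_congr (H.lapse.slice_cm' hw)] at h1
  rw [rm_J_zero, H.lapse.base] at h1
  have h2 : scalarCoord (rm_sl (cm h (ψ ∘ τ)) ((rm_J (q (ψ u)) (0 : E d)) 0))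
      (rm_tl d (rm_J (q (ψ u)) (0 : E d))) = rm_scalS (cm h (ψ ∘ τ)) (rm_J (q (ψ u)) 0) := rfl
  rw [rm_J_zero] at h2
  rw [h1, h2, ← rgl_orth_Scal (H.lapse.met hh) H.lapse.orth hw,
    (rgl_ev_Scal H.q_ev).self_of_nhds, rgl_pull_Scal H.pull (hq _ _ H.par₁) H.reg hw, H.base]

end ident

/-! ## the identities; `q`, `f` smooth on an open piece -/

theorem rm_Lv_inter (M : Set V) (q : V → ℝ) (c : ℝ) (O : Set V) :
    rm_Lv (M ∩ O) q c = rm_Lv M q c ∩ O := by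
  ext x
  simp only [rm_Lv, mem_ofPred_eq, mem_inter_iff]
  tauto

variable {O : Set V}

/-- `⟨df,dk⟩` on the level set of `q` through `ψ u`. -/
theorem rgl_ip (hM : IsMfd (d + 1) M) (hh : IsMetricOn (d + 1) M h) (hO : IsOpen O)
    (hq : SmoothAlong (d + 1) (M ∩ O) q) (hf : SmoothAlong (d + 1) (M ∩ O) f)
    (hk : SmoothAlong (d + 1) (M ∩ O) k) (hψ : IsParam M ψ U) (hu : u ∈ U) (hx : ψ u ∈ O)
    (hreg : 0 < gradSqC (cm h ψ) (q ∘ ψ) u) :
    gradIp d (rm_Lv M q (q (ψ u))) h f k (ψ u) =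
      rglIpC (cm h ψ) (q ∘ ψ) (f ∘ ψ) (k ∘ ψ) u := by
  have hh' := if_isMetricOn_inter hh hO
  obtain ⟨U₁, τ, r, H⟩ := rgl_exists_lapse hh' hq (if_param_restrict hO hψ) ⟨hu, hx⟩ hreg
  rw [← if_gradIp_inter' h f k hO hx, ← rm_Lv_inter]
  exact H.ip (if_mfd_inter hM hO) hh' hq hf hk

/-- the Laplacian of the level set of `q` through `ψ u`. -/
theorem rgl_lap (hM : IsMfd (d + 1) M) (hh : IsMetricOn (d + 1) M h) (hO : IsOpen O)
    (hq : SmoothAlong (d + 1) (M ∩ O) q) (hf : SmoothAlong (d + 1) (M ∩ O) f)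
    (hψ : IsParam M ψ U) (hu : u ∈ U) (hx : ψ u ∈ O)
    (hreg : 0 < gradSqC (cm h ψ) (q ∘ ψ) u) :
    lap d (rm_Lv M q (q (ψ u))) h f (ψ u) = rglLapC (cm h ψ) (q ∘ ψ) (f ∘ ψ) u := by
  have hh' := if_isMetricOn_inter hh hO
  obtain ⟨U₁, τ, r, H⟩ := rgl_exists_lapse hh' hq (if_param_restrict hO hψ) ⟨hu, hx⟩ hreg
  rw [← if_lap_inter' h f hO hx, ← rm_Lv_inter]
  exact H.lap (if_mfd_inter hM hO) hh' hq hf

/-- the scalar curvature of the level set of `q` through `ψ u`. -/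
theorem rgl_scal (hM : IsMfd (d + 1) M) (hh : IsMetricOn (d + 1) M h) (hO : IsOpen O)
    (hq : SmoothAlong (d + 1) (M ∩ O) q) (hψ : IsParam M ψ U) (hu : u ∈ U) (hx : ψ u ∈ O)
    (hreg : 0 < gradSqC (cm h ψ) (q ∘ ψ) u) :
    scal d (rm_Lv M q (q (ψ u))) h (ψ u) = rglScalC (cm h ψ) (q ∘ ψ) u := by
  have hh' := if_isMetricOn_inter hh hO
  obtain ⟨U₁, τ, r, H⟩ := rgl_exists_lapse hh' hq (if_param_restrict hO hψ) ⟨hu, hx⟩ hreg
  rw [← if_scal_inter' h hO hx, ← rm_Lv_inter]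
  exact H.scal (if_mfd_inter hM hO) hh' hq

end Claimed.Agent.R315
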