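import Claimed.Agent.R315.Rg.Ident
import Claimed.Agent.R315.Rg.Lvl
import Claimed.Agent.Lib.Gmt.SmC

/-!
# Row 315, package Rg-A, part 1: smooth convergence on Core manifolds and the SOFT PERTURBATION LEMMA (RULING 9, (3))

`CtConvAt d M a a' x'` : the functions `a k` converge to `a'` in `C^∞` near the point `x'` of the Core manifold `M` (in all parametrisations of an
open piece `M ∩ O`, `x' ∈ O`; the piece is existential).  This is the shape of the last clause of `CtSeq.reg_conv` (`Ct/RegI.lean`).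

ROUTE (helper48, with helper83's chart calculus; NO slices, NO inverse maps, NO `|Hess|²`).
* BRIDGE: for a parametrisation `(ψ,U)` of `M`, `u' ∈ U`:  `CtConvAt d M a a' (ψ u') ↔ RgsAt u' (a · ∘ ψ) (a' ∘ ψ)` (`CtConvAt.rgs`, `ctConvAt_of_rgs`, both proved).
  `RgsAt` (`Rg/Smc.lean`) = `C^∞` convergence on one ball; closed under the whole calculus; all coordinate operators are continuous for it (`Rg/SmcOp.lean`, `Rg/LvlC.lean`, proved).
* CALCULUS of `CtConvAt` (`add`, `mul`, `comp`, `gradIp`, `wlap`, `tendsto`, ...): PROVED here from the bridge.  All lemmas need `x' ∈ M`.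
* SOFT LEMMA: the operators of the level set `rm_Lv M q (q x)` are the universal chart expressions `rglIpC`, `rglLapC`, `rglScalC` of `(cm h ψ, q ∘ ψ, f ∘ ψ)` in ANY parametrisation of `M` (`Rg/Lvl.lean`, proved from the leaves `LvlA`, `LvlB`);
  `Scal_L = Scal - Ric(ν,ν) + H² + νH + Δ_L v / v`.  `rg_soft_ip`, `rg_soft_lap`, `rg_soft_scal`, `rg_soft_wlap`, `rg_soft_Dsc`, `rg_soft_L` : PROVED here.  The drift may move (`rg_soft_wlap'`, `rg_soft_Dsc'`).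

THIS FILE HAS NO SORRY.  Open leaves below it: `Rg/Smc.lean` (4 packages), `Rg/LvlA.lean`, `Rg/LvlB.lean`, `Lib/Gmt/SmC.lean`.
-/

set_option autoImplicit false
set_option linter.unusedSectionVars false
open scoped ContDiff Topology
open Claims.C0499 Set Filter

namespace Claimed.Agent.R315

variable {V : Type} [NormedAddCommGroup V] [NormedSpace ℝ V]

/-! ### definition -/

/-- `C^∞` convergence near `x'` along `M`. -/
def CtConvAt (d : ℕ) (M : Set V) (a : ℕ → V → ℝ) (a' : V → ℝ) (x' : V) : Prop :=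
  ∃ O : Set V, IsOpen O ∧ x' ∈ O ∧ (∀ᶠ k in atTop, SmoothAlong d (M ∩ O) (a k)) ∧
    SmoothAlong d (M ∩ O) a' ∧
    ∀ (ψ : E d → V) (U : Set (E d)), IsParam (M ∩ O) ψ U →
      Gmt.GmtSmoothConv U (fun k => a k ∘ ψ) (a' ∘ ψ)

variable {d : ℕ} {M : Set V} {h : Ten V} {t : V → ℝ}

/-! ### the bridge to the chart calculus -/

section bridge

variable {a b : ℕ → V → ℝ} {a' b' : V → ℝ} {x' : V} {ψ : E d → V} {U : Set (E d)} {u' : E d}

theorem rgs_piece_mono {f : V → ℝ} {O O' : Set V} (hO' : IsOpen O') (hsub : O' ⊆ O)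
    (hf : SmoothAlong d (M ∩ O) f) : SmoothAlong d (M ∩ O') f := by
  have e : M ∩ O' = (M ∩ O) ∩ O' := by
    rw [inter_assoc, inter_eq_self_of_subset_right hsub]
  rw [e]
  exact if_smoothAlong_inter hf hO'

/-- the functions are smooth on one open piece. -/
theorem CtConvAt.piece (ha : CtConvAt d M a a' x') : ∃ O : Set V, IsOpen O ∧ x' ∈ O ∧
    (∀ᶠ k in atTop, SmoothAlong d (M ∩ O) (a k)) ∧ SmoothAlong d (M ∩ O) a' := by
  obtain ⟨O, h1, h2, h3, h4, -⟩ := ha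
  exact ⟨O, h1, h2, h3, h4⟩

/-- convergence in a parametrisation of `M`. -/
theorem CtConvAt.rgs (ha : CtConvAt d M a a' (ψ u')) (hψ : IsParam M ψ U) (hu' : u' ∈ U) :
    RgsAt u' (fun k => a k ∘ ψ) (a' ∘ ψ) := by
  obtain ⟨O, hO, hx, hs, hs', hc⟩ := ha
  have hp := if_param_restrict hO hψ
  exact RgsAt.of_gmt (if_open hp) ⟨hu', hx⟩ (hs.mono fun k hk => hk ψ _ hp) (hs' ψ _ hp)
    (hc ψ _ hp)

/-- it is enough to know the convergence in one parametrisation (transition maps + `Gmt.GmtSmoothConv.comp_right`). -/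
theorem ctConvAt_of_rgs [FiniteDimensional ℝ V] (hψ : IsParam M ψ U) (hu' : u' ∈ U)
    (h : RgsAt u' (fun k => a k ∘ ψ) (a' ∘ ψ)) : CtConvAt d M a a' (ψ u') := by
  obtain ⟨r, hr, hs, hs', hc⟩ := h
  obtain ⟨ρ, hρ, hρU⟩ := Metric.isOpen_iff.1 (if_open hψ) u' hu'
  set r₁ := min r ρ with hr₁
  have hr₁0 : 0 < r₁ := lt_min hr hρ
  have hbr : Metric.ball u' r₁ ⊆ Metric.ball u' r := Metric.ball_subset_ball (min_le_left _ _)
  have hbU : Metric.ball u' r₁ ⊆ U := (Metric.ball_subset_ball (min_le_right _ _)).trans hρU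
  have hb : IsParam M ψ (Metric.ball u' r₁) := if_mono hψ Metric.isOpen_ball hbU
  obtain ⟨N, hN, hNe⟩ := if_image hb
  have hxN : ψ u' ∈ M ∩ N := hNe ▸ mem_image_of_mem ψ (Metric.mem_ball_self hr₁0)
  -- the transition maps
  have key : ∀ (χ : E d → V) (W : Set (E d)), IsParam (M ∩ N) χ W →
      ContDiffOn ℝ ∞ (if_tr ψ (Metric.ball u' r₁) χ) W ∧
      MapsTo (if_tr ψ (Metric.ball u' r₁) χ) W (Metric.ball u' r₁) ∧
      ∀ c : V → ℝ, EqOn ((c ∘ ψ) ∘ if_tr ψ (Metric.ball u' r₁) χ) (c ∘ χ) W := by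
    intro χ W hχ
    have hχM : IsParam M χ W := if_param_of_inter hN hχ
    have hdom : if_trDom χ W ψ (Metric.ball u' r₁) = W := by
      refine Subset.antisymm if_trDom_subset fun w hw => ⟨hw, ?_⟩
      rw [mem_preimage, hNe]
      exact if_mem hχ hw
    refine ⟨?_, ?_, ?_⟩
    · have := if_tr_contDiffOn hχM hb
      rwa [hdom] at this
    · intro w hw
      exact if_tr_mem (hdom.symm ▸ hw : w ∈ if_trDom χ W ψ (Metric.ball u' r₁))
    · intro c w hw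
      simp only [Function.comp_apply]
      rw [if_tr_spec (hdom.symm ▸ hw : w ∈ if_trDom χ W ψ (Metric.ball u' r₁))]
  refine ⟨N, hN, hxN.2, hs.mono fun k hk χ W hχ => ?_, fun χ W hχ => ?_, fun χ W hχ => ?_⟩
  · obtain ⟨k1, k2, k3⟩ := key χ W hχ
    exact (((hk.mono hbr).comp k1 k2).congr fun w hw => (k3 (a k) hw).symm)
  · obtain ⟨k1, k2, k3⟩ := key χ W hχ
    exact (((hs'.mono hbr).comp k1 k2).congr fun w hw => (k3 a' hw).symm)
  · obtain ⟨k1, k2, k3⟩ := key χ W hχ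
    have hg : Gmt.GmtSmoothConv (Metric.ball u' r₁) (fun k => a k ∘ ψ) (a' ∘ ψ) :=
      fun K _ hKb n => (hc n).mono (hKb.trans hbr)
    have h2 := hg.comp_right Metric.isOpen_ball (if_open hχ)
      (hs.mono fun k hk => hk.mono hbr) (hs'.mono hbr) k1 k2
    exact Gmt.gmtSmoothConv_iff.2 fun n => (Gmt.gmtSmoothConv_iff.1 h2 n).congr (if_open hχ)
      (fun k => k3 (a k)) (k3 a')

/-- it is enough to know the convergence in one parametrisation around `x'`. -/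
theorem ctConvAt_of_param [FiniteDimensional ℝ V] (hψ : IsParam M ψ U) (hu' : u' ∈ U)
    (hs : ∀ᶠ k in atTop, ContDiffOn ℝ ∞ (a k ∘ ψ) U) (hs' : ContDiffOn ℝ ∞ (a' ∘ ψ) U)
    (hc : Gmt.GmtSmoothConv U (fun k => a k ∘ ψ) (a' ∘ ψ)) : CtConvAt d M a a' (ψ u') :=
  ctConvAt_of_rgs hψ hu' (RgsAt.of_gmt (if_open hψ) hu' hs hs' hc)

/-- a convergent sequence of `M` read in a chart at the limit. -/
theorem rgs_seq_pull (hψ : IsParam M ψ U) (hu' : u' ∈ U) {x : ℕ → V}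
    (hx : ∀ᶠ k in atTop, x k ∈ M) (hlim : Tendsto x atTop (𝓝 (ψ u'))) :
    ∃ u : ℕ → E d, (∀ᶠ k in atTop, u k ∈ U ∧ ψ (u k) = x k) ∧ Tendsto u atTop (𝓝 u') := by
  have h1 : Tendsto x atTop (𝓝[M] (ψ u')) := tendsto_nhdsWithin_iff.2 ⟨hlim, hx⟩
  have h2 : ∀ᶠ k in atTop, x k ∈ ψ '' U := h1 (if_image_mem_nhdsWithin hψ hu')
  refine ⟨fun k => Function.invFunOn ψ U (x k), h2.mono fun k hk => ⟨if_inv_mem hk, if_rightInv hk⟩,
    ?_⟩
  have h3 : Tendsto x atTop (𝓝[ψ '' U] (ψ u')) := tendsto_nhdsWithin_iff.2 ⟨hlim, h2⟩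
  have h4 := ((if_contInv hψ) (ψ u') (mem_image_of_mem ψ hu')).tendsto.comp h3
  rwa [if_leftInv hψ hu'] at h4

end bridge

variable [FiniteDimensional ℝ V]

/-! ### calculus -/

section cal

variable {a b : ℕ → V → ℝ} {a' b' : V → ℝ} {x' : V}

theorem ctConvAt_const (hM : IsMfd d M) {f : V → ℝ} (hf : SmoothAlong d M f) (hx' : x' ∈ M) :
    CtConvAt d M (fun _ => f) f x' := by
  obtain ⟨ψ, U, hψ, u', hu', rfl⟩ := hM x' hx'
  exact ctConvAt_of_rgs hψ hu' (RgsAt.fixed ((if_open hψ).mem_nhds hu') (hf ψ U hψ))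

/-- locality. -/
theorem CtConvAt.of_inter {O : Set V} (hO : IsOpen O) (hx' : x' ∈ O)
    (h : CtConvAt d (M ∩ O) a a' x') : CtConvAt d M a a' x' := by
  obtain ⟨O₁, h1, h2, h3, h4, h5⟩ := h
  refine ⟨O ∩ O₁, hO.inter h1, ⟨hx', h2⟩, ?_, ?_, ?_⟩
  · rw [← inter_assoc]; exact h3
  · rw [← inter_assoc]; exact h4
  · rw [← inter_assoc]; exact h5

theorem CtConvAt.inter (hM : IsMfd d M) {O : Set V} (hO : IsOpen O) (hx' : x' ∈ M ∩ O)
    (h : CtConvAt d M a a' x') : CtConvAt d (M ∩ O) a a' x' := by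
  obtain ⟨ψ, U, hψ, u', hu', rfl⟩ := hM x' hx'.1
  exact ctConvAt_of_rgs (if_param_restrict hO hψ) ⟨hu', hx'.2⟩ (h.rgs hψ hu')

theorem CtConvAt.congr (hM : IsMfd d M) (hx' : x' ∈ M) (h : CtConvAt d M a a' x') {O : Set V}
    (hO : IsOpen O) (hxO : x' ∈ O) (hab : ∀ᶠ k in atTop, ∀ y ∈ M ∩ O, a k y = b k y)
    (hab' : ∀ y ∈ M ∩ O, a' y = b' y) : CtConvAt d M b b' x' := by
  obtain ⟨ψ, U, hψ, u', hu', rfl⟩ := hM x' hx'
  have hp := if_param_restrict hO hψ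
  refine ctConvAt_of_rgs hψ hu' ((h.rgs hψ hu').congr ((if_open hp).mem_nhds ⟨hu', hxO⟩)
    (hab.mono fun k hk w hw => (hk _ (if_mem hp hw)).symm) fun w hw => (hab' _ (if_mem hp hw)).symm)

theorem CtConvAt.add (hM : IsMfd d M) (hx' : x' ∈ M) (ha : CtConvAt d M a a' x')
    (hb : CtConvAt d M b b' x') :
    CtConvAt d M (fun k y => a k y + b k y) (fun y => a' y + b' y) x' := by
  obtain ⟨ψ, U, hψ, u', hu', rfl⟩ := hM x' hx'
  exact ctConvAt_of_rgs hψ hu' ((ha.rgs hψ hu').add (hb.rgs hψ hu'))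

theorem CtConvAt.sub (hM : IsMfd d M) (hx' : x' ∈ M) (ha : CtConvAt d M a a' x')
    (hb : CtConvAt d M b b' x') :
    CtConvAt d M (fun k y => a k y - b k y) (fun y => a' y - b' y) x' := by
  obtain ⟨ψ, U, hψ, u', hu', rfl⟩ := hM x' hx'
  exact ctConvAt_of_rgs hψ hu' ((ha.rgs hψ hu').sub (hb.rgs hψ hu'))

theorem CtConvAt.mul (hM : IsMfd d M) (hx' : x' ∈ M) (ha : CtConvAt d M a a' x')
    (hb : CtConvAt d M b b' x') :
    CtConvAt d M (fun k y => a k y * b k y) (fun y => a' y * b' y) x' := by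
  obtain ⟨ψ, U, hψ, u', hu', rfl⟩ := hM x' hx'
  exact ctConvAt_of_rgs hψ hu' ((ha.rgs hψ hu').mul (hb.rgs hψ hu'))

theorem CtConvAt.div (hM : IsMfd d M) (hx' : x' ∈ M) (ha : CtConvAt d M a a' x')
    (hb : CtConvAt d M b b' x') (h0 : b' x' ≠ 0) :
    CtConvAt d M (fun k y => a k y / b k y) (fun y => a' y / b' y) x' := by
  obtain ⟨ψ, U, hψ, u', hu', rfl⟩ := hM x' hx'
  exact ctConvAt_of_rgs hψ hu' ((ha.rgs hψ hu').div (hb.rgs hψ hu') h0)

/-- composition with a real function which is smooth near `a' x'` (NB `ContDiffAt ℝ ∞` at the point would not be enough). -/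
theorem CtConvAt.comp (hM : IsMfd d M) (hx' : x' ∈ M) (ha : CtConvAt d M a a' x') {Φ : ℝ → ℝ}
    {Ω : Set ℝ} (hΩ : IsOpen Ω) (hΦ : ContDiffOn ℝ ∞ Φ Ω) (hm : a' x' ∈ Ω) :
    CtConvAt d M (fun k y => Φ (a k y)) (fun y => Φ (a' y)) x' := by
  obtain ⟨ψ, U, hψ, u', hu', rfl⟩ := hM x' hx'
  exact ctConvAt_of_rgs hψ hu' ((ha.rgs hψ hu').comp_real hΩ hΦ hm)

/-- evaluation along a convergent sequence of points. -/
theorem CtConvAt.tendsto (hM : IsMfd d M) (ha : CtConvAt d M a a' x') (hx' : x' ∈ M) {x : ℕ → V}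
    (hx : ∀ᶠ k in atTop, x k ∈ M) (hlim : Tendsto x atTop (𝓝 x')) :
    Tendsto (fun k => a k (x k)) atTop (𝓝 (a' x')) := by
  obtain ⟨ψ, U, hψ, u', hu', rfl⟩ := hM x' hx'
  obtain ⟨u, hu, hul⟩ := rgs_seq_pull hψ hu' hx hlim
  refine ((ha.rgs hψ hu').eval hul).congr' (hu.mono fun k hk => ?_)
  simp only [Function.comp_apply, hk.2]

/-- the coordinate matrices of a fixed metric. -/
theorem rgs_cm (hh : IsMetricOn d M h) {ψ : E d → V} {U : Set (E d)} (hψ : IsParam M ψ U)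
    {u' : E d} (hu' : u' ∈ U) : RgsMat u' (fun _ => cm h ψ) (cm h ψ) := fun i j =>
  RgsAt.fixed (a' := fun w => cm h ψ w i j) ((if_open hψ).mem_nhds hu') ((hh ψ U hψ).1 i j)

/-- two sequences are smooth on a common piece. -/
theorem CtConvAt.piece₂ (ha : CtConvAt d M a a' x') (hb : CtConvAt d M b b' x') :
    ∃ O : Set V, IsOpen O ∧ x' ∈ O ∧
      (∀ᶠ k in atTop, SmoothAlong d (M ∩ O) (a k) ∧ SmoothAlong d (M ∩ O) (b k)) ∧
      SmoothAlong d (M ∩ O) a' ∧ SmoothAlong d (M ∩ O) b' := by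
  obtain ⟨O₁, h1, h2, h3, h4⟩ := ha.piece
  obtain ⟨O₂, k1, k2, k3, k4⟩ := hb.piece
  have ho := h1.inter k1
  refine ⟨O₁ ∩ O₂, ho, ⟨h2, k2⟩, ?_, rgs_piece_mono ho inter_subset_left h4,
    rgs_piece_mono ho inter_subset_right k4⟩
  filter_upwards [h3, k3] with k e1 e2
  exact ⟨rgs_piece_mono ho inter_subset_left e1, rgs_piece_mono ho inter_subset_right e2⟩

theorem CtConvAt.gradIp (hM : IsMfd d M) (hh : IsMetricOn d M h) (hx' : x' ∈ M)
    (ha : CtConvAt d M a a' x') (hb : CtConvAt d M b b' x') :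
    CtConvAt d M (fun k => gradIp d M h (a k) (b k)) (gradIp d M h a' b') x' := by
  obtain ⟨O, hO, hxO, hs, hsa, hsb⟩ := ha.piece₂ hb
  obtain ⟨ψ, U, hψ, u', hu', rfl⟩ := hM x' hx'
  have hp := if_param_restrict hO hψ
  have hhO := if_isMetricOn_inter hh hO
  refine ctConvAt_of_rgs hψ hu' ((rgs_gradIpC (rgs_cm hh hψ hu')
    ((hh ψ U hψ).2 u' hu').det_pos.ne' (ha.rgs hψ hu') (hb.rgs hψ hu')).congr
    ((if_open hp).mem_nhds ⟨hu', hxO⟩) (hs.mono fun k hk w hw => ?_) fun w hw => ?_)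
  · exact if_gradIp_eq' hO hhO hk.1 hk.2 hψ hw.1 hw.2
  · exact if_gradIp_eq' hO hhO hsa hsb hψ hw.1 hw.2

theorem CtConvAt.lap (hM : IsMfd d M) (hh : IsMetricOn d M h) (hx' : x' ∈ M)
    (ha : CtConvAt d M a a' x') :
    CtConvAt d M (fun k => lap d M h (a k)) (lap d M h a') x' := by
  obtain ⟨O, hO, hxO, hs, hsa⟩ := ha.piece
  obtain ⟨ψ, U, hψ, u', hu', rfl⟩ := hM x' hx'
  have hp := if_param_restrict hO hψ
  have hhO := if_isMetricOn_inter hh hO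
  refine ctConvAt_of_rgs hψ hu' ((rgs_lapC (rgs_cm hh hψ hu')
    ((hh ψ U hψ).2 u' hu').det_pos (ha.rgs hψ hu')).congr
    ((if_open hp).mem_nhds ⟨hu', hxO⟩) (hs.mono fun k hk w hw => ?_) fun w hw => ?_)
  · exact if_lap_eq' hO hhO hk hψ hw.1 hw.2
  · exact if_lap_eq' hO hhO hsa hψ hw.1 hw.2

theorem CtConvAt.wlap (hM : IsMfd d M) (hh : IsMetricOn d M h) (ht : SmoothAlong d M t)
    (hx' : x' ∈ M) (ha : CtConvAt d M a a' x') :
    CtConvAt d M (fun k => wlap d M h t (a k)) (wlap d M h t a') x' :=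
  (ha.lap hM hh hx').sub hM hx' ((ctConvAt_const hM ht hx').gradIp hM hh hx' ha)

end cal

/-! ### RG-SOFT: the soft perturbation lemma -/

section soft

variable {q f g τ W : ℕ → V → ℝ} {q' f' g' τ' W' : V → ℝ} {x : ℕ → V} {x' : V}

/-- the chart set-up of the soft lemma. -/
theorem rg_soft_setup (hM : IsMfd (d + 1) M) (hh : IsMetricOn (d + 1) M h)
    (hq : CtConvAt (d + 1) M q q' x') (hx' : x' ∈ M) (hreg : 0 < gradSq (d + 1) M h q' x')
    (hx : ∀ᶠ k in atTop, x k ∈ M) (hlim : Tendsto x atTop (𝓝 x')) :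
    ∃ (ψ : E (d + 1) → V) (U : Set (E (d + 1))) (u' : E (d + 1)) (u : ℕ → E (d + 1)),
      IsParam M ψ U ∧ u' ∈ U ∧ ψ u' = x' ∧ (∀ᶠ k in atTop, u k ∈ U ∧ ψ (u k) = x k) ∧
      Tendsto u atTop (𝓝 u') ∧ RgsMat u' (fun _ => cm h ψ) (cm h ψ) ∧ 0 < (cm h ψ u').det ∧
      RgsAt u' (fun k => q k ∘ ψ) (q' ∘ ψ) ∧ 0 < gradSqC (cm h ψ) (q' ∘ ψ) u' ∧
      ∀ᶠ k in atTop, 0 < gradSqC (cm h ψ) (q k ∘ ψ) (u k) := by
  obtain ⟨O, hO, hxO, -, hsq⟩ := hq.piece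
  obtain ⟨ψ, U, hψ, u', hu', rfl⟩ := hM x' hx'
  obtain ⟨u, hu, hul⟩ := rgs_seq_pull hψ hu' hx hlim
  have hA := rgs_cm hh hψ hu'
  have hdet := ((hh ψ U hψ).2 u' hu').det_pos
  have hqr := hq.rgs hψ hu'
  have hreg' : 0 < gradSqC (cm h ψ) (q' ∘ ψ) u' := by
    rwa [if_gradSq_eq' hO (if_isMetricOn_inter hh hO) hsq hψ hu' hxO] at hreg
  obtain ⟨N, hN, -, hNk⟩ := (rgs_gradSqC hA hdet.ne' hqr).eventually_lt hreg'
  refine ⟨ψ, U, u', u, hψ, hu', rfl, hu, hul, hA, hdet, hqr, hreg', ?_⟩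
  filter_upwards [hNk, hul hN] with k h1 h2
  exact h1 _ h2

theorem rg_soft_ip (hM : IsMfd (d + 1) M) (hh : IsMetricOn (d + 1) M h)
    (hq : CtConvAt (d + 1) M q q' x') (hf : CtConvAt (d + 1) M f f' x')
    (hg : CtConvAt (d + 1) M g g' x') (hx' : x' ∈ M) (hreg : 0 < gradSq (d + 1) M h q' x')
    (hx : ∀ᶠ k in atTop, x k ∈ M) (hlim : Tendsto x atTop (𝓝 x')) :
    Tendsto (fun k => gradIp d (rm_Lv M (q k) (q k (x k))) h (f k) (g k) (x k)) atTop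
      (𝓝 (gradIp d (rm_Lv M q' (q' x')) h f' g' x')) := by
  obtain ⟨ψ, U, u', u, hψ, hu', rfl, hu, hul, hA, hdet, hqr, hr', hrk⟩ :=
    rg_soft_setup hM hh hq hx' hreg hx hlim
  obtain ⟨O₁, a1, a2, a3, a4, a5⟩ := hq.piece₂ hf
  obtain ⟨O₂, b1, b2, b3, b4⟩ := hg.piece
  have hO := a1.inter b1
  have il : O₁ ∩ O₂ ⊆ O₁ := inter_subset_left
  have ir : O₁ ∩ O₂ ⊆ O₂ := inter_subset_right
  rw [rgl_ip hM hh hO (rgs_piece_mono hO il a4) (rgs_piece_mono hO il a5)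
    (rgs_piece_mono hO ir b4) hψ hu' ⟨a2, b2⟩ hr']
  refine ((rgs_rglIpC hA hdet.ne' hqr hr' (hf.rgs hψ hu') (hg.rgs hψ hu')).eval hul).congr' ?_
  filter_upwards [hu, hrk, a3, b3, hlim (hO.mem_nhds ⟨a2, b2⟩)] with k e1 e2 e3 e4 e5
  rw [mem_preimage, ← e1.2] at e5
  rw [← e1.2]
  exact (rgl_ip hM hh hO (rgs_piece_mono hO il e3.1) (rgs_piece_mono hO il e3.2)
    (rgs_piece_mono hO ir e4) hψ e1.1 e5 e2).symm

theorem rg_soft_lap (hM : IsMfd (d + 1) M) (hh : IsMetricOn (d + 1) M h)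
    (hq : CtConvAt (d + 1) M q q' x') (hf : CtConvAt (d + 1) M f f' x') (hx' : x' ∈ M)
    (hreg : 0 < gradSq (d + 1) M h q' x') (hx : ∀ᶠ k in atTop, x k ∈ M)
    (hlim : Tendsto x atTop (𝓝 x')) :
    Tendsto (fun k => lap d (rm_Lv M (q k) (q k (x k))) h (f k) (x k)) atTop
      (𝓝 (lap d (rm_Lv M q' (q' x')) h f' x')) := by
  obtain ⟨ψ, U, u', u, hψ, hu', rfl, hu, hul, hA, hdet, hqr, hr', hrk⟩ :=
    rg_soft_setup hM hh hq hx' hreg hx hlim
  obtain ⟨O, hO, a2, a3, a4, a5⟩ := hq.piece₂ hf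
  rw [rgl_lap hM hh hO a4 a5 hψ hu' a2 hr']
  refine ((rgs_rglLapC hA hdet hqr hr' (hf.rgs hψ hu')).eval hul).congr' ?_
  filter_upwards [hu, hrk, a3, hlim (hO.mem_nhds a2)] with k e1 e2 e3 e5
  rw [mem_preimage, ← e1.2] at e5
  rw [← e1.2]
  exact (rgl_lap hM hh hO e3.1 e3.2 hψ e1.1 e5 e2).symm

theorem rg_soft_scal (hM : IsMfd (d + 1) M) (hh : IsMetricOn (d + 1) M h)
    (hq : CtConvAt (d + 1) M q q' x') (hx' : x' ∈ M)
    (hreg : 0 < gradSq (d + 1) M h q' x') (hx : ∀ᶠ k in atTop, x k ∈ M)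
    (hlim : Tendsto x atTop (𝓝 x')) :
    Tendsto (fun k => scal d (rm_Lv M (q k) (q k (x k))) h (x k)) atTop
      (𝓝 (scal d (rm_Lv M q' (q' x')) h x')) := by
  obtain ⟨ψ, U, u', u, hψ, hu', rfl, hu, hul, hA, hdet, hqr, hr', hrk⟩ :=
    rg_soft_setup hM hh hq hx' hreg hx hlim
  obtain ⟨O, hO, a2, a3, a4⟩ := hq.piece
  rw [rgl_scal hM hh hO a4 hψ hu' a2 hr']
  refine ((rgs_rglScalC hA hdet hqr hr').eval hul).congr' ?_
  filter_upwards [hu, hrk, a3, hlim (hO.mem_nhds a2)] with k e1 e2 e3 e5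
  rw [mem_preimage, ← e1.2] at e5
  rw [← e1.2]
  exact (rgl_scal hM hh hO e3 hψ e1.1 e5 e2).symm

/-- moving drift. -/
theorem rg_soft_wlap' (hM : IsMfd (d + 1) M) (hh : IsMetricOn (d + 1) M h)
    (hτ : CtConvAt (d + 1) M τ τ' x') (hq : CtConvAt (d + 1) M q q' x')
    (hf : CtConvAt (d + 1) M f f' x') (hx' : x' ∈ M) (hreg : 0 < gradSq (d + 1) M h q' x')
    (hx : ∀ᶠ k in atTop, x k ∈ M) (hlim : Tendsto x atTop (𝓝 x')) :
    Tendsto (fun k => wlap d (rm_Lv M (q k) (q k (x k))) h (τ k) (f k) (x k)) atTop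
      (𝓝 (wlap d (rm_Lv M q' (q' x')) h τ' f' x')) :=
  (rg_soft_lap hM hh hq hf hx' hreg hx hlim).sub (rg_soft_ip hM hh hq hτ hf hx' hreg hx hlim)

theorem rg_soft_wlap (hM : IsMfd (d + 1) M) (hh : IsMetricOn (d + 1) M h)
    (ht : SmoothAlong (d + 1) M t) (hq : CtConvAt (d + 1) M q q' x')
    (hf : CtConvAt (d + 1) M f f' x') (hx' : x' ∈ M) (hreg : 0 < gradSq (d + 1) M h q' x')
    (hx : ∀ᶠ k in atTop, x k ∈ M) (hlim : Tendsto x atTop (𝓝 x')) :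
    Tendsto (fun k => wlap d (rm_Lv M (q k) (q k (x k))) h t (f k) (x k)) atTop
      (𝓝 (wlap d (rm_Lv M q' (q' x')) h t f' x')) :=
  rg_soft_wlap' hM hh (ctConvAt_const hM ht hx') hq hf hx' hreg hx hlim

/-- moving drift. -/
theorem rg_soft_Dsc' (hM : IsMfd (d + 1) M) (hh : IsMetricOn (d + 1) M h)
    (hτ : CtConvAt (d + 1) M τ τ' x') (hq : CtConvAt (d + 1) M q q' x') (hx' : x' ∈ M)
    (hreg : 0 < gradSq (d + 1) M h q' x') (hx : ∀ᶠ k in atTop, x k ∈ M)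
    (hlim : Tendsto x atTop (𝓝 x')) :
    Tendsto (fun k => Dsc d (rm_Lv M (q k) (q k (x k))) h (τ k) (x k)) atTop
      (𝓝 (Dsc d (rm_Lv M q' (q' x')) h τ' x')) :=
  ((rg_soft_scal hM hh hq hx' hreg hx hlim).add
    ((rg_soft_lap hM hh hq hτ hx' hreg hx hlim).const_mul 2)).sub
    (rg_soft_ip hM hh hq hτ hτ hx' hreg hx hlim)

theorem rg_soft_Dsc (hM : IsMfd (d + 1) M) (hh : IsMetricOn (d + 1) M h)
    (ht : SmoothAlong (d + 1) M t) (hq : CtConvAt (d + 1) M q q' x') (hx' : x' ∈ M)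
    (hreg : 0 < gradSq (d + 1) M h q' x') (hx : ∀ᶠ k in atTop, x k ∈ M)
    (hlim : Tendsto x atTop (𝓝 x')) :
    Tendsto (fun k => Dsc d (rm_Lv M (q k) (q k (x k))) h t (x k)) atTop
      (𝓝 (Dsc d (rm_Lv M q' (q' x')) h t x')) :=
  rg_soft_Dsc' hM hh (ctConvAt_const hM ht hx') hq hx' hreg hx hlim

/-- the operator `L = -C Δ_τ + W` on the moving level sets; only the VALUES of the potentials at the points have to converge. -/
theorem rg_soft_L (hM : IsMfd (d + 1) M) (hh : IsMetricOn (d + 1) M h)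
    (hτ : CtConvAt (d + 1) M τ τ' x') (hq : CtConvAt (d + 1) M q q' x')
    (hf : CtConvAt (d + 1) M f f' x') (hx' : x' ∈ M) (hreg : 0 < gradSq (d + 1) M h q' x')
    (hx : ∀ᶠ k in atTop, x k ∈ M) (hlim : Tendsto x atTop (𝓝 x')) (C : ℝ)
    (hW : Tendsto (fun k => W k (x k)) atTop (𝓝 (W' x'))) :
    Tendsto (fun k => rgL d (rm_Lv M (q k) (q k (x k))) h (τ k) C (W k) (f k) (x k)) atTop
      (𝓝 (rgL d (rm_Lv M q' (q' x')) h τ' C W' f' x')) :=
  ((rg_soft_wlap' hM hh hτ hq hf hx' hreg hx hlim).const_mul (-C)).add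
    (hW.mul (hf.tendsto hM hx' hx hlim))

end soft

end Claimed.Agent.R315
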