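import Claimed.Agent.R315.Rg.Dat

/-!
# Row 315, package Rg-D (BP-RG-INV, helper83): from the OUTPUT of the regularisation to the invariant of the next stage

Built on `Rg/Dat.lean` (helper209: `rgData`, `rgKap`, `rgVs`, `rgReq`, `RgSplit`, `rg_split_conf`).

`RgOut C P1 s' u w k h' c v` = everything that P Appendix E has to construct after the shielding stage `ShieldOK C P1`:
* an admissible cut `(u, w, k)` of the parent diagram (`IsCut`), `u > 0` on the positive core and `u < 0` on the negative core of the current label `j0`;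
* a compatible metric `h'` on the split diagram `splitE P1.E u w k` with `fst^* h ≤ h'` (for `h' = extTen h` both are automatic: `RgOut.of_ext`);
* a constant `0 ≤ c ≤ 4` and a compatible smooth `v > 0` on the split diagram with `-c Δ_θ v + (Dsc(h', θ) - V*) v ≥ 0` AT THE POINTS of the new required sets `rgReq`,
  `θ = dr ∘ fst`, `V* = rgVs`.   (This is literally the conclusion of `rg_super`, `Rg/Super.lean`.)

PROVED HERE (no sorry in this file):
* `rg_step_of_out` : `RgOut` ⟹ the conclusion of `rg_step_need` (`Pk/Chain.lean`), with `P' = rgData P1 u w k κ h' dr'`, `dr' = θ - (c/2) log v`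
  (`gs_Dsc_log`: `Dsc(θ - (c/2) log v) = Dsc(θ) - c Δ_θ v / v + (c - c²/4)|dv|²/v²`).
  Fields: `diag`, `Link` = `pk_split`; `Conf` = `rg_split_conf`; `proper` = `pk_complete`; `label` = `rg_label_data`; `passive`; `curv` = `rg_curv_of_super`.
* `rg_out_of_split` : `RgSplit` (GAP near the required sets of the FINAL split) ⟹ `∃ v, RgOut .. 3.99 v`  (`rg_super`).
So App E may end EITHER with `RgOut` (RULING 9: supersolutions are transferred) OR with `RgSplit` (forms are transferred).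
-/

set_option autoImplicit false
set_option linter.unusedSectionVars false
open scoped ContDiff Topology
open MeasureTheory Claims.C0499 Set

namespace Claimed.Agent.R315

variable {V W : Type} [NormedAddCommGroup V] [NormedSpace ℝ V] [NormedAddCommGroup W]
  [NormedSpace ℝ W] {ι : Type}

/-- **the output of the regularisation** (P Appendix E). -/
structure RgOut [Fintype ι] (C : ShCtx V W ι) (P1 : PData W ι C.B.J) (s' : ℝ) (u w : W → ℝ)
    (k : ℝ → ℝ) (h' : Ten (W × ℝ)) (c : ℝ) (v : W × ℝ → ℝ) : Prop where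
  cut : IsCut C.B.n C.F P1.E u w k
  up : ∀ α, ∀ z ∈ C.P.Up C.j0 ∩ P1.E α, 0 < u z
  un : ∀ α, ∀ z ∈ C.P.Un C.j0 ∩ P1.E α, u z < 0
  met : IsPMetric C.B.n C.F.ext (splitE P1.E u w k) h'
  le : ∀ α', MetLE (C.B.n - hits α') (splitE P1.E u w k α') (rgFst P1.h) h'
  c_nonneg : 0 ≤ c
  c_le : c ≤ 4
  v_sc : SC C.B.n C.F.ext (splitE P1.E u w k) v
  v_pos : ∀ z ∈ tot (splitE P1.E u w k), 0 < v z
  sup : ∀ α', ∀ z ∈ rgReq C.B.n P1 C.R u w k α',
    0 ≤ rgL (C.B.n - hits α') (splitE P1.E u w k α') h' (fun y => P1.dr y.1) c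
      (rgW C.B.n (splitE P1.E u w k) h' (fun y => P1.dr y.1) (rgVs P1 C.R C.s s') α') v z

/-! ### small lemmas on the new data -/

theorem rg_potSum_data {I : Type} (P : PData W ι I) (u w : W → ℝ) (k : ℝ → ℝ) (κ : ℝ)
    (h' : Ten (W × ℝ)) (dr' : W × ℝ → ℝ) (R : Set I) (z : W × ℝ) :
    (rgData P u w k κ h' dr').potSum R z = ∑' j, R.indicator (fun j => κ * P.pot j z.1) j := rfl

theorem rgVs_eq {I : Type} (P : PData W ι I) (R : Set I) (s s' : ℝ) (z : W × ℝ) :
    rgVs P R s s' z = pkL s' + pkB s' * (rgKap s s' * P.potSum R z.1) := by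
  have e : ∑' j, R.indicator (fun j => rgKap s s' * P.pot j z.1) j =
      rgKap s s' * ∑' j, R.indicator (fun j => P.pot j z.1) j := by
    rw [← tsum_mul_left]
    apply tsum_congr
    intro j
    by_cases hj : j ∈ R
    · simp only [Set.indicator_of_mem hj]
    · simp only [Set.indicator_of_notMem hj, mul_zero]
  unfold rgVs PData.potSum
  rw [e]

theorem rg_passive_data {I : Type} {P : PData W ι I} {u w : W → ℝ} {k : ℝ → ℝ} {κ : ℝ}
    {h' : Ten (W × ℝ)} {dr' : W × ℝ → ℝ} {pst : I → ℝ} {c : ℝ} {j : I} {z : W × ℝ}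
    (h : P.Passive pst c j z.1) : (rgData P u w k κ h' dr').Passive pst (κ * c) j z := by
  obtain ⟨h1, h2, h3, h4⟩ := h
  refine ⟨h1, h2, h3, ?_⟩
  show κ * P.pot j z.1 = κ * c * pst j
  rw [h4]; ring

theorem rgKap_ge {s s' : ℝ} (h : s < s') : 1 ≤ rgKap s s' := by
  unfold rgKap
  have : 0 < s' - s := sub_pos.2 h
  linarith

theorem PData.Cnt.rg_mono {I : Type} {P : PData W ι I} {R : Set I} {m m' : ℕ} {z : W}
    (h : P.Cnt R m z) (hm : m' ≤ m) : P.Cnt R m' z := by
  obtain ⟨s, h1, h2⟩ := h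
  exact ⟨s, h1, hm.trans h2⟩

/-- `fst^* h ≤ h ⊕ dτ²`. -/
theorem rg_metLE_ext (d : ℕ) (Z : Set (W × ℝ)) (h : Ten W) : MetLE d Z (rgFst h) (extTen h) := by
  intro ψ U _ u _
  have e : cm (extTen h) ψ u - cm (rgFst h) ψ u =
      Matrix.vecMulVec (fun i => (fderiv ℝ ψ u (eb i)).2) (fun i => (fderiv ℝ ψ u (eb i)).2) := by
    ext i j
    simp only [cm, Matrix.sub_apply, Matrix.of_apply, extTen_apply, rgFst_apply,
      Matrix.vecMulVec_apply]
    ring
  rw [e]
  have := Matrix.posSemidef_vecMulVec_self_star (fun i => (fderiv ℝ ψ u (eb i)).2)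
  simpa using this

/-- the new drift is smooth and compatible. -/
theorem rg_drift_sc [Fintype ι] {n : ℕ} {F : Frame V W ι} {E : Stat ι → Set W} {θ v : W → ℝ}
    (hθ : SC n F E θ) (hv : SC n F E v) (hpos : ∀ z ∈ tot E, 0 < v z) (c : ℝ) :
    SC n F E (fun z => θ z - c * Real.log (v z)) := by
  refine ⟨fun α => gs_sm_sub (hθ.1 α) (gs_sm_smul c (gs_sm_log (hv.1 α)
    fun x hx => hpos x (mem_tot.2 ⟨α, hx⟩))), fun i K hK => ?_⟩
  obtain ⟨R1, hR1⟩ := hθ.2 i K hK
  obtain ⟨R2, hR2⟩ := hv.2 i K hK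
  refine ⟨max R1 R2, fun z hz hq hlt => ?_⟩
  show θ (F.drop i z) - c * Real.log (v (F.drop i z)) = θ z - c * Real.log (v z)
  rw [hR1 z hz hq (lt_of_le_of_lt (le_max_left _ _) hlt),
    hR2 z hz hq (lt_of_le_of_lt (le_max_right _ _) hlt)]

/-- **the curvature inequality from the supersolution** (`0 ≤ c ≤ 4`). -/
theorem rg_curv_of_super [FiniteDimensional ℝ W] {d : ℕ} {X : Set W} {h : Ten W} {θ v : W → ℝ}
    (hX : IsMfd d X) (hh : IsMetricOn d X h) (hθ : SmoothAlong d X θ) (hv : SmoothAlong d X v)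
    (hpos : ∀ y ∈ X, 0 < v y) {x : W} (hx : x ∈ X) {c b : ℝ} (hc0 : 0 ≤ c) (hc4 : c ≤ 4)
    (hs : 0 ≤ rgL d X h θ c (fun y => Dsc d X h θ y - b) v x) :
    b ≤ Dsc d X h (fun y => θ y - c / 2 * Real.log (v y)) x := by
  rw [gs_Dsc_log hX hh hθ hv hpos (c / 2) hx]
  unfold rgL at hs
  have hvx := hpos x hx
  have hsq : 0 ≤ gradSq d X h v x := gs_sq_nonneg hX hh hv hx
  have e : 0 ≤ (2 * (c / 2) - (c / 2) ^ 2) * gradSq d X h v x / v x ^ 2 := by
    have : 0 ≤ 2 * (c / 2) - (c / 2) ^ 2 := by nlinarith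
    positivity
  have h1 : 2 * (c / 2) * wlap d X h θ v x / v x ≤ Dsc d X h θ x - b := by
    rw [div_le_iff₀ hvx]
    linarith
  linarith

/-! ### the labels -/

/-- conditions on a remaining label pass to the new stage (metric `h'` with `fst^* h ≤ h'`). -/
theorem rg_label_data [Fintype ι] [FiniteDimensional ℝ V] [FiniteDimensional ℝ W] {B : Base V}
    {F : Frame V W ι} {u w : W → ℝ} {k : ℝ → ℝ} {P : PData W ι B.J} {a a' : ℝ} {j : B.J}
    (hD : IsDiag B.n B.M F P.E) (hC : IsCut B.n F P.E u w k) (hm : IsPMetric B.n F P.E P.h)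
    {h' : Ten (W × ℝ)} (hm' : IsPMetric B.n F.ext (splitE P.E u w k) h')
    (hle : ∀ α', MetLE (B.n - hits α') (splitE P.E u w k α') (rgFst P.h) h')
    (hL : LabelOk B F P a j) (ha0 : 0 ≤ a) (ha : a ≤ a') (hp : 0 < B.pst j) {κ : ℝ} (hκ : 1 ≤ κ)
    (dr' : W × ℝ → ℝ) : LabelOk B F.ext (rgData P u w k κ h' dr') a' j where
  mu_cc := hL.mu_cc.split
  slope := by
    intro α' z hz h1 h2
    have hz1 : z.1 ∈ P.E (fun i => α' (some i)) := hz.1
    have hpot : 0 < P.pot j z.1 := lt_of_lt_of_le hp (hL.pot_ge _ (mem_tot.2 ⟨_, hz1⟩))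
    have hs := hL.slope _ z.1 hz1 h1 h2
    have hc0 : 0 ≤ (a * (P.mu j z.1).toReal ^ 2 + P.pot j z.1) / 2 := by positivity
    have := rg_slope_fst (hD.mfd _) ((pk_split_diag hD hC).mfd α') (fun _ hy => hy.1) (hm.met _)
      (hm'.met α') (hle α') hz hc0 hs
    refine this.mono ?_
    show (a * (P.mu j z.1).toReal ^ 2 + P.pot j z.1) / 2 ≤
      (a' * (P.mu j z.1).toReal ^ 2 + κ * P.pot j z.1) / 2
    have h3 : a * (P.mu j z.1).toReal ^ 2 ≤ a' * (P.mu j z.1).toReal ^ 2 :=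
      mul_le_mul_of_nonneg_right ha (by positivity)
    have h4 : P.pot j z.1 ≤ κ * P.pot j z.1 := le_mul_of_one_le_left hpot.le hκ
    linarith
  pot_sc := by
    have h1 := hL.pot_sc.split (u := u) (w := w) (k := k) hD
    refine ⟨fun α' ψ U hψ => ?_, fun o K hK => ?_⟩
    · exact contDiffOn_const.mul (h1.1 α' ψ U hψ)
    · obtain ⟨R, hR⟩ := h1.2 o K hK
      refine ⟨R, fun z hz hq hlt => ?_⟩
      show κ * P.pot j (F.ext.drop o z).1 = κ * P.pot j z.1
      have e : P.pot j (F.ext.drop o z).1 = P.pot j z.1 := hR z hz hq hlt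
      rw [e]
  pot_ge := by
    intro z hz
    have hz1 : z.1 ∈ tot P.E := fst_mem_tot hz
    have h1 := hL.pot_ge _ hz1
    have h4 : P.pot j z.1 ≤ κ * P.pot j z.1 := le_mul_of_one_le_left (by linarith) hκ
    exact h1.trans h4
  up_open := hL.up_open.split
  un_open := hL.un_open.split
  up_compat := hL.up_compat.split
  un_compat := hL.un_compat.split
  up_pole := by
    intro α' z hz hcl
    have h1 : z.1 ∈ closure (P.Up j ∩ P.E (fun i => α' (some i))) := by
      have := image_closure_subset_closure_image (f := Prod.fst) continuous_fst ⟨z, hcl, rfl⟩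
      refine closure_mono ?_ this
      rintro _ ⟨y, hy, rfl⟩
      exact ⟨hy.1, hy.2.1⟩
    obtain ⟨N, hN, hpole⟩ := hL.up_pole _ z.1 hz.1 h1
    exact ⟨Prod.fst ⁻¹' N, continuous_fst.continuousAt.preimage_mem_nhds hN,
      fun y hy => hpole y.1 ⟨hy.1, hy.2.1⟩⟩
  un_pole := by
    intro α' z hz hcl
    have h1 : z.1 ∈ closure (P.Un j ∩ P.E (fun i => α' (some i))) := by
      have := image_closure_subset_closure_image (f := Prod.fst) continuous_fst ⟨z, hcl, rfl⟩
      refine closure_mono ?_ this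
      rintro _ ⟨y, hy, rfl⟩
      exact ⟨hy.1, hy.2.1⟩
    obtain ⟨N, hN, hpole⟩ := hL.un_pole _ z.1 hz.1 h1
    exact ⟨Prod.fst ⁻¹' N, continuous_fst.continuousAt.preimage_mem_nhds hN,
      fun y hy => hpole y.1 ⟨hy.1, hy.2.1⟩⟩
  forced_up := fun z hz hq => hL.forced_up z.1 (fst_mem_tot hz) hq
  forced_un := fun z hz hq => hL.forced_un z.1 (fst_mem_tot hz) hq

/-! ### the step -/

/-- **Rg-D**: the invariant of the next stage from the output of the regularisation. -/
theorem rg_step_of_out [FiniteDimensional ℝ V] [FiniteDimensional ℝ W] [Fintype ι]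
    [MeasurableSpace W] [BorelSpace W] (C : ShCtx V W ι) (hC : C.Ok)
    (hsep : SepConf C.F C.P C.j0) (P1 : PData W ι C.B.J) (hS : ShieldOK C P1) (s' : ℝ)
    (hs : C.s < s') (ε : ℝ) (hε : 0 < ε) {u w : W → ℝ} {k : ℝ → ℝ}
    {h' : Ten (W × ℝ)} {c : ℝ} {v : W × ℝ → ℝ} (hO : RgOut C P1 s' u w k h' c v) :
    ∃ (P' : PData (W × ℝ) (Option ι) C.B.J) (u : W → ℝ) (Φ : W → W × ℝ),
      Inv C.B C.F.ext P' (C.rem \ {C.j0}) s' ((1 + 3 * (s' - C.s) / 400) * C.c) ∧
      Conf C.F.ext P'.E ∧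
      Link C.B C.F C.P.E P'.E u Φ ε ∧
      (∀ z ∈ tot C.P.E, C.F.q z ∈ C.B.inn C.j0 → 0 < u z) ∧
      (∀ z ∈ tot C.P.E, C.F.q z ∈ C.B.out C.j0 → u z < 0) := by
  have hE := hS.E_eq
  have hD : IsDiag C.B.n C.B.M C.F P1.E := hE ▸ hC.inv.diag
  have hm : IsPMetric C.B.n C.F P1.E P1.h := by rw [hE, hS.h_eq]; exact hC.inv.met
  have hdr : SC C.B.n C.F P1.E P1.dr := by rw [hE, hS.dr_eq]; exact hC.inv.dr_sc
  have hcut := hO.cut
  obtain ⟨hD', -, Φ, hΦ⟩ := pk_split C.B hC.base hD hm hcut hε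
  have hm' := hO.met
  have hconf : Conf C.F.ext (splitE P1.E u w k) :=
    rg_split_conf hE hsep hcut hO.up hO.un
  have hκ : 1 ≤ rgKap C.s s' := rgKap_ge hs
  have hθ : SC C.B.n C.F.ext (splitE P1.E u w k) (fun z => P1.dr z.1) := hdr.split hD
  set dr' : W × ℝ → ℝ := fun z => P1.dr z.1 - c / 2 * Real.log (v z) with hdr'
  have hj0 := hC.inv.label C.j0 hC.j0_mem
  have hmemE : ∀ z ∈ tot C.P.E, ∃ α, z ∈ P1.E α := fun z hz => by
    rw [hE]; exact mem_tot.1 hz
  refine ⟨rgData P1 u w k (rgKap C.s s') h' dr', u, Φ, ?_, hconf, hE ▸ hΦ, fun z hz hq => ?_,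
    fun z hz hq => ?_⟩
  · refine ⟨hD', hm', pk_complete hD' hm' hconf, rg_drift_sc hθ hO.v_sc hO.v_pos (c / 2), ?_, ?_,
      ?_, ?_⟩
    · -- labels
      intro j hj
      refine rg_label_data hD hcut hm hm' hO.le (hS.label j hj) ?_ ?_ (hC.base.pst_pos j) hκ dr'
      · have := hC.s0
        unfold ShCtx.a pkA
        linarith
      · unfold ShCtx.a pkA
        linarith
    · -- passive labels
      intro K hK
      refine (hS.passive K hK).subset ?_
      rintro j ⟨hj, z, hz, hq, hnp⟩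
      exact ⟨hj, z.1, hE ▸ fst_mem_tot hz, hq, fun hp => hnp (rg_passive_data hp)⟩
    · -- the multiplier
      have h1 := hC.inv.c_ge
      have : (1 : ℝ) ≤ rgKap C.s s' * C.c := by nlinarith
      exact this
    · -- curvature
      intro α' z hz hcnt
      have hsup := hO.sup α' z ⟨hz, hcnt⟩
      have hsup' : 0 ≤ rgL (C.B.n - hits α') (splitE P1.E u w k α') h' (fun y => P1.dr y.1) c
          (fun y => Dsc (C.B.n - hits α') (splitE P1.E u w k α') h' (fun y => P1.dr y.1) y -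
            rgVs P1 C.R C.s s' z) v z := by
        unfold rgL rgW at hsup
        unfold rgL
        exact hsup
      exact rg_curv_of_super (hD'.mfd α') (hm'.met α') (hθ.1 α') (hO.v_sc.1 α')
        (fun y hy => hO.v_pos y (mem_tot.2 ⟨α', hy⟩)) hz hO.c_nonneg hO.c_le hsup'
  · obtain ⟨α, hα⟩ := hmemE z hz
    exact hO.up α z ⟨hj0.forced_up z hz hq, hα⟩
  · obtain ⟨α, hα⟩ := hmemE z hz
    exact hO.un α z ⟨hj0.forced_un z hz hq, hα⟩

/-! ### from the GAP contract `RgSplit` to `RgOut` -/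

theorem rg_hits_le_face [Fintype ι] (α : Stat ι) (i : ι) : hits α ≤ hits (α.face i) := by
  classical
  unfold hits
  refine Finset.sum_le_sum fun j _ => ?_
  by_cases hj : j = i
  · subst hj
    simp only [Stat.face, Function.update_self, if_true]
    split_ifs <;> simp
  · simp [Stat.face, Function.update_of_ne hj]

theorem SC.rg_affine [Fintype ι] {n : ℕ} {F : Frame V W ι} {E : Stat ι → Set W} {φ : W → ℝ}
    (h : SC n F E φ) (a b : ℝ) : SC n F E (fun z => a + b * φ z) := by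
  refine ⟨fun α => gs_sm_add (gs_sm_const a) (gs_sm_smul b (h.1 α)), fun i K hK => ?_⟩
  obtain ⟨R, hR⟩ := h.2 i K hK
  refine ⟨R, fun z hz hq hlt => ?_⟩
  show a + b * φ (F.drop i z) = a + b * φ z
  rw [hR z hz hq hlt]

/-- the required sets of the new stage are carried into the required sets of the faces. -/
theorem rg_req_tail [Fintype ι] [FiniteDimensional ℝ W] {n : ℕ} {M : Set V} {F : Frame V W ι}
    {I : Type} {P : PData W ι I} {R : Set I} {u w : W → ℝ} {k : ℝ → ℝ}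
    (hD' : IsDiag n M F.ext (splitE P.E u w k))
    (hcomp : ∀ m : ℕ, Compat F P.E (fun z => P.Cnt R m z)) (i' : Option ι) (K : Set V)
    (hK : IsCompact K) :
    ∃ T : ℝ, ∀ α', ∀ z ∈ rgReq n P R u w k α', F.ext.q z ∈ K → T < |F.ext.t i' z| →
      F.ext.drop i' z ∈ rgReq n P R u w k (α'.face i') := by
  obtain ⟨R1, hR1⟩ := hD'.exists_tail hK
  have hex : ∀ m : ℕ, ∃ T : ℝ, ∀ i, ∀ z ∈ tot P.E, F.q z ∈ K → T < |F.t i z| →
      P.Cnt R m (F.drop i z) = P.Cnt R m z := fun m => (hcomp m).exists_threshold hK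
  choose T2 hT2 using hex
  obtain ⟨R2, hR2⟩ := ((Finset.range (n + 1)).image T2).bddAbove
  refine ⟨max (max R1 R2) 0, fun α' z hz hq hlt => ?_⟩
  have h1 : R1 < |F.ext.t i' z| := lt_of_le_of_lt ((le_max_left _ _).trans (le_max_left _ _)) hlt
  have h2 : R2 < |F.ext.t i' z| := lt_of_le_of_lt ((le_max_right _ _).trans (le_max_left _ _)) hlt
  have h0 : 0 < |F.ext.t i' z| := lt_of_le_of_lt (le_max_right _ _) hlt
  have hα : α' i' ≠ 0 := hD'.ne_zero_of_t_ne hz.1 (abs_pos.1 h0)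
  have hmem : F.ext.drop i' z ∈ splitE P.E u w k (α'.face i') :=
    (hR1 i' α' hα z hq (by rw [hD'.sign_mul hz.1 i']; exact h1)).1 hz.1
  refine ⟨hmem, ?_⟩
  set m := n - hits (α'.face i') - 1 with hm
  have hcnt : P.Cnt R m z.1 := hz.2.rg_mono (by have := rg_hits_le_face α' i'; omega)
  rcases i' with _ | i
  · rw [F.ext_drop_none]; exact hcnt
  · rw [F.ext_drop_some]
    have hm' : T2 m ≤ R2 := hR2 (Finset.mem_coe.2 (Finset.mem_image_of_mem _
      (Finset.mem_range.2 (by omega))))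
    have := hT2 m i z.1 (mem_tot.2 ⟨_, hz.1.1⟩) hq (lt_of_le_of_lt hm' h2)
    show P.Cnt R m (F.drop i z.1)
    rw [this]; exact hcnt

/-- **`RgSplit` ⟹ `RgOut`** (the compatible supersolution of `rg_super`). -/
theorem rg_out_of_split [FiniteDimensional ℝ V] [FiniteDimensional ℝ W] [Fintype ι]
    [MeasurableSpace W] [BorelSpace W] (C : ShCtx V W ι) (hC : C.Ok)
    (hsep : SepConf C.F C.P C.j0) (P1 : PData W ι C.B.J) (hS : ShieldOK C P1) (s' : ℝ)
    {u w : W → ℝ} {k : ℝ → ℝ} {h' : Ten (W × ℝ)} (H : RgSplit C P1 s' u w k h') :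
    ∃ v, RgOut C P1 s' u w k h' 3.99 v := by
  have : ProperSpace W := FiniteDimensional.proper_real W
  have hE := hS.E_eq
  have hD : IsDiag C.B.n C.B.M C.F P1.E := hE ▸ hC.inv.diag
  have hdr : SC C.B.n C.F P1.E P1.dr := by rw [hE, hS.dr_eq]; exact hC.inv.dr_sc
  have hcut := H.cut
  have hD' := pk_split_diag hD hcut
  have hup : ∀ α, ∀ z ∈ C.P.Up C.j0 ∩ P1.E α, 0 < u z := fun α z hz =>
    H.up α z (subset_closure hz)
  have hun : ∀ α, ∀ z ∈ C.P.Un C.j0 ∩ P1.E α, u z < 0 := fun α z hz =>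
    H.un α z (subset_closure hz)
  have hconf : Conf C.F.ext (splitE P1.E u w k) := rg_split_conf hE hsep hcut hup hun
  have hpas : ∀ K : Set V, IsCompact K →
      {j | j ∈ C.R ∧ ∃ z ∈ tot P1.E, C.F.q z ∈ K ∧ ¬ P1.Passive C.B.pst C.c j z}.Finite := by
    rw [hE]; exact hS.passive
  have hcl := fun m => rg_cnt_closed hD hS.label hpas m
  obtain ⟨e₁, he₁, hgap⟩ := H.gap
  have hpot : SC C.B.n C.F.ext (splitE P1.E u w k) (rgVs P1 C.R C.s s') := by
    have h1 := (rg_potSum_sc hC.base hD (fun j hj => (hS.label j hj).pot_sc) hpas).split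
      (u := u) (w := w) (k := k) hD
    have h2 := h1.rg_affine (pkL s') (pkB s' * rgKap C.s s')
    have e : rgVs P1 C.R C.s s' =
        fun z => pkL s' + pkB s' * rgKap C.s s' * P1.potSum C.R z.1 := by
      funext z; rw [rgVs_eq]; ring
    rw [e]; exact h2
  have hsys : RgSys C.B.n C.B.M C.F.ext (splitE P1.E u w k) h' (fun z => P1.dr z.1)
      (rgVs P1 C.R C.s s') (rgReq C.B.n P1 C.R u w k) 3.99 e₁ :=
    { diag := hD'
      met := H.met
      conf := hconf
      dim := by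
        rintro α' ⟨z, hz⟩
        have h1 := hC.dim (fun i => α' (some i)) ⟨z.1, hE ▸ hz.1⟩
        have h2 := hits_le_parent α'
        omega
      dr := hdr.split hD
      pot := hpot
      D_sub := fun α' z hz => hz.1
      D_closed := by
        intro α'
        have h1 := (hcl (C.B.n - hits α' - 1)).1 (fun i => α' (some i))
        have e : rgReq C.B.n P1 C.R u w k α' = splitE P1.E u w k α' ∩
            Prod.fst ⁻¹' {z | z ∈ P1.E (fun i => α' (some i)) ∧
              P1.Cnt C.R (C.B.n - hits α' - 1) z} := by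
          ext z
          constructor
          · intro hz; exact ⟨hz.1, hz.1.1, hz.2⟩
          · intro hz; exact ⟨hz.1, hz.2.2⟩
        rw [e]
        exact (hD'.closed α').inter (h1.preimage continuous_fst)
      D_tail := fun i' K hK => rg_req_tail hD' (fun m => (hcl m).2) i' K hK
      gap := hgap
      C_pos := by norm_num
      e_pos := he₁ }
  obtain ⟨v, hv1, hv2, hv3⟩ := rg_super hsys
  exact ⟨v, ⟨hcut, hup, hun, H.met, H.le, by norm_num, by norm_num, hv1, hv2, hv3⟩⟩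

/-- for the ambient metric `h ⊕ dτ²` the two conditions on the metric are automatic. -/
theorem RgOut.of_ext [FiniteDimensional ℝ W] [Fintype ι] [MeasurableSpace W] [BorelSpace W]
    {C : ShCtx V W ι} (hC : C.Ok) {P1 : PData W ι C.B.J} (hS : ShieldOK C P1) {s' : ℝ}
    {u w : W → ℝ} {k : ℝ → ℝ} {c : ℝ} {v : W × ℝ → ℝ}
    (cut : IsCut C.B.n C.F P1.E u w k)
    (up : ∀ α, ∀ z ∈ C.P.Up C.j0 ∩ P1.E α, 0 < u z)
    (un : ∀ α, ∀ z ∈ C.P.Un C.j0 ∩ P1.E α, u z < 0) (c_nonneg : 0 ≤ c) (c_le : c ≤ 4)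
    (v_sc : SC C.B.n C.F.ext (splitE P1.E u w k) v)
    (v_pos : ∀ z ∈ tot (splitE P1.E u w k), 0 < v z)
    (sup : ∀ α', ∀ z ∈ rgReq C.B.n P1 C.R u w k α',
      0 ≤ rgL (C.B.n - hits α') (splitE P1.E u w k α') (extTen P1.h) (fun y => P1.dr y.1) c
        (rgW C.B.n (splitE P1.E u w k) (extTen P1.h) (fun y => P1.dr y.1)
          (rgVs P1 C.R C.s s') α') v z) :
    RgOut C P1 s' u w k (extTen P1.h) c v := by
  have hE := hS.E_eq
  have hD : IsDiag C.B.n C.B.M C.F P1.E := hE ▸ hC.inv.diag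
  have hm : IsPMetric C.B.n C.F P1.E P1.h := by rw [hE, hS.h_eq]; exact hC.inv.met
  exact ⟨cut, up, un, pk_split_metric hD hm, fun α' => rg_metLE_ext _ _ _, c_nonneg, c_le, v_sc,
    v_pos, sup⟩

end Claimed.Agent.R315
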