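import Claimed.Agent.R315.Sh.Glob
import Claimed.Agent.R315.Rg.Csc
import Claimed.Agent.R315.Rg.Inv

/-!
# Row 315, package Rg (P Appendix E): DEFINITIONS = the contracts between the units of `rg_step`  (captain, RULING 9 + RULING 10)

Context: `C : ShCtx V W ι` (parent stage + true cut `(p, A)`), `P1` = labels after shielding (`ShieldOK C P1`), `s'` = next stage parameter.
`n = C.B.n`, `E = C.P.E`, `h = C.P.h`, `dr = C.P.dr`, `R = C.R = rem \ {j0}`, `m α = n - hits α`.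

* NEW STAGE (`Pk/Split.lean`, `Rg/Dat.lean`, `Rg/Inv.lean`): `P' = rgData P1 u w k κ h' dr'`, `E' = splitE E u w k`, metric `h' = extTen h = h + dτ²`, `κ = rgKap s s'`,
  `dr' = dr ∘ fst - 2 log v`, so `Dsc(dr') = Dsc(dr ∘ fst) - 4 Δ v / v` (`gs_Dsc_log`): the invariant needs `LL v ≥ 0` AT THE POINTS of the required sets (`RgOut`, helper83; `rg_step_of_out` is PROVED),
  `LL v = -4 Δ_{dr} v + (Dsc - V*) v` (`ShCtx.LL`), `V* = rgVs P1 R s s'`.
* EVERY NEW PIECE IS A LEVEL SET `{G = 0}` IN A FIXED AMBIENT MANIFOLD: `rgY E α'` = `E α × {0}` (hit, `G = u`) or `E α × ℝ` (sides, `G = k(±u/w) + k(±τ/w) - 1`): `rgG`, `splitE_eq_Lv`.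
* TRUE STRUCTURE `RgTrue C P1 Ω U`: `Ω` open, exactly compatible, contains the guards, misses the singular sets; `U` = TRUE defining function on `E α ∩ Ω` (`U > 0` = plus phase),
  regular zeros, and **(AC)**: along translations escaping in the tails `J` of `E α`, `U(· + vec J (s k)) → U ∘ dropS J` in `C^∞` near every point of the cylinder over `E (α.faceS J) ∩ Ω`.
* TRUE PIECES `X0 α' = splitE (C.EO Ω) U w k α'` (`C.EO Ω α = E α ∩ Ω`): manifolds, NOT closed, NOT exactly compatible.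
* `RgGap` : form gap `e0` of `LL` on `X0 α' ∩ O`, `O ⊇` required set, open.
* `RgSuper`: AMBIENT functions `v α'` on `rgY E α'`, smooth, positive, EXACTLY compatible, `LL[X0] v > 0` on the required sets of the true pieces.
* `RgOut` (`Rg/Inv.lean`): the final data `(u, w, k, h', c, v)`; here `h' = extTen P1.h`, `c = 4`.
-/

set_option autoImplicit false
open scoped ContDiff ENNReal Topology
open MeasureTheory Claims.C0499 Set Filter

namespace Claimed.Agent.R315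

variable {V W : Type} [NormedAddCommGroup V] [NormedSpace ℝ V] [NormedAddCommGroup W]
  [NormedSpace ℝ W] {ι : Type}

/-! ### guards -/

/-- the guard `H*_α`. -/
def ShCtx.guard [Fintype ι] (C : ShCtx V W ι) (P1 : PData W ι C.B.J) (α : Stat ι) : Set W :=
  {z | z ∈ C.P.E α ∧ P1.Cnt C.R (C.m α - 2) z}

/-- the open pieces `E α ∩ Ω`. -/
def ShCtx.EO (C : ShCtx V W ι) (Ω : Set W) (α : Stat ι) : Set W := C.P.E α ∩ Ω

/-! ### new pieces as level sets -/

/-- parent status. -/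
def Stat.par (α' : Stat (Option ι)) : Stat ι := fun i => α' (some i)

/-- the ambient manifold of the new piece `α'`. -/
def rgY (E : Stat ι → Set W) (α' : Stat (Option ι)) : Set (W × ℝ) :=
  {z | z.1 ∈ E α'.par ∧ (α' none = 0 → z.2 = 0)}

/-- its dimension (`= n - hits α' + 1` if `hits α'.par + 1 ≤ n`). -/
def rgYd [Fintype ι] (n : ℕ) (α' : Stat (Option ι)) : ℕ :=
  n - hits α'.par + if α' none = 0 then 0 else 1

/-- the function whose zero set in `rgY E α'` is the new piece. -/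
noncomputable def rgG (u w : W → ℝ) (k : ℝ → ℝ) (α' : Stat (Option ι)) (z : W × ℝ) : ℝ :=
  if α' none = 0 then u z.1
  else k ((α' none : ℝ) * u z.1 / w z.1) + k ((α' none : ℝ) * z.2 / w z.1) - 1

theorem splitE_eq_Lv (E : Stat ι → Set W) (u w : W → ℝ) (k : ℝ → ℝ) (α' : Stat (Option ι)) :
    splitE E u w k α' = rm_Lv (rgY E α') (rgG u w k α') 0 := by
  ext z
  by_cases h0 : α' none = 0
  · simp only [splitE, rm_Lv, rgY, rgG, h0, mem_ofPred_eq, true_and, ne_eq,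
      not_true_eq_false, false_and, or_false, if_true, forall_true_left]
    tauto
  · simp only [splitE, rm_Lv, rgY, rgG, h0, mem_ofPred_eq, false_and, ne_eq,
      not_false_eq_true, true_and, false_or, if_false, false_imp_iff, and_true, sub_eq_zero]
    rfl

/-- the required set of the piece `α'` of a family `X`. -/
def ShCtx.req [Fintype ι] (C : ShCtx V W ι) (P1 : PData W ι C.B.J)
    (X : Stat (Option ι) → Set (W × ℝ)) (α' : Stat (Option ι)) : Set (W × ℝ) :=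
  {z | z ∈ X α' ∧ P1.Cnt C.R (C.B.n - hits α' - 1) z.1}

/-- `LL v = -4 Δ_{dr} v + (Dsc - V*) v` on the piece `X α'` of a family `X` (old drift, metric `h + dτ²`). -/
noncomputable def ShCtx.LL [Fintype ι] (C : ShCtx V W ι) (P1 : PData W ι C.B.J) (s' : ℝ)
    (X : Stat (Option ι) → Set (W × ℝ)) (α' : Stat (Option ι)) (v : W × ℝ → ℝ) (z : W × ℝ) : ℝ :=
  rgL (C.B.n - hits α') (X α') (extTen C.P.h) (fun y => C.P.dr y.1) 4
    (rgW C.B.n X (extTen C.P.h) (fun y => C.P.dr y.1) (rgVs P1 C.R C.s s') α') v z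

/-! ### the contracts -/

/-- **TRUE STRUCTURE** (unit BP-RG-TR). -/
structure RgTrue [Fintype ι] (C : ShCtx V W ι) (P1 : PData W ι C.B.J) (Ω : Set W) (U : W → ℝ) :
    Prop where
  isOpen : IsOpen Ω
  compat : Compat C.F C.P.E (fun z => z ∈ Ω)
  guard : ∀ α, C.guard P1 α ⊆ Ω
  sing : ∀ α, Disjoint Ω (C.Sig α)
  smooth : ∀ α, SmoothAlong (C.m α) (C.EO Ω α) U
  pos : ∀ α, ∀ z ∈ C.EO Ω α, (0 < U z ↔ z ∈ ctIn (C.m α) (C.P.E α) (C.ph α))
  neg : ∀ α, ∀ z ∈ C.EO Ω α, (U z < 0 ↔ z ∈ ctOut (C.m α) (C.P.E α) (C.ph α))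
  reg : ∀ α, ∀ z ∈ C.EO Ω α, U z = 0 → 0 < gradSq (C.m α) (C.EO Ω α) C.P.h U z
  /-- unit normalisation on the interface (RULING 10): `|∇U| = 1` on `{U = 0}` -/
  unit : ∀ α, ∀ z ∈ C.EO Ω α, U z = 0 → gradSq (C.m α) (C.EO Ω α) C.P.h U z = 1
  /-- (AC) asymptotic compatibility -/
  ac : ∀ (α : Stat ι) (J : Finset ι), (∀ j ∈ J, α j ≠ 0) → ∀ s : ℕ → ι → ℝ,
    (∀ j ∈ J, Tendsto (fun k => (α j : ℝ) * s k j) atTop atTop) →
    ∀ x', C.F.dropS J x' ∈ C.EO Ω (α.faceS J) →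
      CtConvAt (mdim C.B.n (α.faceS J) J) (C.P.mE C.F (α.faceS J) J)
        (fun k z => U (z + C.F.vec J (s k))) (fun z => U (C.F.dropS J z)) x'

/-- admissible widths and corner profiles. -/
structure RgWid [Fintype ι] (C : ShCtx V W ι) (w : W → ℝ) (k : ℝ → ℝ) : Prop where
  w_sc : SC C.B.n C.F C.P.E w
  w_pos : ∀ z ∈ tot C.P.E, 0 < w z
  corner : IsCorner k

/-- **FORM GAP ON THE TRUE PIECES** (units BP-RG-BUD, BP-RG-SEAM). -/
def RgGap [Fintype ι] [MeasurableSpace W] [BorelSpace W] (C : ShCtx V W ι)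
    (P1 : PData W ι C.B.J) (s' : ℝ) (Ω : Set W) (U w : W → ℝ) (k : ℝ → ℝ) : Prop :=
  ∀ α' : Stat (Option ι), ∃ O : Set (W × ℝ), IsOpen O ∧
    C.req P1 (splitE (C.EO Ω) U w k) α' ⊆ O ∧
    GsGap (C.B.n - hits α') (splitE (C.EO Ω) U w k α' ∩ O) (extTen C.P.h) (fun y => C.P.dr y.1) 4
      (rgW C.B.n (splitE (C.EO Ω) U w k) (extTen C.P.h) (fun y => C.P.dr y.1)
        (rgVs P1 C.R C.s s') α') C.e0

/-- **AMBIENT COMPATIBLE SUPERSOLUTIONS ON THE TRUE PIECES** (unit Rg-C). -/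
structure RgSuper [Fintype ι] (C : ShCtx V W ι) (P1 : PData W ι C.B.J) (s' : ℝ) (Ω : Set W)
    (U w : W → ℝ) (k : ℝ → ℝ) (v : Stat (Option ι) → W × ℝ → ℝ) : Prop where
  smooth : ∀ α', SmoothAlong (rgYd C.B.n α') (rgY C.P.E α') (v α')
  pos : ∀ α', ∀ z ∈ rgY C.P.E α', 0 < v α' z
  /-- exact compatibility of the ambient functions, thresholds locally uniform over `V` -/
  compat : ∀ (i' : Option ι) (K : Set V), IsCompact K → ∃ R : ℝ, ∀ α' : Stat (Option ι),
    α' i' ≠ 0 → ∀ z ∈ rgY C.P.E α', C.F.q z.1 ∈ K → R < |C.F.ext.t i' z| →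
      v (α'.face i') (C.F.ext.drop i' z) = v α' z
  super : ∀ α', ∀ z ∈ C.req P1 (splitE (C.EO Ω) U w k) α',
    0 < C.LL P1 s' (splitE (C.EO Ω) U w k) α' (v α') z

end Claimed.Agent.R315
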