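import Claimed.Agent.R315.Rg.TrTl

/-!
# Row 315, package Rg-TR/TRX, file `TrAC.lean`: THEOREM B = GLOBALISATION `rgx_glob`   (architect: helper48, prefix `rgx_`)

INPUT: helper190's local pieces `RgtPiece` at all wall points (`rgt_piece`, `Rg/TrPc.lean`), a set `Γ` which is CLOSED ALONG ESCAPES (`RgxEC`, NOT necessarily compatible) and misses the singular sets.
OUTPUT: `RgxTrue C Ω U`, `Γ ∩ tot E ⊆ Ω`: `Ω` open, exactly compatible, disjoint from the singular sets; `U` smooth along EVERY `E α`, (AC) at ALL points of all members, `U > 0 / < 0 / = 0` on `ctIn / ctOut / ctBd` in `Ω`, regular zeros in `Ω`.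

CONSTRUCTION (no partition of unity, no global sign function, no compatible hull of the guard):
* `RgxPc C D K D' L b` = generalised piece: bump `(D, K, D', b)` + a function `L` on `D` with the signs of the phases, regular zeros, (AC) over `D`.  Wall points: `RgtPiece.rgx`.
  Points of the open phases: `L = ± 1`, bump from the STAR LEMMA for `G = C.pIn`, `C.pOut`, which are open along escapes (`rgx_in_eo`, `rgx_out_eo`: `CutEnds` + `CtSeq.in_lim_pt/out_lim_pt`, as `sh_sing_escape`).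
* every point of `Γ ∩ tot E` lies in a plateau; COVERING LEMMA: a subfamily, locally finite over `V`, covers.
* `U = ∑ᶠ m, b m * L m`, `Ω = ⋃ m, D' m`.  Each `b m * L m` is smooth along every `E α` and satisfies (AC) EVERYWHERE (`RgxPc.smooth_mul`, `RgxPc.ac_mul`: over `D m` product of two convergent sequences; off `D m` both sides vanish near the point).
  All terms are `≥ 0` on `ctIn`, `≤ 0` on `ctOut`, `= 0` on `ctBd`; on `D' m` the `m`-th term is `L m`.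
  Regular zeros: `z ∈ ctBd ∩ D' m₀`, chart `ψ a = z`, `l = L m₀ ∘ ψ`, `g = U ∘ ψ`: `fderiv l a v > 0` for some `v`; for small `t > 0`: `l (a + t v) > 0`, so `ψ (a + t v) ∈ ctIn ∩ D' m₀` and `g ≥ l` there; `g a = l a = 0`; hence `fderiv g a v ≥ fderiv l a v > 0`.
-/

set_option autoImplicit false
set_option linter.unusedSectionVars false
open scoped ContDiff ENNReal Topology
open MeasureTheory Claims.C0499 Set Filter

namespace Claimed.Agent.R315

variable {V W : Type} [NormedAddCommGroup V] [NormedSpace ℝ V] [NormedAddCommGroup W]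
  [NormedSpace ℝ W] {ι : Type}

/-- the union of the open minus phases. -/
def ShCtx.pOut [Fintype ι] (C : ShCtx V W ι) : Set W :=
  {z | ∃ α, z ∈ ctOut (C.m α) (C.P.E α) (C.ph α)}

/-- **generalised piece.** -/
structure RgxPc [Fintype ι] (C : ShCtx V W ι) (D K D' : Set W) (L b : W → ℝ) : Prop where
  bump : RgxBump C D K D' b
  smooth : ∀ α, SmoothAlong (C.m α) (C.P.E α ∩ D) L
  pos : ∀ α, ∀ z ∈ ctIn (C.m α) (C.P.E α) (C.ph α) ∩ D, 0 < L z
  neg : ∀ α, ∀ z ∈ ctOut (C.m α) (C.P.E α) (C.ph α) ∩ D, L z < 0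
  zero : ∀ α, ∀ z ∈ ctBd (C.m α) (C.P.E α) (C.ph α) ∩ D, L z = 0
  reg : ∀ α, ∀ z ∈ ctBd (C.m α) (C.P.E α) (C.ph α) ∩ D,
    0 < gradSq (C.m α) (C.P.E α ∩ D) C.P.h L z
  sing : ∀ α, Disjoint D (C.Sig α)
  ac : RgfAC C.B.n C.F C.P.E D L

/-- a family of pieces which is locally finite over `V`. -/
structure RgxFam [Fintype ι] {κ : Type} (C : ShCtx V W ι) (D K D' : κ → Set W)
    (L b : κ → W → ℝ) : Prop where
  pc : ∀ m, RgxPc C (D m) (K m) (D' m) (L m) (b m)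
  lf : ∀ K0 : Set V, IsCompact K0 → {m | ∃ z ∈ D m, C.F.q z ∈ K0}.Finite

/-- the global function. -/
noncomputable def rgxU {κ : Type} (L b : κ → W → ℝ) (z : W) : ℝ := ∑ᶠ m, b m z * L m z

/-- **THE OUTPUT OF THE GLOBALISATION.** -/
structure RgxTrue [Fintype ι] (C : ShCtx V W ι) (Ω : Set W) (U : W → ℝ) : Prop where
  isOpen : IsOpen Ω
  compat : Compat C.F C.P.E (fun z => z ∈ Ω)
  sing : ∀ α, Disjoint Ω (C.Sig α)
  smooth : ∀ α, SmoothAlong (C.m α) (C.P.E α) U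
  pos : ∀ α, ∀ z ∈ ctIn (C.m α) (C.P.E α) (C.ph α) ∩ Ω, 0 < U z
  neg : ∀ α, ∀ z ∈ ctOut (C.m α) (C.P.E α) (C.ph α) ∩ Ω, U z < 0
  zero : ∀ α, ∀ z ∈ ctBd (C.m α) (C.P.E α) (C.ph α), U z = 0
  reg : ∀ α, ∀ z ∈ ctBd (C.m α) (C.P.E α) (C.ph α) ∩ Ω,
    0 < gradSq (C.m α) (C.P.E α) C.P.h U z
  ac : RgfAC C.B.n C.F C.P.E univ U

variable [FiniteDimensional ℝ V] [FiniteDimensional ℝ W] [Fintype ι]
  [MeasurableSpace W] [BorelSpace W] {C : ShCtx V W ι}

theorem ShCtx.Ok.geo (hC : C.Ok) (α : Stat ι) : CtGeo (C.m α) (C.P.E α) C.P.h C.P.dr :=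
  ⟨hC.inv.diag.mfd α, hC.inv.met.met α, hC.inv.dr_sc.1 α⟩

/-! ### the phases -/

theorem rgx_in_sub (hC : C.Ok) (α : Stat ι) : ctIn (C.m α) (C.P.E α) (C.ph α) ⊆ C.P.E α := by
  intro z hz
  rw [← (ct_trichotomy' (hC.geo α).mfd (C.ph α)).1]
  exact Or.inl (Or.inl hz)

theorem rgx_out_sub (hC : C.Ok) (α : Stat ι) : ctOut (C.m α) (C.P.E α) (C.ph α) ⊆ C.P.E α := by
  intro z hz
  rw [← (ct_trichotomy' (hC.geo α).mfd (C.ph α)).1]
  exact Or.inl (Or.inr hz)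

theorem rgx_pIn_iff (hC : C.Ok) {α : Stat ι} {z : W} (hz : z ∈ C.P.E α) :
    z ∈ C.pIn ↔ z ∈ ctIn (C.m α) (C.P.E α) (C.ph α) := by
  constructor
  · rintro ⟨β, hβ⟩
    obtain rfl := rgx_status_eq hC hz (rgx_in_sub hC β hβ)
    exact hβ
  · exact fun h => ⟨α, h⟩

theorem rgx_pOut_iff (hC : C.Ok) {α : Stat ι} {z : W} (hz : z ∈ C.P.E α) :
    z ∈ C.pOut ↔ z ∈ ctOut (C.m α) (C.P.E α) (C.ph α) := by
  constructor
  · rintro ⟨β, hβ⟩
    obtain rfl := rgx_status_eq hC hz (rgx_out_sub hC β hβ)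
    exact hβ
  · exact fun h => ⟨α, h⟩

/-- open phases of a cylinder set in a member. -/
theorem rgx_cyl_phase (hC : C.Ok) (γ : Stat ι) (J : Finset ι) (hJ : ∀ j ∈ J, γ j = 0)
    (A' : Set W) :
    ctIn (mdim C.B.n γ J) (C.P.mE C.F γ J) (C.F.cyl J A') =
      C.F.cyl J (ctIn (C.B.n - hits γ) (C.P.E γ) A') ∧
    ctOut (mdim C.B.n γ J) (C.P.mE C.F γ J) (C.F.cyl J A') =
      C.F.cyl J (ctOut (C.B.n - hits γ) (C.P.E γ) A') := by
  classical
  induction J using Finset.induction_on with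
  | empty =>
    have h1 : ∀ X : Set W, C.F.cyl ∅ X = X := fun X => by
      ext z
      simp [Frame.cyl, Frame.dropS_empty]
    simp only [PData.mE, h1, mdim, Finset.card_empty, add_zero, and_self]
  | insert i S hi ih =>
    have hS : ∀ j ∈ S, γ j = 0 := fun j hj => hJ j (Finset.mem_insert_of_mem hj)
    have hG := ct_mem_geo hC.inv.pgeo γ S hS
    have hM : ∀ x ∈ C.P.mE C.F γ S, C.F.t i x = 0 := by
      intro x hx
      rw [← C.F.t_dropS_notMem hi x]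
      exact hC.inv.diag.t_hit γ _ hx i (hJ i (Finset.mem_insert_self i S))
    have hd : mdim C.B.n γ (insert i S) = mdim C.B.n γ S + 1 := by
      unfold mdim
      rw [Finset.card_insert_of_notMem hi]
      ring
    have h3 := (ct_cyl_sets hG.mfd (C.F.t_e i) hM (C.F.cyl S A')).2.2.2
    rw [(ih hS).1, (ih hS).2] at h3
    rw [hd, PData.mE, C.F.cyl_insert hi, C.F.cyl_insert hi, C.F.cyl_insert hi, C.F.cyl_insert hi]
    exact h3

/-- the phases of a window, read in `E α`. -/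
theorem rgx_win_phase (hC : C.Ok) (α : Stat ι) (J : Finset ι) (s : ι → ℝ) {O : Set W}
    (hO : IsOpen O) (hMf : IsMfd (C.m α) (C.P.mE C.F (α.faceS J) J))
    (hO1 : C.P.mE C.F (α.faceS J) J ∩ O = {z | z + C.F.vec J s ∈ C.P.E α} ∩ O) {z : W}
    (hz : z ∈ O) :
    (z ∈ ctIn (C.m α) (C.P.mE C.F (α.faceS J) J) (ctWin C.F C.P C.A α J s ∩ O) →
      z + C.F.vec J s ∈ ctIn (C.m α) (C.P.E α) (C.ph α)) ∧
    (z ∈ ctOut (C.m α) (C.P.mE C.F (α.faceS J) J) (ctWin C.F C.P C.A α J s ∩ O) →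
      z + C.F.vec J s ∈ ctOut (C.m α) (C.P.E α) (C.ph α)) := by
  set v := C.F.vec J s with hv
  have e1 : {w | w + v ∈ C.P.E α} = ctTr (-v) (C.P.E α) := by
    ext w
    simp [ctTr]
  have e2 : ctWin C.F C.P C.A α J s = ctTr (-v) (C.ph α) := by
    ext w
    simp [ctWin, ctTr, ShCtx.ph, hv]
  have hMt : IsMfd (C.m α) (ctTr (-v) (C.P.E α)) := ((hC.geo α).translate (-v)).mfd
  have h3 := (ct_bd_inter hMf (ctWin C.F C.P C.A α J s ∩ O) hO).2.2.2
  rw [Set.inter_assoc, Set.inter_self, hO1, e1, e2] at h3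
  have h4 := (ct_bd_inter hMt (ctTr (-v) (C.ph α)) hO).2.2.2
  have h5 := (ct_translate_sets (d := C.m α) (M := C.P.E α) (-v) (C.ph α)).2.2.2
  rw [e2]
  constructor
  · intro h6
    have h7 : z ∈ ctIn (C.m α) (ctTr (-v) (C.P.E α)) (ctTr (-v) (C.ph α)) ∩ O := by
      rw [← h4.1, h3.1]
      exact ⟨h6, hz⟩
    rw [h5.1] at h7
    have h8 : z - -v ∈ ctIn (C.m α) (C.P.E α) (C.ph α) := h7.1
    rwa [sub_neg_eq_add] at h8
  · intro h6
    have h7 : z ∈ ctOut (C.m α) (ctTr (-v) (C.P.E α)) (ctTr (-v) (C.ph α)) ∩ O := by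
      rw [← h4.2, h3.2]
      exact ⟨h6, hz⟩
    rw [h5.2] at h7
    have h8 : z - -v ∈ ctOut (C.m α) (C.P.E α) (C.ph α) := h7.1
    rwa [sub_neg_eq_add] at h8

/-- **the open plus phase is open along escapes.** -/
theorem rgx_in_eo (hC : C.Ok) : RgxEO C C.pIn := by
  classical
  intro α J s hesc x' hx' hG
  have hxE : C.F.dropS J x' ∈ C.P.E (α.faceS J) := hx'
  have hdimγ := hC.dim _ ⟨_, hxE⟩
  have hhits : hits (α.faceS J) = hits α + J.card := ct_hits_faceS α J hesc.1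
  have hmd : mdim C.B.n (α.faceS J) J = C.m α := by
    unfold mdim ShCtx.m
    omega
  obtain ⟨O, hO1, H⟩ := hC.cut.ends α J hesc.1 s hesc.2
  have h1 : x' ∈ ctIn (mdim C.B.n (α.faceS J) J) (C.P.mE C.F (α.faceS J) J)
      (C.F.cyl J (C.A ∩ C.P.E (α.faceS J))) := by
    rw [(rgx_cyl_phase hC (α.faceS J) J (fun j hj => by simp [Stat.faceS, hj]) _).1]
    exact (rgx_pIn_iff hC hxE).1 hG
  obtain ⟨N, hN, hxN, hev⟩ := H.in_lim_pt h1
  rw [hmd] at H
  simp only [hmd] at hev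
  have hK : IsCompact (Metric.closedBall x' 1 ∩ C.P.mE C.F (α.faceS J) J) :=
    (isCompact_closedBall x' 1).inter_right H.closed
  refine ⟨N ∩ Metric.closedBall x' 1,
    Filter.inter_mem (hN.mem_nhds hxN) (Metric.closedBall_mem_nhds x' one_pos), ?_⟩
  filter_upwards [hev, H.exh _ hK inter_subset_right] with k hk1 hk2 z hz
  have hzO : z ∈ O k := hk2 ⟨hz.1.2, hz.2⟩
  exact ⟨α, (rgx_win_phase hC α J (s k) (H.opn k) H.geo.mfd (hO1 k) hzO).1 (hk1 ⟨hz.2, hz.1.1⟩)⟩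

/-- **the open minus phase is open along escapes.** -/
theorem rgx_out_eo (hC : C.Ok) : RgxEO C C.pOut := by
  classical
  intro α J s hesc x' hx' hG
  have hxE : C.F.dropS J x' ∈ C.P.E (α.faceS J) := hx'
  have hdimγ := hC.dim _ ⟨_, hxE⟩
  have hhits : hits (α.faceS J) = hits α + J.card := ct_hits_faceS α J hesc.1
  have hmd : mdim C.B.n (α.faceS J) J = C.m α := by
    unfold mdim ShCtx.m
    omega
  obtain ⟨O, hO1, H⟩ := hC.cut.ends α J hesc.1 s hesc.2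
  have h1 : x' ∈ ctOut (mdim C.B.n (α.faceS J) J) (C.P.mE C.F (α.faceS J) J)
      (C.F.cyl J (C.A ∩ C.P.E (α.faceS J))) := by
    rw [(rgx_cyl_phase hC (α.faceS J) J (fun j hj => by simp [Stat.faceS, hj]) _).2]
    exact (rgx_pOut_iff hC hxE).1 hG
  obtain ⟨N, hN, hxN, hev⟩ := H.out_lim_pt h1
  rw [hmd] at H
  simp only [hmd] at hev
  have hK : IsCompact (Metric.closedBall x' 1 ∩ C.P.mE C.F (α.faceS J) J) :=
    (isCompact_closedBall x' 1).inter_right H.closed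
  refine ⟨N ∩ Metric.closedBall x' 1,
    Filter.inter_mem (hN.mem_nhds hxN) (Metric.closedBall_mem_nhds x' one_pos), ?_⟩
  filter_upwards [hev, H.exh _ hK inter_subset_right] with k hk1 hk2 z hz
  have hzO : z ∈ O k := hk2 ⟨hz.1.2, hz.2⟩
  exact ⟨α, (rgx_win_phase hC α J (s k) (H.opn k) H.geo.mfd (hO1 k) hzO).2 (hk1 ⟨hz.2, hz.1.1⟩)⟩

/-! ### the three kinds of pieces -/

theorem RgtPiece.rgx (hC : C.Ok) {D K D' : Set W} {L b : W → ℝ} (h : RgtPiece C D K D' L b) :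
    RgxPc C D K D' L b := by
  have hsets := fun α => ct_wall_inter_def (hC.geo α) h.opn (h.dfn α)
  have hsm : ∀ α, SmoothAlong (C.m α) (C.P.E α ∩ D) L := fun α =>
    gs_sm_congr (gs_sm_neg (h.dfn α).smooth) fun z _ => (neg_neg (L z)).symm
  refine ⟨⟨h.opn, h.b_sc, h.b_mem, h.K_closed, h.K_sub, h.b_zero, h.opn', h.compat', h.b_one⟩,
    hsm, ?_, ?_, ?_, ?_, ?_, ?_⟩
  · intro α z hz
    have : z ∈ {y | y ∈ C.P.E α ∩ D ∧ -L y < 0} := by rw [← (hsets α).2.2.1]; exact hz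
    linarith [this.2]
  · intro α z hz
    have : z ∈ {y | y ∈ C.P.E α ∩ D ∧ 0 < -L y} := by rw [← (hsets α).2.2.2]; exact hz
    linarith [this.2]
  · intro α z hz
    have : z ∈ {y | y ∈ C.P.E α ∩ D ∧ -L y = 0} := by rw [← (hsets α).2.1]; exact hz
    linarith [this.2]
  · intro α z hz
    have hzM : z ∈ C.P.E α ∩ D := ⟨ct_bd_subset _ hz.1, hz.2⟩
    have h1 := (h.dfn α).reg z hzM
    have h2 := gs_sq_smul (if_mfd_inter (hC.geo α).mfd h.opn)
      (if_isMetricOn_inter (hC.geo α).met h.opn) (-1) (hsm α) hzM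
    have h3 : (fun y => -1 * L y) = fun y => -L y := by
      funext y
      ring
    rw [h3] at h2
    rw [h2] at h1
    linarith
  · intro α
    rw [Set.disjoint_left]
    intro z hzD hs
    have : z ∈ ctWall (C.m α) (C.P.E α) (C.ph α) ∩ D := by
      rw [(hsets α).1, ← (hsets α).2.1]
      exact ⟨hs.1, hzD⟩
    exact hs.2 this.1
  · intro α J s hs y hy hyD
    exact ((h.ac α J s hs y hy hyD).2).rgf

theorem rgx_pc_in (hC : C.Ok) {D K D' : Set W} {b : W → ℝ} (h : RgxBump C D K D' b)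
    (hD : D ∩ tot C.P.E ⊆ C.pIn) : RgxPc C D K D' (fun _ => 1) b := by
  have key : ∀ α, ∀ z ∈ C.P.E α, z ∈ D → z ∈ ctIn (C.m α) (C.P.E α) (C.ph α) :=
    fun α z hz hzD => (rgx_pIn_iff hC hz).1 (hD ⟨hzD, mem_tot.2 ⟨α, hz⟩⟩)
  have tri := fun α => ct_trichotomy' (hC.geo α).mfd (C.ph α)
  refine ⟨h, fun α => gs_sm_const 1, fun _ _ _ => one_pos, ?_, ?_, ?_, ?_, ?_⟩
  · intro α z hz
    exact (Set.disjoint_left.1 (tri α).2.1 (key α z (rgx_out_sub hC α hz.1) hz.2) hz.1).elim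
  · intro α z hz
    exact (Set.disjoint_left.1 (tri α).2.2.1 (key α z (ct_bd_subset _ hz.1) hz.2) hz.1).elim
  · intro α z hz
    exact (Set.disjoint_left.1 (tri α).2.2.1 (key α z (ct_bd_subset _ hz.1) hz.2) hz.1).elim
  · intro α
    rw [Set.disjoint_left]
    intro z hzD hs
    exact Set.disjoint_left.1 (tri α).2.2.1 (key α z (ct_bd_subset _ hs.1) hzD) hs.1
  · intro α J s _ y _ _
    exact rgfConv_const 1

theorem rgx_pc_out (hC : C.Ok) {D K D' : Set W} {b : W → ℝ} (h : RgxBump C D K D' b)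
    (hD : D ∩ tot C.P.E ⊆ C.pOut) : RgxPc C D K D' (fun _ => -1) b := by
  have key : ∀ α, ∀ z ∈ C.P.E α, z ∈ D → z ∈ ctOut (C.m α) (C.P.E α) (C.ph α) :=
    fun α z hz hzD => (rgx_pOut_iff hC hz).1 (hD ⟨hzD, mem_tot.2 ⟨α, hz⟩⟩)
  have tri := fun α => ct_trichotomy' (hC.geo α).mfd (C.ph α)
  refine ⟨h, fun α => gs_sm_const (-1), ?_, fun _ _ _ => by norm_num, ?_, ?_, ?_, ?_⟩
  · intro α z hz
    exact (Set.disjoint_left.1 (tri α).2.1 hz.1 (key α z (rgx_in_sub hC α hz.1) hz.2)).elim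
  · intro α z hz
    exact (Set.disjoint_left.1 (tri α).2.2.2 (key α z (ct_bd_subset _ hz.1) hz.2) hz.1).elim
  · intro α z hz
    exact (Set.disjoint_left.1 (tri α).2.2.2 (key α z (ct_bd_subset _ hz.1) hz.2) hz.1).elim
  · intro α
    rw [Set.disjoint_left]
    intro z hzD hs
    exact Set.disjoint_left.1 (tri α).2.2.2 (key α z (ct_bd_subset _ hs.1) hzD) hs.1
  · intro α J s _ y _ _
    exact rgfConv_const (-1)

/-! ### one term -/

theorem RgxPc.smooth_mul (hC : C.Ok) {D K D' : Set W} {L b : W → ℝ} (h : RgxPc C D K D' L b)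
    (α : Stat ι) : SmoothAlong (C.m α) (C.P.E α) (fun z => b z * L z) := by
  have hb := h.bump
  refine if_smoothAlong_of_zero_off hb.opn (hb.K_closed α)
    (fun z hz => hb.K_sub ⟨hz.1, mem_tot.2 ⟨α, hz.2⟩⟩)
    (gs_sm_mul (if_smoothAlong_inter (hb.b_sc.1 α) hb.opn) (h.smooth α)) fun z hz hzK => ?_
  rw [hb.b_zero z (mem_tot.2 ⟨α, hz⟩) (fun hK => hzK ⟨hK, hz⟩), zero_mul]

theorem RgxPc.ac_mul (hC : C.Ok) {D K D' : Set W} {L b : W → ℝ} (h : RgxPc C D K D' L b) :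
    RgfAC C.B.n C.F C.P.E univ (fun z => b z * L z) := by
  intro α J s hs y hy _
  have hb := h.bump
  by_cases hyD : C.F.dropS J y ∈ D
  · exact (rgx_sc_ac hC hb.b_sc α J s hs y hy (mem_univ _)).mul (h.ac α J s hs y hy hyD)
  · have hyK : C.F.dropS J y ∉ K ∩ C.P.E (α.faceS J) :=
      fun hK => hyD (hb.K_sub ⟨hK.1, mem_tot.2 ⟨_, hK.2⟩⟩)
    have hN : C.F.dropS J ⁻¹' (K ∩ C.P.E (α.faceS J))ᶜ ∈ 𝓝 y :=
      ((hb.K_closed _).isOpen_compl.preimage (C.F.continuous_dropS J)).mem_nhds hyK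
    have hzero : ∀ z ∈ C.F.cyl J (C.P.E (α.faceS J)) ∩
        (Metric.closedBall y 1 ∩ C.F.dropS J ⁻¹' (K ∩ C.P.E (α.faceS J))ᶜ),
        b (C.F.dropS J z) = 0 := by
      intro z hz
      exact hb.b_zero _ (mem_tot.2 ⟨_, hz.1⟩) fun hK => hz.2.2 ⟨hK, hz.1⟩
    refine (rgfConv_const 0).congr
      (Filter.inter_mem (Metric.closedBall_mem_nhds y one_pos) hN) ?_ ?_
    · filter_upwards [rgx_window hC hs hb.b_sc.2 y] with k hk z hz
      show b (z + C.F.vec J (s k)) * L (z + C.F.vec J (s k)) = 0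
      rw [(hk z ⟨hz.2.1, hz.1⟩).2, hzero z hz, zero_mul]
    · intro z hz
      show b (C.F.dropS J z) * L (C.F.dropS J z) = 0
      rw [hzero z hz, zero_mul]

/-! ### the sum -/

section fam

variable {κ : Type} {D K D' : κ → Set W} {L b : κ → W → ℝ}

theorem RgxFam.sum_eq (H : RgxFam C D K D' L b) {K0 : Set V} (hK0 : IsCompact K0) :
    ∃ Fs : Finset κ, (∀ m, (∃ z ∈ D m, C.F.q z ∈ K0) → m ∈ Fs) ∧
      ∀ z ∈ tot C.P.E, C.F.q z ∈ K0 → rgxU L b z = ∑ m ∈ Fs, b m z * L m z := by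
  classical
  refine ⟨(H.lf K0 hK0).toFinset, fun m hm => (H.lf K0 hK0).mem_toFinset.2 hm,
    fun z hz hq => ?_⟩
  unfold rgxU
  refine finsum_eq_sum_of_support_subset _ fun m hm => ?_
  rw [Finset.mem_coe, Set.Finite.mem_toFinset]
  have hb : b m z ≠ 0 := fun h0 => hm (by show b m z * L m z = 0; rw [h0, zero_mul])
  have hK : z ∈ K m := by
    by_contra hK
    exact hb ((H.pc m).bump.b_zero z hz hK)
  exact ⟨z, (H.pc m).bump.K_sub ⟨hK, hz⟩, hq⟩

theorem RgxFam.smooth (hC : C.Ok) (H : RgxFam C D K D' L b) (α : Stat ι) :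
    SmoothAlong (C.m α) (C.P.E α) (rgxU L b) := by
  refine if_smoothAlong_of_pieces fun x hx => ?_
  obtain ⟨Fs, -, hsum⟩ := H.sum_eq (isCompact_closedBall (C.F.q x) 1)
  have hO : IsOpen (C.F.q ⁻¹' Metric.ball (C.F.q x) 1) :=
    Metric.isOpen_ball.preimage C.F.q.continuous
  refine ⟨C.F.q ⁻¹' Metric.ball (C.F.q x) 1, hO, by simp, ?_⟩
  refine gs_sm_congr (if_smoothAlong_inter
    (gs_sm_sum Fs fun m _ => (H.pc m).smooth_mul hC α) hO) fun z hz => ?_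
  exact hsum z (mem_tot.2 ⟨α, hz.1⟩) (Metric.ball_subset_closedBall hz.2)

theorem RgxFam.ac (hC : C.Ok) (H : RgxFam C D K D' L b) :
    RgfAC C.B.n C.F C.P.E univ (rgxU L b) := by
  intro α J s hs y hy _
  obtain ⟨Fs, -, hsum⟩ := H.sum_eq (isCompact_closedBall (C.F.q y) 1)
  have hO : Metric.closedBall y 1 ∩ C.F.q ⁻¹' Metric.ball (C.F.q y) 1 ∈ 𝓝 y :=
    Filter.inter_mem (Metric.closedBall_mem_nhds y one_pos)
      ((Metric.isOpen_ball.preimage C.F.q.continuous).mem_nhds (by simp))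
  have hc : Compat C.F C.P.E (fun _ : W => ()) := fun _ _ _ => ⟨0, fun _ _ _ _ => rfl⟩
  refine (RgfConv.sum Fs fun m _ => (H.pc m).ac_mul hC α J s hs y hy (mem_univ _)).congr hO ?_ ?_
  · filter_upwards [rgx_window hC hs hc y] with k hk z hz
    refine hsum _ (mem_tot.2 ⟨α, (hk z ⟨hz.2.1, hz.1⟩).1⟩) ?_
    rw [map_add, C.F.q_vec, add_zero]
    exact Metric.ball_subset_closedBall hz.2.2
  · intro z hz
    refine hsum _ (mem_tot.2 ⟨_, hz.1⟩) ?_
    rw [C.F.q_dropS]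
    exact Metric.ball_subset_closedBall hz.2.2

theorem RgxFam.compat (hC : C.Ok) (H : RgxFam C D K D' L b) :
    Compat C.F C.P.E (fun z => z ∈ ⋃ m, D' m) := by
  classical
  intro i K0 hK0
  obtain ⟨Fs, hFs, -⟩ := H.sum_eq hK0
  choose R hR using fun m => (H.pc m).bump.compat' i K0 hK0
  obtain ⟨R1, hR1, _, hdrop, _⟩ := hC.inv.diag.tail_induction hK0 (∑ m ∈ Fs, |R m|)
  refine ⟨R1, fun z hz hq hlt => ?_⟩
  obtain ⟨α, hα⟩ := mem_tot.1 hz
  have hdt : C.F.drop i z ∈ tot C.P.E := mem_tot.2 ⟨_, hdrop α z hα hq i hlt⟩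
  have hle : ∀ m ∈ Fs, R m < |C.F.t i z| := fun m hm =>
    lt_of_le_of_lt ((le_abs_self _).trans
      ((Finset.single_le_sum (f := fun m => |R m|) (fun _ _ => abs_nonneg _) hm).trans hR1)) hlt
  refine propext ⟨fun h => ?_, fun h => ?_⟩
  · obtain ⟨m, hm⟩ := mem_iUnion.1 h
    have hmF : m ∈ Fs := hFs m ⟨_, (H.pc m).bump.plateau_sub ⟨hm, hdt⟩, by
      rw [C.F.q_drop]; exact hq⟩
    exact mem_iUnion.2 ⟨m, (iff_of_eq (hR m z hz hq (hle m hmF))).1 hm⟩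
  · obtain ⟨m, hm⟩ := mem_iUnion.1 h
    have hmF : m ∈ Fs := hFs m ⟨_, (H.pc m).bump.plateau_sub ⟨hm, hz⟩, hq⟩
    exact mem_iUnion.2 ⟨m, (iff_of_eq (hR m z hz hq (hle m hmF))).2 hm⟩

theorem RgxFam.sing (hC : C.Ok) (H : RgxFam C D K D' L b) (α : Stat ι) :
    Disjoint (⋃ m, D' m) (C.Sig α) := by
  rw [Set.disjoint_left]
  intro z hz hs
  obtain ⟨m, hm⟩ := mem_iUnion.1 hz
  exact Set.disjoint_left.1 ((H.pc m).sing α)
    ((H.pc m).bump.plateau_sub ⟨hm, mem_tot.2 ⟨α, ct_bd_subset _ hs.1⟩⟩) hs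

/-- on the plus phase `U` dominates every term. -/
theorem RgxFam.le_in (hC : C.Ok) (H : RgxFam C D K D' L b) (α : Stat ι) {z : W}
    (hz : z ∈ ctIn (C.m α) (C.P.E α) (C.ph α)) (m : κ) : b m z * L m z ≤ rgxU L b z := by
  have hzt : z ∈ tot C.P.E := mem_tot.2 ⟨α, rgx_in_sub hC α hz⟩
  obtain ⟨Fs, hFs, hsum⟩ := H.sum_eq (isCompact_singleton (x := C.F.q z))
  rw [hsum z hzt rfl]
  have hnn : ∀ m', 0 ≤ b m' z * L m' z := by
    intro m'
    by_cases hK : z ∈ K m'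
    · exact mul_nonneg ((H.pc m').bump.b_mem z).1
        ((H.pc m').pos α z ⟨hz, (H.pc m').bump.K_sub ⟨hK, hzt⟩⟩).le
    · rw [(H.pc m').bump.b_zero z hzt hK, zero_mul]
  by_cases hm : m ∈ Fs
  · exact Finset.single_le_sum (f := fun m' => b m' z * L m' z) (fun m' _ => hnn m') hm
  · have h0 : b m z = 0 := by
      by_contra hne
      have hK : z ∈ K m := by
        by_contra hK
        exact hne ((H.pc m).bump.b_zero z hzt hK)
      exact hm (hFs m ⟨z, (H.pc m).bump.K_sub ⟨hK, hzt⟩, rfl⟩)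
    rw [h0, zero_mul]
    exact Finset.sum_nonneg fun m' _ => hnn m'

theorem RgxFam.le_out (hC : C.Ok) (H : RgxFam C D K D' L b) (α : Stat ι) {z : W}
    (hz : z ∈ ctOut (C.m α) (C.P.E α) (C.ph α)) (m : κ) : rgxU L b z ≤ b m z * L m z := by
  have hzt : z ∈ tot C.P.E := mem_tot.2 ⟨α, rgx_out_sub hC α hz⟩
  obtain ⟨Fs, hFs, hsum⟩ := H.sum_eq (isCompact_singleton (x := C.F.q z))
  rw [hsum z hzt rfl]
  have hnn : ∀ m', 0 ≤ -(b m' z * L m' z) := by
    intro m'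
    by_cases hK : z ∈ K m'
    · have h1 := ((H.pc m').bump.b_mem z).1
      have h2 := (H.pc m').neg α z ⟨hz, (H.pc m').bump.K_sub ⟨hK, hzt⟩⟩
      nlinarith
    · rw [(H.pc m').bump.b_zero z hzt hK, zero_mul, neg_zero]
  have key : -(b m z * L m z) ≤ ∑ m' ∈ Fs, -(b m' z * L m' z) := by
    by_cases hm : m ∈ Fs
    · exact Finset.single_le_sum (f := fun m' => -(b m' z * L m' z)) (fun m' _ => hnn m') hm
    · have h0 : b m z = 0 := by
        by_contra hne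
        have hK : z ∈ K m := by
          by_contra hK
          exact hne ((H.pc m).bump.b_zero z hzt hK)
        exact hm (hFs m ⟨z, (H.pc m).bump.K_sub ⟨hK, hzt⟩, rfl⟩)
      rw [h0, zero_mul, neg_zero]
      exact Finset.sum_nonneg fun m' _ => hnn m'
  rw [Finset.sum_neg_distrib] at key
  linarith

theorem RgxFam.zero (hC : C.Ok) (H : RgxFam C D K D' L b) (α : Stat ι) {z : W}
    (hz : z ∈ ctBd (C.m α) (C.P.E α) (C.ph α)) : rgxU L b z = 0 := by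
  have hzt : z ∈ tot C.P.E := mem_tot.2 ⟨α, ct_bd_subset _ hz⟩
  unfold rgxU
  refine finsum_eq_zero_of_forall_eq_zero fun m => ?_
  by_cases hK : z ∈ K m
  · rw [(H.pc m).zero α z ⟨hz, (H.pc m).bump.K_sub ⟨hK, hzt⟩⟩, mul_zero]
  · rw [(H.pc m).bump.b_zero z hzt hK, zero_mul]

theorem RgxFam.reg (hC : C.Ok) (H : RgxFam C D K D' L b) (α : Stat ι) {z : W}
    (hz : z ∈ ctBd (C.m α) (C.P.E α) (C.ph α)) {m : κ} (hm : z ∈ D' m) :
    0 < gradSq (C.m α) (C.P.E α) C.P.h (rgxU L b) z := by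
  have pc := H.pc m
  have hzE : z ∈ C.P.E α := ct_bd_subset _ hz
  have hzt : z ∈ tot C.P.E := mem_tot.2 ⟨α, hzE⟩
  have hzD : z ∈ D m := pc.bump.plateau_sub ⟨hm, hzt⟩
  obtain ⟨ψ, U, hp, a, ha, rfl⟩ := (hC.geo α).mfd z hzE
  rw [ct_fderiv_ne (hC.geo α) (H.smooth hC α) hp ha]
  have hp' := if_param_restrict pc.bump.opn hp
  have ha' : a ∈ U ∩ ψ ⁻¹' D m := ⟨ha, hzD⟩
  have hG' : CtGeo (C.m α) (C.P.E α ∩ D m) C.P.h C.P.dr :=
    ⟨if_mfd_inter (hC.geo α).mfd pc.bump.opn, if_isMetricOn_inter (hC.geo α).met pc.bump.opn,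
      if_smoothAlong_inter (hC.geo α).drift pc.bump.opn⟩
  have hl : fderiv ℝ (L m ∘ ψ) a ≠ 0 :=
    (ct_fderiv_ne hG' (pc.smooth α) hp' ha').1 (pc.reg α _ ⟨hz, hzD⟩)
  have hdg : DifferentiableAt ℝ (rgxU L b ∘ ψ) a :=
    if_smoothAlong_differentiableAt (H.smooth hC α) hp ha
  have hdl : DifferentiableAt ℝ (L m ∘ ψ) a :=
    if_smoothAlong_differentiableAt (pc.smooth α) hp' ha'
  obtain ⟨v, hv⟩ : ∃ v, 0 < fderiv ℝ (L m ∘ ψ) a v := by
    by_contra hcon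
    push Not at hcon
    apply hl
    ext v
    have h1 := hcon v
    have h2 := hcon (-v)
    rw [map_neg] at h2
    simp only [ContinuousLinearMap.zero_apply]
    linarith
  intro hg0
  have h0 : a + (0 : ℝ) • v = a := by simp
  have hline : HasDerivAt (fun t : ℝ => a + t • v) v 0 := by
    simpa using ((hasDerivAt_id (0 : ℝ)).smul_const v).const_add a
  have hcl : HasDerivAt (fun t : ℝ => L m (ψ (a + t • v))) (fderiv ℝ (L m ∘ ψ) a v) 0 := by
    have h1 : HasFDerivAt (L m ∘ ψ) (fderiv ℝ (L m ∘ ψ) a) (a + (0 : ℝ) • v) := by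
      rw [h0]
      exact hdl.hasFDerivAt
    exact h1.comp_hasDerivAt 0 hline
  have hcg : HasDerivAt (fun t : ℝ => rgxU L b (ψ (a + t • v))) 0 0 := by
    have h1 : HasFDerivAt (rgxU L b ∘ ψ) (fderiv ℝ (rgxU L b ∘ ψ) a) (a + (0 : ℝ) • v) := by
      rw [h0]
      exact hdg.hasFDerivAt
    have h2 := h1.comp_hasDerivAt 0 hline
    rw [hg0, ContinuousLinearMap.zero_apply] at h2
    exact h2
  have hni : (0 : ℝ) ∉ Set.Ioi (0 : ℝ) := by simp
  have hsl := (hasDerivWithinAt_iff_tendsto_slope' hni).1 (hcl.hasDerivWithinAt (s := Set.Ioi 0))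
  have hsg := (hasDerivWithinAt_iff_tendsto_slope' hni).1 (hcg.hasDerivWithinAt (s := Set.Ioi 0))
  have hcont : ContinuousAt (fun t : ℝ => a + t • v) 0 := hline.continuousAt
  have hψc : ContinuousAt ψ a := (if_continuousOn hp).continuousAt ((if_open hp).mem_nhds ha)
  have hU : ∀ᶠ t in 𝓝[>] (0 : ℝ), a + t • v ∈ U :=
    nhdsWithin_le_nhds (hcont.eventually (by
      show ∀ᶠ y in 𝓝 (a + (0 : ℝ) • v), y ∈ U
      rw [h0]
      exact (if_open hp).mem_nhds ha))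
  have hD'ev : ∀ᶠ t in 𝓝[>] (0 : ℝ), ψ (a + t • v) ∈ D' m := by
    have h1 : ContinuousAt (fun t : ℝ => ψ (a + t • v)) 0 :=
      ContinuousAt.comp (f := fun t : ℝ => a + t • v) (g := ψ) (by
        show ContinuousAt ψ (a + (0 : ℝ) • v)
        rw [h0]
        exact hψc) hcont
    exact nhdsWithin_le_nhds (h1.eventually (by
      show ∀ᶠ y in 𝓝 (ψ (a + (0 : ℝ) • v)), y ∈ D' m
      rw [h0]
      exact pc.bump.opn'.mem_nhds hm))
  have hle : ∀ᶠ t in 𝓝[>] (0 : ℝ), slope (fun t : ℝ => L m (ψ (a + t • v))) 0 t ≤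
      slope (fun t : ℝ => rgxU L b (ψ (a + t • v))) 0 t := by
    filter_upwards [hsl.eventually (lt_mem_nhds hv), hU, hD'ev, self_mem_nhdsWithin]
      with t h1 h2 h3 h4
    have ht : (0 : ℝ) < t := h4
    rw [slope_def_field] at h1 ⊢
    rw [slope_def_field]
    simp only [h0, sub_zero] at h1 ⊢
    rw [pc.zero α _ ⟨hz, hzD⟩, sub_zero] at h1 ⊢
    rw [H.zero hC α hz, sub_zero]
    have hLpos : 0 < L m (ψ (a + t • v)) := by
      have := mul_pos h1 ht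
      rwa [div_mul_cancel₀ _ ht.ne'] at this
    have hwE : ψ (a + t • v) ∈ C.P.E α := if_mem hp h2
    have hwt : ψ (a + t • v) ∈ tot C.P.E := mem_tot.2 ⟨α, hwE⟩
    have hwD : ψ (a + t • v) ∈ D m := pc.bump.plateau_sub ⟨h3, hwt⟩
    have hwin : ψ (a + t • v) ∈ ctIn (C.m α) (C.P.E α) (C.ph α) := by
      have hw := hwE
      rw [← (ct_trichotomy' (hC.geo α).mfd (C.ph α)).1] at hw
      rcases hw with (hw | hw) | hw
      · exact hw
      · exact absurd (pc.neg α _ ⟨hw, hwD⟩) (not_lt.2 hLpos.le)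
      · exact absurd (pc.zero α _ ⟨hw, hwD⟩) hLpos.ne'
    have h5 := H.le_in hC α hwin m
    rw [pc.bump.b_one _ ⟨h3, hwt⟩, one_mul] at h5
    exact div_le_div_of_nonneg_right h5 ht.le
  have := le_of_tendsto_of_tendsto hsl hsg hle
  linarith

theorem RgxFam.true (hC : C.Ok) (H : RgxFam C D K D' L b) :
    RgxTrue C (⋃ m, D' m) (rgxU L b) where
  isOpen := isOpen_iUnion fun m => (H.pc m).bump.opn'
  compat := H.compat hC
  sing := H.sing hC
  smooth := H.smooth hC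
  pos := by
    rintro α z ⟨hz, hΩ⟩
    obtain ⟨m, hm⟩ := mem_iUnion.1 hΩ
    have hzE := rgx_in_sub hC α hz
    have hzt : z ∈ tot C.P.E := mem_tot.2 ⟨α, hzE⟩
    have h1 := H.le_in hC α hz m
    rw [(H.pc m).bump.b_one z ⟨hm, hzt⟩, one_mul] at h1
    exact lt_of_lt_of_le ((H.pc m).pos α z ⟨hz, (H.pc m).bump.plateau_sub ⟨hm, hzt⟩⟩) h1
  neg := by
    rintro α z ⟨hz, hΩ⟩
    obtain ⟨m, hm⟩ := mem_iUnion.1 hΩ
    have hzE := rgx_out_sub hC α hz
    have hzt : z ∈ tot C.P.E := mem_tot.2 ⟨α, hzE⟩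
    have h1 := H.le_out hC α hz m
    rw [(H.pc m).bump.b_one z ⟨hm, hzt⟩, one_mul] at h1
    exact lt_of_le_of_lt h1 ((H.pc m).neg α z ⟨hz, (H.pc m).bump.plateau_sub ⟨hm, hzt⟩⟩)
  zero := fun α _ hz => H.zero hC α hz
  reg := by
    rintro α z ⟨hz, hΩ⟩
    obtain ⟨m, hm⟩ := mem_iUnion.1 hΩ
    exact H.reg hC α hz hm
  ac := H.ac hC

end fam

/-! ### THEOREM B -/

/-- every point of `tot E` off the singular sets lies in the plateau of a piece. -/
theorem rgx_pc_exists (hC : C.Ok)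
    (hp : ∀ β, ∀ y ∈ ctWall (C.m β) (C.P.E β) (C.ph β),
      ∃ (D K D' : Set W) (L b : W → ℝ), RgtPiece C D K D' L b ∧ y ∈ D' ∧
        ∀ z ∈ D, ‖C.F.q z - C.F.q y‖ < 1)
    (β : Stat ι) {y : W} (hy : y ∈ C.P.E β) (hs : y ∉ C.Sig β) :
    ∃ (D K D' : Set W) (L b : W → ℝ), RgxPc C D K D' L b ∧ y ∈ D' ∧
      ∀ z ∈ D, ‖C.F.q z - C.F.q y‖ < 1 := by
  have htri := (ct_trichotomy' (hC.geo β).mfd (C.ph β)).1
  rw [← htri] at hy
  rcases hy with (hy | hy) | hy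
  · obtain ⟨D, K, D', b, hb, hyD, hsub, hext⟩ :=
      rgx_star hC (rgx_in_eo hC) β (rgx_in_sub hC β hy) ⟨β, hy⟩
    exact ⟨D, K, D', _, b, rgx_pc_in hC hb hsub, hyD, hext⟩
  · obtain ⟨D, K, D', b, hb, hyD, hsub, hext⟩ :=
      rgx_star hC (rgx_out_eo hC) β (rgx_out_sub hC β hy) ⟨β, hy⟩
    exact ⟨D, K, D', _, b, rgx_pc_out hC hb hsub, hyD, hext⟩
  · have hw : y ∈ ctWall (C.m β) (C.P.E β) (C.ph β) := by
      by_contra hw
      exact hs ⟨hy, hw⟩
    obtain ⟨D, K, D', L, b, hpc, hyD, hext⟩ := hp β y hw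
    exact ⟨D, K, D', L, b, hpc.rgx hC, hyD, hext⟩

/-- **THEOREM B**: local pieces at all wall points give the global function. -/
theorem rgx_glob (hC : C.Ok) {Γ : Set W} (hΓ : RgxEC C Γ) (hsing : ∀ α, Disjoint Γ (C.Sig α))
    (hp : ∀ β, ∀ y ∈ ctWall (C.m β) (C.P.E β) (C.ph β),
      ∃ (D K D' : Set W) (L b : W → ℝ), RgtPiece C D K D' L b ∧ y ∈ D' ∧
        ∀ z ∈ D, ‖C.F.q z - C.F.q y‖ < 1) :
    ∃ (Ω : Set W) (U : W → ℝ), RgxTrue C Ω U ∧ Γ ∩ tot C.P.E ⊆ Ω := by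
  classical
  have h1 : ∀ y : ↥(Γ ∩ tot C.P.E), ∃ (D K D' : Set W) (L b : W → ℝ), RgxPc C D K D' L b ∧
      (y : W) ∈ D' ∧ ∀ z ∈ D, ‖C.F.q z - C.F.q y‖ < 1 := by
    rintro ⟨y, hyΓ, hyt⟩
    obtain ⟨β, hβ⟩ := mem_tot.1 hyt
    exact rgx_pc_exists hC hp β hβ fun hs => Set.disjoint_left.1 (hsing β) hyΓ hs
  choose D K D' L b hpc hyD hext using h1
  obtain ⟨I, hcov, hfin⟩ := rgx_cover hC hΓ (D := D) (D' := D')
    (fun m => (hpc m).bump.opn')
    (fun m => rgx_eo_of_open_compat hC (hpc m).bump.opn' (hpc m).bump.compat')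
    (fun m => (hpc m).bump.plateau_sub) (fun m => ⟨_, hext m⟩)
    (fun y hy => mem_iUnion.2 ⟨⟨y, hy⟩, hyD ⟨y, hy⟩⟩)
  have H : RgxFam C (fun m : ↥I => D m) (fun m : ↥I => K m) (fun m : ↥I => D' m)
      (fun m : ↥I => L m) (fun m : ↥I => b m) := by
    refine ⟨fun m => hpc m, fun K0 hK0 => ?_⟩
    refine ((hfin K0 hK0).preimage (Subtype.val_injective.injOn (s := _))).subset ?_
    rintro ⟨m, hm⟩ h
    exact ⟨hm, h⟩
  refine ⟨_, _, H.true hC, fun y hy => ?_⟩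
  obtain ⟨m, hm, hy'⟩ := mem_iUnion₂.1 (hcov hy)
  exact mem_iUnion.2 ⟨⟨m, hm⟩, hy'⟩

end Claimed.Agent.R315
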