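import Claimed.Agent.R315.Rg.TrPc
import Claimed.Agent.R315.Rg.TrAC
import Claimed.Agent.R315.Rg.Defs

/-!
# Row 315, package Rg-TRX, file `Trx.lean`: THE CONTRACT `rg_true` (`Rg/Top.lean`) = `rgx_true`   (architect: helper48, prefix `rgx_`)

`rgx_true : ∃ Ω U, RgTrue C P1 Ω U` from THEOREM A (`rgt_piece`, helper190, `Rg/TrPc.lean`) and THEOREM B (`rgx_glob`, `Rg/TrAC.lean`).

1. THE GUARD.  `Γ = ⋃ α, C.guard P1 α` is NOT compatible (the count `m α - 2` drops on the faces), but it is CLOSED ALONG ESCAPES (`rgx_guard_ec`: the sets `{Cnt R m}` are closed and compatible, `rg_cnt_closed`;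
   `m (face) ≤ m α`, `PData.Cnt.mono`), and this is all that the covering lemma needs.  It misses the singular sets (`ShieldOK.guard`).  No compatible hull is needed: the compatible set is `Ω = ⋃ plateaus`.
2. THEOREM B gives `RgxTrue C Ω U₁`, `Γ ⊆ Ω`.
3. UNIT NORMALISATION.  `G = rgxG C U₁ = |dU₁|²` (status by status), `Q = G + U₁² > 0` on `tot E ∩ Ω`, `U = rgxN C U₁ = U₁ / √Q`.  At a zero: `|dU|² = G / Q = 1` (`gs_sq_mul`).
   (AC) for `G` (`rgx_G_ac`): `G (z + v k) = gradSq (E α) h U₁ (z + v k) = gradSq (member) (mh) (U₁ (· + v k)) z` on a window (`RgfWin.gradSq_eq`, `ct_window`, `ct_window_compat` for the metric), which converges by `CtConvAt.gradIp` to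
   `gradSq (member) (mh) (U₁ ∘ dropS J) = G ∘ dropS J` (`rgx_cyl_sq`: induction on `J` with `ct_cyl_gradSq`).  Then `RgfConv.add/mul/comp_real`.
-/

set_option autoImplicit false
set_option linter.unusedSectionVars false
open scoped ContDiff ENNReal Topology
open MeasureTheory Claims.C0499 Set Filter

namespace Claimed.Agent.R315

variable {V W : Type} [NormedAddCommGroup V] [NormedSpace ℝ V] [NormedAddCommGroup W]
  [NormedSpace ℝ W] {ι : Type}

/-- `|dU|²`, status by status. -/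
noncomputable def rgxG [Fintype ι] (C : ShCtx V W ι) (U : W → ℝ) : W → ℝ :=
  shGlue C.P.E (fun α => gradSq (C.m α) (C.P.E α) C.P.h U) 0

/-- the normalised function `U / √(|dU|² + U²)`. -/
noncomputable def rgxN [Fintype ι] (C : ShCtx V W ι) (U : W → ℝ) (z : W) : ℝ :=
  U z * (Real.sqrt (rgxG C U z + U z ^ 2))⁻¹

variable [FiniteDimensional ℝ V] [FiniteDimensional ℝ W] [Fintype ι]
  [MeasurableSpace W] [BorelSpace W] {C : ShCtx V W ι}

/-! ### the guard -/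

theorem rgx_guard_ec (hC : C.Ok) {P1 : PData W ι C.B.J} (hS : ShieldOK C P1) :
    RgxEC C (⋃ α, C.guard P1 α) := by
  intro α J z y hJ hz hesc hyE hy
  have hD1 : IsDiag C.B.n C.B.M C.F P1.E := by rw [hS.E_eq]; exact hC.inv.diag
  have hpas : ∀ K : Set V, IsCompact K →
      {j | j ∈ C.R ∧ ∃ z ∈ tot P1.E, C.F.q z ∈ K ∧ ¬ P1.Passive C.B.pst C.c j z}.Finite := by
    rw [hS.E_eq]; exact hS.passive
  obtain ⟨hcl, hcomp⟩ := rg_cnt_closed hD1 hS.label hpas (C.m α - 2)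
  rw [hS.E_eq] at hcl hcomp
  have hEC : RgxEC C {w | P1.Cnt C.R (C.m α - 2) w} := by
    refine rgx_ec_of_closed_compat hC (fun β => ?_) hcomp
    have e : {w | P1.Cnt C.R (C.m α - 2) w} ∩ C.P.E β =
        {z | z ∈ C.P.E β ∧ P1.Cnt C.R (C.m α - 2) z} := by
      ext w; exact and_comm
    rw [e]; exact hcl β
  have h1 : y ∈ {w | P1.Cnt C.R (C.m α - 2) w} := by
    refine hEC α J z y hJ (fun k => ⟨?_, (hz k).2⟩) hesc hyE hy
    obtain ⟨β, hβ⟩ := mem_iUnion.1 (hz k).1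
    obtain rfl := rgx_status_eq hC hβ.1 (hz k).2
    exact hβ.2
  exact mem_iUnion.2 ⟨α.faceS J, hyE,
    PData.Cnt.mono h1 (Nat.sub_le_sub_right (sh_m_faceS C α J) 2)⟩

theorem rgx_guard_sing (hC : C.Ok) {P1 : PData W ι C.B.J} (hS : ShieldOK C P1) (α : Stat ι) :
    Disjoint (⋃ β, C.guard P1 β) (C.Sig α) := by
  rw [Set.disjoint_left]
  intro z hz hs
  obtain ⟨β, hβ⟩ := mem_iUnion.1 hz
  obtain rfl := rgx_status_eq hC hβ.1 (ct_bd_subset _ hs.1)
  exact hS.guard β z hs (mem_univ _) hβ.2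

/-! ### the squared gradient -/

theorem rgxG_eq (hC : C.Ok) (U : W → ℝ) {α : Stat ι} {z : W} (hz : z ∈ C.P.E α) :
    rgxG C U z = gradSq (C.m α) (C.P.E α) C.P.h U z :=
  shGlue_eq hC.inv.diag.disj _ _ hz

theorem rgx_G_smooth (hC : C.Ok) {U : W → ℝ} (hU : ∀ α, SmoothAlong (C.m α) (C.P.E α) U)
    (α : Stat ι) : SmoothAlong (C.m α) (C.P.E α) (rgxG C U) :=
  gs_sm_congr (if_gradSq_smoothAlong (hC.geo α).met (hU α)) fun _ hz => rgxG_eq hC U hz

/-- pulled back functions are smooth along the members. -/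
theorem rgx_cyl_smooth (hC : C.Ok) {U : W → ℝ} (γ : Stat ι)
    (hU : SmoothAlong (C.m γ) (C.P.E γ) U) (J : Finset ι) (hJ : ∀ j ∈ J, γ j = 0) :
    SmoothAlong (mdim C.B.n γ J) (C.P.mE C.F γ J) (fun z => U (C.F.dropS J z)) := by
  classical
  have hP := hC.inv.pgeo
  induction J using Finset.induction_on with
  | empty =>
    have h2 : (fun z => U (C.F.dropS ∅ z)) = U := funext fun z => by rw [C.F.dropS_empty]
    rw [ct_mE_empty, h2, ct_mdim_empty]
    exact hU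
  | insert i J hi ih =>
    have hJ' : ∀ j ∈ J, γ j = 0 := fun j hj => hJ j (Finset.mem_insert_of_mem hj)
    have hγi : γ i = 0 := hJ i (Finset.mem_insert_self i J)
    have h2 : (fun z => U (C.F.dropS (insert i J) z)) =
        fun z => (fun y => U (C.F.dropS J y)) (ctPr (C.F.t i) (C.F.e i) z) :=
      funext fun z => by simp only [C.F.dropS_insert_ctPr hi]
    rw [ct_mE_insert _ _ _ hi, h2, ct_mdim_insert _ _ hi]
    exact ct_cyl_smooth (ct_mem_geo hP γ J hJ') (C.F.t_e i) (ct_mem_t_zero hP γ hγi hi) (ih hJ')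

/-- squared gradients on the members. -/
theorem rgx_cyl_sq (hC : C.Ok) {U : W → ℝ} (γ : Stat ι) (hU : SmoothAlong (C.m γ) (C.P.E γ) U)
    (J : Finset ι) (hJ : ∀ j ∈ J, γ j = 0) {z : W} (hz : z ∈ C.F.cyl J (C.P.E γ)) :
    gradSq (mdim C.B.n γ J) (C.F.cyl J (C.P.E γ)) (C.P.mh C.F J) (fun y => U (C.F.dropS J y)) z =
      gradSq (C.m γ) (C.P.E γ) C.P.h U (C.F.dropS J z) := by
  classical
  have hP := hC.inv.pgeo
  induction J using Finset.induction_on generalizing z with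
  | empty =>
    have h1 : C.F.cyl ∅ (C.P.E γ) = C.P.E γ := ct_mE_empty C.P C.F γ
    have h2 : (fun y => U (C.F.dropS ∅ y)) = U := funext fun y => by rw [C.F.dropS_empty]
    rw [h1, h2, ct_mh_empty, ct_mdim_empty, C.F.dropS_empty]
    rfl
  | insert i J hi ih =>
    have hJ' : ∀ j ∈ J, γ j = 0 := fun j hj => hJ j (Finset.mem_insert_of_mem hj)
    have hγi : γ i = 0 := hJ i (Finset.mem_insert_self i J)
    have h1 : C.F.cyl (insert i J) (C.P.E γ) = ctCyl (C.F.t i) (C.F.e i) (C.P.mE C.F γ J) :=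
      C.F.cyl_insert hi _
    have h2 : (fun y => U (C.F.dropS (insert i J) y)) =
        fun y => (fun w => U (C.F.dropS J w)) (ctPr (C.F.t i) (C.F.e i) y) + 0 * C.F.t i y :=
      funext fun y => by simp only [C.F.dropS_insert_ctPr hi, zero_mul, add_zero]
    rw [h1] at hz
    rw [h1, h2, ct_mh_insert _ _ hi, ct_mdim_insert _ _ hi,
      ct_cyl_gradSq (ct_mem_geo hP γ J hJ') (C.F.t_e i) (ct_mem_t_zero hP γ hγi hi)
        (ct_mem_normal hP γ J hγi) (rgx_cyl_smooth hC γ hU J hJ') 0 hz,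
      C.F.dropS_insert_ctPr hi]
    have h3 := ih hJ' (z := ctPr (C.F.t i) (C.F.e i) z) hz
    rw [← h3]
    simp [PData.mE]

/-- **(AC) for the squared gradient.** -/
theorem rgx_G_ac (hC : C.Ok) {U : W → ℝ} (hU : ∀ α, SmoothAlong (C.m α) (C.P.E α) U)
    (hac : RgfAC C.B.n C.F C.P.E univ U) : RgfAC C.B.n C.F C.P.E univ (rgxG C U) := by
  intro α J s hs y hy _
  have hD := hC.inv.diag
  have hface : ∀ j ∈ J, (α.faceS J) j = 0 := fun j hj => by simp [Stat.faceS, hj]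
  have hG := ct_mem_geo hC.inv.pgeo (α.faceS J) J hface
  have hdim := hC.dim _ ⟨_, hy⟩
  have hhits : hits (α.faceS J) = hits α + J.card := sh_hits_faceS α J hs.1
  have hmd : mdim C.B.n (α.faceS J) J = C.m α := by
    unfold mdim ShCtx.m
    omega
  have h1 := (hac α J s hs y hy (mem_univ _)).ct hG.mfd hy
  have h2 := (CtConvAt.gradIp hG.mfd hG.met hy h1 h1).rgf
  refine h2.congr (Metric.ball_mem_nhds y one_pos) ?_ ?_
  · have hK : IsCompact (Metric.closedBall y 1) := isCompact_closedBall y 1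
    filter_upwards [ct_window hD α J hs.1 s hs.2 hK,
      ct_window_compat hD α J hs.1 s hs.2 hK hC.inv.met.compat] with k e1 e2 z hz
    have hwin : RgfWin (C.P.E α) (C.F.cyl J (C.P.E (α.faceS J))) C.P.h (C.P.mh C.F J)
        (C.F.vec J (s k)) (Metric.ball y 1) :=
      ⟨Metric.isOpen_ball, fun w hw => e1 w (Metric.ball_subset_closedBall hw),
        fun w hw => e2 w (Metric.ball_subset_closedBall hw.2)
          ((e1 w (Metric.ball_subset_closedBall hw.2)).2 hw.1)⟩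
    have hzE : z + C.F.vec J (s k) ∈ C.P.E α :=
      (e1 z (Metric.ball_subset_closedBall hz.2)).2 hz.1
    rw [rgxG_eq hC U hzE, hwin.gradSq_eq U hz.2, hmd]
    rfl
  · intro z hz
    rw [rgxG_eq hC U hz.1]
    exact (rgx_cyl_sq hC _ (hU _) J hface hz.1).symm

/-! ### the normalisation -/

section norm

variable {Ω : Set W} {U : W → ℝ}

theorem RgxTrue.Q_pos (hC : C.Ok) (H : RgxTrue C Ω U) {α : Stat ι} {z : W} (hz : z ∈ C.P.E α)
    (hΩ : z ∈ Ω) : 0 < rgxG C U z + U z ^ 2 := by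
  have hG : 0 ≤ rgxG C U z := by
    rw [rgxG_eq hC U hz]
    exact gs_sq_nonneg (hC.geo α).mfd (hC.geo α).met (H.smooth α) hz
  have hz' := hz
  rw [← (ct_trichotomy' (hC.geo α).mfd (C.ph α)).1] at hz'
  rcases hz' with (h | h) | h
  · have := H.pos α z ⟨h, hΩ⟩
    positivity
  · have := H.neg α z ⟨h, hΩ⟩
    have h2 : 0 < U z ^ 2 := by
      have := sq_pos_of_ne_zero (a := U z) this.ne
      simpa using this
    linarith
  · have := H.reg α z ⟨h, hΩ⟩
    rw [← rgxG_eq hC U hz] at this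
    positivity

/-- the factor `θ = 1 / √Q` is smooth and positive on `E α ∩ Ω`. -/
theorem RgxTrue.th_smooth (hC : C.Ok) (H : RgxTrue C Ω U) (α : Stat ι) :
    SmoothAlong (C.m α) (C.P.E α ∩ Ω) (fun z => (Real.sqrt (rgxG C U z + U z ^ 2))⁻¹) := by
  have h1 : SmoothAlong (C.m α) (C.P.E α ∩ Ω) (fun z => rgxG C U z + U z ^ 2) :=
    if_smoothAlong_inter (gs_sm_add (rgx_G_smooth hC H.smooth α) (gs_sm_pow (H.smooth α) 2))
      H.isOpen
  exact gs_sm_inv (gs_sm_sqrt h1 fun z hz => H.Q_pos hC hz.1 hz.2)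
    fun z hz => (Real.sqrt_pos.2 (H.Q_pos hC hz.1 hz.2)).ne'

theorem RgxTrue.N_pos_iff (hC : C.Ok) (H : RgxTrue C Ω U) {α : Stat ι} {z : W}
    (hz : z ∈ C.P.E α) (hΩ : z ∈ Ω) : 0 < rgxN C U z ↔ 0 < U z := by
  have := inv_pos.2 (Real.sqrt_pos.2 (H.Q_pos hC hz hΩ))
  unfold rgxN
  exact mul_pos_iff_of_pos_right this

theorem RgxTrue.N_neg_iff (hC : C.Ok) (H : RgxTrue C Ω U) {α : Stat ι} {z : W}
    (hz : z ∈ C.P.E α) (hΩ : z ∈ Ω) : rgxN C U z < 0 ↔ U z < 0 := by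
  have := inv_pos.2 (Real.sqrt_pos.2 (H.Q_pos hC hz hΩ))
  unfold rgxN
  constructor
  · intro h
    by_contra h0
    exact absurd h (not_lt.2 (mul_nonneg (not_lt.1 h0) this.le))
  · exact fun h => mul_neg_of_neg_of_pos h this

theorem RgxTrue.N_zero_iff (hC : C.Ok) (H : RgxTrue C Ω U) {α : Stat ι} {z : W}
    (hz : z ∈ C.P.E α) (hΩ : z ∈ Ω) : rgxN C U z = 0 ↔ U z = 0 := by
  have := (inv_pos.2 (Real.sqrt_pos.2 (H.Q_pos hC hz hΩ))).ne'
  unfold rgxN
  simp [this]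

/-- signs of `U` in `Ω`. -/
theorem RgxTrue.pos_iff (hC : C.Ok) (H : RgxTrue C Ω U) {α : Stat ι} {z : W}
    (hz : z ∈ C.P.E α) (hΩ : z ∈ Ω) :
    (0 < U z ↔ z ∈ ctIn (C.m α) (C.P.E α) (C.ph α)) ∧
      (U z < 0 ↔ z ∈ ctOut (C.m α) (C.P.E α) (C.ph α)) ∧
      (U z = 0 ↔ z ∈ ctBd (C.m α) (C.P.E α) (C.ph α)) := by
  have hz' := hz
  rw [← (ct_trichotomy' (hC.geo α).mfd (C.ph α)).1] at hz'
  obtain ⟨-, d1, d2, d3⟩ := ct_trichotomy' (hC.geo α).mfd (C.ph α)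
  rcases hz' with (h | h) | h
  · have h1 := H.pos α z ⟨h, hΩ⟩
    exact ⟨⟨fun _ => h, fun _ => h1⟩,
      ⟨fun h2 => absurd h2 (not_lt.2 h1.le), fun h2 => (Set.disjoint_left.1 d1 h h2).elim⟩,
      ⟨fun h2 => absurd h2 h1.ne', fun h2 => (Set.disjoint_left.1 d2 h h2).elim⟩⟩
  · have h1 := H.neg α z ⟨h, hΩ⟩
    exact ⟨⟨fun h2 => absurd h2 (not_lt.2 h1.le), fun h2 => (Set.disjoint_left.1 d1 h2 h).elim⟩,
      ⟨fun _ => h, fun _ => h1⟩,
      ⟨fun h2 => absurd h2 h1.ne, fun h2 => (Set.disjoint_left.1 d3 h h2).elim⟩⟩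
  · have h1 := H.zero α z h
    exact ⟨⟨fun h2 => absurd h1 h2.ne', fun h2 => (Set.disjoint_left.1 d2 h2 h).elim⟩,
      ⟨fun h2 => absurd h1 h2.ne, fun h2 => (Set.disjoint_left.1 d3 h2 h).elim⟩,
      ⟨fun _ => h, fun _ => h1⟩⟩

/-- **unit gradient at the zeros.** -/
theorem RgxTrue.N_unit (hC : C.Ok) (H : RgxTrue C Ω U) {α : Stat ι} {z : W}
    (hz : z ∈ C.P.E α) (hΩ : z ∈ Ω) (h0 : U z = 0) :
    gradSq (C.m α) (C.P.E α ∩ Ω) C.P.h (rgxN C U) z = 1 := by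
  have hM := if_mfd_inter (hC.geo α).mfd H.isOpen
  have hh := if_isMetricOn_inter (hC.geo α).met H.isOpen
  have hUs := if_smoothAlong_inter (H.smooth α) H.isOpen
  have hQ := H.Q_pos hC hz hΩ
  have e : rgxN C U = fun y => U y * (Real.sqrt (rgxG C U y + U y ^ 2))⁻¹ := rfl
  rw [e, gs_sq_mul hM hh hUs (H.th_smooth hC α) ⟨hz, hΩ⟩, if_gradSq_inter' _ U H.isOpen hΩ,
    ← rgxG_eq hC U hz, h0]
  rw [h0] at hQ
  have hQ' : 0 < rgxG C U z := by simpa using hQ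
  have h3 : (Real.sqrt (rgxG C U z + 0 ^ 2))⁻¹ ^ 2 * rgxG C U z = 1 := by
    rw [inv_pow, Real.sq_sqrt hQ.le]
    simp only [ne_eq, OfNat.ofNat_ne_zero, not_false_eq_true, zero_pow, add_zero]
    exact inv_mul_cancel₀ hQ'.ne'
  rw [h3]
  ring

/-- **(AC) for the normalised function over `Ω`.** -/
theorem RgxTrue.N_ac (hC : C.Ok) (H : RgxTrue C Ω U) : RgfAC C.B.n C.F C.P.E Ω (rgxN C U) := by
  intro α J s hs y hy hΩ
  have hU := H.ac α J s hs y hy (mem_univ _)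
  have hG := rgx_G_ac hC H.smooth H.ac α J s hs y hy (mem_univ _)
  have hQ := hG.add (hU.mul hU)
  have hΘ : ContDiffOn ℝ ∞ (fun x : ℝ => (Real.sqrt x)⁻¹) (Ioi 0) := by
    intro x hx
    exact ((Real.contDiffAt_sqrt (ne_of_gt hx)).inv
      (Real.sqrt_pos.2 hx).ne').contDiffWithinAt
  have h0 : rgxG C U (C.F.dropS J y) + U (C.F.dropS J y) * U (C.F.dropS J y) ∈ Ioi (0 : ℝ) := by
    have := H.Q_pos hC hy hΩ
    rw [pow_two] at this
    exact this
  have h3 := hU.mul (hQ.comp_real isOpen_Ioi hΘ h0)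
  simpa only [rgxN, pow_two] using h3

end norm

/-! ### THE CONTRACT -/

theorem RgxTrue.rg (hC : C.Ok) {Ω : Set W} {U : W → ℝ} (H : RgxTrue C Ω U)
    {P1 : PData W ι C.B.J} (hG : ∀ α, C.guard P1 α ⊆ Ω) : RgTrue C P1 Ω (rgxN C U) where
  isOpen := H.isOpen
  compat := H.compat
  guard := hG
  sing := H.sing
  smooth := fun α => gs_sm_mul (if_smoothAlong_inter (H.smooth α) H.isOpen) (H.th_smooth hC α)
  pos := fun α z hz => (H.N_pos_iff hC hz.1 hz.2).trans (H.pos_iff hC hz.1 hz.2).1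
  neg := fun α z hz => (H.N_neg_iff hC hz.1 hz.2).trans (H.pos_iff hC hz.1 hz.2).2.1
  reg := fun α z hz h0 => by
    have := H.N_unit hC hz.1 hz.2 ((H.N_zero_iff hC hz.1 hz.2).1 h0)
    unfold ShCtx.EO
    rw [this]
    exact one_pos
  unit := fun α z hz h0 => H.N_unit hC hz.1 hz.2 ((H.N_zero_iff hC hz.1 hz.2).1 h0)
  ac := fun α J hJ s hs x' hx' =>
    (H.N_ac hC α J s ⟨hJ, hs⟩ x' hx'.1 hx'.2).ct
      (ct_mem_geo hC.inv.pgeo (α.faceS J) J fun j hj => by simp [Stat.faceS, hj]).mfd hx'.1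

/-- **(TR)** true defining functions with asymptotic compatibility. -/
theorem rgx_true (C : ShCtx V W ι) (hC : C.Ok) (P1 : PData W ι C.B.J) (hS : ShieldOK C P1) :
    ∃ (Ω : Set W) (U : W → ℝ), RgTrue C P1 Ω U := by
  obtain ⟨Ω, U, H, hsub⟩ := rgx_glob hC (rgx_guard_ec hC hS) (rgx_guard_sing hC hS)
    fun β _ hy => rgt_piece hC β hy
  exact ⟨Ω, _, H.rg hC fun α z hz =>
    hsub ⟨mem_iUnion.2 ⟨α, hz⟩, mem_tot.2 ⟨α, hz.1⟩⟩⟩

end Claimed.Agent.R315
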