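import Claimed.Agent.R315.Rg.Defs
import Claimed.Agent.R315.Pk.Loc
import Claimed.Agent.R315.Rg.SzI
import Claimed.Agent.R315.Rg.Trx
import Claimed.Agent.R315.Rg.FinZ
import Claimed.Agent.R315.Rg.SeamTop

/-!
# Row 315, package Rg (P Appendix E): TOP = `rg_out_pf` (= `rg_out_need` of `Pk/Chain.lean`) from four contracts

| contract   | unit (subtask row)            | files          | content |
|------------|-------------------------------|----------------|---------|
| `rg_true`  | BP-RG-TR + BP-RG-TRX          | `Rg/Tr*.lean`  | true defining functions with (AC): REDIRECTED to `rgx_true` (`Rg/Trx.lean`) |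
| `rg_gap`   | BP-RG-BUD + BP-RG-SEAM + UT   | `Rg/Bud*.lean`, `Rg/Seam*.lean` | width `w`, corner `k`, form gap on the true pieces: REDIRECTED to `rg_gap_pf` (`Rg/SeamTop.lean`) |
| `rg_super0`| Rg-C (helper209)              | `Rg/Glue, Sz*.lean` | ambient compatible supersolutions on the true pieces |
| `rg_fin`   | BP-RG-FIN + BP-RG-GEN         | `Rg/Fin*.lean`, `Rg/Gen*.lean` | final blend `u = pkBlend_T (Û + generic perturbation)` |
`RgOut ⟹ Inv` is PROVED (`rg_step_of_out`, helper83, `Rg/Inv.lean`), the chain `pk_step_pf` is PROVED (`Pk/Chain.lean`, helper29).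

Each owner REPLACES the `sorry` of his contract here by a one line redirect to his own file (tell the captain; the statements may be changed only with the captain's consent).
(LOC) `hloc : PkLoc C.B C.F C.P C.j0` (`Pk/Loc.lean`, RULING 10 (3)) is available in all four contracts: no old tails at all, or `Conf` + the label `j0` is forced off a compact `K0 ⊆ V`.
Plans: RULING 9 (msg 14700), RULING 10 (channel row315, 13:15Z) and the headers of the unit files.
-/

set_option autoImplicit false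
open scoped ContDiff ENNReal Topology
open MeasureTheory Claims.C0499 Set Filter

namespace Claimed.Agent.R315

variable {V W : Type} [NormedAddCommGroup V] [NormedSpace ℝ V] [NormedAddCommGroup W]
  [NormedSpace ℝ W] {ι : Type}
variable [FiniteDimensional ℝ V] [FiniteDimensional ℝ W] [Fintype ι] [MeasurableSpace W]
  [BorelSpace W]

/-- **(TR)** true defining functions with asymptotic compatibility. -/
theorem rg_true (C : ShCtx V W ι) (hC : C.Ok) (hloc : PkLoc C.B C.F C.P C.j0)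
    (P1 : PData W ι C.B.J) (hS : ShieldOK C P1) :
    ∃ (Ω : Set W) (U : W → ℝ), RgTrue C P1 Ω U :=
  rgx_true C hC P1 hS

/-- **(BUD + SEAM)** width, corner profile and the form gap on the true pieces. -/
theorem rg_gap (C : ShCtx V W ι) (hC : C.Ok) (hloc : PkLoc C.B C.F C.P C.j0)
    (hsep : SepConf C.F C.P C.j0) (P1 : PData W ι C.B.J) (hS : ShieldOK C P1)
    (s' : ℝ) (hs : C.s < s') (hs' : s' ≤ 1) (he : C.e0 = (pkL C.s - pkL s') / 100) {Ω : Set W}
    {U : W → ℝ} (hT : RgTrue C P1 Ω U) :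
    ∃ (w : W → ℝ) (k : ℝ → ℝ), RgWid C w k ∧ RgGap C P1 s' Ω U w k :=
  rg_gap_pf C hC hsep hloc P1 hS s' hs hs' he hT

/-- **(SUPER)** ambient compatible supersolutions on the true pieces. -/
theorem rg_super0 (C : ShCtx V W ι) (hC : C.Ok) (hloc : PkLoc C.B C.F C.P C.j0)
    (P1 : PData W ι C.B.J) (hS : ShieldOK C P1)
    (hsep : SepConf C.F C.P C.j0) (s' : ℝ) (hs : C.s < s') (hs' : s' ≤ 1) {Ω : Set W}
    {U w : W → ℝ} {k : ℝ → ℝ} (hT : RgTrue C P1 Ω U) (hw : RgWid C w k)
    (hG : RgGap C P1 s' Ω U w k) : ∃ v, RgSuper C P1 s' Ω U w k v :=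
  rg_super0_pf C hC P1 hS hsep s' hs hs' hT hw hG

/-- **(FIN + GEN)** the final blend. -/
theorem rg_fin (C : ShCtx V W ι) (hC : C.Ok) (hloc : PkLoc C.B C.F C.P C.j0)
    (P1 : PData W ι C.B.J) (hS : ShieldOK C P1)
    (s' : ℝ) (hs : C.s < s') (hs' : s' ≤ 1) {Ω : Set W} {U w : W → ℝ} {k : ℝ → ℝ}
    {v : Stat (Option ι) → W × ℝ → ℝ} (hT : RgTrue C P1 Ω U) (hw : RgWid C w k)
    (hV : RgSuper C P1 s' Ω U w k v) : ∃ u v', RgOut C P1 s' u w k (extTen P1.h) 4 v' :=
  rg_fin_pf C hC P1 hS s' hT hw hV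

/-- **THE OUTPUT OF THE REGULARISATION EXISTS** (statement of `rg_out_need`, `Pk/Chain.lean`). -/
theorem rg_out_pf (C : ShCtx V W ι) (hC : C.Ok) (hloc : PkLoc C.B C.F C.P C.j0)
    (hsep : SepConf C.F C.P C.j0)
    (P1 : PData W ι C.B.J) (hS : ShieldOK C P1) (s' : ℝ) (hs : C.s < s') (hs' : s' ≤ 1)
    (he0 : C.e0 = (pkL C.s - pkL s') / 100) :
    ∃ (u w : W → ℝ) (k : ℝ → ℝ) (h' : Ten (W × ℝ)) (c : ℝ) (v : W × ℝ → ℝ),
      RgOut C P1 s' u w k h' c v := by
  obtain ⟨Ω, U, hT⟩ := rg_true C hC hloc P1 hS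
  obtain ⟨w, k, hw, hG⟩ := rg_gap C hC hloc hsep P1 hS s' hs hs' he0 hT
  obtain ⟨v, hV⟩ := rg_super0 C hC hloc P1 hS hsep s' hs hs' hT hw hG
  obtain ⟨u, v', hO⟩ := rg_fin C hC hloc P1 hS s' hs hs' hT hw hV
  exact ⟨u, w, k, _, _, v', hO⟩

end Claimed.Agent.R315
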