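import Claimed.Agent.R315.Ct.Var
import Claimed.Agent.R315.Sh.ImsE

/-!
# Row 315, package Rg, unit BUD, file Rg/BudT.lean: linearity tools for the integrals of `Rg/BudA.lean`   (helper232)

`ShCI` (continuous integrands on the cylinder, `Sh/ImsY.lean`): constants, slice gradients, vertical derivatives, monotonicity and linear combinations of potentials, in the bulk and on the cylinder.
-/

set_option autoImplicit false
open scoped ContDiff ENNReal Topology
open MeasureTheory Claims.C0499 Set Filter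

namespace Claimed.Agent.R315

variable {V : Type} [NormedAddCommGroup V] [NormedSpace ℝ V] [FiniteDimensional ℝ V]

/-! ### linearity -/

section lin

variable {k : ℕ} {X K : Set V} {h : Ten V} {t : V → ℝ} {L : ℝ} {Φ Ψ : V → ℝ → ℝ}

omit [FiniteDimensional ℝ V] in
theorem ShCI.const_mul (hΦ : ShCI X K L Φ) (c : ℝ) : ShCI X K L fun x s => c * Φ x s :=
  hΦ.mul_left continuousOn_const

theorem rgbr_ci_grad {w : V → ℝ → ℝ} (hG : CtGeo k X h t)
    (hw : SmoothAlong (k + 1) (X ×ˢ (univ : Set ℝ)) (fun z : V × ℝ => w z.1 z.2)) (hK : IsClosed K)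
    (zx : ∀ x ∈ X, x ∉ K → ∀ s, w x s = 0) (zs : ∀ x s, L < |s| → w x s = 0) :
    ShCI X K L fun x s => gradSq k X h (fun y => w y s) x := by
  refine ⟨sh_cyl_grad_cont hG hw, fun x hx hxK s => ?_, fun x hx s hs => ?_⟩
  · exact sh_gradSq_zero_off hG hK (fun y hy hyK => zx y hy hyK s) hx hxK
  · have h1 : (fun y => w y s) = fun _ => (0 : ℝ) := funext fun y => zs y s hs
    rw [h1, gs_sq_const hG.mfd hG.met 0 hx]

theorem rgbr_ci_dsq {w : V → ℝ → ℝ} (hX : IsMfd k X)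
    (hw : SmoothAlong (k + 1) (X ×ˢ (univ : Set ℝ)) (fun z : V × ℝ => w z.1 z.2))
    (zx : ∀ x ∈ X, x ∉ K → ∀ s, w x s = 0) (zs : ∀ x s, L < |s| → w x s = 0) :
    ShCI X K L fun x s => deriv (fun σ => w x σ) s ^ 2 := by
  refine ⟨(sh_cyl_deriv_cont hX hw).pow 2, fun x hx hxK s => ?_, fun x hx s hs => ?_⟩
  · have h1 : (fun σ => w x σ) = fun _ => (0 : ℝ) := funext fun σ => zx x hx hxK σ
    rw [h1, deriv_const]
    simp
  · have h2 : (fun σ => w x σ) =ᶠ[𝓝 s] fun _ => (0 : ℝ) := by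
      filter_upwards [continuous_abs.continuousAt.eventually (lt_mem_nhds hs)] with σ hσ
      exact zs x σ hσ
    rw [h2.deriv_eq, deriv_const]
    simp

variable [MeasurableSpace V] [BorelSpace V]

omit [FiniteDimensional ℝ V] [BorelSpace V] in
theorem rgbr_iter_const_mul (P : Measure V) (c : ℝ) (Φ : V → ℝ → ℝ) (I : Set ℝ) :
    ∫ s in I, ∫ x, c * Φ x s ∂P = c * ∫ s in I, ∫ x, Φ x s ∂P := by
  simp only [integral_const_mul]

theorem ShCI.iter_mono (hΦ : ShCI X K L Φ) (hΨ : ShCI X K L Ψ) (hG : CtGeo k X h t) (hK : IsCompact K) (hKX : K ⊆ X)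
    (I : Set ℝ) (hle : ∀ s, ∫ x, Φ x s ∂(wvol k X h t) ≤ ∫ x, Ψ x s ∂(wvol k X h t)) :
    ∫ s in I, ∫ x, Φ x s ∂(wvol k X h t) ≤ ∫ s in I, ∫ x, Ψ x s ∂(wvol k X h t) :=
  integral_mono (hΦ.int_s hG hK hKX).integrableOn (hΨ.int_s hG hK hKX).integrableOn hle

/-- linear combinations of potentials on the cylinder. -/
theorem ShCI.lin3 (hΦ : ShCI X K L Φ) (hG : CtGeo k X h t) (hK : IsCompact K) (hKX : K ⊆ X) {g1 g2 g3 : V → ℝ}
    (h1 : ContinuousOn g1 X) (h2 : ContinuousOn g2 X) (h3 : ContinuousOn g3 X) (c1 c2 c3 c4 : ℝ) (I : Set ℝ) :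
    ∫ s in I, ∫ x, (c1 * g1 x + c2 * g2 x + c3 * g3 x + c4) * Φ x s ^ 2 ∂(wvol k X h t) =
      c1 * (∫ s in I, ∫ x, g1 x * Φ x s ^ 2 ∂(wvol k X h t)) +
        c2 * (∫ s in I, ∫ x, g2 x * Φ x s ^ 2 ∂(wvol k X h t)) +
        c3 * (∫ s in I, ∫ x, g3 x * Φ x s ^ 2 ∂(wvol k X h t)) +
        c4 * ∫ s in I, ∫ x, Φ x s ^ 2 ∂(wvol k X h t) := by
  have q1 := (hΦ.sq.mul_left h1).const_mul c1
  have q2 := (hΦ.sq.mul_left h2).const_mul c2
  have q3 := (hΦ.sq.mul_left h3).const_mul c3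
  have q4 := hΦ.sq.const_mul c4
  rw [← rgbr_iter_const_mul, ← rgbr_iter_const_mul, ← rgbr_iter_const_mul, ← rgbr_iter_const_mul,
    ← q1.integral_add q2 hG hK hKX, ← (q1.add q2).integral_add q3 hG hK hKX,
    ← ((q1.add q2).add q3).integral_add q4 hG hK hKX]
  refine sh_iter_congr hG (fun x _ s => ?_) I
  ring

/-- linear combinations of potentials in the bulk. -/
theorem rgbr_lin3 (hG : CtGeo k X h t) {v : V → ℝ} (hv : ContinuousOn v X) (hK : IsCompact K) (hKX : K ⊆ X)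
    (h0 : ∀ x ∈ X, x ∉ K → v x = 0) {g1 g2 g3 : V → ℝ}
    (h1 : ContinuousOn g1 X) (h2 : ContinuousOn g2 X) (h3 : ContinuousOn g3 X) (c1 c2 c3 c4 : ℝ) (B : Set V) :
    ∫ x in B, (c1 * g1 x + c2 * g2 x + c3 * g3 x + c4) * v x ^ 2 ∂(wvol k X h t) =
      c1 * (∫ x in B, g1 x * v x ^ 2 ∂(wvol k X h t)) + c2 * (∫ x in B, g2 x * v x ^ 2 ∂(wvol k X h t)) +
        c3 * (∫ x in B, g3 x * v x ^ 2 ∂(wvol k X h t)) + c4 * ∫ x in B, v x ^ 2 ∂(wvol k X h t) := by
  have iq : ∀ {g : V → ℝ}, ContinuousOn g X → Integrable (fun x => g x * v x ^ 2) (wvol k X h t) := fun hg =>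
    (sh_int_sq_mul hG hv hg hK hKX h0).congr (Eventually.of_forall fun x => mul_comm _ _)
  have i4 : Integrable (fun x => v x ^ 2) (wvol k X h t) :=
    (iq (g := fun _ => 1) continuousOn_const).congr (Eventually.of_forall fun x => one_mul _)
  have j1 : Integrable (fun x => c1 * (g1 x * v x ^ 2)) (wvol k X h t) := (iq h1).const_mul c1
  have j2 : Integrable (fun x => c2 * (g2 x * v x ^ 2)) (wvol k X h t) := (iq h2).const_mul c2
  have j3 : Integrable (fun x => c3 * (g3 x * v x ^ 2)) (wvol k X h t) := (iq h3).const_mul c3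
  have j4 : Integrable (fun x => c4 * v x ^ 2) (wvol k X h t) := i4.const_mul c4
  have j12 : Integrable (fun x => c1 * (g1 x * v x ^ 2) + c2 * (g2 x * v x ^ 2)) (wvol k X h t) := j1.add j2
  have j123 : Integrable (fun x => c1 * (g1 x * v x ^ 2) + c2 * (g2 x * v x ^ 2) + c3 * (g3 x * v x ^ 2))
      (wvol k X h t) := j12.add j3
  rw [← integral_const_mul, ← integral_const_mul, ← integral_const_mul, ← integral_const_mul,
    ← integral_add j1.integrableOn j2.integrableOn, ← integral_add j12.integrableOn j3.integrableOn,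
    ← integral_add j123.integrableOn j4.integrableOn]
  refine integral_congr_ae (Eventually.of_forall fun x => ?_)
  ring

/-- linear combinations of potentials on a whole manifold, with the gradient term. -/
theorem rgbr_lin4 (hG : CtGeo k X h t) {v : V → ℝ} (hv : SmoothAlong k X v) (hK : IsCompact K) (hKX : K ⊆ X)
    (h0 : ∀ x ∈ X, x ∉ K → v x = 0) {g1 g2 g3 : V → ℝ}
    (h1 : ContinuousOn g1 X) (h2 : ContinuousOn g2 X) (h3 : ContinuousOn g3 X) (c0 c1 c2 c3 c4 : ℝ) (B : Set V) :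
    ∫ x in B, (c0 * gradSq k X h v x + (c1 * g1 x + c2 * g2 x + c3 * g3 x + c4) * v x ^ 2) ∂(wvol k X h t) =
      c0 * (∫ x in B, gradSq k X h v x ∂(wvol k X h t)) +
      (c1 * (∫ x in B, g1 x * v x ^ 2 ∂(wvol k X h t)) + c2 * (∫ x in B, g2 x * v x ^ 2 ∂(wvol k X h t)) +
        c3 * (∫ x in B, g3 x * v x ^ 2 ∂(wvol k X h t)) + c4 * ∫ x in B, v x ^ 2 ∂(wvol k X h t)) := by
  have hvc := if_smoothAlong_continuousOn hG.mfd hv
  have i1 : Integrable (gradSq k X h v) (wvol k X h t) := sh_int_grad hG hv hK hKX h0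
  have i2 : Integrable (fun x => (c1 * g1 x + c2 * g2 x + c3 * g3 x + c4) * v x ^ 2) (wvol k X h t) :=
    (sh_int_sq_mul hG hvc ((((continuousOn_const.mul h1).add (continuousOn_const.mul h2)).add
      (continuousOn_const.mul h3)).add continuousOn_const) hK hKX h0).congr
      (Eventually.of_forall fun x => mul_comm _ _)
  rw [← rgbr_lin3 hG hvc hK hKX h0 h1 h2 h3, ← integral_const_mul,
    ← integral_add (i1.const_mul c0).integrableOn i2.integrableOn]

end lin

end Claimed.Agent.R315
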