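import Claimed.Agent.R315.Rg.Defs
import Claimed.Agent.R315.Ct.Var
import Claimed.Agent.R315.Sh.ImsE
import Claimed.Agent.R315.Rg.BudT

/-!
# Row 315, unit BP-RG-BUD (captain), file Rg/BudA.lean: THE TRUE BUDGET ON ONE MANIFOLD (P Proposition B.10 + (E.3)), GMT form

Setting (no diagrams): `(d + 1, M, h, t)` = `CtGeo`, `M` closed, `1 ≤ d`, `p` smooth, `A` = `CtLAM` (local absolute minimiser of `P_ω - ∫ p`), `S = ctWall (d+1) M A`, `P = wper (d+1) M h t A`, `μ = wvol (d+1) M h t`.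
`pot ≥ 0` = potential of the current label (`2|dp| ≤ .67 p² + 1.02 pot`), `D ≥ 0` = `1.16 ×` the cumulative addition of the shielding stage, with the budget `∫ D dm_v ≤ .88 (N(v) + e0 |v|²)` (`ShForm.Bud`),
`Vq` = the target potential (`V* + 98 e0` in the application).  POINTWISE HYPOTHESIS (`hpi`) where the test does not vanish:  `Vq + e0 - D + 1.02 pot ≤ Dsc_M`.

RESULTS (coefficient `3.8`: the remaining `.2 |dφ|²` is the reserve of SEAM):
* `rgb_abs_wall` :  `0 ≤ ∫_S (3.8 |dη|²_S + (Dsc_S - Vq) η²) dP`                        for `ShTW` tests;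
* `rgb_abs_side` :  `0 ≤ ∫_A (3.8 |dvb|² + (Dsc_M - Vq) vb²) dμ + ∫_0^∞ ∫_S (3.8 (|d vc|²_S + (∂_s vc)²) + (Dsc_S - Vq) vc²) dP ds + 2 ∫_S p vb² dP`   for `ShTS` pairs.
  (minus side: apply it to `M \ A`, `-p`: `CtLAM.diff`, `ct_wper_diff`, `rgb_wall_diff`.)

NUMBERS.  wall: `ct_stab`: `∫ (2|dη|² + Dsc_S η²) ≥ ∫ (Dsc_M + p² - 2|dp|) η² ≥ ∫ (Dsc_M - 1.02 pot) η² ≥ ∫ (Vq + e0 - D) η²`;  `sh_bud_wall`: `∫ D η² ≤ .88 (1.7 ∫|dη|² + e0 ∫ η²)`.
Sum: `∫ (3.8|dη|² + (Dsc_S - Vq) η²) ≥ (1.8 - 1.496) ∫|dη|² + .12 e0 ∫ η² ≥ 0`.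
side: bulk `ct_side_form`: `3.05 ∫_A |dvb|² + 2 ∫ p vb² dP ≥ -1.02 ∫_A pot vb²`, so `∫_A (3.8|dvb|² + (Dsc_M - Vq) vb²) + 2 ∫ p vb² ≥ .75 ∫_A |dvb|² + ∫_A (e0 - D) vb²`;
every slice `vc(·,s)` is a `ShTW` test (`rgb_slice_tw`): `∫ (3.8|d vc|² + (Dsc_S - Vq) vc²) dP ≥ 1.8 ∫ |d vc|² + ∫ (e0 - D) vc²` (`rgb_abs_wall'`); integrate over `s > 0`;
`sh_bud_side`: `∫_A D vb² + ∫∫ D vc² ≤ .88 (.8 ∫_A |dvb|² + 1.7 ∫∫ (|d vc|² + (∂_s vc)²) + e0 (∫_A vb² + ∫∫ vc²))`.   `.75 - .704 > 0`, `1.8 - 1.496 > 0`, `3.8 - 1.496 > 0`, `1 - .88 > 0`.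

INTEGRABILITY TOOLBOX (`rgb_int_*`, `rgb_cont_*`): every integrand is continuous on the wall (resp. on `M`, on `S × ℝ`) and vanishes off a compact set; `P` is finite on compact subsets of `M` (`CtLF.fin`), `P = wvol d S h t`
(`CtLAM.wper_eq`) is carried by `S`; `K ∩ S = K ∩ ctBd` is compact if `K` misses `Σ` (`ctBd` is closed in `M`: complement of `ctIn ∪ ctOut`, `ct_in_open`, `ct_out_open`, `ct_trichotomy'`).
All leaves are Mathlib level + `Gs/Calc` (`gs_sm_*`, `gs_sq_*`), `Ct/Reg*`, `Ct/Bv*`.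
-/

set_option autoImplicit false
open scoped ContDiff ENNReal Topology
open MeasureTheory Claims.C0499 Set Filter

namespace Claimed.Agent.R315

variable {V : Type} [NormedAddCommGroup V] [NormedSpace ℝ V] [FiniteDimensional ℝ V]
  [MeasurableSpace V] [BorelSpace V]
variable {d : ℕ} {M : Set V} {h : Ten V} {t p : V → ℝ} {A : Set V}

/-! ### package L-RG-BUD-INT: integrability toolbox -/

/-- `K ∩ S` is compact if the compact set `K ⊆ M` misses `Σ`. -/
theorem rgb_wall_compact (hM : IsMfd d M) (hMc : IsClosed M) (A : Set V) {K : Set V}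
    (hK : IsCompact K) (hKM : K ⊆ M) (hKS : Disjoint K (ctSing d M A)) :
    IsCompact (K ∩ ctWall d M A) := by
  obtain ⟨O₁, hO₁, h₁⟩ := ct_in_open hM A
  obtain ⟨O₂, hO₂, h₂⟩ := ct_out_open hM A
  obtain ⟨hun, -, hd₁, hd₂⟩ := ct_trichotomy' hM A
  have e : K ∩ ctWall d M A = K ∩ (O₁ ∪ O₂)ᶜ := by
    ext x
    constructor
    · rintro ⟨hxK, hxW⟩
      refine ⟨hxK, ?_⟩
      have hb := ct_wall_subset_bd A hxW
      rintro (hx | hx)
      · exact Set.disjoint_left.1 hd₁ (h₁ ▸ (⟨hKM hxK, hx⟩ : x ∈ M ∩ O₁)) hb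
      · exact Set.disjoint_left.1 hd₂ (h₂ ▸ (⟨hKM hxK, hx⟩ : x ∈ M ∩ O₂)) hb
    · rintro ⟨hxK, hxO⟩
      refine ⟨hxK, ?_⟩
      have hxM := hKM hxK
      rw [← hun] at hxM
      rcases hxM with (hx | hx) | hx
      · rw [← h₁] at hx
        exact absurd (Or.inl hx.2) hxO
      · rw [← h₂] at hx
        exact absurd (Or.inr hx.2) hxO
      · by_contra hn
        exact Set.disjoint_left.1 hKS hxK ⟨hx, hn⟩
  rw [e]
  exact hK.inter_right (hO₁.union hO₂).isClosed_compl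

/-- the perimeter measure is carried by the wall. -/
theorem rgb_wper_ae (hG : CtGeo (d + 1) M h t) (hd : 1 ≤ d) (hp : SmoothAlong (d + 1) M p)
    (hA : CtLAM (d + 1) M h t p A) :
    ∀ᵐ x ∂(wper (d + 1) M h t A), x ∈ ctWall (d + 1) M A := by
  rw [hA.wper_eq hG hp hd]
  exact sh_ae_mem (ct_wall_geo hG A)

/-- integrability on the wall. -/
theorem rgb_int_wall (hG : CtGeo (d + 1) M h t) (hMc : IsClosed M) (hd : 1 ≤ d)
    (hp : SmoothAlong (d + 1) M p) (hA : CtLAM (d + 1) M h t p A) {f : V → ℝ}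
    (hf : ContinuousOn f (ctWall (d + 1) M A)) {K : Set V} (hK : IsCompact K) (hKM : K ⊆ M)
    (hKS : Disjoint K (ctSing (d + 1) M A)) (h0 : ∀ x ∈ ctWall (d + 1) M A, x ∉ K → f x = 0) :
    Integrable f (wper (d + 1) M h t A) := by
  rw [hA.wper_eq hG hp hd]
  exact sh_integrable_cs (ct_wall_geo hG A) hf (rgb_wall_compact hG.mfd hMc A hK hKM hKS)
    inter_subset_right fun x hx hxK => h0 x hx fun hxK' => hxK ⟨hxK', hx⟩

/-- integrability in the bulk (on every measurable subset: `Integrable.restrict`). -/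
theorem rgb_int_bulk (hG : CtGeo d M h t) {f : V → ℝ} (hf : ContinuousOn f M) {K : Set V}
    (hK : IsCompact K) (hKM : K ⊆ M) (h0 : ∀ x ∈ M, x ∉ K → f x = 0) :
    Integrable f (wvol d M h t) := by
  exact sh_integrable_cs hG hf hK hKM h0

/-- integrability on the cylinder: product measure, slices, iterated integral.
PLAN: `F = uncurry f` is continuous on the measurable set `S ×ˢ univ`, bounded (compact `(K ∩ S) ×ˢ Icc (-L) L`), vanishes off it on `S ×ˢ univ`; `P.prod volume` of that compact set is finite and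
`P.prod volume (Sᶜ ×ˢ univ) = 0`: `Integrable F (P.prod volume)`; then `Integrable.integral_prod_right` (after `Measure.prod_swap`) and `.restrict`. -/
theorem rgb_int_cyl (hG : CtGeo (d + 1) M h t) (hMc : IsClosed M) (hd : 1 ≤ d)
    (hp : SmoothAlong (d + 1) M p) (hA : CtLAM (d + 1) M h t p A) {f : V → ℝ → ℝ}
    (hf : ContinuousOn (fun z : V × ℝ => f z.1 z.2) (ctWall (d + 1) M A ×ˢ (univ : Set ℝ)))
    {K : Set V} {L : ℝ} (hK : IsCompact K) (hKM : K ⊆ M) (hKS : Disjoint K (ctSing (d + 1) M A))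
    (h0 : ∀ x ∈ ctWall (d + 1) M A, x ∉ K → ∀ s, f x s = 0) (hL : ∀ x s, L < |s| → f x s = 0) :
    (∀ s, Integrable (fun x => f x s) (wper (d + 1) M h t A)) ∧
      Integrable (fun s => ∫ x, f x s ∂(wper (d + 1) M h t A)) (volume.restrict (Ioi (0 : ℝ))) := by
  set S := ctWall (d + 1) M A with hS
  set P := wper (d + 1) M h t A with hP
  have hK' : IsCompact (K ∩ S) := rgb_wall_compact hG.mfd hMc A hK hKM hKS
  have hae : ∀ᵐ x ∂P, x ∈ S := rgb_wper_ae hG hd hp hA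
  -- slices are continuous on the wall
  have hsl : ∀ s, ContinuousOn (fun x => f x s) S := fun s =>
    hf.comp (f := fun x : V => (x, s)) (by fun_prop) fun x hx => ⟨hx, mem_univ _⟩
  have hint : ∀ s, Integrable (fun x => f x s) P := fun s =>
    rgb_int_wall hG hMc hd hp hA (hsl s) hK hKM hKS fun x hx hxK => h0 x hx hxK s
  refine ⟨hint, ?_⟩
  -- a uniform bound
  obtain ⟨C, hC⟩ := (hK'.prod (isCompact_Icc (a := -L) (b := L))).exists_bound_of_continuousOn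
    (hf.mono fun z hz => ⟨hz.1.2, mem_univ _⟩)
  have hbd : ∀ x ∈ S, ∀ s, ‖f x s‖ ≤ (K ∩ S).indicator (fun _ => |C|) x := by
    intro x hx s
    by_cases hxK : x ∈ K
    · have hxKS : x ∈ K ∩ S := ⟨hxK, hx⟩
      rw [indicator_of_mem hxKS]
      by_cases hs : L < |s|
      · rw [hL x s hs, norm_zero]
        exact abs_nonneg _
      · exact (hC (x, s) ⟨⟨hxK, hx⟩, abs_le.1 (not_lt.1 hs)⟩).trans (le_abs_self _)
    · rw [h0 x hx hxK s, norm_zero]
      exact indicator_nonneg (fun _ _ => abs_nonneg _) _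
  have hfin : P (K ∩ S) ≠ ⊤ :=
    ne_top_of_le_ne_top (hA.lf.fin K hK hKM) (measure_mono inter_subset_left)
  have hdom : Integrable ((K ∩ S).indicator fun _ => |C|) P :=
    (integrable_indicator_iff hK'.measurableSet).2 (integrableOn_const hfin)
  have hcont : Continuous (fun s => ∫ x, f x s ∂P) := by
    refine continuous_of_dominated (bound := (K ∩ S).indicator fun _ => |C|)
      (fun s => (hint s).aestronglyMeasurable) (fun s => ?_) hdom ?_
    · filter_upwards [hae] with x hx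
      exact hbd x hx s
    · filter_upwards [hae] with x hx
      rw [← continuousOn_univ]
      exact hf.comp (f := fun s : ℝ => (x, s)) (by fun_prop) fun s _ => ⟨hx, mem_univ _⟩
  have hcs : HasCompactSupport (fun s => ∫ x, f x s ∂P) := by
    refine HasCompactSupport.intro (isCompact_Icc (a := -L) (b := L)) fun s hs => ?_
    have hs' : L < |s| := by
      by_contra hn
      exact hs (abs_le.1 (not_lt.1 hn))
    simp only [hL _ s hs', integral_zero]
  exact (hcont.integrable_of_hasCompactSupport hcs).restrict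

/-! ### package L-RG-BUD-CONT: continuity of the integrands -/

/-- `Dsc` is continuous along the manifold. -/
theorem rgb_cont_Dsc (hG : CtGeo d M h t) : ContinuousOn (Dsc d M h t) M := by
  exact if_smoothAlong_continuousOn hG.mfd (if_Dsc_smoothAlong hG.met hG.drift)

/-- `gradSq` of a smooth function is continuous along the manifold. -/
theorem rgb_cont_gradSq (hG : CtGeo d M h t) {f : V → ℝ} (hf : SmoothAlong d M f) :
    ContinuousOn (gradSq d M h f) M := by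
  exact if_smoothAlong_continuousOn hG.mfd (if_gradSq_smoothAlong hG.met hf)

/-- slices of a function on the cylinder. -/
theorem rgb_slice_smooth (hM : IsMfd d M) {vc : V → ℝ → ℝ}
    (hc : SmoothAlong (d + 1) (M ×ˢ (univ : Set ℝ)) (fun z : V × ℝ => vc z.1 z.2)) (s : ℝ) :
    SmoothAlong d M (fun x => vc x s) := by
  exact sh_cyl_slice hM hc s

/-- every slice of a pair is a wall test. -/
theorem rgb_slice_tw (hM : IsMfd d M) {vb : V → ℝ} {vc : V → ℝ → ℝ} (hv : ShTS d M A vb vc)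
    (s : ℝ) : ShTW d M A (fun x => vc x s) := by
  obtain ⟨K, L, hK, hKM, hKS, h0, -⟩ := hv.cs
  exact ⟨rgb_slice_smooth hM hv.c_smooth s, K, hK, hKM, hKS, fun x hx hxK => (h0 x hx hxK).2 s⟩

/-- the vertical derivative is smooth on the cylinder.
PLAN: in the product parametrisation `pk_param_prod` the function is `(a, s) ↦ vc (ψ a) s`, its partial derivative in `s` is smooth; every parametrisation of `M ×ˢ univ` is related to a product one by a
smooth change of coordinates (`SmoothAlong` may be tested on an atlas: `If/Smooth`, `if_smoothAlong_of_pieces`). -/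
theorem rgb_vert_smooth (hM : IsMfd d M) {vc : V → ℝ → ℝ}
    (hc : SmoothAlong (d + 1) (M ×ˢ (univ : Set ℝ)) (fun z : V × ℝ => vc z.1 z.2)) :
    SmoothAlong (d + 1) (M ×ˢ (univ : Set ℝ))
      (fun z : V × ℝ => deriv (fun σ => vc z.1 σ) z.2) := by
  have hprod : (M ×ˢ (univ : Set ℝ) : Set (V × ℝ)) = Prod.fst ⁻¹' M := Set.prod_univ
  refine if_smoothAlong_of_atlas fun x hx => ?_
  obtain ⟨ψ, U, hψ, u, hu, hue⟩ := hM x.1 hx.1
  have hP : IsParam (M ×ˢ (univ : Set ℝ) : Set (V × ℝ)) (fun b : E (d + 1) => (ψ (rm_tl d b), b 0))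
      {b | rm_tl d b ∈ U} := by
    rw [hprod]
    exact pk_param_prod hψ
  refine ⟨_, _, hP, ⟨rm_J x.2 u, ?_, ?_⟩, ?_⟩
  · show rm_tl d (rm_J x.2 u) ∈ U
    rw [rm_tl_J]
    exact hu
  · show (ψ (rm_tl d (rm_J x.2 u)), rm_J x.2 u 0) = x
    rw [rm_tl_J, rm_J_zero, hue]
  · have hG : ContDiffOn ℝ ∞ (fun y : E d × ℝ => vc (ψ y.1) y.2) (U ×ˢ (univ : Set ℝ)) :=
      sh_cyl_chart hM hc hψ
    have hopen : IsOpen (U ×ˢ (univ : Set ℝ) : Set (E d × ℝ)) := (if_open hψ).prod isOpen_univ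
    have h1 : ContDiffOn ℝ ∞ (fun y : E d × ℝ => fderiv ℝ (fun y : E d × ℝ => vc (ψ y.1) y.2) y
        ((0 : E d), (1 : ℝ))) (U ×ˢ (univ : Set ℝ)) :=
      (hG.fderiv_of_isOpen hopen (by simp)).clm_apply contDiffOn_const
    have h2 : ContDiff ℝ ∞ (fun b : E (d + 1) => (rm_tl d b, b 0)) :=
      (rm_tl d).contDiff.prodMk (if_pr (0 : Fin (d + 1))).contDiff
    have h3 := h1.comp h2.contDiffOn (s := {b : E (d + 1) | rm_tl d b ∈ U}) fun b hb => ⟨hb, mem_univ _⟩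
    refine h3.congr fun b hb => ?_
    exact sh_cyl_deriv_right hM hc hψ hb (b 0)

/-- joint continuity of the tangential energy density of the slices on `N × ℝ`, `N ⊆ M` a submanifold (`N` = the wall).
PLAN: in a parametrisation `ψ` of `N`: `gradSq e N h (vc · s) (ψ a) = gradSqC (cm h ψ) (fun a' => vc (ψ a') s) a` = a polynomial in the inverse matrix of `cm h ψ a` and the partial derivatives in `a` of the jointly smooth
function `(a,s) ↦ vc (ψ a) s` (smooth: `rm_sub_smooth` for `N ×ˢ univ ⊆ M ×ˢ univ`, `pk_param_prod`); continuity is local. -/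
theorem rgb_cont_slice_gradSq {e : ℕ} {N : Set V} (hM : IsMfd d M) (hN : IsMfd e N) (hNM : N ⊆ M)
    (hh : IsMetricOn e N h) {vc : V → ℝ → ℝ}
    (hc : SmoothAlong (d + 1) (M ×ˢ (univ : Set ℝ)) (fun z : V × ℝ => vc z.1 z.2)) :
    ContinuousOn (fun z : V × ℝ => gradSq e N h (fun y => vc y z.2) z.1) (N ×ˢ (univ : Set ℝ)) := by
  exact sh_cyl_grad_cont (t := fun _ => 0) ⟨hN, hh, if_smoothAlong_const 0⟩ (sh_cyl_sub hM hNM hc)

/-! ### package L-RG-BUD-ABS: the two inequalities -/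

/-- `p² - 2|dp| ≥ -1.02 pot`. -/
theorem rgb_press {a b c : ℝ} (h : 2 * b ≤ 0.67 * a ^ 2 + 1.02 * c) : -(1.02 * c) ≤ a ^ 2 - 2 * b := by
  nlinarith [sq_nonneg a]

/-- integrability of the standard integrands of a wall test. -/
theorem rgb_tw_int (hG : CtGeo (d + 1) M h t) (hMc : IsClosed M) (hd : 1 ≤ d)
    (hp : SmoothAlong (d + 1) M p) (hA : CtLAM (d + 1) M h t p A) {η : V → ℝ}
    (hη : ShTW (d + 1) M A η) :
    Integrable (gradSq d (ctWall (d + 1) M A) h η) (wper (d + 1) M h t A) ∧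
      ∀ f : V → ℝ, ContinuousOn f (ctWall (d + 1) M A) →
        Integrable (fun x => f x * η x ^ 2) (wper (d + 1) M h t A) := by
  obtain ⟨K, hK, hKM, hKS, hK0⟩ := hη.cs
  have hS : CtGeo d (ctWall (d + 1) M A) h t := ct_wall_geo hG A
  have hSM : ctWall (d + 1) M A ⊆ M := (ct_wall_subset_bd A).trans (ct_bd_subset A)
  have hηS : SmoothAlong d (ctWall (d + 1) M A) η := ct_wall_smooth hG A hη.smooth
  have hηc : ContinuousOn η (ctWall (d + 1) M A) := if_smoothAlong_continuousOn hS.mfd hηS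
  refine ⟨rgb_int_wall hG hMc hd hp hA (rgb_cont_gradSq hS hηS) hK hKM hKS ?_, fun f hf =>
    rgb_int_wall hG hMc hd hp hA (hf.mul (hηc.pow 2)) hK hKM hKS ?_⟩
  · intro x hx hxK
    rw [if_gradSq_eq_gradIp]
    exact ct_gradIp_eq_zero hS hηS hx (hK.isClosed.isOpen_compl.mem_nhds hxK)
      (fun y hy => hK0 y (hSM hy.1) hy.2)
  · intro x hx hxK
    rw [hK0 x (hSM hx) hxK]
    ring

/-- the wall inequality with the spare terms kept (used slice by slice in `rgb_abs_side`): `ct_stab` + `hgrad` + `hpi`. -/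
theorem rgb_abs_wall' (hG : CtGeo (d + 1) M h t) (hMc : IsClosed M) (hd : 1 ≤ d)
    (hp : SmoothAlong (d + 1) M p) (hA : CtLAM (d + 1) M h t p A) {pot D Vq : V → ℝ}
    (hgrad : ∀ x ∈ M, 2 * gradN (d + 1) M h p x ≤ 0.67 * p x ^ 2 + 1.02 * pot x)
    (hD : ContinuousOn D M) (hVq : ContinuousOn Vq M) {e0 : ℝ} {η : V → ℝ}
    (hη : ShTW (d + 1) M A η)
    (hpi : ∀ x ∈ ctWall (d + 1) M A, η x ≠ 0 →
      Vq x + e0 - D x + 1.02 * pot x ≤ Dsc (d + 1) M h t x) :
    ∫ x, (1.8 * gradSq d (ctWall (d + 1) M A) h η x + (e0 - D x) * η x ^ 2)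
        ∂(wper (d + 1) M h t A) ≤
      ∫ x, (3.8 * gradSq d (ctWall (d + 1) M A) h η x +
        (Dsc d (ctWall (d + 1) M A) h t x - Vq x) * η x ^ 2) ∂(wper (d + 1) M h t A) := by
  have hS : CtGeo d (ctWall (d + 1) M A) h t := ct_wall_geo hG A
  have hP : wper (d + 1) M h t A = wvol d (ctWall (d + 1) M A) h t := hA.wper_eq hG hp (by omega)
  have hSM : ctWall (d + 1) M A ⊆ M := (ct_wall_subset_bd A).trans (ct_bd_subset A)
  obtain ⟨K, hK, hKM, hKS, hK0⟩ := hη.cs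
  have hst := ct_stab hG hd hp hA hη.smooth hK hKM hKS hK0
  have hηS : SmoothAlong d (ctWall (d + 1) M A) η := ct_wall_smooth hG A hη.smooth
  have hηc := if_smoothAlong_continuousOn hS.mfd hηS
  have hK' : IsCompact (K ∩ ctWall (d + 1) M A) := sh_wall_cpt hG.mfd A hK hKM hKS
  have hKX : K ∩ ctWall (d + 1) M A ⊆ ctWall (d + 1) M A := Set.inter_subset_right
  have hK'0 : ∀ x ∈ ctWall (d + 1) M A, x ∉ K ∩ ctWall (d + 1) M A → η x = 0 := fun x hx hxK =>
    hK0 x (hSM hx) fun hxK' => hxK ⟨hxK', hx⟩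
  have cD := hD.mono hSM
  have cV := hVq.mono hSM
  have cS : ContinuousOn (Dsc d (ctWall (d + 1) M A) h t) (ctWall (d + 1) M A) :=
    if_smoothAlong_continuousOn hS.mfd (gs_Dsc_sm hS.met hS.drift)
  have cM : ContinuousOn (fun x => Dsc (d + 1) M h t x + p x ^ 2 - 2 * gradN (d + 1) M h p x)
      (ctWall (d + 1) M A) := by
    have c1 : ContinuousOn (Dsc (d + 1) M h t) M := if_smoothAlong_continuousOn hG.mfd (gs_Dsc_sm hG.met hG.drift)
    have c2 : ContinuousOn p M := if_smoothAlong_continuousOn hG.mfd hp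
    have c3 : ContinuousOn (gradN (d + 1) M h p) M := (sh_gradSq_continuousOn hG hp).sqrt
    exact ((c1.add (c2.pow 2)).sub (continuousOn_const.mul c3)).mono hSM
  rw [hP] at hst ⊢
  have e1 := rgbr_lin4 hS hηS hK' hKX hK'0 cD cD cD 1.8 (-1) 0 0 e0 Set.univ
  have e2 := rgbr_lin4 hS hηS hK' hKX hK'0 cS cV cV 3.8 1 (-1) 0 0 Set.univ
  have e3 := rgbr_lin4 hS hηS hK' hKX hK'0 cS cV cV 2 1 0 0 0 Set.univ
  have e4 := rgbr_lin3 hS hηc hK' hKX hK'0 cV cD cD 1 (-1) 0 e0 Set.univ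
  simp only [Measure.restrict_univ] at e1 e2 e3 e4
  have hmono : ∫ x, (1 * Vq x + -1 * D x + 0 * D x + e0) * η x ^ 2 ∂(wvol d (ctWall (d + 1) M A) h t) ≤
      ∫ x, (Dsc (d + 1) M h t x + p x ^ 2 - 2 * gradN (d + 1) M h p x) * η x ^ 2
        ∂(wvol d (ctWall (d + 1) M A) h t) := by
    refine integral_mono_ae
      ((sh_int_sq_mul hS hηc ((((continuousOn_const.mul cV).add (continuousOn_const.mul cD)).add
        (continuousOn_const.mul cD)).add continuousOn_const) hK' hKX hK'0).congr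
        (Eventually.of_forall fun x => mul_comm _ _))
      ((sh_int_sq_mul hS hηc cM hK' hKX hK'0).congr (Eventually.of_forall fun x => mul_comm _ _)) ?_
    filter_upwards [sh_ae_mem hS] with x hx
    by_cases hx0 : η x = 0
    · simp [hx0]
    · refine mul_le_mul_of_nonneg_right ?_ (sq_nonneg _)
      have q1 := hpi x hx hx0
      have q2 := rgb_press (hgrad x (hSM hx))
      linarith
  have l1 : ∫ x, (1.8 * gradSq d (ctWall (d + 1) M A) h η x + (e0 - D x) * η x ^ 2)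
      ∂(wvol d (ctWall (d + 1) M A) h t) = ∫ x, (1.8 * gradSq d (ctWall (d + 1) M A) h η x +
        (-1 * D x + 0 * D x + 0 * D x + e0) * η x ^ 2) ∂(wvol d (ctWall (d + 1) M A) h t) :=
    integral_congr_ae (Eventually.of_forall fun x => by ring_nf)
  have l2 : ∫ x, (3.8 * gradSq d (ctWall (d + 1) M A) h η x +
      (Dsc d (ctWall (d + 1) M A) h t x - Vq x) * η x ^ 2) ∂(wvol d (ctWall (d + 1) M A) h t) =
      ∫ x, (3.8 * gradSq d (ctWall (d + 1) M A) h η x +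
        (1 * Dsc d (ctWall (d + 1) M A) h t x + -1 * Vq x + 0 * Vq x + 0) * η x ^ 2)
        ∂(wvol d (ctWall (d + 1) M A) h t) :=
    integral_congr_ae (Eventually.of_forall fun x => by ring_nf)
  have l3 : ∫ x, (2 * gradSq d (ctWall (d + 1) M A) h η x +
      Dsc d (ctWall (d + 1) M A) h t x * η x ^ 2) ∂(wvol d (ctWall (d + 1) M A) h t) =
      ∫ x, (2 * gradSq d (ctWall (d + 1) M A) h η x +
        (1 * Dsc d (ctWall (d + 1) M A) h t x + 0 * Vq x + 0 * Vq x + 0) * η x ^ 2)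
        ∂(wvol d (ctWall (d + 1) M A) h t) :=
    integral_congr_ae (Eventually.of_forall fun x => by ring_nf)
  rw [l3, e3] at hst
  rw [e4] at hmono
  rw [l1, l2, e1, e2]
  linarith

/-- **the true budget on the wall**: `rgb_abs_wall'` + `sh_bud_wall`. -/
theorem rgb_abs_wall (hG : CtGeo (d + 1) M h t) (hMc : IsClosed M) (hd : 1 ≤ d)
    (hp : SmoothAlong (d + 1) M p) (hA : CtLAM (d + 1) M h t p A) {pot D Vq : V → ℝ}
    (hgrad : ∀ x ∈ M, 2 * gradN (d + 1) M h p x ≤ 0.67 * p x ^ 2 + 1.02 * pot x)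
    (hD : ContinuousOn D M) (hD0 : ∀ x ∈ M, 0 ≤ D x) (hVq : ContinuousOn Vq M) {e0 : ℝ}
    (he0 : 0 ≤ e0) (hB : (shFW (d + 1) M h t A).Bud D 0.88 e0 0) {η : V → ℝ}
    (hη : ShTW (d + 1) M A η)
    (hpi : ∀ x ∈ ctWall (d + 1) M A, η x ≠ 0 →
      Vq x + e0 - D x + 1.02 * pot x ≤ Dsc (d + 1) M h t x) :
    0 ≤ ∫ x, (3.8 * gradSq d (ctWall (d + 1) M A) h η x +
      (Dsc d (ctWall (d + 1) M A) h t x - Vq x) * η x ^ 2) ∂(wper (d + 1) M h t A) := by
  refine le_trans ?_ (rgb_abs_wall' hG hMc hd hp hA hgrad hD hVq hη hpi)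
  have hb := sh_bud_wall hG hMc (by omega) hp hA hD hD0 (by norm_num) he0 le_rfl hB hη
  have hS : CtGeo d (ctWall (d + 1) M A) h t := ct_wall_geo hG A
  have hP : wper (d + 1) M h t A = wvol d (ctWall (d + 1) M A) h t := hA.wper_eq hG hp (by omega)
  have hSM : ctWall (d + 1) M A ⊆ M := (ct_wall_subset_bd A).trans (ct_bd_subset A)
  obtain ⟨K, hK, hKM, hKS, hK0⟩ := hη.cs
  have hηS : SmoothAlong d (ctWall (d + 1) M A) η := ct_wall_smooth hG A hη.smooth
  have hK' : IsCompact (K ∩ ctWall (d + 1) M A) := sh_wall_cpt hG.mfd A hK hKM hKS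
  have hKX : K ∩ ctWall (d + 1) M A ⊆ ctWall (d + 1) M A := Set.inter_subset_right
  have hK'0 : ∀ x ∈ ctWall (d + 1) M A, x ∉ K ∩ ctWall (d + 1) M A → η x = 0 := fun x hx hxK =>
    hK0 x (hSM hx) fun hxK' => hxK ⟨hxK', hx⟩
  have cD := hD.mono hSM
  simp only [Nat.add_sub_cancel] at hb
  rw [hP] at hb ⊢
  have e1 := rgbr_lin4 hS hηS hK' hKX hK'0 cD cD cD 1.8 (-1) 0 0 e0 Set.univ
  simp only [Measure.restrict_univ] at e1
  have l1 : ∫ x, (1.8 * gradSq d (ctWall (d + 1) M A) h η x + (e0 - D x) * η x ^ 2)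
      ∂(wvol d (ctWall (d + 1) M A) h t) = ∫ x, (1.8 * gradSq d (ctWall (d + 1) M A) h η x +
        (-1 * D x + 0 * D x + 0 * D x + e0) * η x ^ 2) ∂(wvol d (ctWall (d + 1) M A) h t) :=
    integral_congr_ae (Eventually.of_forall fun x => by ring_nf)
  have a1 : 0 ≤ ∫ x, gradSq d (ctWall (d + 1) M A) h η x ∂(wvol d (ctWall (d + 1) M A) h t) :=
    integral_nonneg fun x => sh_gradSq_nonneg hS.mfd hS.met hηS x
  have a3 : 0 ≤ ∫ x, η x ^ 2 ∂(wvol d (ctWall (d + 1) M A) h t) := integral_nonneg fun x => sq_nonneg _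
  have a4 := mul_nonneg he0 a3
  rw [l1, e1]
  linarith

/-- **the true budget on a joined side.** -/
theorem rgb_abs_side (hG : CtGeo (d + 1) M h t) (hMc : IsClosed M) (hd : 1 ≤ d)
    (hp : SmoothAlong (d + 1) M p) (hA : CtLAM (d + 1) M h t p A) {pot D Vq : V → ℝ}
    (hpot : ContinuousOn pot M) (hpot0 : ∀ x ∈ M, 0 ≤ pot x)
    (hgrad : ∀ x ∈ M, 2 * gradN (d + 1) M h p x ≤ 0.67 * p x ^ 2 + 1.02 * pot x)
    (hD : ContinuousOn D M) (hD0 : ∀ x ∈ M, 0 ≤ D x) (hVq : ContinuousOn Vq M) {e0 : ℝ}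
    (he0 : 0 ≤ e0) (hB : (shFS (d + 1) M h t A).Bud D 0.88 e0 0) {vb : V → ℝ} {vc : V → ℝ → ℝ}
    (hv : ShTS (d + 1) M A vb vc)
    (hpib : ∀ x ∈ M, vb x ≠ 0 → Vq x + e0 - D x + 1.02 * pot x ≤ Dsc (d + 1) M h t x)
    (hpic : ∀ x ∈ ctWall (d + 1) M A, ∀ s, vc x s ≠ 0 →
      Vq x + e0 - D x + 1.02 * pot x ≤ Dsc (d + 1) M h t x) :
    0 ≤ (∫ x in A, (3.8 * gradSq (d + 1) M h vb x + (Dsc (d + 1) M h t x - Vq x) * vb x ^ 2)
          ∂(wvol (d + 1) M h t)) +
      (∫ s in Ioi (0 : ℝ), ∫ x, (3.8 * (gradSq d (ctWall (d + 1) M A) h (fun y => vc y s) x +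
          deriv (fun σ => vc x σ) s ^ 2) +
          (Dsc d (ctWall (d + 1) M A) h t x - Vq x) * vc x s ^ 2) ∂(wper (d + 1) M h t A)) +
      2 * ∫ x, p x * vb x ^ 2 ∂(wper (d + 1) M h t A) := by
  have hS : CtGeo d (ctWall (d + 1) M A) h t := ct_wall_geo hG A
  have hP : wper (d + 1) M h t A = wvol d (ctWall (d + 1) M A) h t := hA.wper_eq hG hp (by omega)
  have hSM : ctWall (d + 1) M A ⊆ M := (ct_wall_subset_bd A).trans (ct_bd_subset A)
  obtain ⟨K, L, hK, hKM, hKS, hK0, hL⟩ := hv.cs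
  have hK' : IsCompact (K ∩ ctWall (d + 1) M A) := sh_wall_cpt hG.mfd A hK hKM hKS
  have hKX : K ∩ ctWall (d + 1) M A ⊆ ctWall (d + 1) M A := Set.inter_subset_right
  have hzx : ∀ x ∈ ctWall (d + 1) M A, x ∉ K ∩ ctWall (d + 1) M A → ∀ s, vc x s = 0 := fun x hx hxK =>
    (hK0 x (hSM hx) fun hxK' => hxK ⟨hxK', hx⟩).2
  have hwS := sh_cyl_sub (k := d) hG.mfd hSM hv.c_smooth
  have hci : ShCI (ctWall (d + 1) M A) (K ∩ ctWall (d + 1) M A) L vc := sh_ci_self hS.mfd hwS hzx hL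
  have hcG := rgbr_ci_grad hS hwS hK'.isClosed hzx hL
  have hcT := rgbr_ci_dsq (K := K ∩ ctWall (d + 1) M A) hS.mfd hwS hzx hL
  have hbc := if_smoothAlong_continuousOn hG.mfd hv.b_smooth
  have hb0 : ∀ x ∈ M, x ∉ K → vb x = 0 := fun x hx hxK => (hK0 x hx hxK).1
  -- the three inputs
  have hside := ct_side_form hG hp hA hpot hpot0 hgrad hv.b_smooth ⟨K, hK, hKM, hb0⟩
  have hbud := sh_bud_side hG hMc (by omega) hp hA hD hD0 (by norm_num : (0 : ℝ) ≤ 0.88) he0 le_rfl hB hv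
  have hw : ∀ s, _ := fun s => rgb_abs_wall' hG hMc hd hp hA hgrad hD hVq (e0 := e0) (η := fun x => vc x s)
    ⟨sh_cyl_slice hG.mfd hv.c_smooth s, K, hK, hKM, hKS, fun x hx hxK => (hK0 x hx hxK).2 s⟩
    (fun x hx h0 => hpic x hx s h0)
  unfold shNS at hbud
  simp only [Nat.add_sub_cancel] at hbud
  rw [hP] at hside hbud ⊢
  simp only [hP] at hw
  -- the bulk
  have cDs : ContinuousOn (Dsc (d + 1) M h t) M := if_smoothAlong_continuousOn hG.mfd (gs_Dsc_sm hG.met hG.drift)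
  have b1 := rgbr_lin4 hG hv.b_smooth hK hKM hb0 cDs hVq hVq 3.8 1 (-1) 0 0 A
  have b2 := rgbr_lin3 hG hbc hK hKM hb0 hVq hD hpot 1 (-1) 1.02 e0 A
  have b3 := rgbr_lin3 hG hbc hK hKM hb0 cDs hVq hVq 1 0 0 0 A
  have bmono : ∫ x in A, (1 * Vq x + -1 * D x + 1.02 * pot x + e0) * vb x ^ 2 ∂(wvol (d + 1) M h t) ≤
      ∫ x in A, (1 * Dsc (d + 1) M h t x + 0 * Vq x + 0 * Vq x + 0) * vb x ^ 2 ∂(wvol (d + 1) M h t) := by
    refine integral_mono_ae
      ((sh_int_sq_mul hG hbc ((((continuousOn_const.mul hVq).add (continuousOn_const.mul hD)).add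
        (continuousOn_const.mul hpot)).add continuousOn_const) hK hKM hb0).congr
        (Eventually.of_forall fun x => mul_comm _ _)).integrableOn
      ((sh_int_sq_mul hG hbc ((((continuousOn_const.mul cDs).add (continuousOn_const.mul hVq)).add
        (continuousOn_const.mul hVq)).add continuousOn_const) hK hKM hb0).congr
        (Eventually.of_forall fun x => mul_comm _ _)).integrableOn (ae_restrict_of_ae ?_)
    filter_upwards [sh_ae_mem hG] with x hx
    by_cases hx0 : vb x = 0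
    · simp [hx0]
    · refine mul_le_mul_of_nonneg_right ?_ (sq_nonneg _)
      have q1 := hpib x hx hx0
      linarith
  have lb : ∫ x in A, (3.8 * gradSq (d + 1) M h vb x + (Dsc (d + 1) M h t x - Vq x) * vb x ^ 2)
      ∂(wvol (d + 1) M h t) = ∫ x in A, (3.8 * gradSq (d + 1) M h vb x +
        (1 * Dsc (d + 1) M h t x + -1 * Vq x + 0 * Vq x + 0) * vb x ^ 2) ∂(wvol (d + 1) M h t) :=
    integral_congr_ae (Eventually.of_forall fun x => by ring_nf)
  rw [b2, b3] at bmono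
  rw [lb, b1]
  -- the cylinder
  have cD := hD.mono hSM
  have cV := hVq.mono hSM
  have cS : ContinuousOn (Dsc d (ctWall (d + 1) M A) h t) (ctWall (d + 1) M A) :=
    if_smoothAlong_continuousOn hS.mfd (gs_Dsc_sm hS.met hS.drift)
  have ceD : ContinuousOn (fun x => e0 - D x) (ctWall (d + 1) M A) := continuousOn_const.sub cD
  have cSV : ContinuousOn (fun x => Dsc d (ctWall (d + 1) M A) h t x - Vq x) (ctWall (d + 1) M A) := cS.sub cV
  have hΦ1 := (hcG.const_mul 1.8).add (hci.sq.mul_left ceD)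
  have hΨ1 := (hcG.const_mul 3.8).add (hci.sq.mul_left cSV)
  have m1 := hΦ1.iter_mono hΨ1 hS hK' hKX (Ioi (0 : ℝ)) hw
  have c1 := hΨ1.integral_add (hcT.const_mul 3.8) hS hK' hKX (Ioi (0 : ℝ))
  have c2 := (hcG.const_mul 1.8).integral_add (hci.sq.mul_left ceD) hS hK' hKX (Ioi (0 : ℝ))
  have c3 := hcG.integral_add hcT hS hK' hKX (Ioi (0 : ℝ))
  have c4 := hci.lin3 hS hK' hKX cD cD cD (-1) 0 0 e0 (Ioi (0 : ℝ))
  have lc : ∫ s in Ioi (0 : ℝ), ∫ x, (3.8 * (gradSq d (ctWall (d + 1) M A) h (fun y => vc y s) x +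
      deriv (fun σ => vc x σ) s ^ 2) + (Dsc d (ctWall (d + 1) M A) h t x - Vq x) * vc x s ^ 2)
      ∂(wvol d (ctWall (d + 1) M A) h t) =
      ∫ s in Ioi (0 : ℝ), ∫ x, ((3.8 * gradSq d (ctWall (d + 1) M A) h (fun y => vc y s) x +
        (Dsc d (ctWall (d + 1) M A) h t x - Vq x) * vc x s ^ 2) + 3.8 * deriv (fun σ => vc x σ) s ^ 2)
      ∂(wvol d (ctWall (d + 1) M A) h t) := sh_iter_congr hS (fun x _ s => by ring) _
  have lc4 : ∫ s in Ioi (0 : ℝ), ∫ x, (e0 - D x) * vc x s ^ 2 ∂(wvol d (ctWall (d + 1) M A) h t) =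
      ∫ s in Ioi (0 : ℝ), ∫ x, (-1 * D x + 0 * D x + 0 * D x + e0) * vc x s ^ 2
      ∂(wvol d (ctWall (d + 1) M A) h t) := sh_iter_congr hS (fun x _ s => by ring) _
  rw [rgbr_iter_const_mul] at c1
  rw [rgbr_iter_const_mul, lc4, c4] at c2
  rw [c2] at m1
  rw [c3] at hbud
  rw [lc, c1]
  have n1 : 0 ≤ ∫ x in A, gradSq (d + 1) M h vb x ∂(wvol (d + 1) M h t) :=
    integral_nonneg fun x => sh_gradSq_nonneg hG.mfd hG.met hv.b_smooth x
  have n2 : 0 ≤ ∫ x in A, vb x ^ 2 ∂(wvol (d + 1) M h t) := integral_nonneg fun x => sq_nonneg _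
  have n3 : 0 ≤ ∫ s in Ioi (0 : ℝ), ∫ x, gradSq d (ctWall (d + 1) M A) h (fun y => vc y s) x
      ∂(wvol d (ctWall (d + 1) M A) h t) :=
    integral_nonneg fun s => integral_nonneg fun x =>
      sh_gradSq_nonneg hS.mfd hS.met (sh_cyl_slice hS.mfd hwS s) x
  have n4 : 0 ≤ ∫ s in Ioi (0 : ℝ), ∫ x, deriv (fun σ => vc x σ) s ^ 2 ∂(wvol d (ctWall (d + 1) M A) h t) :=
    integral_nonneg fun s => integral_nonneg fun x => sq_nonneg _
  have n5 : 0 ≤ ∫ s in Ioi (0 : ℝ), ∫ x, vc x s ^ 2 ∂(wvol d (ctWall (d + 1) M A) h t) :=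
    integral_nonneg fun s => integral_nonneg fun x => sq_nonneg _
  have n6 := mul_nonneg he0 n2
  have n7 := mul_nonneg he0 n5
  linarith

/-! ### the other side -/

/-- regular points of the complement. -/
theorem rgb_gmtReg_compl {m : ℕ} {S : Set (E m)} {u : E m} (hS : Gmt.GmtReg S u) : Gmt.GmtReg Sᶜ u := by
  obtain ⟨r, hr, φ, h1, h2, h3, h4⟩ := hS
  refine ⟨r, hr, fun y => -φ y, h1.neg, by show -φ u = 0; rw [h2, neg_zero], fun y hy => ?_, ?_⟩
  · rw [fderiv_fun_neg]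
    exact neg_ne_zero.2 (h3 y hy)
  · have hnull := Gmt.gmt_level_null Metric.isOpen_ball (h1.of_le (by simp)) h3 0
    have hae := measure_eq_zero_iff_ae_notMem.1 hnull
    rw [Filter.eventuallyEq_set] at h4 ⊢
    filter_upwards [h4, hae] with y hy hy0
    constructor
    · rintro ⟨hyS, hyB⟩
      refine ⟨hyB, ?_⟩
      have h5 : ¬ φ y < 0 := fun hlt => hyS (hy.2 ⟨hyB, hlt⟩).1
      have h6 : φ y ≠ 0 := fun h0 => hy0 ⟨hyB, h0⟩
      have h7 : 0 < φ y := lt_of_le_of_ne (not_lt.1 h5) (Ne.symm h6)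
      linarith
    · rintro ⟨hyB, hlt⟩
      refine ⟨fun hyS => ?_, hyB⟩
      have h5 : φ y < 0 := (hy.1 ⟨hyS, hyB⟩).2
      linarith

/-- regular points of the complementary phase. -/
theorem rgb_reg_diff (hM : IsMfd d M) (A : Set V) (x : V) : CtReg d M (M \ A) x ↔ CtReg d M A x := by
  have key : ∀ (ψ : E d → V) (U : Set (E d)) (u : E d), IsParam M ψ U → u ∈ U →
      (CtReg d M (M \ A) (ψ u) ↔ CtReg d M A (ψ u)) := by
    intro ψ U u hψ hu
    rw [ct_reg_iff hψ A hu, ct_reg_iff hψ (M \ A) hu, ct_pre_diff hψ A]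
    have e1 : (U \ ctPre ψ U A) ∩ U = (ctPre ψ U A)ᶜ ∩ U := by
      ext y
      constructor
      · rintro ⟨⟨_, hyS⟩, hyU⟩
        exact ⟨hyS, hyU⟩
      · rintro ⟨hyS, hyU⟩
        exact ⟨⟨hyU, hyS⟩, hyU⟩
    rw [Gmt.gmtReg_local (if_open hψ) e1 hu]
    constructor
    · intro h1
      have := rgb_gmtReg_compl h1
      rwa [compl_compl] at this
    · exact rgb_gmtReg_compl
  have hsub : ∀ B : Set V, CtReg d M B x → x ∈ M := fun B hx =>
    ct_bd_subset B (ct_wall_subset_bd B hx)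
  constructor
  · intro hx
    obtain ⟨ψ, U, hψ, u, hu, rfl⟩ := hM x (hsub _ hx)
    exact (key ψ U u hψ hu).1 hx
  · intro hx
    obtain ⟨ψ, U, hψ, u, hu, rfl⟩ := hM x (hsub _ hx)
    exact (key ψ U u hψ hu).2 hx

/-- wall and singular set of the complementary phase. -/
theorem rgb_wall_diff (hM : IsMfd d M) (A : Set V) :
    ctWall d M (M \ A) = ctWall d M A ∧ ctSing d M (M \ A) = ctSing d M A := by
  refine ⟨Set.ext fun x => rgb_reg_diff hM A x, Set.ext fun x => ?_⟩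
  show (x ∈ ctBd d M (M \ A) ∧ ¬ CtReg d M (M \ A) x) ↔ (x ∈ ctBd d M A ∧ ¬ CtReg d M A x)
  rw [ct_bd_diff hM A, rgb_reg_diff hM A x]

end Claimed.Agent.R315
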