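import Claimed.Agent.R315.Rg.BudRawA
import Claimed.Agent.R315.Rg.BudA

/-!
# Row 315, package Rg, unit BUD (b) `rgb_raw`, part B: the raw joined inequality on an open piece of a closed manifold   (helper232)

`rgbr_raw`: extension by zero of a matching pair on `E ∩ Ω` to a pair `ShTS` on `E`, `rgb_abs_side`, and the three dictionaries
(bulk `rgbr_dict_b`, cylinder `rgbr_dict_c`, seam `rgbr_dict_s`).
-/

set_option autoImplicit false
open scoped ContDiff ENNReal Topology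
open MeasureTheory Claims.C0499 Set Filter

namespace Claimed.Agent.R315

variable {V : Type} [NormedAddCommGroup V] [NormedSpace ℝ V] [FiniteDimensional ℝ V]
  [MeasurableSpace V] [BorelSpace V]
variable {d : ℕ} {h : Ten V} {t p : V → ℝ} {E A Ω : Set V} {U : V → ℝ}

/-- the extended pair. -/
theorem rgbr_ts (hG : CtGeo (d + 1) E h t) (hp : SmoothAlong (d + 1) E p) (hA : CtLAM (d + 1) E h t p A)
    (hd : 1 ≤ d) (H : RgbrU d E h A Ω U) {P : Set V} {vb : V → ℝ} {vc : V → ℝ → ℝ}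
    (hv : RgPair d (E ∩ Ω) U P vb vc) :
    ShTS (d + 1) E A (Ω.indicator vb) (fun x s => Ω.indicator (fun y => vc y s) x) := by
  obtain ⟨K, L, hK, hKM, hK0, hL⟩ := hv.cs
  have hKΩ : K ⊆ Ω := fun x hx => (hKM hx).1.2
  refine ⟨rgbr_ext_b H.isOpen hv.b_smooth hK.isClosed hKΩ fun x hx hxK => (hK0 x hx hxK).1,
    rgbr_ext_c H.isOpen hv.c_smooth hK.isClosed hKΩ fun x hx hxK => (hK0 x hx hxK).2,
    ⟨K, L, hK, fun x hx => (hKM hx).1.1, (rgbr_disj_sing hG hp hA hd H).mono_left hKΩ, fun x hx hxK => ?_,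
      fun x s hs => ?_⟩, fun x hx => ?_⟩
  · by_cases hxΩ : x ∈ Ω
    · refine ⟨?_, fun s => ?_⟩
      · rw [indicator_of_mem hxΩ]
        exact (hK0 x ⟨hx, hxΩ⟩ hxK).1
      · rw [indicator_of_mem hxΩ]
        exact (hK0 x ⟨hx, hxΩ⟩ hxK).2 s
    · exact ⟨indicator_of_notMem hxΩ _, fun s => indicator_of_notMem hxΩ _⟩
  · by_cases hxΩ : x ∈ Ω
    · rw [indicator_of_mem hxΩ]
      exact hL x s hs
    · exact indicator_of_notMem hxΩ _
  · by_cases hxΩ : x ∈ Ω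
    · rw [indicator_of_mem hxΩ, indicator_of_mem hxΩ]
      have hb := ct_wall_subset_bd A hx
      exact hv.seam x ⟨ct_bd_subset A hb, hxΩ⟩ (rgbr_bd_zero hG.mfd H hb hxΩ)
    · rw [indicator_of_notMem hxΩ, indicator_of_notMem hxΩ]

/-- the two descriptions of the plus phase agree almost everywhere in `Ω`. -/
theorem rgbr_phase_ae (hG : CtGeo (d + 1) E h t) (hp : SmoothAlong (d + 1) E p) (hA : CtLAM (d + 1) E h t p A)
    (hd : 1 ≤ d) (H : RgbrU d E h A Ω U) :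
    ({x | 0 < U x} ∩ Ω : Set V) =ᵐ[wvol (d + 1) E h t] (A ∩ Ω : Set V) := by
  have h1 : wvol (d + 1) E h t (symmDiff A (ctIn (d + 1) E A)) = 0 :=
    ct_wvol_ac _ _ _ _ (hA.ae_eq_in hG hp (by omega))
  have h2 : ∀ᵐ x ∂(wvol (d + 1) E h t), x ∉ symmDiff A (ctIn (d + 1) E A) := measure_eq_zero_iff_ae_notMem.1 h1
  filter_upwards [h2, sh_ae_mem hG] with x hx hxE
  refine propext ⟨fun hx1 => ⟨?_, hx1.2⟩, fun hx1 => ⟨?_, hx1.2⟩⟩
  · by_contra hxA
    exact hx (Or.inr ⟨(H.pos x ⟨hxE, hx1.2⟩).1 hx1.1, hxA⟩)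
  · by_contra hxU
    exact hx (Or.inl ⟨hx1.1, fun hin => hxU ((H.pos x ⟨hxE, hx1.2⟩).2 hin)⟩)

omit [NormedAddCommGroup V] [NormedSpace ℝ V] [FiniteDimensional ℝ V] [BorelSpace V] in
/-- integrals of functions which vanish off `Ω`. -/
theorem rgbr_int_ext {μ : Measure V} {f g : V → ℝ} (hΩ : MeasurableSet Ω) (h1 : ∀ᵐ x ∂μ, x ∈ Ω → f x = g x)
    (h2 : ∀ᵐ x ∂μ, x ∉ Ω → g x = 0) : ∫ x, f x ∂(μ.restrict Ω) = ∫ x, g x ∂μ := by
  rw [← setIntegral_eq_integral_of_ae_compl_eq_zero h2]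
  exact setIntegral_congr_ae hΩ h1

/-- **dictionary, bulk.** -/
theorem rgbr_dict_b (hG : CtGeo (d + 1) E h t) (hp : SmoothAlong (d + 1) E p) (hA : CtLAM (d + 1) E h t p A)
    (hd : 1 ≤ d) (H : RgbrU d E h A Ω U) (Vs : V → ℝ) (c γ : ℝ) {vb : V → ℝ} {K : Set V} (hK : IsClosed K)
    (hKΩ : K ⊆ Ω) (h0 : ∀ x ∈ E ∩ Ω, x ∉ K → vb x = 0) :
    rgRawB d (E ∩ Ω) h t U Vs c γ vb =
      ∫ x in A, (c * gradSq (d + 1) E h (Ω.indicator vb) x +
        (Dsc (d + 1) E h t x - (Vs x + γ)) * Ω.indicator vb x ^ 2) ∂(wvol (d + 1) E h t) := by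
  have hΩm := H.isOpen.measurableSet
  unfold rgRawB
  rw [ct_wvol_inter hG H.isOpen, Measure.restrict_restrict' hΩm,
    Measure.restrict_congr_set (rgbr_phase_ae hG hp hA hd H), Set.inter_comm A Ω,
    ← Measure.restrict_restrict hΩm]
  refine rgbr_int_ext hΩm (ae_restrict_of_ae ?_) (ae_restrict_of_ae ?_)
  · refine Eventually.of_forall fun x hx => ?_
    rw [if_gradSq_inter' h vb H.isOpen hx, if_Dsc_inter' h t H.isOpen hx, indicator_of_mem hx,
      gs_sq_congr_near (f' := Ω.indicator vb) (H.isOpen.mem_nhds hx) fun y hy => (indicator_of_mem hy.2 _).symm]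
    ring
  · filter_upwards [sh_ae_mem hG] with x hxE hx
    rw [indicator_of_notMem hx, sh_gradSq_zero_off hG hK (fun y hy hyK => ?_) hxE fun hxK => hx (hKΩ hxK)]
    · ring
    · by_cases hyΩ : y ∈ Ω
      · rw [indicator_of_mem hyΩ]
        exact h0 y ⟨hy, hyΩ⟩ hyK
      · exact indicator_of_notMem hyΩ _

/-- **dictionary, cylinder.** -/
theorem rgbr_dict_c (hG : CtGeo (d + 1) E h t) (hp : SmoothAlong (d + 1) E p) (hA : CtLAM (d + 1) E h t p A)
    (hd : 1 ≤ d) (H : RgbrU d E h A Ω U) (Vs : V → ℝ) (c γ : ℝ) {vc : V → ℝ → ℝ} {K : Set V} (hK : IsClosed K)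
    (hKΩ : K ⊆ Ω) (h0 : ∀ x ∈ E ∩ Ω, x ∉ K → ∀ s, vc x s = 0) :
    rgRawC d (E ∩ Ω) h t U Vs c γ vc =
      ∫ s in Ioi (0 : ℝ), ∫ x, (c * (gradSq d (ctWall (d + 1) E A) h
          (fun y => Ω.indicator (fun y' => vc y' s) y) x +
          deriv (fun σ => Ω.indicator (fun y' => vc y' σ) x) s ^ 2) +
          (Dsc d (ctWall (d + 1) E A) h t x - (Vs x + γ)) * Ω.indicator (fun y' => vc y' s) x ^ 2)
        ∂(wvol d (ctWall (d + 1) E A) h t) := by
  have hΩm := H.isOpen.measurableSet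
  have hS : CtGeo d (ctWall (d + 1) E A) h t := ct_wall_geo hG A
  have hSE : ctWall (d + 1) E A ⊆ E := (ct_wall_subset_bd A).trans (ct_bd_subset A)
  unfold rgRawC
  rw [rgbr_level_eq hG hp hA hd H, ct_wvol_inter hS H.isOpen]
  refine integral_congr_ae (Eventually.of_forall fun s => ?_)
  refine rgbr_int_ext hΩm ?_ ?_
  · refine Eventually.of_forall fun x hx => ?_
    have e1 : (fun σ => Ω.indicator (fun y' => vc y' σ) x) = fun σ => vc x σ :=
      funext fun σ => indicator_of_mem hx _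
    rw [if_gradSq_inter' h _ H.isOpen hx, if_Dsc_inter' h t H.isOpen hx, indicator_of_mem hx, e1,
      gs_sq_congr_near (f' := fun y => Ω.indicator (fun y' => vc y' s) y) (H.isOpen.mem_nhds hx)
        fun y hy => (indicator_of_mem hy.2 _).symm]
    ring
  · filter_upwards [sh_ae_mem hS] with x hxS hx
    have e1 : (fun σ => Ω.indicator (fun y' => vc y' σ) x) = fun _ => (0 : ℝ) :=
      funext fun σ => indicator_of_notMem hx _
    rw [indicator_of_notMem hx, e1, deriv_const,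
      sh_gradSq_zero_off hS hK (fun y hy hyK => ?_) hxS fun hxK => hx (hKΩ hxK)]
    · ring
    · by_cases hyΩ : y ∈ Ω
      · rw [indicator_of_mem hyΩ]
        exact h0 y ⟨hSE hy, hyΩ⟩ hyK s
      · exact indicator_of_notMem hyΩ _

/-- **dictionary, seam.** -/
theorem rgbr_dict_s (hG : CtGeo (d + 1) E h t) (hp : SmoothAlong (d + 1) E p) (hA : CtLAM (d + 1) E h t p A)
    (hd : 1 ≤ d) (H : RgbrU d E h A Ω U) (vb : V → ℝ) :
    rgRawS d (E ∩ Ω) h t U vb =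
      -∫ x, p x * Ω.indicator vb x ^ 2 ∂(wvol d (ctWall (d + 1) E A) h t) := by
  have hΩm := H.isOpen.measurableSet
  have hS : CtGeo d (ctWall (d + 1) E A) h t := ct_wall_geo hG A
  unfold rgRawS
  rw [rgbr_level_eq hG hp hA hd H, ct_wvol_inter hS H.isOpen, ← integral_neg]
  refine rgbr_int_ext hΩm ?_ (Eventually.of_forall fun x hx => ?_)
  · filter_upwards [sh_ae_mem hS] with x hxS hx
    have hb := ct_wall_subset_bd A hxS
    rw [rgbr_wmc_eq hG hp hA hd H ⟨ct_bd_subset A hb, hx⟩ (rgbr_bd_zero hG.mfd H hb hx), indicator_of_mem hx]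
    ring
  · rw [indicator_of_notMem hx]
    ring

/-- **THE RAW JOINED INEQUALITY on an open piece of a closed manifold.** -/
theorem rgbr_raw (hG : CtGeo (d + 1) E h t) (hEc : IsClosed E) (hd : 1 ≤ d) (hp : SmoothAlong (d + 1) E p)
    (hA : CtLAM (d + 1) E h t p A) (H : RgbrU d E h A Ω U) {pot D Vs : V → ℝ}
    (hpot : ContinuousOn pot E) (hpot0 : ∀ x ∈ E, 0 ≤ pot x)
    (hgrad : ∀ x ∈ E, 2 * gradN (d + 1) E h p x ≤ 0.67 * p x ^ 2 + 1.02 * pot x)
    (hD : ContinuousOn D E) (hD0 : ∀ x ∈ E, 0 ≤ D x) (hVs : ContinuousOn Vs E) {e0 : ℝ}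
    (he0 : 0 ≤ e0) (hB : (shFS (d + 1) E h t A).Bud D 0.88 e0 0) :
    RgRawOK d (E ∩ Ω) h t U Vs {x | Vs x + 99 * e0 - D x + 1.02 * pot x ≤ Dsc (d + 1) E h t x} e0 := by
  intro vb vc hv
  have hts := rgbr_ts hG hp hA hd H hv
  obtain ⟨K, L, hK, hKM, hK0, hL⟩ := hv.cs
  have hKΩ : K ⊆ Ω := fun x hx => (hKM hx).1.2
  have hP : wper (d + 1) E h t A = wvol d (ctWall (d + 1) E A) h t := hA.wper_eq hG hp hd
  have hSE : ctWall (d + 1) E A ⊆ E := (ct_wall_subset_bd A).trans (ct_bd_subset A)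
  have hVq : ContinuousOn (fun x => Vs x + 98 * e0) E := hVs.add continuousOn_const
  have hin : ∀ x ∈ K, (Vs x + 98 * e0) + e0 - D x + 1.02 * pot x ≤ Dsc (d + 1) E h t x := fun x hx => by
    have h1 : Vs x + 99 * e0 - D x + 1.02 * pot x ≤ Dsc (d + 1) E h t x := (hKM hx).2
    linarith
  have key := rgb_abs_side hG hEc hd hp hA hpot hpot0 hgrad hD hD0 hVq he0 hB hts
    (fun x hx hx0 => hin x (by
      by_contra hxK
      refine hx0 ?_
      by_cases hxΩ : x ∈ Ω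
      · rw [indicator_of_mem hxΩ]
        exact (hK0 x ⟨hx, hxΩ⟩ hxK).1
      · exact indicator_of_notMem hxΩ _))
    (fun x hx s hx0 => hin x (by
      by_contra hxK
      refine hx0 ?_
      by_cases hxΩ : x ∈ Ω
      · rw [indicator_of_mem hxΩ]
        exact (hK0 x ⟨hSE hx, hxΩ⟩ hxK).2 s
      · exact indicator_of_notMem hxΩ _))
  rw [hP] at key
  rw [rgbr_dict_b hG hp hA hd H Vs 3.8 (98 * e0) hK.isClosed hKΩ fun x hx hxK => (hK0 x hx hxK).1,
    rgbr_dict_c hG hp hA hd H Vs 3.8 (98 * e0) hK.isClosed hKΩ fun x hx hxK => (hK0 x hx hxK).2,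
    rgbr_dict_s hG hp hA hd H vb]
  linarith

end Claimed.Agent.R315
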