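import Claimed.Agent.R315.Rg.SeamDefs
import Claimed.Agent.R315.Sh.ImsE
import Claimed.Agent.R315.Ct.Var

/-!
# Row 315, package Rg, unit BUD (b) `rgb_raw`, part A: tools   (helper232; prefix `rgbr_`)

* `rgbr_wmc_inter`, `rgbr_wmc_neg`: locality and oddness of the weighted mean curvature of level sets;
* `rgbr_def_near`: near a regular zero of a function `U` with the signs of the phases, `-U` is a defining function of `A`; consequences: the zero is a wall point, `wmc U = -p`;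
* `rgbr_ext_b`, `rgbr_ext_c`: extension by zero of tests on an open piece;
* linearity of iterated integrals of `ShCI` integrands.
-/

set_option autoImplicit false
open scoped ContDiff ENNReal Topology
open MeasureTheory Claims.C0499 Set Filter

namespace Claimed.Agent.R315

variable {V : Type} [NormedAddCommGroup V] [NormedSpace ℝ V] [FiniteDimensional ℝ V]
variable {d : ℕ} {M : Set V} {h : Ten V} {t p : V → ℝ}

/-! ### the weighted mean curvature of level sets -/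

omit [FiniteDimensional ℝ V] in
theorem rgbr_wmc_inter {O : Set V} (hO : IsOpen O) {x : V} (hx : x ∈ O) (φ : V → ℝ) :
    wmc d (M ∩ O) h t φ x = wmc d M h t φ x := by
  unfold wmc wlap gradN
  rw [if_lap_inter' h φ hO hx, if_gradIp_inter' h t φ hO hx, if_gradSq_inter' h φ hO hx,
    if_gradIp_inter' h φ _ hO hx,
    gs_ip_congr_near (hO.mem_nhds hx) (fun _ _ => rfl) fun y hy => if_gradSq_inter' h φ hO hy.2]

theorem rgbr_wmc_neg (hG : CtGeo d M h t) {φ : V → ℝ} (hφ : SmoothAlong d M φ) {x : V} (hx : x ∈ M) :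
    wmc d M h t (fun y => -φ y) x = -wmc d M h t φ x := by
  have hM := hG.mfd
  have hh := hG.met
  have e : (fun y => -φ y) = fun y => -1 * φ y := by
    funext y
    ring
  have hsq : ∀ y ∈ M, gradSq d M h (fun y => -φ y) y = gradSq d M h φ y := fun y hy => by
    rw [e, gs_sq_smul hM hh (-1) hφ hy]
    ring
  have hlap : lap d M h (fun y => -φ y) x = -lap d M h φ x := by
    rw [e, gs_lap_smul hM hh (-1) hφ hx]
    ring
  unfold wmc wlap gradN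
  rw [hlap, gs_ip_neg_right hM hh hφ hG.drift hx, hsq x hx,
    gs_ip_congr (fun _ _ => rfl) hsq, gs_ip_neg_left hM hh hφ (if_gradSq_smoothAlong hh hφ) hx]
  ring

/-! ### extension by zero -/

section ext

variable {E Ω K : Set V}

omit [FiniteDimensional ℝ V] in
theorem rgbr_ext_b {k : ℕ} (hΩ : IsOpen Ω) {vb : V → ℝ} (hb : SmoothAlong k (E ∩ Ω) vb) (hK : IsClosed K)
    (hKΩ : K ⊆ Ω) (h0 : ∀ x ∈ E ∩ Ω, x ∉ K → vb x = 0) : SmoothAlong k E (Ω.indicator vb) := by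
  refine if_smoothAlong_of_zero_off hΩ hK hKΩ (if_smoothAlong_congr hb fun x hx => indicator_of_mem hx.2 _)
    fun x hx hxK => ?_
  by_cases hxΩ : x ∈ Ω
  · rw [indicator_of_mem hxΩ]
    exact h0 x ⟨hx, hxΩ⟩ hxK
  · exact indicator_of_notMem hxΩ _

omit [FiniteDimensional ℝ V] in
theorem rgbr_ext_c {k : ℕ} (hΩ : IsOpen Ω) {vc : V → ℝ → ℝ}
    (hc : SmoothAlong k ((E ∩ Ω) ×ˢ (univ : Set ℝ)) (fun z : V × ℝ => vc z.1 z.2)) (hK : IsClosed K)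
    (hKΩ : K ⊆ Ω) (h0 : ∀ x ∈ E ∩ Ω, x ∉ K → ∀ s, vc x s = 0) :
    SmoothAlong k (E ×ˢ (univ : Set ℝ)) (fun z : V × ℝ => Ω.indicator (fun y => vc y z.2) z.1) := by
  have e : (E ×ˢ (univ : Set ℝ)) ∩ (Ω ×ˢ (univ : Set ℝ)) = (E ∩ Ω) ×ˢ (univ : Set ℝ) := by
    rw [Set.prod_inter_prod, inter_self]
  refine if_smoothAlong_of_zero_off (O := Ω ×ˢ (univ : Set ℝ)) (K := K ×ˢ (univ : Set ℝ)) (hΩ.prod isOpen_univ)
    (hK.prod isClosed_univ) (Set.prod_mono hKΩ subset_rfl) ?_ fun z hz hzK => ?_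
  · rw [e]
    exact if_smoothAlong_congr hc fun z hz => indicator_of_mem hz.1.2 _
  · by_cases hxΩ : z.1 ∈ Ω
    · rw [indicator_of_mem hxΩ]
      exact h0 z.1 ⟨hz.1, hxΩ⟩ (fun hk => hzK ⟨hk, mem_univ _⟩) z.2
    · exact indicator_of_notMem hxΩ _

end ext

/-! ### functions with the signs of the phases -/

variable [MeasurableSpace V] [BorelSpace V]

/-- `U` is a true defining function on the open piece `E ∩ Ω`: `U > 0` on the plus phase, unit gradient at the zeros. -/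
structure RgbrU (d : ℕ) (E : Set V) (h : Ten V) (A Ω : Set V) (U : V → ℝ) : Prop where
  isOpen : IsOpen Ω
  smooth : SmoothAlong (d + 1) (E ∩ Ω) U
  pos : ∀ z ∈ E ∩ Ω, (0 < U z ↔ z ∈ ctIn (d + 1) E A)
  neg : ∀ z ∈ E ∩ Ω, (U z < 0 ↔ z ∈ ctOut (d + 1) E A)
  unit : ∀ z ∈ E ∩ Ω, U z = 0 → gradSq (d + 1) (E ∩ Ω) h U z = 1

section sgn

variable {E A Ω : Set V} {U : V → ℝ}

/-- near a zero, `-U` is a defining function of `A`. -/
theorem rgbr_def_near (hG : CtGeo (d + 1) E h t) (hp : SmoothAlong (d + 1) E p) (hA : CtLAM (d + 1) E h t p A)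
    (hd : 1 ≤ d) (H : RgbrU d E h A Ω U) {x0 : V} (hx0 : x0 ∈ E ∩ Ω) (h0 : U x0 = 0) :
    ∃ O, IsOpen O ∧ x0 ∈ O ∧ O ⊆ Ω ∧ CtDef (d + 1) (E ∩ O) h (A ∩ O) fun x => -U x := by
  have hGM : CtGeo (d + 1) (E ∩ Ω) h t := hG.inter H.isOpen
  have hc := sh_gradSq_continuousOn hGM H.smooth
  have h1 := H.unit x0 hx0 h0
  have hN : ∀ᶠ y in 𝓝[E ∩ Ω] x0, 0 < gradSq (d + 1) (E ∩ Ω) h U y :=
    (hc x0 hx0).eventually (lt_mem_nhds (by rw [h1]; exact one_pos))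
  obtain ⟨O1, hO1, hx1, hsub⟩ := mem_nhdsWithin.1 hN
  have hO : IsOpen (Ω ∩ O1) := H.isOpen.inter hO1
  have e : E ∩ (Ω ∩ O1) = (E ∩ Ω) ∩ O1 := (inter_assoc _ _ _).symm
  have eneg : (fun y => -U y) = fun y => -1 * U y := by
    funext y
    ring
  refine ⟨Ω ∩ O1, hO, ⟨hx0.2, hx1⟩, inter_subset_left, ?_, ?_, ?_⟩
  · rw [e]
    exact gs_sm_neg (if_smoothAlong_inter H.smooth hO1)
  · intro x hx
    rw [e] at hx ⊢
    rw [if_gradSq_inter' h _ hO1 hx.2, eneg, gs_sq_smul hGM.mfd hGM.met (-1) H.smooth hx.1]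
    have := hsub ⟨hx.2, hx.1⟩
    have h2 : 0 < gradSq (d + 1) (E ∩ Ω) h U x := this
    linarith
  · rw [ct_vol_inter hG hO]
    refine measure_mono_null ?_ (le_antisymm
      ((Measure.restrict_le_self _).trans (hA.ae_eq_in hG hp (by omega)).le) zero_le)
    rintro x (⟨⟨hxA, hxO⟩, hx2⟩ | ⟨⟨⟨hxE, hxO⟩, hx2⟩, hx3⟩)
    · refine Or.inl ⟨hxA, fun hin => hx2 ⟨⟨hA.lf.sub hxA, hxO⟩, ?_⟩⟩
      have := (H.pos x ⟨hA.lf.sub hxA, hxO.1⟩).2 hin
      linarith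
    · refine Or.inr ⟨(H.pos x ⟨hxE, hxO.1⟩).1 (by linarith), fun hxA => hx3 ⟨hxA, hxO⟩⟩

/-- the zeros of `U` are wall points. -/
theorem rgbr_zero_wall (hG : CtGeo (d + 1) E h t) (hp : SmoothAlong (d + 1) E p) (hA : CtLAM (d + 1) E h t p A)
    (hd : 1 ≤ d) (H : RgbrU d E h A Ω U) {x0 : V} (hx0 : x0 ∈ E ∩ Ω) (h0 : U x0 = 0) :
    x0 ∈ ctWall (d + 1) E A := by
  obtain ⟨O, hO, hxO, _, hφ⟩ := rgbr_def_near hG hp hA hd H hx0 h0
  have h1 := (ct_wall_inter_def hG hO hφ).1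
  have h2 : x0 ∈ {y | y ∈ E ∩ O ∧ -U y = 0} := ⟨⟨hx0.1, hxO⟩, by rw [h0, neg_zero]⟩
  rw [← h1] at h2
  exact h2.1

/-- boundary points in `Ω` are zeros of `U`. -/
theorem rgbr_bd_zero (hM : IsMfd (d + 1) E) (H : RgbrU d E h A Ω U) {x : V} (hx : x ∈ ctBd (d + 1) E A)
    (hxΩ : x ∈ Ω) : U x = 0 := by
  obtain ⟨-, -, hd1, hd2⟩ := ct_trichotomy' hM A
  have hxE := ct_bd_subset A hx
  have h1 : ¬ 0 < U x := fun hpos => (Set.disjoint_left.1 hd1) ((H.pos x ⟨hxE, hxΩ⟩).1 hpos) hx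
  have h2 : ¬ U x < 0 := fun hneg => (Set.disjoint_left.1 hd2) ((H.neg x ⟨hxE, hxΩ⟩).1 hneg) hx
  exact le_antisymm (not_lt.1 h1) (not_lt.1 h2)

theorem rgbr_level_eq (hG : CtGeo (d + 1) E h t) (hp : SmoothAlong (d + 1) E p) (hA : CtLAM (d + 1) E h t p A)
    (hd : 1 ≤ d) (H : RgbrU d E h A Ω U) : rm_Lv (E ∩ Ω) U 0 = ctWall (d + 1) E A ∩ Ω := by
  ext x
  constructor
  · rintro ⟨hx, h0⟩
    exact ⟨rgbr_zero_wall hG hp hA hd H hx h0, hx.2⟩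
  · rintro ⟨hx, hxΩ⟩
    have hb := ct_wall_subset_bd A hx
    exact ⟨⟨ct_bd_subset A hb, hxΩ⟩, rgbr_bd_zero hG.mfd H hb hxΩ⟩

theorem rgbr_disj_sing (hG : CtGeo (d + 1) E h t) (hp : SmoothAlong (d + 1) E p) (hA : CtLAM (d + 1) E h t p A)
    (hd : 1 ≤ d) (H : RgbrU d E h A Ω U) : Disjoint Ω (ctSing (d + 1) E A) := by
  rw [Set.disjoint_left]
  rintro x hxΩ ⟨hb, hn⟩
  exact hn (rgbr_zero_wall hG hp hA hd H ⟨ct_bd_subset A hb, hxΩ⟩ (rgbr_bd_zero hG.mfd H hb hxΩ))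

/-- Euler-Lagrange: `H_t[U] = -p` at the zeros. -/
theorem rgbr_wmc_eq (hG : CtGeo (d + 1) E h t) (hp : SmoothAlong (d + 1) E p) (hA : CtLAM (d + 1) E h t p A)
    (hd : 1 ≤ d) (H : RgbrU d E h A Ω U) {x0 : V} (hx0 : x0 ∈ E ∩ Ω) (h0 : U x0 = 0) :
    wmc (d + 1) (E ∩ Ω) h t U x0 = -p x0 := by
  obtain ⟨O, hO, hxO, hOΩ, hφ⟩ := rgbr_def_near hG hp hA hd H hx0 h0
  have h1 := CtLAM.el (hG.inter hO) (if_smoothAlong_inter hp hO) (hA.inter_open hG hO) hφ ⟨hx0.1, hxO⟩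
    (by rw [h0, neg_zero])
  have e : E ∩ O = (E ∩ Ω) ∩ O := by
    ext x
    exact ⟨fun hx => ⟨⟨hx.1, hOΩ hx.2⟩, hx.2⟩, fun hx => ⟨hx.1.1, hx.2⟩⟩
  rw [e, rgbr_wmc_inter hO hxO, rgbr_wmc_neg (hG.inter H.isOpen) H.smooth hx0] at h1
  linarith

end sgn

end Claimed.Agent.R315
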