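import Claimed.Agent.R315.Rg.Super
import Claimed.Agent.R315.Sh.Defs
import Claimed.Agent.R315.Pack009

/-!
# Row 315, package Rg, part 5 (file Rg/Dat.lean): DATA OF THE NEW STAGE, contract RgSplit (P Proposition E.8): from a smooth split with a gap to the invariant of the next stage

Chain: `pk_step = rg_step ∘ sh_shield ∘ ct_cut`.  `rg_step` (end of this file) `= rg_top ∘ rg_split`.

* `RgSplit C P1 s' u w k h'` = THE CONTRACT between the geometric part (P Lemmas E.1-E.4 + the last part of E.profiles; `Rg/Split*.lean`) and the analytic part: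
  `u, w, k` admissible cut data (`IsCut`, helper29), signs of `u` on the closures of the cores of the current label, a compatible metric `h'` on the new diagram `splitE`
  (NOT necessarily the induced metric `extTen h`, see `Rg/Met.lean`) for which `Prod.fst` does not increase lengths, and for every new status an open neighbourhood of the new required set on which the form
  `3.99 |dφ|² + (Dsc(h', θ ∘ fst) - V*) φ²` has a positive gap; `V* = λ(s') + b(s') κ Σ_{j ∈ R} pot1_j ∘ fst`, `κ = 1 + 3 (s' - s)/400`.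
* `rgData` = the data of the new stage: labels pulled back by `Prod.fst`, potentials multiplied by `κ`, metric `h'`, drift `θ ∘ fst - (3.99/2) log v`.
* `rg_top`: `RgSplit → Inv` at the new stage (+ `Conf`, `Link`, signs).  `v` from `rg_super`; `gs_Dsc_log`: `Dsc(θ - c log v) ≥ Dsc(θ) - 2c Δ_θ v / v` for `0 ≤ c ≤ 2`.
Owner: helper209.
-/

set_option autoImplicit false
set_option linter.unusedSectionVars false
open scoped ContDiff Topology
open Claims.C0499 Set MeasureTheory Filter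

namespace Claimed.Agent.R315

variable {V W : Type} [NormedAddCommGroup V] [NormedSpace ℝ V] [NormedAddCommGroup W]
  [NormedSpace ℝ W] {ι : Type}

/-- pull-back of a tensor by `Prod.fst`. -/
noncomputable def rgFst (h : Ten W) : Ten (W × ℝ) := fun z =>
  (h z.1).bilinearComp (ContinuousLinearMap.fst ℝ W ℝ) (ContinuousLinearMap.fst ℝ W ℝ)

theorem rgFst_apply (h : Ten W) (z a b : W × ℝ) : rgFst h z a b = h z.1 a.1 b.1 := by
  simp [rgFst]

/-- the data of the new stage. -/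
noncomputable def rgData {I : Type} (P : PData W ι I) (u w : W → ℝ) (k : ℝ → ℝ) (κ : ℝ)
    (h' : Ten (W × ℝ)) (dr' : W × ℝ → ℝ) : PData (W × ℝ) (Option ι) I where
  E := splitE P.E u w k
  h := h'
  dr := dr'
  mu := fun j z => P.mu j z.1
  pot := fun j z => κ * P.pot j z.1
  Up := fun j => Prod.fst ⁻¹' P.Up j
  Un := fun j => Prod.fst ⁻¹' P.Un j

/-- multiplier of the potentials. -/
noncomputable def rgKap (s s' : ℝ) : ℝ := 1 + 3 * (s' - s) / 400

/-- the target potential `V*` on the new diagram. -/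
noncomputable def rgVs {I : Type} (P : PData W ι I) (R : Set I) (s s' : ℝ) (z : W × ℝ) : ℝ :=
  pkL s' + pkB s' * ∑' j, R.indicator (fun j => rgKap s s' * P.pot j z.1) j

/-- the new required sets. -/
def rgReq [Fintype ι] {I : Type} (n : ℕ) (P : PData W ι I) (R : Set I) (u w : W → ℝ) (k : ℝ → ℝ)
    (α' : Stat (Option ι)) : Set (W × ℝ) :=
  {z | z ∈ splitE P.E u w k α' ∧ P.Cnt R (n - hits α' - 1) z.1}

/-- **THE CONTRACT** (P Lemmas E.1-E.4, E.profiles). -/
structure RgSplit [Fintype ι] [MeasurableSpace W] [BorelSpace W] (C : ShCtx V W ι)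
    (P1 : PData W ι C.B.J) (s' : ℝ) (u w : W → ℝ) (k : ℝ → ℝ) (h' : Ten (W × ℝ)) : Prop where
  cut : IsCut C.B.n C.F P1.E u w k
  up : ∀ α, ∀ z ∈ closure (C.P.Up C.j0 ∩ P1.E α), 0 < u z
  un : ∀ α, ∀ z ∈ closure (C.P.Un C.j0 ∩ P1.E α), u z < 0
  met : IsPMetric C.B.n C.F.ext (splitE P1.E u w k) h'
  le : ∀ α', MetLE (C.B.n - hits α') (splitE P1.E u w k α') (rgFst P1.h) h'
  gap : ∃ e₁ : ℝ, 0 < e₁ ∧ ∀ α', ∃ O : Set (W × ℝ), IsOpen O ∧
    rgReq C.B.n P1 C.R u w k α' ⊆ O ∧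
    GsGap (C.B.n - hits α') (splitE P1.E u w k α' ∩ O) h' (fun z => P1.dr z.1) 3.99
      (rgW C.B.n (splitE P1.E u w k) h' (fun z => P1.dr z.1) (rgVs P1 C.R C.s s') α') e₁

/-! ### small leaves -/

section leaves

variable [FiniteDimensional ℝ V] [FiniteDimensional ℝ W] [Fintype ι]

/-- **leaf RG-SLOPE**: slopes do not increase under `Prod.fst` if `fst^* h ≤ h'`.
PLAN: as `pk_slope_fst` (`Pk/Split.lean`): a `C¹` curve `c` in `Z` projects to the `C¹` curve `Prod.fst ∘ c` in `X`; its velocity is tangent to `Z` (`if_tan_of_adm`), so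
`h (c₁') (c₁') ≤ h' c' c'` (`if_metLE_apply`), the `h`-length of the projection is at most the `h'`-length: `rdist X h y.1 y'.1 ≤ rdist Z h' y y'` provided the set of curves is nonempty
(points of `Z` near `z` are joined by curves in `Z`; otherwise `rdist = sInf ∅ = 0`: shrink the neighbourhood to the image of a ball in a parametrisation). -/
theorem rg_slope_fst {d d' : ℕ} {X : Set W} (hX : IsMfd d X) {Z : Set (W × ℝ)}
    (hZ : IsMfd d' Z) (hZX : Z ⊆ Prod.fst ⁻¹' X) {h : Ten W} (hh : IsMetricOn d X h)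
    {h' : Ten (W × ℝ)} (hh' : IsMetricOn d' Z h') (hle : MetLE d' Z (rgFst h) h') {f : W → ℝ}
    {z : W × ℝ} (hz : z ∈ Z) {c : ℝ} (hc : 0 ≤ c) (hs : SlopeLE X h f z.1 c) :
    SlopeLE Z h' (fun y => f y.1) z c := by
  intro ε hε
  obtain ⟨N, hN, hle'⟩ := hs ε hε
  obtain ⟨O, hO, hjoin⟩ := pk_exists_join_nhd hZ hz
  have hhT : IsTenOn d X h := (if_isMetricOn_iff.1 hh).1
  have hhT' : IsTenOn d' Z h' := (if_isMetricOn_iff.1 hh').1
  have hm0 : (0 : ℝ) ∈ Set.Icc (0 : ℝ) 1 := ⟨le_rfl, zero_le_one⟩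
  have hm1 : (1 : ℝ) ∈ Set.Icc (0 : ℝ) 1 := ⟨zero_le_one, le_rfl⟩
  refine ⟨Prod.fst ⁻¹' N ∩ O, Filter.inter_mem (continuous_fst.continuousAt.preimage_mem_nhds hN)
    hO, fun y hy y' hy' => ?_⟩
  refine (hle' y.1 ⟨hy.1.1, hZX hy.2⟩ y'.1 ⟨hy'.1.1, hZX hy'.2⟩).trans ?_
  refine mul_le_mul_of_nonneg_left ?_ (by linarith)
  refine if_le_rdist (hjoin y ⟨hy.1.2, hy.2⟩ y' ⟨hy'.1.2, hy'.2⟩) fun γ hγ e0 e1 => ?_
  have hadm : if_Adm X (fun t => (γ t).1) :=
    ⟨contDiff_fst.comp hγ.1, fun t ht => hZX (hγ.2 t ht)⟩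
  refine (if_rdist_le' hadm h (by rw [e0]) (by rw [e1])).trans ?_
  unfold if_len
  refine intervalIntegral.integral_mono_on zero_le_one
    (if_speed_intervalIntegrable hX hhT hadm hm0 hm1)
    (if_speed_intervalIntegrable hZ hhT' hγ hm0 hm1) fun t ht => ?_
  have hd : deriv (fun t => (γ t).1) t = (deriv γ t).1 :=
    ((ContinuousLinearMap.fst ℝ W ℝ).hasFDerivAt.comp_hasDerivAt t
      (hγ.1.differentiable (by simp) t).hasDerivAt).deriv
  refine le_trans (le_of_eq ?_) (if_speed_mono hZ hle hγ ht)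
  unfold if_speed
  rw [hd, rgFst_apply]

/-- over a compact set the sum of the potentials is a finite sum plus a constant. -/
theorem rg_potSum_eq {B : Base V} (hB : B.Ok) {F : Frame V W ι} {P : PData W ι B.J}
    {R : Set B.J} {c : ℝ} {K : Set V}
    (hfin : {j | j ∈ R ∧ ∃ z ∈ tot P.E, F.q z ∈ K ∧ ¬ P.Passive B.pst c j z}.Finite) {z : W}
    (hz : z ∈ tot P.E) (hq : F.q z ∈ K) :
    P.potSum R z = ∑ j ∈ hfin.toFinset, (P.pot j z - c * B.pst j) +
      ∑' j, R.indicator (fun j => c * B.pst j) j := by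
  classical
  have h1 : ∀ j, R.indicator (fun j => P.pot j z) j =
      (if j ∈ hfin.toFinset then P.pot j z - c * B.pst j else 0) +
        R.indicator (fun j => c * B.pst j) j := by
    intro j
    by_cases hjR : j ∈ R
    · rw [Set.indicator_of_mem hjR, Set.indicator_of_mem hjR]
      by_cases hj : j ∈ hfin.toFinset
      · rw [if_pos hj]; ring
      · rw [if_neg hj, zero_add]
        rw [Set.Finite.mem_toFinset] at hj
        by_contra hne
        exact hj ⟨hjR, z, hz, hq, fun hp => hne hp.2.2.2⟩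
    · rw [Set.indicator_of_notMem hjR, Set.indicator_of_notMem hjR, add_zero, if_neg]
      intro hj
      rw [Set.Finite.mem_toFinset] at hj
      exact hjR hj.1
  have hs1 : Summable fun j => if j ∈ hfin.toFinset then P.pot j z - c * B.pst j else 0 :=
    summable_of_ne_finset_zero (s := hfin.toFinset) fun j hj => if_neg hj
  have hs2 : Summable fun j => R.indicator (fun j => c * B.pst j) j :=
    (hB.pst_sum.mul_left c).indicator R
  unfold PData.potSum
  simp only [h1]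
  rw [hs1.tsum_add hs2, tsum_eq_sum (s := hfin.toFinset) fun j hj => if_neg hj]
  congr 1
  exact Finset.sum_congr rfl fun j hj => if_pos hj

theorem rg_drop_mem_tot {n : ℕ} {M : Set V} {F : Frame V W ι} {E : Stat ι → Set W}
    (hD : IsDiag n M F E) {K : Set V} (hK : IsCompact K) :
    ∃ R : ℝ, 0 ≤ R ∧ ∀ (i : ι), ∀ z ∈ tot E, F.q z ∈ K → R < |F.t i z| → F.drop i z ∈ tot E := by
  obtain ⟨R, hR⟩ := hD.exists_tail hK
  refine ⟨max R 0, le_max_right _ _, fun i z hz hq hlt => ?_⟩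
  obtain ⟨α, hα⟩ := mem_tot.1 hz
  have h0 : F.t i z ≠ 0 := by
    intro h
    rw [h, abs_zero] at hlt
    exact absurd hlt (not_lt.2 (le_max_right _ _))
  exact mem_tot.2 ⟨_, (hR i α (hD.ne_zero_of_t_ne hα h0) z hq (by
    rw [hD.sign_mul hα i]; exact lt_of_le_of_lt (le_max_left _ _) hlt)).1 hα⟩

/-- **leaf RG-POTSUM**: the sum of the potentials is smooth and compatible.
PLAN.  Fix `z₀ ∈ E α`, `K = closedBall (q z₀) 1`; `J_K` = the finite set of `hpas K`.  For `j ∈ R \ J_K` and `z ∈ tot E` over `K`: `pot j z = c * pst j`.  Hence on `tot E ∩ q ⁻¹' K`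
`∑' = ∑_{j ∈ J_K} pot j z + c * ∑'_{j ∈ R \ J_K} pst j` (`Summable.sum_add_tsum_compl`/`tsum_eq_add_tsum_ite`; summability from `hB.pst_sum`), a finite sum of `SC` functions plus a constant:
smooth along `E α` near `z₀` (`if_smoothAlong_of_pieces`), compatible over `K` with the maximum of finitely many thresholds. -/
theorem rg_potSum_sc {B : Base V} (hB : B.Ok) {F : Frame V W ι} {P : PData W ι B.J}
    (hD : IsDiag B.n B.M F P.E) {R : Set B.J} {c : ℝ}
    (hsc : ∀ j ∈ R, SC B.n F P.E (P.pot j))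
    (hpas : ∀ K : Set V, IsCompact K →
      {j | j ∈ R ∧ ∃ z ∈ tot P.E, F.q z ∈ K ∧ ¬ P.Passive B.pst c j z}.Finite) :
    SC B.n F P.E (P.potSum R) := by
  classical
  refine ⟨fun α => if_smoothAlong_of_pieces fun z₀ hz₀ => ?_, fun i K hK => ?_⟩
  · have hK := isCompact_closedBall (F.q z₀) 1
    have hfin := hpas _ hK
    refine ⟨F.q ⁻¹' Metric.ball (F.q z₀) 1, Metric.isOpen_ball.preimage F.q.continuous,
      Metric.mem_ball_self one_pos, ?_⟩
    have h1 : SmoothAlong (B.n - hits α) (P.E α) (fun z =>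
        ∑ j ∈ hfin.toFinset, (P.pot j z - c * B.pst j) +
          ∑' j, R.indicator (fun j => c * B.pst j) j) := by
      intro ψ U hp
      refine ContDiffOn.add (ContDiffOn.sum fun j hj => ?_) contDiffOn_const
      rw [Set.Finite.mem_toFinset] at hj
      exact ((hsc j hj.1).1 α ψ U hp).sub contDiffOn_const
    refine if_smoothAlong_congr (if_smoothAlong_inter h1
      (Metric.isOpen_ball.preimage F.q.continuous)) fun z hz => ?_
    exact rg_potSum_eq hB hfin (mem_tot.2 ⟨α, hz.1⟩) (Metric.ball_subset_closedBall hz.2)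
  · have hfin := hpas K hK
    obtain ⟨R₀, hR0', hR₀⟩ := rg_drop_mem_tot hD hK
    have h2 : ∀ j : B.J, ∃ Rj : ℝ, j ∈ R → ∀ z ∈ tot P.E, F.q z ∈ K → Rj < |F.t i z| →
        P.pot j (F.drop i z) = P.pot j z := by
      intro j
      by_cases hj : j ∈ R
      · obtain ⟨Rj, hRj⟩ := (hsc j hj).2 i K hK
        exact ⟨Rj, fun _ => hRj⟩
      · exact ⟨0, fun h => absurd h hj⟩
    choose Rj hRj using h2
    refine ⟨R₀ + ∑ j ∈ hfin.toFinset, |Rj j|, fun z hz hq hlt => ?_⟩
    have hsum0 : 0 ≤ ∑ j ∈ hfin.toFinset, |Rj j| := Finset.sum_nonneg fun j _ => abs_nonneg _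
    have hdz : F.drop i z ∈ tot P.E := hR₀ i z hz hq (by linarith)
    rw [rg_potSum_eq hB hfin hdz (by rw [F.q_drop]; exact hq), rg_potSum_eq hB hfin hz hq]
    congr 1
    refine Finset.sum_congr rfl fun j hj => ?_
    have hjR : j ∈ R := ((Set.Finite.mem_toFinset hfin).1 hj).1
    have hle : |Rj j| ≤ ∑ j ∈ hfin.toFinset, |Rj j| :=
      Finset.single_le_sum (f := fun j => |Rj j|) (fun j _ => abs_nonneg _) hj
    rw [hRj j hjR z hz hq (by linarith [le_abs_self (Rj j)])]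

theorem rg_cnt_iff {B : Base V} {F : Frame V W ι} {P : PData W ι B.J}
    {R : Set B.J} {c : ℝ} {K : Set V}
    (hfin : {j | j ∈ R ∧ ∃ z ∈ tot P.E, F.q z ∈ K ∧ ¬ P.Passive B.pst c j z}.Finite) (m : ℕ)
    {z : W} (hz : z ∈ tot P.E) (hq : F.q z ∈ K) :
    P.Cnt R m z ↔ ∃ s ⊆ hfin.toFinset, (∀ j ∈ s, z ∈ P.und j) ∧ m ≤ s.card := by
  constructor
  · rintro ⟨s, hs, hm⟩
    refine ⟨s, fun j hj => ?_, fun j hj => (hs j hj).2, hm⟩
    rw [Set.Finite.mem_toFinset]
    exact ⟨(hs j hj).1, z, hz, hq, fun hp => (hs j hj).2.2 hp.2.1⟩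
  · rintro ⟨s, hsub, hs, hm⟩
    exact ⟨s, fun j hj => ⟨((Set.Finite.mem_toFinset hfin).1 (hsub hj)).1, hs j hj⟩, hm⟩

/-- **leaf RG-REQ**: the sets "at least `m` labels of `R` are undecided" are closed in the status spaces and compatible.
PLAN.  Over a compact `K` only the labels of the finite set `J_K` (`hpas`) can be undecided (a passive label is decided: `z ∈ Un j`).  So over `K` the set is the finite union over `s ⊆ J_K`, `m ≤ card s`, of the
finite intersections of the sets `E α \ (Up j ∪ Un j)`, which are closed (`RelOpen.isClosed_diff`).  Closedness is local over `V`.  Compatibility: finitely many thresholds. -/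
theorem rg_cnt_closed {B : Base V} {F : Frame V W ι} {P : PData W ι B.J}
    (hD : IsDiag B.n B.M F P.E) {R : Set B.J} {c a : ℝ} (hL : ∀ j ∈ R, LabelOk B F P a j)
    (hpas : ∀ K : Set V, IsCompact K →
      {j | j ∈ R ∧ ∃ z ∈ tot P.E, F.q z ∈ K ∧ ¬ P.Passive B.pst c j z}.Finite) (m : ℕ) :
    (∀ α, IsClosed {z | z ∈ P.E α ∧ P.Cnt R m z}) ∧ Compat F P.E (fun z => P.Cnt R m z) := by
  classical
  refine ⟨fun α => ?_, fun i K hK => ?_⟩
  · rw [← closure_subset_iff_isClosed]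
    intro z₀ hz₀
    have hK := isCompact_closedBall (F.q z₀) 1
    have hfin := hpas _ hK
    have hcl1 : ∀ s : Finset B.J, (∀ j ∈ s, j ∈ R) →
        IsClosed {z | z ∈ P.E α ∧ ∀ j ∈ s, z ∈ P.und j} := by
      intro s hs
      have e : {z | z ∈ P.E α ∧ ∀ j ∈ s, z ∈ P.und j} =
          P.E α ∩ ⋂ j ∈ s, ((P.E α \ P.Up j) ∩ (P.E α \ P.Un j)) := by
        ext z
        simp only [Set.mem_ofPred_eq, Set.mem_inter_iff, Set.mem_iInter, Set.mem_sdiff, PData.und]
        constructor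
        · rintro ⟨h1, h2⟩
          exact ⟨h1, fun j hj => ⟨⟨h1, (h2 j hj).1⟩, ⟨h1, (h2 j hj).2⟩⟩⟩
        · rintro ⟨h1, h2⟩
          exact ⟨h1, fun j hj => ⟨(h2 j hj).1.2, (h2 j hj).2.2⟩⟩
      rw [e]
      refine (hD.closed α).inter (isClosed_biInter fun j hj => ?_)
      exact ((hL j (hs j hj)).up_open.isClosed_diff hD α).inter
        ((hL j (hs j hj)).un_open.isClosed_diff hD α)
    set AK : Set W := ⋃ s ∈ hfin.toFinset.powerset.filter (fun s => m ≤ s.card),
      {z | z ∈ P.E α ∧ ∀ j ∈ s, z ∈ P.und j} with hAK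
    have hAKc : IsClosed AK := by
      refine isClosed_biUnion_finset fun s hs => hcl1 s fun j hj => ?_
      rw [Finset.mem_filter, Finset.mem_powerset] at hs
      exact ((Set.Finite.mem_toFinset hfin).1 (hs.1 hj)).1
    have hsub1 : F.q ⁻¹' Metric.ball (F.q z₀) 1 ∩ {z | z ∈ P.E α ∧ P.Cnt R m z} ⊆ AK := by
      rintro z ⟨hzq, hzE, hzC⟩
      obtain ⟨s, hsub, hs, hm⟩ := (rg_cnt_iff hfin m (mem_tot.2 ⟨α, hzE⟩)
        (Metric.ball_subset_closedBall hzq)).1 hzC
      exact Set.mem_biUnion (Finset.mem_coe.2 (Finset.mem_filter.2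
        ⟨Finset.mem_powerset.2 hsub, hm⟩)) ⟨hzE, hs⟩
    have hsub2 : AK ⊆ {z | z ∈ P.E α ∧ P.Cnt R m z} := by
      intro z hz
      obtain ⟨s, hs, hzE, hzs⟩ := Set.mem_iUnion₂.1 hz
      rw [Finset.mem_filter, Finset.mem_powerset] at hs
      exact ⟨hzE, s, fun j hj => ⟨((Set.Finite.mem_toFinset hfin).1 (hs.1 hj)).1, hzs j hj⟩, hs.2⟩
    have h1 : z₀ ∈ closure (F.q ⁻¹' Metric.ball (F.q z₀) 1 ∩ {z | z ∈ P.E α ∧ P.Cnt R m z}) :=
      (Metric.isOpen_ball.preimage F.q.continuous).inter_closure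
        ⟨Metric.mem_ball_self one_pos, hz₀⟩
    exact hsub2 (hAKc.closure_subset_iff.2 hsub1 h1)
  · have hfin := hpas K hK
    obtain ⟨R₀, hR0', hR₀⟩ := rg_drop_mem_tot hD hK
    have h2 : ∀ j : B.J, ∃ Rj : ℝ, j ∈ R → ∀ z ∈ tot P.E, F.q z ∈ K → Rj < |F.t i z| →
        ((F.drop i z ∈ P.Up j) = (z ∈ P.Up j)) ∧ ((F.drop i z ∈ P.Un j) = (z ∈ P.Un j)) := by
      intro j
      by_cases hj : j ∈ R
      · obtain ⟨R1, hR1⟩ := (hL j hj).up_compat i K hK
        obtain ⟨R2, hR2⟩ := (hL j hj).un_compat i K hK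
        exact ⟨max R1 R2, fun _ z hz hq hlt => ⟨hR1 z hz hq (lt_of_le_of_lt (le_max_left _ _) hlt),
          hR2 z hz hq (lt_of_le_of_lt (le_max_right _ _) hlt)⟩⟩
      · exact ⟨0, fun h => absurd h hj⟩
    choose Rj hRj using h2
    refine ⟨R₀ + ∑ j ∈ hfin.toFinset, |Rj j|, fun z hz hq hlt => ?_⟩
    have hsum0 : 0 ≤ ∑ j ∈ hfin.toFinset, |Rj j| := Finset.sum_nonneg fun j _ => abs_nonneg _
    have hdz : F.drop i z ∈ tot P.E := hR₀ i z hz hq (by linarith)
    have hund : ∀ j ∈ hfin.toFinset, (F.drop i z ∈ P.und j ↔ z ∈ P.und j) := by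
      intro j hj
      have hjR : j ∈ R := ((Set.Finite.mem_toFinset hfin).1 hj).1
      have hle : |Rj j| ≤ ∑ j ∈ hfin.toFinset, |Rj j| :=
        Finset.single_le_sum (f := fun j => |Rj j|) (fun j _ => abs_nonneg _) hj
      obtain ⟨e1, e2⟩ := hRj j hjR z hz hq (by linarith [le_abs_self (Rj j)])
      simp only [PData.und, Set.mem_ofPred_eq, e1, e2]
    refine propext ?_
    show P.Cnt R m (F.drop i z) ↔ P.Cnt R m z
    rw [rg_cnt_iff hfin m hdz (by rw [F.q_drop]; exact hq), rg_cnt_iff hfin m hz hq]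
    constructor
    · rintro ⟨s, hsub, hs, hm⟩
      exact ⟨s, hsub, fun j hj => (hund j (hsub hj)).1 (hs j hj), hm⟩
    · rintro ⟨s, hsub, hs, hm⟩
      exact ⟨s, hsub, fun j hj => (hund j (hsub hj)).2 (hs j hj), hm⟩

end leaves

/-! ### confinement of the new packets -/

theorem rg_split_conf [Fintype ι] {n : ℕ} {F : Frame V W ι} {I : Type} {P : PData W ι I} {j0 : I}
    {E : Stat ι → Set W} (hE : E = P.E) (hsep : SepConf F P j0) {u w : W → ℝ} {k : ℝ → ℝ}
    (hC : IsCut n F E u w k) (hup : ∀ α, ∀ z ∈ P.Up j0 ∩ E α, 0 < u z)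
    (hun : ∀ α, ∀ z ∈ P.Un j0 ∩ E α, u z < 0) : Conf F.ext (splitE E u w k) := by
  subst hE
  intro α' z hz
  set α : Stat ι := fun i => α' (some i) with hα
  set Cc := connectedComponentIn (splitE P.E u w k α') z with hCc
  have hpre : IsPreconnected (Prod.fst '' Cc) :=
    isPreconnected_connectedComponentIn.image _ continuous_fst.continuousOn
  have hsubE : ∀ y ∈ Cc, y ∈ splitE P.E u w k α' := fun y hy =>
    connectedComponentIn_subset _ _ hy
  have hsub : Prod.fst '' Cc ⊆ P.E α := by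
    rintro _ ⟨y, hy, rfl⟩
    exact (hsubE y hy).1
  have key : Disjoint (Prod.fst '' Cc) (P.Un j0) ∨ Disjoint (Prod.fst '' Cc) (P.Up j0) := by
    by_cases h0 : α' none = 0
    · left
      rw [Set.disjoint_left]
      rintro _ ⟨y, hy, rfl⟩ hyU
      have h1 := hsubE y hy
      rcases h1.2 with h2 | h2
      · exact absurd (hun α y.1 ⟨hyU, h1.1⟩) (by rw [h2.2.1]; exact lt_irrefl 0)
      · exact h2.1 h0
    · rcases signType_cast_cases _ h0 with ⟨-, h1⟩ | ⟨-, h1⟩
      · left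
        rw [Set.disjoint_left]
        rintro _ ⟨y, hy, rfl⟩ hyU
        have h2 := (splitE_side_sign hC (hsubE y hy) h0).1
        rw [h1, one_mul] at h2
        exact absurd (hun α y.1 ⟨hyU, (hsubE y hy).1⟩) (not_lt.2 h2)
      · right
        rw [Set.disjoint_left]
        rintro _ ⟨y, hy, rfl⟩ hyU
        have h2 := (splitE_side_sign hC (hsubE y hy) h0).1
        rw [h1] at h2
        have := hup α y.1 ⟨hyU, (hsubE y hy).1⟩
        linarith
  obtain ⟨K, hK, hKq⟩ := hsep α _ hsub hpre key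
  exact ⟨K, hK, fun y hy => hKq y.1 ⟨y, hy, rfl⟩⟩

end Claimed.Agent.R315
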