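import Claimed.Agent.R315.Rg.FinCal
import Claimed.Agent.R315.Ct.CutW

/-!
# Row 315, package Rg-FIN (architect helper266), file `Rg/FinA.lean`: THE FINAL BLEND, part A: definitions and convergence of the blends

RULING 9 (5) with the correction of msgs 15817/16327.  `U0` = the true defining function (individually smooth on every `E α`, only ASYMPTOTICALLY compatible, and this only over a set `Om`: `RgfAC`).  The final cut function is

  `rgfBlend F χ T c U0 z = ∑ᶠ l, χ l (q z) * pkBlend F (T + c l) U0 z`,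

`T` ONE fixed smooth threshold function (`DThr`), `χ` a fixed locally finite smooth partition of unity of `V` subordinate to the shells `l - 1 < ‖x‖ < l + 1` (`RgfPou`), `c l ≥ 0` CONSTANTS.
(A blend with a threshold FUNCTION `T_k → ∞` does not work: the jets of the weights contain `dT_k`.)  Here the weights are translates of FIXED functions.

Main result of this file: `rgf_blend_conv`: if `c k l → ∞` for the `l` which are active near `q y'`, and `s k` escapes in the tails `J` of `E α`, then along a subsequence the translated blends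
`rgfBlend F χ T (c k) U0 (· + vec J (s k))` converge to `U0 ∘ dropS J` in `C^∞` near `y'` along the member `(α.faceS J, J)`.

PROOF.  `pkBlend (z + v_k) - U z = ∑_S pkWt S (z + v_k) * (U0 (dropS S (z + v_k)) - U z)`, `U = U0 ∘ dropS J` (`pkWt_sum`).
* `S ⊄ J`: for `i ∈ S \ J`, `|t i (z + v_k)| = |t i z|` is bounded near `y'`, `c k → ∞`: the weight vanishes near `y'` for large `k` (`rgf_cut_off`, `rgf_wt_off`).
* `S ⊆ J`: `dropS S (z + v_k) = dropS S z + vec (J \ S) (s k)`: (AC) for the status `α.faceS S` and the tails `J \ S`, pulled back by `dropS S` (`RgfConv.comp_map`): the bracket tends to `0` (`rgf_bracket`).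
  The cutoffs are `st (g z + r k)`, `g z = σ_i t_i z - T (q z) - 1`, `r k = σ_i s k i - c k`; after ONE subsequence (`rgf_subseq_tri`) every `r` tends to `+∞` (cutoff `≡ 1` near `y'`), `-∞` (`≡ 0`) or to a real number
  (`RgfConv.comp_real`): `rgf_cut_conv`, `rgf_wt_conv`.
-/

set_option autoImplicit false
set_option linter.unusedSectionVars false
open scoped ContDiff Topology
open Claims.C0499 Set Filter

namespace Claimed.Agent.R315

variable {V W : Type} [NormedAddCommGroup V] [NormedSpace ℝ V] [NormedAddCommGroup W]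
  [NormedSpace ℝ W] {ι : Type}

/-! ### definitions -/

/-- `s k` escapes in the tails `J` of the status `α`. -/
def RgfEsc (α : Stat ι) (J : Finset ι) (s : ℕ → ι → ℝ) : Prop :=
  (∀ j ∈ J, α j ≠ 0) ∧ ∀ j ∈ J, Tendsto (fun k => (α j : ℝ) * s k j) atTop atTop

/-- **asymptotic compatibility (AC)** of `U0` over the set `Om`, on all members. -/
def RgfAC [Fintype ι] (n : ℕ) (F : Frame V W ι) (E : Stat ι → Set W) (Om : Set W) (U0 : W → ℝ) :
    Prop :=
  ∀ (α : Stat ι) (J : Finset ι) (s : ℕ → ι → ℝ), RgfEsc α J s →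
    ∀ y ∈ F.cyl J (E (α.faceS J)), F.dropS J y ∈ Om →
      RgfConv (mdim n (α.faceS J) J) (F.cyl J (E (α.faceS J)))
        (fun k z => U0 (z + F.vec J (s k))) (fun z => U0 (F.dropS J z)) y

/-- limits of translated points of `H` lie in `Om` (`rgf_guard_of_compat`, `Rg/FinB.lean`: `H` closed, compatible, `H ⊆ Om`). -/
def RgfGuard (F : Frame V W ι) (E : Stat ι → Set W) (H Om : Set W) : Prop :=
  ∀ (α : Stat ι) (J : Finset ι) (s : ℕ → ι → ℝ), RgfEsc α J s → ∀ (y : ℕ → W) (y' : W),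
    (∀ k, y k + F.vec J (s k) ∈ E α ∩ H) → Tendsto y atTop (𝓝 y') → y' ∈ E (α.faceS J) → y' ∈ Om

/-- **soft predicates**: `Good α u z` is a property of the germ of `u` at `z ∈ E α ∩ H` which cannot fail along a sequence of compatible functions whose translates converge to (the cylinder over) `U0`. -/
def RgfSoft [Fintype ι] (n : ℕ) (F : Frame V W ι) (E : Stat ι → Set W) (H : Set W) (U0 : W → ℝ)
    (Good : Stat ι → (W → ℝ) → W → Prop) : Prop :=
  ∀ (α : Stat ι) (J : Finset ι) (s : ℕ → ι → ℝ), RgfEsc α J s →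
    ∀ (y : ℕ → W) (y' : W) (u : ℕ → W → ℝ), (∀ k, SC n F E (u k)) →
      (∀ k, y k + F.vec J (s k) ∈ E α ∩ H) → Tendsto y atTop (𝓝 y') → y' ∈ E (α.faceS J) →
      RgfConv (mdim n (α.faceS J) J) (F.cyl J (E (α.faceS J)))
        (fun k z => u k (z + F.vec J (s k))) (fun z => U0 (F.dropS J z)) y' →
      ∃ k, Good α (u k) (y k + F.vec J (s k))

/-- the fixed partition of unity of `V`. -/
structure RgfPou (χ : ℕ → V → ℝ) : Prop where
  smooth : ∀ l, ContDiff ℝ ∞ (χ l)
  nonneg : ∀ l x, 0 ≤ χ l x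
  lf : LocallyFinite fun l => Function.support (χ l)
  sum : ∀ x, ∑ᶠ l, χ l x = 1
  shell : ∀ l x, χ l x ≠ 0 → (l : ℝ) - 1 < ‖x‖ ∧ ‖x‖ < l + 1

/-- the final blend. -/
noncomputable def rgfBlend [Fintype ι] (F : Frame V W ι) (χ : ℕ → V → ℝ) (T : V → ℝ) (c : ℕ → ℝ)
    (U0 : W → ℝ) (z : W) : ℝ :=
  ∑ᶠ l, χ l (F.q z) * pkBlend F (fun x => T x + c l) U0 z

/-- the three possible behaviours of a real sequence (after a subsequence). -/
def RgfTri (r : ℕ → ℝ) : Prop :=
  Tendsto r atTop atTop ∨ Tendsto r atTop atBot ∨ ∃ c, Tendsto r atTop (𝓝 c)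

theorem RgfDefs_eqns_cite : True := by
  have := @RgfEsc.eq_1; have := @RgfAC.eq_1; have := @RgfSoft.eq_1; have := @rgfBlend.eq_1
  have := @RgfTri.eq_1; have := @RgfGuard.eq_1; trivial

theorem RgfEsc.subseq {α : Stat ι} {J : Finset ι} {s : ℕ → ι → ℝ} (h : RgfEsc α J s) {φ : ℕ → ℕ}
    (hφ : StrictMono φ) : RgfEsc α J (fun k => s (φ k)) :=
  ⟨h.1, fun j hj => (h.2 j hj).comp hφ.tendsto_atTop⟩

theorem RgfTri.subseq {r : ℕ → ℝ} (h : RgfTri r) {φ : ℕ → ℕ} (hφ : StrictMono φ) :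
    RgfTri (fun k => r (φ k)) := by
  rcases h with h | h | ⟨c, h⟩
  · exact Or.inl (h.comp hφ.tendsto_atTop)
  · exact Or.inr (Or.inl (h.comp hφ.tendsto_atTop))
  · exact Or.inr (Or.inr ⟨c, h.comp hφ.tendsto_atTop⟩)

/-! ### PACKAGE L-RG-FIN-A1: linear algebra of `vec`, `dropS`, `faceS` -/

theorem rgf_q_vec (F : Frame V W ι) (J : Finset ι) (s : ι → ℝ) : F.q (F.vec J s) = 0 := by
  simp [Frame.vec, F.q_e]

theorem rgf_t_vec_mem (F : Frame V W ι) {J : Finset ι} {j : ι} (hj : j ∈ J) (s : ι → ℝ) :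
    F.t j (F.vec J s) = s j := by
  classical
  simp only [Frame.vec, map_sum, map_smul, smul_eq_mul]
  rw [Finset.sum_eq_single j]
  · simp [F.t_e]
  · intro i _ hi
    rw [F.t_e_ne j i (Ne.symm hi), mul_zero]
  · intro h; exact absurd hj h

theorem rgf_t_vec_notMem (F : Frame V W ι) {J : Finset ι} {j : ι} (hj : j ∉ J) (s : ι → ℝ) :
    F.t j (F.vec J s) = 0 := by
  classical
  simp only [Frame.vec, map_sum, map_smul, smul_eq_mul]
  refine Finset.sum_eq_zero fun i hi => ?_
  have : j ≠ i := fun h => hj (h ▸ hi)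
  rw [F.t_e_ne j i this, mul_zero]

theorem rgf_dropS_add_vec_self (F : Frame V W ι) (J : Finset ι) (z : W) :
    F.dropS J z + F.vec J (fun j => F.t j z) = z := by
  simp [Frame.dropS, Frame.vec]

/-- `dropS S` of a translate in the directions `J ⊇ S`. -/
theorem rgf_dropS_add_vec [DecidableEq ι] (F : Frame V W ι) {S J : Finset ι} (hSJ : S ⊆ J)
    (s : ι → ℝ) (z : W) : F.dropS S (z + F.vec J s) = F.dropS S z + F.vec (J \ S) s := by
  have h1 : ∀ i ∈ S, F.t i (z + F.vec J s) • F.e i = F.t i z • F.e i + s i • F.e i := by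
    intro i hi
    rw [map_add, rgf_t_vec_mem F (hSJ hi), add_smul]
  have h2 : F.vec J s = F.vec (J \ S) s + F.vec S s := by
    simp only [Frame.vec]
    exact (Finset.sum_sdiff hSJ).symm
  simp only [Frame.dropS]
  rw [Finset.sum_congr rfl h1, Finset.sum_add_distrib, h2]
  simp only [Frame.vec]
  abel

theorem rgf_dropS_dropS [DecidableEq ι] (F : Frame V W ι) {S J : Finset ι} (hSJ : S ⊆ J) (z : W) :
    F.dropS (J \ S) (F.dropS S z) = F.dropS J z := by
  have h1 : ∀ i ∈ J \ S, F.t i (F.dropS S z) • F.e i = F.t i z • F.e i := by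
    intro i hi
    rw [F.t_dropS_notMem (Finset.mem_sdiff.1 hi).2]
  have h2 : ∑ i ∈ J, F.t i z • F.e i = ∑ i ∈ J \ S, F.t i z • F.e i + ∑ i ∈ S, F.t i z • F.e i :=
    (Finset.sum_sdiff hSJ).symm
  rw [Frame.dropS, Finset.sum_congr rfl h1, Frame.dropS, Frame.dropS, h2]
  abel

theorem rgf_faceS_faceS [DecidableEq ι] (α : Stat ι) {S J : Finset ι} (hSJ : S ⊆ J) :
    (α.faceS S).faceS (J \ S) = α.faceS J := by
  funext i
  by_cases hJ : i ∈ J
  · by_cases hS : i ∈ S
    · simp [Stat.faceS, hJ, hS]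
    · simp [Stat.faceS, hJ, hS]
  · have hS : i ∉ S := fun h => hJ (hSJ h)
    simp [Stat.faceS, hJ, hS]

theorem rgf_dropS_of_mem [Fintype ι] {n : ℕ} {M : Set V} {F : Frame V W ι} {E : Stat ι → Set W}
    (hD : IsDiag n M F E) (α : Stat ι) (J : Finset ι) {y : W} (hy : y ∈ E (α.faceS J)) :
    F.dropS J y = y := by
  have : ∀ i ∈ J, F.t i y • F.e i = 0 := by
    intro i hi
    rw [hD.t_hit _ y hy i (by simp [Stat.faceS, hi]), zero_smul]
  rw [Frame.dropS, Finset.sum_eq_zero this, sub_zero]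

theorem rgf_mem_cyl [Fintype ι] {n : ℕ} {M : Set V} {F : Frame V W ι} {E : Stat ι → Set W}
    (hD : IsDiag n M F E) (α : Stat ι) (J : Finset ι) {y : W} (hy : y ∈ E (α.faceS J)) :
    y ∈ F.cyl J (E (α.faceS J)) := by
  show F.dropS J y ∈ E (α.faceS J)
  rw [rgf_dropS_of_mem hD α J hy]; exact hy

/-! ### PACKAGE L-RG-FIN-A2: cutoffs and weights -/

section cut

variable (F : Frame V W ι) {T : V → ℝ} {α : Stat ι} {J : Finset ι} {s : ℕ → ι → ℝ} {c : ℕ → ℝ}

/-- cutoffs of the directions which do not escape vanish near `y'`.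
PLAN: `O = {z | |t i z| < |t i y'| + 1}`; `t i (z + vec J s) = t i z` (`rgf_t_vec_notMem`); `pkF_eq_zero` as soon as `|t i y'| ≤ c k`. -/
theorem rgf_cut_off (hT0 : ∀ x, 0 ≤ T x) {i : ι} (hi : i ∉ J) (s : ℕ → ι → ℝ) (y' : W)
    (hc : Tendsto c atTop atTop) :
    ∃ O ∈ 𝓝 y', ∀ᶠ k in atTop, ∀ z ∈ O, pkF F (fun x => T x + c k) i (z + F.vec J (s k)) = 0 := by
  refine ⟨{z | |F.t i z| < |F.t i y'| + 1}, ?_, ?_⟩
  · have hcont : Continuous fun z => |F.t i z| := (F.t i).continuous.abs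
    exact (isOpen_lt hcont continuous_const).mem_nhds (by simp)
  · filter_upwards [hc.eventually_ge_atTop (|F.t i y'|)] with k hk z hz
    apply pkF_eq_zero
    rw [map_add, rgf_t_vec_notMem F hi, add_zero]
    have h1 := hT0 (F.q (z + F.vec J (s k)))
    have hz' : |F.t i z| < |F.t i y'| + 1 := hz
    linarith

/-- cutoffs of the escaping directions converge.
PLAN: `g z = σ t i z - T (q z) - 1`, `σ = α i = ±1`, `r k = σ * s k i - c k`.  On `O = {z | |t i z| < |t i y'| + 1}` and for `k` large (`σ * s k i > |t i y'| + 1`): `|t i (z + v_k)| = σ * (t i z + s k i)`, so the cutoff is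
`st (g z + r k)`.  `r → +∞`: `g` is bounded below on a neighbourhood (continuity), cutoff `= 1` (`Real.smoothTransition.one_of_one_le`), `rgfConv_of_eventually_eq`, `f' = 1`; `r → -∞`: `f' = 0`;
`r → r'`: `((rgfConv_fixed hg).add (rgfConv_seq hr)).comp_real isOpen_univ Real.smoothTransition.contDiff.contDiffOn` + `RgfConv.congr`. -/
theorem rgf_cut_conv (hTs : ContDiff ℝ ∞ T) (hs : RgfEsc α J s) {i : ι} (hi : i ∈ J) (d : ℕ)
    (Y : Set W) (y' : W) (htri : RgfTri fun k => (α i : ℝ) * s k i - c k) :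
    ∃ f' : W → ℝ,
      RgfConv d Y (fun k z => pkF F (fun x => T x + c k) i (z + F.vec J (s k))) f' y' := by
  set σ : ℝ := (α i : ℝ) with hσ
  have hσ1 : |σ| = 1 := by
    have h0 := hs.1 i hi
    rcases SignType.trichotomy (α i) with h | h | h
    · rw [hσ, h]; simp
    · exact absurd h h0
    · rw [hσ, h]; simp
  set g : W → ℝ := fun z => σ * F.t i z - T (F.q z) - 1 with hg
  have hgs : ContDiff ℝ ∞ g :=
    ((contDiff_const.mul (F.t i).contDiff).sub (hTs.comp F.q.contDiff)).sub contDiff_const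
  have hgc : Continuous g := hgs.continuous
  set O : Set W := {z | |F.t i z| < |F.t i y'| + 1} with hO
  have hOn : O ∈ 𝓝 y' := by
    have hcont : Continuous fun z => |F.t i z| := (F.t i).continuous.abs
    exact (isOpen_lt hcont continuous_const).mem_nhds (by simp)
  -- the cutoff is `st (g z + r k)`
  have hform : ∀ᶠ k in atTop, ∀ z ∈ O, pkF F (fun x => T x + c k) i (z + F.vec J (s k)) =
      Real.smoothTransition (g z + (σ * s k i - c k)) := by
    filter_upwards [(hs.2 i hi).eventually_ge_atTop (|F.t i y'| + 1)] with k hk z hz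
    have hz' : |F.t i z| < |F.t i y'| + 1 := hz
    have h1 : |F.t i z + s k i| = σ * F.t i z + σ * s k i := by
      have h2 : |F.t i z + s k i| = |σ * F.t i z + σ * s k i| := by
        rw [← mul_add, abs_mul, hσ1, one_mul]
      rw [h2]
      apply abs_of_nonneg
      have h3 : |σ * F.t i z| = |F.t i z| := by rw [abs_mul, hσ1, one_mul]
      have h4 := neg_abs_le (σ * F.t i z)
      linarith
    unfold pkF
    rw [map_add, map_add, rgf_t_vec_mem F hi, rgf_q_vec, add_zero, h1]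
    congr 1
    simp only [hg]
    ring
  rcases htri with h | h | ⟨r', h⟩
  · refine ⟨fun _ => 1, rgfConv_of_eventually_eq (if_smoothAlong_const 1)
      (O := O ∩ {z | g y' - 1 < g z}) (inter_mem hOn
        ((isOpen_lt continuous_const hgc).mem_nhds (by simp))) ?_⟩
    filter_upwards [hform, h.eventually_ge_atTop (2 - g y')] with k hk1 hk2 z hz
    rw [hk1 z hz.2.1]
    have h5 : g y' - 1 < g z := hz.2.2
    exact Real.smoothTransition.one_of_one_le (by linarith)
  · refine ⟨fun _ => 0, rgfConv_of_eventually_eq (if_smoothAlong_const 0)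
      (O := O ∩ {z | g z < g y' + 1}) (inter_mem hOn
        ((isOpen_lt hgc continuous_const).mem_nhds (by simp))) ?_⟩
    filter_upwards [hform, h.eventually_le_atBot (-(g y' + 1))] with k hk1 hk2 z hz
    rw [hk1 z hz.2.1]
    have h5 : g z < g y' + 1 := hz.2.2
    exact Real.smoothTransition.zero_of_nonpos (by linarith)
  · have hgS : SmoothAlong d Y g := if_smoothAlong_of_contDiff hgs
    have h6 := ((rgfConv_fixed (y := y') hgS).add (rgfConv_seq h)).comp_real isOpen_univ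
      (Θ := Real.smoothTransition) Real.smoothTransition.contDiff.contDiffOn (mem_univ _)
    refine ⟨_, h6.congr hOn ?_ fun _ _ => rfl⟩
    filter_upwards [hform] with k hk z hz
    exact hk z hz.2

variable [Fintype ι]

/-- all weights converge. -/
theorem rgf_wt_conv (hTs : ContDiff ℝ ∞ T) (hT0 : ∀ x, 0 ≤ T x) (hs : RgfEsc α J s) (d : ℕ)
    (Y : Set W) (y' : W) (hc : Tendsto c atTop atTop)
    (htri : ∀ i ∈ J, RgfTri fun k => (α i : ℝ) * s k i - c k) (S : Finset ι) :
    ∃ w' : W → ℝ,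
      RgfConv d Y (fun k z => pkWt F (fun x => T x + c k) S (z + F.vec J (s k))) w' y' := by
  classical
  have h1 : ∀ i, ∃ f' : W → ℝ,
      RgfConv d Y (fun k z => pkF F (fun x => T x + c k) i (z + F.vec J (s k))) f' y' := by
    intro i
    by_cases hi : i ∈ J
    · exact rgf_cut_conv F hTs hs hi d Y y' (htri i hi)
    · obtain ⟨O, hO, hev⟩ := rgf_cut_off F hT0 hi s y' hc
      refine ⟨fun _ => 0, rgfConv_of_eventually_eq (if_smoothAlong_const 0) hO ?_⟩
      filter_upwards [hev] with k hk z hz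
      exact hk z hz.2
  choose f' hf' using h1
  refine ⟨fun z => ∏ i, if i ∈ S then f' i z else 1 - f' i z, ?_⟩
  unfold pkWt
  refine RgfConv.prod Finset.univ
    (A := fun i k z => if i ∈ S then pkF F (fun x => T x + c k) i (z + F.vec J (s k))
      else 1 - pkF F (fun x => T x + c k) i (z + F.vec J (s k)))
    (A' := fun i z => if i ∈ S then f' i z else 1 - f' i z) fun i _ => ?_
  by_cases hi : i ∈ S
  · simp only [if_pos hi]; exact hf' i
  · simp only [if_neg hi]; exact (rgfConv_const 1).sub (hf' i)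

/-- weights of sets `S ⊄ J` vanish near `y'`. -/
theorem rgf_wt_off (hT0 : ∀ x, 0 ≤ T x) (s : ℕ → ι → ℝ) (y' : W) (hc : Tendsto c atTop atTop)
    {S : Finset ι} (hS : ¬ S ⊆ J) :
    ∃ O ∈ 𝓝 y', ∀ᶠ k in atTop, ∀ z ∈ O,
      pkWt F (fun x => T x + c k) S (z + F.vec J (s k)) = 0 := by
  obtain ⟨i, hiS, hiJ⟩ := Finset.not_subset.1 hS
  obtain ⟨O, hO, hev⟩ := rgf_cut_off F hT0 hiJ s y' hc
  refine ⟨O, hO, ?_⟩
  filter_upwards [hev] with k hk z hz
  exact pkWt_eq_zero_of_mem F hiS (hk z hz)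

end cut

/-! ### PACKAGE L-RG-FIN-A3: the brackets, one blend, the final blend -/

section conv

variable [FiniteDimensional ℝ V] [FiniteDimensional ℝ W] [Fintype ι] {n : ℕ} {M : Set V}
  {F : Frame V W ι} {E : Stat ι → Set W} {Om : Set W} {U0 : W → ℝ} {T : V → ℝ} {α : Stat ι}
  {J : Finset ι} {s : ℕ → ι → ℝ}

/-- all members are manifolds (from `ct_mem_geo`). -/
def RgfMem (n : ℕ) (F : Frame V W ι) (E : Stat ι → Set W) : Prop :=
  ∀ (γ : Stat ι) (J : Finset ι), (∀ j ∈ J, γ j = 0) → IsMfd (mdim n γ J) (F.cyl J (E γ))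

/-- **the brackets**: (AC) for the face `α.faceS S`, pulled back by `dropS S`. -/
theorem rgf_bracket (hY : RgfMem n F E) (hAC : RgfAC n F E Om U0) (hs : RgfEsc α J s) {y' : W}
    (hy' : y' ∈ F.cyl J (E (α.faceS J))) (hOm : F.dropS J y' ∈ Om) {S : Finset ι} (hSJ : S ⊆ J) :
    RgfConv (mdim n (α.faceS J) J) (F.cyl J (E (α.faceS J)))
      (fun k z => U0 (F.dropS S (z + F.vec J (s k)))) (fun z => U0 (F.dropS J z)) y' := by
  classical
  have hesc : RgfEsc (α.faceS S) (J \ S) s := by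
    have e : ∀ j ∈ J \ S, (α.faceS S) j = α j := fun j hj => by
      simp [Stat.faceS, (Finset.mem_sdiff.1 hj).2]
    refine ⟨fun j hj => ?_, fun j hj => ?_⟩
    · rw [e j hj]; exact hs.1 j (Finset.mem_sdiff.1 hj).1
    · rw [e j hj]; exact hs.2 j (Finset.mem_sdiff.1 hj).1
  have hmem : F.dropS S y' ∈ F.cyl (J \ S) (E (α.faceS J)) := by
    show F.dropS (J \ S) (F.dropS S y') ∈ E (α.faceS J)
    rw [rgf_dropS_dropS F hSJ]; exact hy'
  have h1 := hAC (α.faceS S) (J \ S) s hesc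
  rw [rgf_faceS_faceS α hSJ] at h1
  have h2 := h1 _ hmem (by rw [rgf_dropS_dropS F hSJ]; exact hOm)
  have hM' : IsMfd (mdim n (α.faceS J) (J \ S)) (F.cyl (J \ S) (E (α.faceS J))) :=
    hY _ _ fun j hj => by simp [Stat.faceS, (Finset.mem_sdiff.1 hj).1]
  have h3 := RgfConv.comp_map (d := mdim n (α.faceS J) J) (X := F.cyl J (E (α.faceS J))) hM'
    (π := F.dropS S) isOpen_univ (mem_univ y') (F.contDiff_dropS S).contDiffOn
    (fun z hz => by
      show F.dropS (J \ S) (F.dropS S z) ∈ E (α.faceS J)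
      rw [rgf_dropS_dropS F hSJ]; exact hz.1) hy' h2
  have e1 : (fun (k : ℕ) z => U0 (F.dropS S (z + F.vec J (s k)))) =
      fun k z => U0 (F.dropS S z + F.vec (J \ S) (s k)) := by
    funext k z; rw [rgf_dropS_add_vec F hSJ]
  have e2 : (fun z => U0 (F.dropS J z)) = fun z => U0 (F.dropS (J \ S) (F.dropS S z)) := by
    funext z; rw [rgf_dropS_dropS F hSJ]
  rw [e1, e2]
  exact h3

/-- **one blend with constants `c k → ∞`.** -/
theorem rgf_pk_conv (hY : RgfMem n F E) (hAC : RgfAC n F E Om U0) (hTs : ContDiff ℝ ∞ T)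
    (hT0 : ∀ x, 0 ≤ T x) (hs : RgfEsc α J s) {y' : W} (hy' : y' ∈ F.cyl J (E (α.faceS J)))
    (hOm : F.dropS J y' ∈ Om) {c : ℕ → ℝ} (hc : Tendsto c atTop atTop)
    (htri : ∀ i ∈ J, RgfTri fun k => (α i : ℝ) * s k i - c k) :
    RgfConv (mdim n (α.faceS J) J) (F.cyl J (E (α.faceS J)))
      (fun k z => pkBlend F (fun x => T x + c k) U0 (z + F.vec J (s k)))
      (fun z => U0 (F.dropS J z)) y' := by
  classical
  set d := mdim n (α.faceS J) J
  set Y := F.cyl J (E (α.faceS J))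
  have hU : RgfConv d Y (fun _ z => U0 (F.dropS J z)) (fun z => U0 (F.dropS J z)) y' :=
    (hAC α J s hs y' hy' hOm).limit_fixed
  have hterm : ∀ S : Finset ι, RgfConv d Y
      (fun k z => pkWt F (fun x => T x + c k) S (z + F.vec J (s k)) *
        (U0 (F.dropS S (z + F.vec J (s k))) - U0 (F.dropS J z))) (fun _ => 0) y' := by
    intro S
    by_cases hS : S ⊆ J
    · obtain ⟨w', hw'⟩ := rgf_wt_conv F hTs hT0 hs d Y y' hc htri S
      have hb := (rgf_bracket hY hAC hs hy' hOm hS).sub hU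
      simp only [sub_self] at hb
      exact hw'.mul_null hb
    · obtain ⟨O, hO, hev⟩ := rgf_wt_off F hT0 s y' hc hS
      refine rgfConv_of_eventually_eq (if_smoothAlong_const 0) hO ?_
      filter_upwards [hev] with k hk z hz
      rw [hk z hz.2, zero_mul]
  have hsum := hU.add (RgfConv.sum Finset.univ fun S _ => hterm S)
  simp only [Finset.sum_const_zero, add_zero] at hsum
  have e : (fun (k : ℕ) z => pkBlend F (fun x => T x + c k) U0 (z + F.vec J (s k))) =
      fun k z => U0 (F.dropS J z) + ∑ S : Finset ι,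
        pkWt F (fun x => T x + c k) S (z + F.vec J (s k)) *
          (U0 (F.dropS S (z + F.vec J (s k))) - U0 (F.dropS J z)) := by
    funext k z
    simp only [mul_sub, Finset.sum_sub_distrib, ← Finset.sum_mul, pkWt_sum, one_mul]
    simp [pkBlend]
  rw [e]
  exact hsum

/-- the final blend near a point is a finite sum.
PLAN: `hχ.lf (q y')` gives `N₁`; `N' = interior (N ∩ N₁)`, `L` = the finite set of the `l` with `support (χ l) ∩ N'` nonempty; `finsum_eq_sum_of_support_subset`. -/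
theorem rgf_blend_local {χ : ℕ → V → ℝ} (hχ : RgfPou χ) {x₀ : V} {N : Set V} (hN : N ∈ 𝓝 x₀) :
    ∃ (N' : Set V) (L : Finset ℕ), IsOpen N' ∧ x₀ ∈ N' ∧ N' ⊆ N ∧
      (∀ l ∈ L, (Function.support (χ l) ∩ N).Nonempty) ∧ (∀ x ∈ N', ∑ l ∈ L, χ l x = 1) ∧
      ∀ (T : V → ℝ) (c : ℕ → ℝ) (U0 : W → ℝ) (z : W), F.q z ∈ N' →
        rgfBlend F χ T c U0 z = ∑ l ∈ L, χ l (F.q z) * pkBlend F (fun x => T x + c l) U0 z := by
  classical
  obtain ⟨N₁, hN₁, hfin⟩ := hχ.lf x₀
  set N' : Set V := interior (N ∩ N₁) with hN'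
  have hN'sub : N' ⊆ N ∩ N₁ := interior_subset
  have hfin' : {l | (Function.support (χ l) ∩ N').Nonempty}.Finite :=
    hfin.subset fun l hl => hl.mono (inter_subset_inter_right _ (hN'sub.trans inter_subset_right))
  have hsupp : ∀ x ∈ N', ∀ l, χ l x ≠ 0 → l ∈ hfin'.toFinset := fun x hx l hl =>
    hfin'.mem_toFinset.2 ⟨x, hl, hx⟩
  refine ⟨N', hfin'.toFinset, isOpen_interior, mem_interior_iff_mem_nhds.2 (inter_mem hN hN₁),
    hN'sub.trans inter_subset_left, fun l hl => ?_, fun x hx => ?_, fun T c U0 z hz => ?_⟩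
  · exact (hfin'.mem_toFinset.1 hl).mono
      (inter_subset_inter_right _ (hN'sub.trans inter_subset_left))
  · rw [← hχ.sum x]
    symm
    refine finsum_eq_sum_of_support_subset _ fun l hl => ?_
    exact Finset.mem_coe.2 (hsupp x hx l hl)
  · unfold rgfBlend
    refine finsum_eq_sum_of_support_subset _ fun l hl => ?_
    exact Finset.mem_coe.2 (hsupp _ hz l (left_ne_zero_of_mul hl))

/-- convergence of the final blends when all the sequences `σ_i s k i - c k l` behave. -/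
theorem rgf_blend_conv' (hY : RgfMem n F E) (hAC : RgfAC n F E Om U0) {χ : ℕ → V → ℝ}
    (hχ : RgfPou χ) (hTs : ContDiff ℝ ∞ T) (hT0 : ∀ x, 0 ≤ T x) (hs : RgfEsc α J s) {y' : W}
    (hy' : y' ∈ F.cyl J (E (α.faceS J))) (hOm : F.dropS J y' ∈ Om) {N : Set V}
    (hN : N ∈ 𝓝 (F.q y')) {c : ℕ → ℕ → ℝ}
    (hc : ∀ l, (Function.support (χ l) ∩ N).Nonempty → Tendsto (fun k => c k l) atTop atTop)
    (htri : ∀ l i, RgfTri fun k => (α i : ℝ) * s k i - c k l) :
    RgfConv (mdim n (α.faceS J) J) (F.cyl J (E (α.faceS J)))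
      (fun k z => rgfBlend F χ T (c k) U0 (z + F.vec J (s k))) (fun z => U0 (F.dropS J z)) y' := by
  obtain ⟨N', L, hN'o, hx₀, -, hL, hsum, hloc⟩ := rgf_blend_local (F := F) hχ hN
  have h1 : ∀ l ∈ L, RgfConv (mdim n (α.faceS J) J) (F.cyl J (E (α.faceS J)))
      (fun k z => χ l (F.q z) * pkBlend F (fun x => T x + c k l) U0 (z + F.vec J (s k)))
      (fun z => χ l (F.q z) * U0 (F.dropS J z)) y' := by
    intro l hl
    have hf : SmoothAlong (mdim n (α.faceS J) J) (F.cyl J (E (α.faceS J)))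
        (fun z => χ l (F.q z)) :=
      if_smoothAlong_of_contDiff ((hχ.smooth l).comp F.q.contDiff)
    exact (rgfConv_fixed hf).mul
      (rgf_pk_conv hY hAC hTs hT0 hs hy' hOm (hc l (hL l hl)) fun i _ => htri l i)
  have h2 := RgfConv.sum L h1
  have hO : F.q ⁻¹' N' ∈ 𝓝 y' := (hN'o.preimage F.q.continuous).mem_nhds hx₀
  refine h2.congr hO (Eventually.of_forall fun k z hz => ?_) fun z hz => ?_
  · have hq : F.q (z + F.vec J (s k)) = F.q z := by rw [map_add, rgf_q_vec, add_zero]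
    rw [hloc T (c k) U0 _ (by rw [hq]; exact hz.2), hq]
  · rw [← Finset.sum_mul, hsum _ hz.2, one_mul]

/-- **CONVERGENCE OF THE FINAL BLENDS** (along a subsequence). -/
theorem rgf_blend_conv (hY : RgfMem n F E) (hAC : RgfAC n F E Om U0) {χ : ℕ → V → ℝ}
    (hχ : RgfPou χ) (hTs : ContDiff ℝ ∞ T) (hT0 : ∀ x, 0 ≤ T x) (hs : RgfEsc α J s) {y' : W}
    (hy' : y' ∈ F.cyl J (E (α.faceS J))) (hOm : F.dropS J y' ∈ Om) {N : Set V}
    (hN : N ∈ 𝓝 (F.q y')) (c : ℕ → ℕ → ℝ)
    (hc : ∀ l, (Function.support (χ l) ∩ N).Nonempty → Tendsto (fun k => c k l) atTop atTop) :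
    ∃ φ : ℕ → ℕ, StrictMono φ ∧
      RgfConv (mdim n (α.faceS J) J) (F.cyl J (E (α.faceS J)))
        (fun k z => rgfBlend F χ T (c (φ k)) U0 (z + F.vec J (s (φ k))))
        (fun z => U0 (F.dropS J z)) y' := by
  have : Countable ι := Finite.to_countable
  obtain ⟨φ, hφ, htri⟩ := rgf_subseq_tri (κ := ℕ × ι) fun k p => (α p.2 : ℝ) * s k p.2 - c k p.1
  refine ⟨φ, hφ, rgf_blend_conv' hY hAC hχ hTs hT0 (hs.subseq hφ) hy' hOm hN
    (c := fun k => c (φ k)) (fun l hl => (hc l hl).comp hφ.tendsto_atTop) fun l i => htri (l, i)⟩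

end conv

end Claimed.Agent.R315
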