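import Claimed.Agent.R315.Rg.FinA
import Claimed.Agent.R315.Pack003

/-!
# Row 315, package Rg-FIN (architect helper266), file `Rg/FinB.lean`: THE FINAL BLEND, part B: the abstract blend theorem `rgf_blend`

`rgf_blend`:  diagram + members are manifolds + `U0` individually smooth, asymptotically compatible over `Om` (`RgfAC`) + `H` closed compatible, `H ⊆ Om` (`RgfGuard`) + `Good` soft (`RgfSoft`)  ⟹  there is a COMPATIBLE smooth `u` with `Good α u z` at ALL `z ∈ E α ∩ H`, and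
`u z` lies in every convex set which contains the values `U0 (dropS S z)`, `S ⊆ {i | T₀ (q z) < |t i z|}` (`T₀` = any locally bounded function given in advance).

PROOF.  `T ≥ T₀` one smooth threshold function of the diagram, `χ` the partition of unity of the shells, `u = rgfBlend F χ T c U0`.
* `rgfBlend_sc`, `rgfBlend_mem_convex`: for ALL constants `c ≥ 0` (package L-RG-FIN-B1).
* `rgf_soft_claim`: for `K ⊆ N`, `K` compact, `N` open there is `R` such that `Good` holds over `K` as soon as `c l ≥ R` for all `l` which are active on `N`.  By contradiction: `ct_escape`, `rgf_blend_conv`, `RgfSoft` (PROVED here).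
* constants: `K m = {m ≤ ‖x‖ ≤ m + 1}`, `N m = {m - 1 < ‖x‖ < m + 2}`; `l` active on `N m` implies `m ≤ l + 1`; `c l = ∑_{m < l + 2} max (R m) 0` (PROVED here).
-/

set_option autoImplicit false
set_option linter.unusedSectionVars false
open scoped ContDiff Topology
open Claims.C0499 Set Filter

namespace Claimed.Agent.R315

variable {V W : Type} [NormedAddCommGroup V] [NormedSpace ℝ V] [NormedAddCommGroup W]
  [NormedSpace ℝ W] {ι : Type}
variable [FiniteDimensional ℝ V] [FiniteDimensional ℝ W] [Fintype ι] {n : ℕ} {M : Set V}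
  {F : Frame V W ι} {E : Stat ι → Set W} {H Om : Set W} {U0 : W → ℝ} {T : V → ℝ}
  {χ : ℕ → V → ℝ}

/-! ### PACKAGE L-RG-FIN-B1: the partition of unity; the blend is smooth, compatible, convex -/

/-- PLAN: `if_exists_pou_closed isClosed_univ (fun l => {x | l - 1 < ‖x‖ ∧ ‖x‖ < l + 1})`; cover: `l = ⌊‖x‖⌋₊`; `subset_tsupport`. -/
theorem rgf_exists_pou : ∃ χ : ℕ → V → ℝ, RgfPou χ := by
  obtain ⟨χ, h1, h2, h3, h4, h5, -⟩ := if_exists_pou_closed (V := V) isClosed_univ
    (fun l : ℕ => {x : V | (l : ℝ) - 1 < ‖x‖ ∧ ‖x‖ < l + 1})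
    (fun l => (isOpen_lt continuous_const continuous_norm).inter
      (isOpen_lt continuous_norm continuous_const))
    (fun x _ => mem_iUnion.2 ⟨⌊‖x‖⌋₊, by
      constructor
      · have := Nat.floor_le (norm_nonneg x)
        linarith
      · exact Nat.lt_floor_add_one _⟩)
  exact ⟨χ, h1, h2, h4, fun x => h5 x (mem_univ x), fun l x hx => h3 l (subset_tsupport _ hx)⟩

/-- PLAN: smooth: `if_smoothAlong_of_pieces` + `rgf_blend_local` (`N = univ`): on `E α ∩ q ⁻¹' N'` a finite sum of products of `χ l ∘ q` (`if_smoothAlong_of_contDiff`) and `pkBlend` (`pkBlend_sc`, threshold `T + c l`: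
`DThr.mono`); `pk_smoothAlong_congr`.  Compatible: `K` compact; the set `L` of the `l` with `support (χ l) ∩ K ≠ ∅` is finite (`LocallyFinite.finite_nonempty_inter_compact`); `C ≥ T` on `K`; `R = C + 2 + ∑_{l ∈ L} c l`;
`finsum_congr`: `q (drop i z) = q z`; if `χ l (q z) ≠ 0` then `l ∈ L`, `pkBlend_drop`. -/
theorem rgfBlend_sc (hD : IsDiag n M F E) (hχ : RgfPou χ) (hT0 : ∀ x, 0 ≤ T x)
    (hTs : ContDiff ℝ ∞ T) (hT : DThr F E T) {c : ℕ → ℝ} (hc0 : ∀ l, 0 ≤ c l)
    (hU : ∀ α, SmoothAlong (n - hits α) (E α) U0) : SC n F E (rgfBlend F χ T c U0) := by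
  classical
  have hTl0 : ∀ l x, 0 ≤ T x + c l := fun l x => add_nonneg (hT0 x) (hc0 l)
  have hsc : ∀ l, SC n F E (pkBlend F (fun x => T x + c l) U0) := fun l =>
    pkBlend_sc hD (hTl0 l) (hTs.add contDiff_const)
      (hT.mono fun x => le_add_of_nonneg_right (hc0 l)) hU
  refine ⟨fun α => if_smoothAlong_of_pieces fun x _ => ?_, fun i K hK => ?_⟩
  · obtain ⟨N', L, hN'o, hx₀, -, -, -, hloc⟩ :=
      rgf_blend_local (F := F) hχ (x₀ := F.q x) (N := univ) univ_mem
    have hO : IsOpen (F.q ⁻¹' N') := hN'o.preimage F.q.continuous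
    refine ⟨F.q ⁻¹' N', hO, hx₀, ?_⟩
    have h1 : SmoothAlong (n - hits α) (E α)
        (fun z => ∑ l ∈ L, χ l (F.q z) * pkBlend F (fun x => T x + c l) U0 z) :=
      gs_sm_sum L fun l _ =>
        gs_sm_mul (if_smoothAlong_of_contDiff ((hχ.smooth l).comp F.q.contDiff)) ((hsc l).1 α)
    have h2 : SmoothAlong (n - hits α) (E α ∩ F.q ⁻¹' N')
        (fun z => ∑ l ∈ L, χ l (F.q z) * pkBlend F (fun x => T x + c l) U0 z) :=
      fun ψ U hp => h1 ψ U (if_param_of_inter hO hp)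
    exact pk_smoothAlong_congr h2 fun z hz => hloc T c U0 z hz.2
  · have hfin := hχ.lf.finite_nonempty_inter_compact hK
    obtain ⟨C, hC⟩ := (hK.image hTs.continuous).bddAbove
    refine ⟨C + 2 + ∑ l ∈ hfin.toFinset, c l, fun z _ hq hlt => ?_⟩
    unfold rgfBlend
    refine finsum_congr fun l => ?_
    rw [F.q_drop]
    by_cases hl : χ l (F.q z) = 0
    · rw [hl, zero_mul, zero_mul]
    · have hlL : l ∈ hfin.toFinset := hfin.mem_toFinset.2 ⟨F.q z, hl, hq⟩
      have h3 : c l ≤ ∑ l ∈ hfin.toFinset, c l :=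
        Finset.single_le_sum (f := c) (fun l _ => hc0 l) hlL
      have h4 : T (F.q z) ≤ C := hC ⟨_, hq, rfl⟩
      rw [pkBlend_drop F (hTl0 l) U0 (by linarith)]

/-- PLAN: `Convex.finsum_mem` (weights `χ l (q z)`), `pkBlend_mem_convex`, `pkWt_ne_zero`. -/
theorem rgfBlend_mem_convex (hχ : RgfPou χ) {c : ℕ → ℝ} (hc0 : ∀ l, 0 ≤ c l) {z : W} {C : Set ℝ}
    (hC : Convex ℝ C) (h : ∀ S : Finset ι, (∀ i ∈ S, T (F.q z) < |F.t i z|) → U0 (F.dropS S z) ∈ C) :
    rgfBlend F χ T c U0 z ∈ C := by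
  unfold rgfBlend
  have := hC.finsum_mem (w := fun l => χ l (F.q z))
    (z := fun l => pkBlend F (fun x => T x + c l) U0 z) (fun l => hχ.nonneg l _) (hχ.sum _)
    fun l _ => pkBlend_mem_convex F _ U0 hC fun S hS => h S fun i hi => by
      have h1 := (pkWt_ne_zero F hS).1 i hi
      have h2 := hc0 l
      linarith
  simpa only [smul_eq_mul] using this

/-! ### the soft claim -/

theorem rgf_soft_claim (hD : IsDiag n M F E) (hY : RgfMem n F E) (hχ : RgfPou χ)
    (hT0 : ∀ x, 0 ≤ T x) (hTs : ContDiff ℝ ∞ T) (hT : DThr F E T)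
    (hU : ∀ α, SmoothAlong (n - hits α) (E α) U0) (hAC : RgfAC n F E Om U0)
    (hG : RgfGuard F E H Om) {Good : Stat ι → (W → ℝ) → W → Prop}
    (hSoft : RgfSoft n F E H U0 Good) (α : Stat ι)
    {K N : Set V} (hK : IsCompact K) (hN : IsOpen N) (hKN : K ⊆ N) :
    ∃ R : ℝ, ∀ c : ℕ → ℝ, (∀ l, 0 ≤ c l) →
      (∀ l, (Function.support (χ l) ∩ N).Nonempty → R ≤ c l) →
      ∀ z ∈ E α ∩ H, F.q z ∈ K → Good α (rgfBlend F χ T c U0) z := by
  by_contra hcon
  push Not at hcon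
  choose c hc0 hcR z hz hq hbad using fun k : ℕ => hcon (k : ℝ)
  obtain ⟨φ, J, y', hφ, hJ, hesc, hy', hlim⟩ := ct_escape hD α z (fun k => (hz k).1) hK hq
  have hs : RgfEsc α J fun k j => F.t j (z (φ k)) := ⟨hJ, hesc⟩
  have hqy : F.q y' ∈ K := by
    have h1 : Tendsto (fun k => F.q (F.dropS J (z (φ k)))) atTop (𝓝 (F.q y')) :=
      (F.q.continuous.tendsto y').comp hlim
    refine hK.isClosed.mem_of_tendsto h1 (Eventually.of_forall fun k => ?_)
    rw [F.q_dropS]; exact hq _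
  have hc : ∀ l, (Function.support (χ l) ∩ N).Nonempty →
      Tendsto (fun k => c (φ k) l) atTop atTop := by
    intro l hl
    refine tendsto_atTop_mono (fun k => hcR (φ k) l hl) ?_
    exact tendsto_natCast_atTop_atTop.comp hφ.tendsto_atTop
  have hOm : F.dropS J y' ∈ Om := by
    rw [rgf_dropS_of_mem hD α J hy']
    exact hG α J _ hs (fun k => F.dropS J (z (φ k))) y'
      (fun k => by rw [rgf_dropS_add_vec_self]; exact hz _) hlim hy'
  obtain ⟨φ', hφ', hconv⟩ := rgf_blend_conv hY hAC hχ hTs hT0 hs (rgf_mem_cyl hD α J hy') hOm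
    (hN.mem_nhds (hKN hqy)) (fun k => c (φ k)) hc
  obtain ⟨k, hk⟩ := hSoft α J _ (hs.subseq hφ') (fun k => F.dropS J (z (φ (φ' k)))) y'
    (fun k => rgfBlend F χ T (c (φ (φ' k))) U0)
    (fun k => rgfBlend_sc hD hχ hT0 hTs hT (hc0 _) hU)
    (fun k => by rw [rgf_dropS_add_vec_self]; exact hz _)
    (hlim.comp hφ'.tendsto_atTop) hy' hconv
  rw [rgf_dropS_add_vec_self] at hk
  exact hbad _ hk

/-! ### the theorem -/

/-- **THE ABSTRACT BLEND THEOREM.** -/
theorem rgf_blend (hD : IsDiag n M F E) (hY : RgfMem n F E)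
    (hU : ∀ α, SmoothAlong (n - hits α) (E α) U0) (hAC : RgfAC n F E Om U0)
    (hG : RgfGuard F E H Om) {Good : Stat ι → (W → ℝ) → W → Prop}
    (hSoft : RgfSoft n F E H U0 Good) {T₀ : V → ℝ}
    (hT₀ : ∀ K : Set V, IsCompact K → ∃ C : ℝ, ∀ x ∈ K, T₀ x ≤ C) :
    ∃ u : W → ℝ, SC n F E u ∧ (∀ α, ∀ z ∈ E α ∩ H, Good α u z) ∧
      ∀ z, ∀ C : Set ℝ, Convex ℝ C →
        (∀ S : Finset ι, (∀ i ∈ S, T₀ (F.q z) < |F.t i z|) → U0 (F.dropS S z) ∈ C) → u z ∈ C := by
  classical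
  obtain ⟨χ, hχ⟩ := rgf_exists_pou (V := V)
  obtain ⟨T1, h1s, h10, h1⟩ := hD.exists_thr
  obtain ⟨T2, h2s, h20, h2⟩ := pk_exists_majorant hT₀
  set T : V → ℝ := fun x => T1 x + T2 x with hTdef
  have hTs : ContDiff ℝ ∞ T := h1s.add h2s
  have hT0 : ∀ x, 0 ≤ T x := fun x => add_nonneg (h10 x) (h20 x)
  have hT : DThr F E T := h1.mono fun x => by have := h20 x; simp only [hTdef]; linarith
  have hTT₀ : ∀ x, T₀ x ≤ T x := fun x => by
    have := h10 x; have := h2 x; simp only [hTdef]; linarith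
  -- shells
  let Ks : ℕ → Set V := fun m => {x | (m : ℝ) ≤ ‖x‖ ∧ ‖x‖ ≤ m + 1}
  let Ns : ℕ → Set V := fun m => {x | (m : ℝ) - 1 < ‖x‖ ∧ ‖x‖ < m + 2}
  have hKs : ∀ m, IsCompact (Ks m) := by
    intro m
    refine (isCompact_closedBall (0 : V) (m + 1)).of_isClosed_subset ?_ ?_
    · exact (isClosed_le continuous_const continuous_norm).inter
        (isClosed_le continuous_norm continuous_const)
    · intro x hx
      rw [mem_closedBall_zero_iff]; exact hx.2
  have hNs : ∀ m, IsOpen (Ns m) := fun m =>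
    (isOpen_lt continuous_const continuous_norm).inter (isOpen_lt continuous_norm continuous_const)
  have hKN : ∀ m, Ks m ⊆ Ns m := fun m x hx => ⟨by linarith [hx.1], by linarith [hx.2]⟩
  choose R hR using fun (p : Stat ι × ℕ) =>
    rgf_soft_claim hD hY hχ hT0 hTs hT hU hAC hG hSoft p.1 (hKs p.2) (hNs p.2) (hKN p.2)
  let c : ℕ → ℝ := fun l => ∑ m ∈ Finset.range (l + 2), ∑ α : Stat ι, max (R (α, m)) 0
  have hc0 : ∀ l, 0 ≤ c l := fun l =>
    Finset.sum_nonneg fun m _ => Finset.sum_nonneg fun α _ => le_max_right _ _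
  have hcR : ∀ (α : Stat ι) (m l : ℕ), m ≤ l + 1 → R (α, m) ≤ c l := by
    intro α m l hml
    calc R (α, m) ≤ max (R (α, m)) 0 := le_max_left _ _
      _ ≤ ∑ α : Stat ι, max (R (α, m)) 0 :=
        Finset.single_le_sum (f := fun α : Stat ι => max (R (α, m)) 0)
          (fun α _ => le_max_right _ _) (Finset.mem_univ α)
      _ ≤ c l := Finset.single_le_sum (f := fun m => ∑ α : Stat ι, max (R (α, m)) 0)
          (fun m _ => Finset.sum_nonneg fun α _ => le_max_right _ _)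
          (Finset.mem_range.2 (by omega))
  refine ⟨rgfBlend F χ T c U0, rgfBlend_sc hD hχ hT0 hTs hT hc0 hU, fun α z hz => ?_,
    fun z C hC h => rgfBlend_mem_convex hχ hc0 hC fun S hS =>
      h S fun i hi => lt_of_le_of_lt (hTT₀ _) (hS i hi)⟩
  set m := ⌊‖F.q z‖⌋₊ with hm
  have hzK : F.q z ∈ Ks m := ⟨Nat.floor_le (norm_nonneg _), (Nat.lt_floor_add_one _).le⟩
  refine hR (α, m) c hc0 (fun l hl => hcR α m l ?_) z hz hzK
  obtain ⟨x, hx1, hx2⟩ := hl
  have h3 := hχ.shell l x hx1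
  have h4 : (m : ℝ) - 1 < (l : ℝ) + 1 := lt_trans hx2.1 h3.2
  have h5 : (m : ℝ) < ((l + 2 : ℕ) : ℝ) := by push_cast; linarith
  have := Nat.cast_lt.1 h5
  omega

/-- conjunctions of soft predicates are soft. -/
theorem RgfSoft.and {Good Good' : Stat ι → (W → ℝ) → W → Prop} (h : RgfSoft n F E H U0 Good)
    (h' : RgfSoft n F E H U0 Good') :
    RgfSoft n F E H U0 fun α u z => Good α u z ∧ Good' α u z := by
  have key : ∀ G : Stat ι → (W → ℝ) → W → Prop, RgfSoft n F E H U0 G →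
      ∀ (α : Stat ι) (J : Finset ι) (s : ℕ → ι → ℝ), RgfEsc α J s →
      ∀ (y : ℕ → W) (y' : W) (u : ℕ → W → ℝ), (∀ k, SC n F E (u k)) →
      (∀ k, y k + F.vec J (s k) ∈ E α ∩ H) → Tendsto y atTop (𝓝 y') → y' ∈ E (α.faceS J) →
      RgfConv (mdim n (α.faceS J) J) (F.cyl J (E (α.faceS J)))
        (fun k z => u k (z + F.vec J (s k))) (fun z => U0 (F.dropS J z)) y' →
      ∀ᶠ k in atTop, G α (u k) (y k + F.vec J (s k)) := by
    intro G hG α J s hs y y' u hu hy hlim hy' hconv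
    by_contra hcon
    obtain ⟨φ, hφ, hbad⟩ := extraction_of_frequently_atTop (not_eventually.1 hcon)
    obtain ⟨k, hk⟩ := hG α J _ (hs.subseq hφ) (fun k => y (φ k)) y' (fun k => u (φ k))
      (fun k => hu _) (fun k => hy _) (hlim.comp hφ.tendsto_atTop) hy' (hconv.subseq hφ)
    exact hbad k hk
  intro α J s hs y y' u hu hy hlim hy' hconv
  exact ((key _ h α J s hs y y' u hu hy hlim hy' hconv).and
    (key _ h' α J s hs y y' u hu hy hlim hy' hconv)).exists

/-- closed compatible sets.  PLAN: `K = closedBall y' 1`; `ct_window`, `ct_window_compat` (`φ = (· ∈ H)`): for large `k`, `dropS J (y k) ∈ E (α.faceS J) ∩ H`; `dropS J (y k) → dropS J y' = y'`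
(`rgf_dropS_of_mem`); closedness. -/
theorem rgf_guard_of_compat (hD : IsDiag n M F E) (hH : ∀ α, IsClosed (H ∩ E α))
    (hc : Compat F E (fun z => z ∈ H)) (hsub : H ∩ tot E ⊆ Om) : RgfGuard F E H Om := by
  intro α J s hs y y' hy hlim hy'
  have hK : IsCompact (Metric.closedBall y' 1) := isCompact_closedBall _ _
  have h1 := ct_window hD α J hs.1 s hs.2 hK
  have h2 := ct_window_compat hD α J hs.1 s hs.2 hK hc
  have h3 : ∀ᶠ k in atTop, y k ∈ Metric.closedBall y' 1 :=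
    hlim.eventually (Metric.closedBall_mem_nhds _ one_pos)
  have h4 : ∀ᶠ k in atTop, F.dropS J (y k) ∈ H ∩ E (α.faceS J) := by
    filter_upwards [h1, h2, h3] with k a b c
    have e1 := (a _ c).1 (hy k).1
    have e2 : (y k + F.vec J (s k) ∈ H) = (F.dropS J (y k) ∈ H) := b _ c (hy k).1
    exact ⟨e2 ▸ (hy k).2, e1⟩
  have h5 : Tendsto (fun k => F.dropS J (y k)) atTop (𝓝 (F.dropS J y')) :=
    ((F.continuous_dropS J).tendsto y').comp hlim
  rw [rgf_dropS_of_mem hD α J hy'] at h5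
  have h6 := (hH _).mem_of_tendsto h5 h4
  exact hsub ⟨h6.1, mem_tot.2 ⟨_, h6.2⟩⟩

end Claimed.Agent.R315
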