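import Claimed.Agent.R315.Rg.Smc
import Claimed.Agent.R315.Pack003
import Claimed.Agent.R315.Pack004

/-!
# Row 315, package Rg-FIN (architect helper266), file `Rg/FinCal.lean`: `C^∞` convergence near a point of a Core manifold

`RgfConv d X a a' y` : in EVERY parametrisation `ψ` of `X` with `ψ u₀ = y` the functions `a k ∘ ψ` converge to `a' ∘ ψ` in the sense of `RgsAt u₀` (helper83, `Rg/Smc.lean`).
With this form all algebraic closure lemmas are one-liners from `Rg/Smc.lean` (Section B, PROVED here).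

PACKAGE L-RG-FIN-CAL-A (Section A, host-free, Mathlib only): three more closure lemmas for `RgsAt`.
* `RgsAt.subseq`: unfold; `hφ.tendsto_atTop.eventually`, `TendstoUniformlyOn.comp`-free: `tendstoUniformlyOn_iff` + `Tendsto.eventually`.
* `rgs_seq`: `RgsAt.mk'` with `r = 1`; `iteratedFDeriv` of a constant map is `0` for `n ≥ 1` (`iteratedFDeriv_const_of_ne`), order `0`: `norm_iteratedFDeriv_zero`.
* `RgsAt.comp_right`: NO induction.  `h.nice` gives `r₀`; choose `ρ > 0` with `closedBall v₀ ρ ⊆ N` and `τ '' ball v₀ ρ ⊆ ball u₀ r₀` (continuity).  The derivatives of `τ` of order `≤ n` are bounded on the compact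
  `closedBall v₀ ρ` by some `D ≥ 1`, so `‖D^i τ‖ ≤ D ≤ D ^ i`.  On the open balls `iteratedFDeriv = iteratedFDerivWithin`; `(a k - a') ∘ τ`: `norm_iteratedFDerivWithin_comp_le` with `C = ε`:
  `‖D^n ((a k - a') ∘ τ) x‖ ≤ n ! * ε * D ^ n`; `D^n` is additive on smooth maps (`iteratedFDerivWithin_sub_apply`).
PACKAGE L-RG-FIN-CAL-C (Section C): `RgfConv.comp_map`, `rgfConv_of_param`, `RgfConv.eval` (retractions `if_exists_retr`, transition maps `if_tr_contDiffOn`).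
-/

set_option autoImplicit false
open scoped ContDiff Topology
open Filter Metric Set Claims.C0499

namespace Claimed.Agent.R315

/-! ## Section A: more closure lemmas for `RgsAt` -/

section A

variable {m m' : ℕ} {F : Type} [NormedAddCommGroup F] [NormedSpace ℝ F]
  {u₀ : E m} {a : ℕ → E m → F} {a' : E m → F}

/-- subsequences. -/
theorem RgsAt.subseq (h : RgsAt u₀ a a') {φ : ℕ → ℕ} (hφ : StrictMono φ) :
    RgsAt u₀ (fun k => a (φ k)) a' := by
  obtain ⟨r, hr, h1, h2, h3⟩ := h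
  refine ⟨r, hr, hφ.tendsto_atTop.eventually h1, h2, fun n => ?_⟩
  rw [Metric.tendstoUniformlyOn_iff]
  intro ε hε
  exact hφ.tendsto_atTop.eventually (Metric.tendstoUniformlyOn_iff.1 (h3 n) ε hε)

/-- a convergent sequence of constants. -/
theorem rgs_seq {r : ℕ → F} {r' : F} (hr : Tendsto r atTop (𝓝 r')) :
    RgsAt u₀ (fun k _ => r k) (fun _ => r') := by
  refine RgsAt.mk' one_pos (Eventually.of_forall fun _ => contDiffOn_const) contDiffOn_const
    fun n ε hε => ?_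
  rcases Nat.eq_zero_or_pos n with rfl | hn
  · filter_upwards [Metric.tendsto_atTop.1 hr ε hε |> fun ⟨N, hN⟩ => eventually_ge_atTop N |>.mono hN]
      with k hk x _
    rw [rgs_norm_zero, ← dist_eq_norm]
    exact hk.le
  · refine Eventually.of_forall fun k x _ => ?_
    rw [iteratedFDeriv_const_of_ne hn.ne', iteratedFDeriv_const_of_ne hn.ne']
    simpa using hε.le

/-- the limit, as a constant sequence. -/
theorem RgsAt.limit_fixed (h : RgsAt u₀ a a') : RgsAt u₀ (fun _ => a') a' := by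
  obtain ⟨U, hU, hs⟩ := h.smooth
  exact RgsAt.fixed hU hs

/-- composition on the right with a fixed smooth map. -/
theorem RgsAt.comp_right (h : RgsAt u₀ a a') {v₀ : E m'} {τ : E m' → E m} {N : Set (E m')}
    (hN : N ∈ 𝓝 v₀) (hτ : ContDiffOn ℝ ∞ τ N) (h0 : τ v₀ = u₀) :
    RgsAt v₀ (fun k x => a k (τ x)) (fun x => a' (τ x)) := by
  obtain ⟨r₀, hr₀, hnice⟩ := h.nice
  obtain ⟨hs, hs', -, hconv⟩ := hnice r₀ hr₀ le_rfl
  obtain ⟨ρ₁, hρ₁, hρ₁N⟩ := Metric.mem_nhds_iff.1 hN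
  have hτc : ContinuousAt τ v₀ := hτ.continuousOn.continuousAt hN
  have hev : ∀ᶠ x in 𝓝 v₀, τ x ∈ ball u₀ r₀ := hτc (by rw [h0]; exact ball_mem_nhds _ hr₀)
  obtain ⟨ρ₂, hρ₂, hρ₂b⟩ := Metric.eventually_nhds_iff_ball.1 hev
  set ρ : ℝ := min ρ₁ ρ₂ / 2 with hρdef
  have hmin : 0 < min ρ₁ ρ₂ := lt_min hρ₁ hρ₂
  have hρ : 0 < ρ := half_pos hmin
  have hτ₁ : ContDiffOn ℝ ∞ τ (ball v₀ ρ₁) := hτ.mono hρ₁N
  have hcb : closedBall v₀ ρ ⊆ ball v₀ ρ₁ :=
    closedBall_subset_ball (lt_of_lt_of_le (half_lt_self hmin) (min_le_left _ _))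
  have hb₁ : ball v₀ ρ ⊆ ball v₀ ρ₁ := ball_subset_closedBall.trans hcb
  have hb₂ : ball v₀ ρ ⊆ ball v₀ ρ₂ :=
    ball_subset_ball ((half_le_self hmin.le).trans (min_le_right _ _))
  have hτs : ContDiffOn ℝ ∞ τ (ball v₀ ρ) := hτ₁.mono hb₁
  have hmaps : MapsTo τ (ball v₀ ρ) (ball u₀ r₀) := fun x hx => hρ₂b x (hb₂ hx)
  refine RgsAt.mk' hρ ?_ (hs'.comp hτs hmaps) fun n ε hε => ?_
  · filter_upwards [hs] with k hk using hk.comp hτs hmaps
  -- bounds for the derivatives of `τ`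
  have hbd : ∀ i : ℕ, ∃ C : ℝ, ∀ x ∈ closedBall v₀ ρ, ‖iteratedFDeriv ℝ i τ x‖ ≤ C := fun i =>
    (isCompact_closedBall v₀ ρ).exists_bound_of_continuousOn ((rgs_cont_iter isOpen_ball hτ₁ i).mono hcb)
  choose C hC using hbd
  set D : ℝ := 1 + ∑ i ∈ Finset.range (n + 1), |C i| with hD
  have hD1 : 1 ≤ D := by
    have : 0 ≤ ∑ i ∈ Finset.range (n + 1), |C i| := Finset.sum_nonneg fun _ _ => abs_nonneg _
    linarith
  have hCD : ∀ i ≤ n, C i ≤ D := by
    intro i hi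
    have h1 : |C i| ≤ ∑ j ∈ Finset.range (n + 1), |C j| :=
      Finset.single_le_sum (f := fun j => |C j|) (fun _ _ => abs_nonneg _)
        (Finset.mem_range.2 (by omega))
    have := le_abs_self (C i)
    linarith
  have hpos : 0 < (n.factorial : ℝ) * D ^ n := by positivity
  have hall : ∀ i ∈ Finset.range (n + 1), ∀ᶠ k in atTop, ∀ x ∈ ball u₀ r₀,
      ‖iteratedFDeriv ℝ i (a k) x - iteratedFDeriv ℝ i a' x‖ ≤ ε / ((n.factorial : ℝ) * D ^ n) :=
    fun i _ => hconv i _ (div_pos hε hpos)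
  filter_upwards [hs, (Filter.eventually_all_finset _).2 hall] with k hk hkall x hx
  have hsub : ContDiffOn ℝ ∞ (fun y => a k y - a' y) (ball u₀ r₀) := hk.sub hs'
  have e1 : iteratedFDeriv ℝ n (fun x => a k (τ x)) x - iteratedFDeriv ℝ n (fun x => a' (τ x)) x
      = iteratedFDeriv ℝ n ((fun y => a k y - a' y) ∘ τ) x := by
    have h1 : ContDiffAt ℝ n (fun x => a k (τ x)) x := rgs_cda isOpen_ball (hk.comp hτs hmaps) n hx
    have h2 : ContDiffAt ℝ n (fun x => a' (τ x)) x := rgs_cda isOpen_ball (hs'.comp hτs hmaps) n hx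
    exact (fun_iteratedFDeriv_sub_apply h1 h2).symm
  rw [e1, ← iteratedFDerivWithin_of_isOpen n isOpen_ball hx]
  have key := norm_iteratedFDerivWithin_comp_le (n := n) hsub hτs (rgs_le_top n)
    isOpen_ball.uniqueDiffOn isOpen_ball.uniqueDiffOn hmaps hx
    (C := ε / ((n.factorial : ℝ) * D ^ n)) (D := D) ?_ ?_
  · refine key.trans (le_of_eq ?_)
    field_simp
  · intro i hi
    rw [iteratedFDerivWithin_of_isOpen i isOpen_ball (hmaps hx),
      fun_iteratedFDeriv_sub_apply (rgs_cda isOpen_ball hk i (hmaps hx))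
        (rgs_cda isOpen_ball hs' i (hmaps hx))]
    exact hkall i (Finset.mem_range.2 (by omega)) _ (hmaps hx)
  · intro i hi1 hi
    rw [iteratedFDerivWithin_of_isOpen i isOpen_ball hx]
    calc ‖iteratedFDeriv ℝ i τ x‖ ≤ C i := hC i x (ball_subset_closedBall hx)
      _ ≤ D := hCD i hi
      _ = D ^ 1 := (pow_one D).symm
      _ ≤ D ^ i := pow_le_pow_right₀ hD1 hi1

end A

/-! ## Section B: convergence along a manifold, algebra -/

section B

variable {V : Type} [NormedAddCommGroup V] [NormedSpace ℝ V]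

/-- `C^∞` convergence of `a k` to `a'` along `X` near the point `y`. -/
def RgfConv (d : ℕ) (X : Set V) (a : ℕ → V → ℝ) (a' : V → ℝ) (y : V) : Prop :=
  ∀ (ψ : E d → V) (U : Set (E d)) (u₀ : E d), IsParam X ψ U → u₀ ∈ U → ψ u₀ = y →
    RgsAt u₀ (fun k x => a k (ψ x)) (fun x => a' (ψ x))

theorem RgfConv_eqns_cite : True := by have := @RgfConv.eq_1; trivial

variable {d : ℕ} {X : Set V} {a b : ℕ → V → ℝ} {a' b' : V → ℝ} {y : V}

theorem RgfConv.add (ha : RgfConv d X a a' y) (hb : RgfConv d X b b' y) :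
    RgfConv d X (fun k z => a k z + b k z) (fun z => a' z + b' z) y :=
  fun ψ U u₀ hp hu he => (ha ψ U u₀ hp hu he).add (hb ψ U u₀ hp hu he)

theorem RgfConv.sub (ha : RgfConv d X a a' y) (hb : RgfConv d X b b' y) :
    RgfConv d X (fun k z => a k z - b k z) (fun z => a' z - b' z) y :=
  fun ψ U u₀ hp hu he => (ha ψ U u₀ hp hu he).sub (hb ψ U u₀ hp hu he)

theorem RgfConv.neg (ha : RgfConv d X a a' y) :
    RgfConv d X (fun k z => -a k z) (fun z => -a' z) y :=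
  fun ψ U u₀ hp hu he => (ha ψ U u₀ hp hu he).neg

theorem RgfConv.mul (ha : RgfConv d X a a' y) (hb : RgfConv d X b b' y) :
    RgfConv d X (fun k z => a k z * b k z) (fun z => a' z * b' z) y :=
  fun ψ U u₀ hp hu he => (ha ψ U u₀ hp hu he).mul (hb ψ U u₀ hp hu he)

theorem RgfConv.sum {κ : Type} (s : Finset κ) {A : κ → ℕ → V → ℝ} {A' : κ → V → ℝ}
    (h : ∀ i ∈ s, RgfConv d X (A i) (A' i) y) :
    RgfConv d X (fun k z => ∑ i ∈ s, A i k z) (fun z => ∑ i ∈ s, A' i z) y :=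
  fun ψ U u₀ hp hu he => RgsAt.sum s (A := fun i k x => A i k (ψ x)) (A' := fun i x => A' i (ψ x))
    fun i hi => h i hi ψ U u₀ hp hu he

theorem RgfConv.prod {κ : Type} (s : Finset κ) {A : κ → ℕ → V → ℝ} {A' : κ → V → ℝ}
    (h : ∀ i ∈ s, RgfConv d X (A i) (A' i) y) :
    RgfConv d X (fun k z => ∏ i ∈ s, A i k z) (fun z => ∏ i ∈ s, A' i z) y :=
  fun ψ U u₀ hp hu he => RgsAt.prod s (A := fun i k x => A i k (ψ x)) (A' := fun i x => A' i (ψ x))
    fun i hi => h i hi ψ U u₀ hp hu he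

/-- composition with a function of one real variable which is smooth near `a' y`. -/
theorem RgfConv.comp_real (ha : RgfConv d X a a' y) {Θ : ℝ → ℝ} {Ω : Set ℝ} (hΩ : IsOpen Ω)
    (hΘ : ContDiffOn ℝ ∞ Θ Ω) (h0 : a' y ∈ Ω) :
    RgfConv d X (fun k z => Θ (a k z)) (fun z => Θ (a' z)) y :=
  fun ψ U u₀ hp hu he => (ha ψ U u₀ hp hu he).comp_real hΩ hΘ (by rw [he]; exact h0)

theorem RgfConv.subseq (ha : RgfConv d X a a' y) {φ : ℕ → ℕ} (hφ : StrictMono φ) :
    RgfConv d X (fun k => a (φ k)) a' y :=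
  fun ψ U u₀ hp hu he => (ha ψ U u₀ hp hu he).subseq hφ

theorem RgfConv.limit_fixed (ha : RgfConv d X a a' y) : RgfConv d X (fun _ => a') a' y :=
  fun ψ U u₀ hp hu he => (ha ψ U u₀ hp hu he).limit_fixed

/-- a convergent sequence of constants. -/
theorem rgfConv_seq {r : ℕ → ℝ} {r' : ℝ} (hr : Tendsto r atTop (𝓝 r')) :
    RgfConv d X (fun k _ => r k) (fun _ => r') y :=
  fun _ _ _ _ _ _ => rgs_seq hr

/-- a fixed function which is smooth along `X`. -/
theorem rgfConv_fixed {f : V → ℝ} (hf : SmoothAlong d X f) : RgfConv d X (fun _ => f) f y :=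
  fun ψ U _ hp hu _ => RgsAt.fixed ((if_open hp).mem_nhds hu) (hf ψ U hp)

theorem rgfConv_const (c : ℝ) : RgfConv d X (fun _ _ => c) (fun _ => c) y :=
  rgfConv_seq tendsto_const_nhds

/-- only the germs along `X` at `y` matter. -/
theorem RgfConv.congr (ha : RgfConv d X a a' y) {O : Set V} (hO : O ∈ 𝓝 y)
    (he : ∀ᶠ k in atTop, ∀ z ∈ X ∩ O, b k z = a k z) (he' : ∀ z ∈ X ∩ O, b' z = a' z) :
    RgfConv d X b b' y := by
  intro ψ U u₀ hp hu hy
  have hc : ContinuousAt ψ u₀ := (if_contDiffAt hp hu).continuousAt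
  have hN : U ∩ ψ ⁻¹' O ∈ 𝓝 u₀ :=
    inter_mem ((if_open hp).mem_nhds hu) (hc.preimage_mem_nhds (by rw [hy]; exact hO))
  refine (ha ψ U u₀ hp hu hy).congr hN ?_ ?_
  · filter_upwards [he] with k hk x hx
    exact hk _ ⟨if_mem hp hx.1, hx.2⟩
  · intro x hx
    exact he' _ ⟨if_mem hp hx.1, hx.2⟩

/-- a sequence which is eventually equal, near `y`, to a fixed smooth function. -/
theorem rgfConv_of_eventually_eq {f : V → ℝ} (hf : SmoothAlong d X f) {O : Set V} (hO : O ∈ 𝓝 y)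
    (he : ∀ᶠ k in atTop, ∀ z ∈ X ∩ O, a k z = f z) : RgfConv d X a f y :=
  (rgfConv_fixed hf).congr hO he fun _ _ => rfl

/-- convergent times null. -/
theorem RgfConv.mul_null (ha : RgfConv d X a a' y) (hb : RgfConv d X b (fun _ => 0) y) :
    RgfConv d X (fun k z => a k z * b k z) (fun _ => 0) y := by
  have := ha.mul hb
  simpa using this

/-- locality, first direction. -/
theorem RgfConv.inter (ha : RgfConv d X a a' y) {O : Set V} (hO : IsOpen O) :
    RgfConv d (X ∩ O) a a' y :=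
  fun ψ U u₀ hp hu he => ha ψ U u₀ (if_param_of_inter hO hp) hu he

/-- locality, second direction. -/
theorem RgfConv.of_inter {O : Set V} (hO : IsOpen O) (hy : y ∈ O)
    (ha : RgfConv d (X ∩ O) a a' y) : RgfConv d X a a' y := by
  intro ψ U u₀ hp hu he
  have hp' := if_param_restrict hO hp
  exact ha ψ _ u₀ hp' ⟨hu, by rw [mem_preimage, he]; exact hy⟩ he

end B

/-! ## Section C: change of parametrisation, maps, evaluation -/

section C

variable {V V' : Type} [NormedAddCommGroup V] [NormedSpace ℝ V] [FiniteDimensional ℝ V]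
  [NormedAddCommGroup V'] [NormedSpace ℝ V'] [FiniteDimensional ℝ V']
variable {d d' : ℕ} {X : Set V} {X' : Set V'} {a : ℕ → V → ℝ} {a' : V → ℝ} {y : V}

/-- **pull-back by a smooth map between manifolds.**
PLAN: let `ψ, U, u₀` be a parametrisation of `X` at `y`; `hX'` gives a parametrisation `ψ', U'` of `X'` with `ψ' u₀' = π y`; `if_exists_retr` gives `ρ` smooth on an open `O ∋ π y` with `ρ = (ψ')⁻¹` on `X' ∩ O`.
`τ = ρ ∘ π ∘ ψ` is smooth on the neighbourhood `U ∩ (π ∘ ψ) ⁻¹' O` of `u₀`, `τ u₀ = u₀'`, and `ψ' (τ x) = π (ψ x)` there.  `RgsAt.comp_right` + `RgsAt.congr`. -/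
theorem RgfConv.comp_map {b : ℕ → V' → ℝ} {b' : V' → ℝ} (hX' : IsMfd d' X') {π : V → V'}
    {Ω : Set V} (hΩ : IsOpen Ω) (hy : y ∈ Ω) (hπ : ContDiffOn ℝ ∞ π Ω)
    (hmaps : MapsTo π (X ∩ Ω) X') (hyX : y ∈ X) (h : RgfConv d' X' b b' (π y)) :
    RgfConv d X (fun k z => b k (π z)) (fun z => b' (π z)) y := by
  intro ψ U u₀ hp hu he
  have hπy : π y ∈ X' := hmaps ⟨hyX, hy⟩
  obtain ⟨ψ', U', hp', u₀', hu', he'⟩ := hX' (π y) hπy
  obtain ⟨ρ, O, hO, hψO, hρ, -, hρeq⟩ := if_exists_retr hp' hu'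
  have hc : ContinuousAt ψ u₀ := (if_contDiffAt hp hu).continuousAt
  have hΩn : ψ ⁻¹' Ω ∈ 𝓝 u₀ := hc.preimage_mem_nhds (by rw [he]; exact hΩ.mem_nhds hy)
  have hπc : ContinuousAt (fun x => π (ψ x)) u₀ := by
    have h1 : ContinuousAt π (ψ u₀) := by
      rw [he]
      exact hπ.continuousOn.continuousAt (hΩ.mem_nhds hy)
    exact h1.comp hc
  have hOn : (fun x => π (ψ x)) ⁻¹' O ∈ 𝓝 u₀ :=
    hπc.preimage_mem_nhds (by
      show O ∈ 𝓝 (π (ψ u₀))
      rw [he, ← he']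
      exact hO.mem_nhds hψO)
  set N : Set (E d) := U ∩ ψ ⁻¹' Ω ∩ (fun x => π (ψ x)) ⁻¹' O with hNdef
  have hN : N ∈ 𝓝 u₀ := inter_mem (inter_mem ((if_open hp).mem_nhds hu) hΩn) hOn
  have hτ : ContDiffOn ℝ ∞ (fun x => ρ (π (ψ x))) N := by
    refine hρ.comp (hπ.comp ((if_smooth hp).mono fun x hx => hx.1.1) fun x hx => hx.1.2) fun x hx => hx.2
  have hτ0 : ρ (π (ψ u₀)) = u₀' := by
    rw [he, (hρeq (π y) ⟨hπy, by rw [← he']; exact hψO⟩).2, ← he', if_leftInv hp' hu']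
  have h1 := (h ψ' U' u₀' hp' hu' he').comp_right hN hτ hτ0
  have hkey : ∀ x ∈ N, ψ' (ρ (π (ψ x))) = π (ψ x) := by
    intro x hx
    have hx' : π (ψ x) ∈ X' ∩ O := ⟨hmaps ⟨if_mem hp hx.1.1, hx.1.2⟩, hx.2⟩
    rw [(hρeq _ hx').2]
    exact if_rightInv (hρeq _ hx').1
  refine h1.congr hN (Eventually.of_forall fun k x hx => ?_) fun x hx => ?_
  · show b k (π (ψ x)) = b k (ψ' (ρ (π (ψ x))))
    rw [hkey x hx]
  · show b' (π (ψ x)) = b' (ψ' (ρ (π (ψ x))))
    rw [hkey x hx]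

/-- **one parametrisation suffices.**  PLAN: `RgsAt.comp_right` with the transition map `if_tr ψ U ψ₁` (`if_tr_contDiffOn`, `if_isOpen_trDom`, `if_tr_spec`, `if_tr_eq`) + `RgsAt.congr`. -/
theorem rgfConv_of_param {ψ : E d → V} {U : Set (E d)} {u₀ : E d} (hp : IsParam X ψ U)
    (hu : u₀ ∈ U) (h : RgsAt u₀ (fun k x => a k (ψ x)) (fun x => a' (ψ x))) :
    RgfConv d X a a' (ψ u₀) := by
  intro ψ₁ U₁ u₁ hp₁ hu₁ he
  have hmem : u₁ ∈ if_trDom ψ₁ U₁ ψ U := if_mem_trDom hu₁ hu he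
  have hN : if_trDom ψ₁ U₁ ψ U ∈ 𝓝 u₁ := (if_isOpen_trDom hp₁ hp).mem_nhds hmem
  have h1 := h.comp_right hN (if_tr_contDiffOn hp₁ hp) (if_tr_eq hp hu he)
  refine h1.congr hN (Eventually.of_forall fun k x hx => ?_) fun x hx => ?_
  · show a k (ψ₁ x) = a k (ψ (if_tr ψ U ψ₁ x))
    rw [if_tr_spec hx]
  · show a' (ψ₁ x) = a' (ψ (if_tr ψ U ψ₁ x))
    rw [if_tr_spec hx]

/-- **evaluation along a convergent sequence of points of `X`.**  PLAN: parametrisation at `y`; `x k ∈ ψ '' U` eventually (`if_image_mem_nhdsWithin`), `u k = invFunOn ψ U (x k) → u₀` (`if_contInv`); `RgsAt.eval`. -/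
theorem RgfConv.eval (hX : IsMfd d X) (hy : y ∈ X) (h : RgfConv d X a a' y) {x : ℕ → V}
    (hx : ∀ᶠ k in atTop, x k ∈ X) (hlim : Tendsto x atTop (𝓝 y)) :
    Tendsto (fun k => a k (x k)) atTop (𝓝 (a' y)) := by
  obtain ⟨ψ, U, hp, u₀, hu, he⟩ := hX y hy
  have h1 := h ψ U u₀ hp hu he
  have hlimX : Tendsto x atTop (𝓝[X] y) :=
    tendsto_nhdsWithin_iff.2 ⟨hlim, hx⟩
  have himg : ∀ᶠ k in atTop, x k ∈ ψ '' U := by
    have := if_image_mem_nhdsWithin hp hu
    rw [he] at this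
    exact hlimX this
  have hyimg : y ∈ ψ '' U := ⟨u₀, hu, he⟩
  have hlimI : Tendsto x atTop (𝓝[ψ '' U] y) := tendsto_nhdsWithin_iff.2 ⟨hlim, himg⟩
  have hu' : Tendsto (fun k => Function.invFunOn ψ U (x k)) atTop (𝓝 u₀) := by
    have h2 := (if_contInv hp y hyimg).tendsto.comp hlimI
    rwa [← he, if_leftInv hp hu] at h2
  have h3 := h1.eval hu'
  rw [he] at h3
  refine h3.congr' ?_
  filter_upwards [himg] with k hk
  show a k (ψ (Function.invFunOn ψ U (x k))) = a k (x k)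
  rw [if_rightInv hk]

end C

/-! ## Section D: common subsequences of countably many real sequences -/

/-- **trichotomy along one subsequence**: PLAN: `CompactSpace.tendsto_subseq` in `κ → EReal` (Tychonoff; first countable since `κ` is countable), `tendsto_pi_nhds`; `EReal.tendsto_coe`,
`EReal.tendsto_coe_nhds_top_iff`, `EReal.tendsto_coe_nhds_bot_iff`; `EReal.rec`. -/
theorem rgf_subseq_tri {κ : Type} [Countable κ] (r : ℕ → κ → ℝ) :
    ∃ φ : ℕ → ℕ, StrictMono φ ∧ ∀ i, Tendsto (fun k => r (φ k) i) atTop atTop ∨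
      Tendsto (fun k => r (φ k) i) atTop atBot ∨ ∃ c, Tendsto (fun k => r (φ k) i) atTop (𝓝 c) := by
  obtain ⟨l, φ, hφ, hl⟩ := CompactSpace.tendsto_subseq (fun k => (fun i => ((r k i : ℝ) : EReal)))
  refine ⟨φ, hφ, fun i => ?_⟩
  have hi : Tendsto (fun k => ((r (φ k) i : ℝ) : EReal)) atTop (𝓝 (l i)) :=
    (tendsto_pi_nhds.1 hl) i
  induction hli : l i using EReal.rec with
  | bot =>
    rw [hli] at hi
    exact Or.inr (Or.inl (EReal.tendsto_coe_nhds_bot_iff.1 hi))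
  | coe c =>
    rw [hli] at hi
    exact Or.inr (Or.inr ⟨c, EReal.tendsto_coe.1 hi⟩)
  | top =>
    rw [hli] at hi
    exact Or.inl (EReal.tendsto_coe_nhds_top_iff.1 hi)

end Claimed.Agent.R315
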