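import Claimed.Agent.R315.Rg.Csc
import Claimed.Agent.R315.Rg.FinCal

/-!
# Row 315, package Rg-FIN (architect helper266), file `Rg/FinT.lean`: TRANSPORT BY TRANSLATIONS AND WINDOWS, the soft lemma with MOVING WINDOWS

Everything here is FORMAL (no regularity hypotheses in Sections A, B): the scalar operators are `pv`'s.
* Section A: `op d M h f (x + a) = op d {z | z + a ∈ M} (h (· + a)) (f (· + a)) x` for `op = scal, lap, gradIp` (`rgf_pv_translate`: `ψ ↦ ψ + a` is a bijection of the parametrisations).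
* Section B: `RgfWin X X' h h' a N`: on the open window `N`: `z + a ∈ X ↔ z ∈ X'`, `h (z + a) = h' z` on `X'`.  Then the operators of `(X, h)` at `x + a` are the operators of `(X', h')` at `x ∈ N` for the translated functions
  (`if_*_inter'`, `if_*_congr`).  `RgfWin.level`: level sets.
* Section C: bridge `RgfConv ↔ CtConvAt` (helper48's `CtConvAt.rgs`, `ctConvAt_of_rgs`).
* Section D: **the soft lemma with moving windows** = Section B + helper48's `rg_soft_*` (`Rg/Csc.lean`) on the FIXED limit manifold `M'`.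
-/

set_option autoImplicit false
set_option linter.unusedSectionVars false
open scoped ContDiff Topology
open Claims.C0499 Set Filter

namespace Claimed.Agent.R315

variable {V : Type} [NormedAddCommGroup V] [NormedSpace ℝ V] {d : ℕ}

/-! ## Section A: translations -/

/-- translate of a parametrisation. -/
theorem rgf_param_add {M : Set V} {ψ : E d → V} {U : Set (E d)} (h : IsParam M ψ U) (b : V) :
    IsParam {z | z - b ∈ M} (fun w => ψ w + b) U := by
  obtain ⟨h1, h2, h3, h4, ⟨O, hO, hOe⟩, h6⟩ := h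
  have him : ∀ z, z ∈ (fun w => ψ w + b) '' U ↔ z - b ∈ ψ '' U := by
    intro z
    constructor
    · rintro ⟨u, hu, rfl⟩
      exact ⟨u, hu, by simp⟩
    · rintro ⟨u, hu, he⟩
      exact ⟨u, hu, by simp [he]⟩
  refine ⟨h1, h2.add contDiffOn_const, fun u hu => by rw [fderiv_add_const]; exact h3 u hu,
    fun x hx y hy e => h4 hx hy (add_right_cancel e),
    ⟨{z | z - b ∈ O}, hO.preimage (continuous_id.sub continuous_const), ?_⟩, ?_⟩
  · ext z
    rw [him, hOe]
    rfl
  · have hc : ContinuousOn (fun z => Function.invFunOn ψ U (z - b)) ((fun w => ψ w + b) '' U) :=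
      h6.comp (continuous_id.sub continuous_const).continuousOn fun z hz => (him z).1 hz
    refine hc.congr fun z hz => ?_
    have hz' := (him z).1 hz
    have e1 : Function.invFunOn (fun w => ψ w + b) U z ∈ U := Function.invFunOn_mem hz
    have e2 : ψ (Function.invFunOn (fun w => ψ w + b) U z) + b = z := Function.invFunOn_eq hz
    have e3 : Function.invFunOn ψ U (z - b) ∈ U := Function.invFunOn_mem hz'
    have e4 : ψ (Function.invFunOn ψ U (z - b)) = z - b := Function.invFunOn_eq hz'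
    exact h4 e1 e3 (by rw [e4]; exact eq_sub_of_add_eq e2)

theorem rgf_pv_translate (a : V) (M : Set V) (Φ : (E d → V) → E d → ℝ) (x : V) :
    pv M Φ (x + a) = pv {z | z + a ∈ M} (fun ψ u => Φ (fun w => ψ w + a) u) x := by
  unfold pv
  congr 1
  ext r
  constructor
  · rintro ⟨ψ, U, u, h, hu, he, rfl⟩
    refine ⟨fun w => ψ w + -a, U, u, ?_, hu, by simp [he], ?_⟩
    · have := rgf_param_add h (-a)
      simpa using this
    · congr 1
      funext w
      simp
  · rintro ⟨ψ, U, u, h, hu, he, rfl⟩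
    refine ⟨fun w => ψ w + a, U, u, ?_, hu, by simp [he], rfl⟩
    have := rgf_param_add h a
    simpa using this

theorem rgf_cm_add (h : Ten V) (ψ : E d → V) (a : V) :
    cm h (fun w => ψ w + a) = cm (fun z => h (z + a)) ψ := by
  funext u
  unfold cm
  rw [fderiv_add_const]

theorem rgf_scal_translate (a : V) (M : Set V) (h : Ten V) (x : V) :
    scal d M h (x + a) = scal d {z | z + a ∈ M} (fun z => h (z + a)) x := by
  unfold scal
  rw [rgf_pv_translate]
  simp only [rgf_cm_add]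

theorem rgf_lap_translate (a : V) (M : Set V) (h : Ten V) (f : V → ℝ) (x : V) :
    lap d M h f (x + a) = lap d {z | z + a ∈ M} (fun z => h (z + a)) (fun z => f (z + a)) x := by
  unfold lap
  rw [rgf_pv_translate]
  simp only [rgf_cm_add]
  rfl

theorem rgf_gradIp_translate (a : V) (M : Set V) (h : Ten V) (f g : V → ℝ) (x : V) :
    gradIp d M h f g (x + a) =
      gradIp d {z | z + a ∈ M} (fun z => h (z + a)) (fun z => f (z + a)) (fun z => g (z + a)) x := by
  unfold gradIp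
  rw [rgf_pv_translate]
  simp only [rgf_cm_add]
  rfl

/-! ## Section B: windows -/

/-- on the open window `N` the translate by `-a` of `(X, h)` is `(X', h')`. -/
structure RgfWin (X X' : Set V) (h h' : Ten V) (a : V) (N : Set V) : Prop where
  isOpen : IsOpen N
  set : ∀ z ∈ N, (z + a ∈ X ↔ z ∈ X')
  met : ∀ z ∈ X' ∩ N, h (z + a) = h' z

namespace RgfWin

variable {X X' : Set V} {h h' : Ten V} {a : V} {N : Set V}

theorem inter_eq (H : RgfWin X X' h h' a N) : {z | z + a ∈ X} ∩ N = X' ∩ N := by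
  ext z
  constructor
  · rintro ⟨h1, h2⟩; exact ⟨(H.set z h2).1 h1, h2⟩
  · rintro ⟨h1, h2⟩; exact ⟨(H.set z h2).2 h1, h2⟩

theorem level (H : RgfWin X X' h h' a N) (q : V → ℝ) (c : ℝ) :
    RgfWin (rm_Lv X q c) (rm_Lv X' (fun z => q (z + a)) c) h h' a N :=
  ⟨H.isOpen, fun z hz => ⟨fun h1 => ⟨(H.set z hz).1 h1.1, h1.2⟩,
    fun h1 => ⟨(H.set z hz).2 h1.1, h1.2⟩⟩, fun z hz => H.met z ⟨hz.1.1, hz.2⟩⟩

theorem mono (H : RgfWin X X' h h' a N) {N' : Set V} (hN' : IsOpen N') (hsub : N' ⊆ N) :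
    RgfWin X X' h h' a N' :=
  ⟨hN', fun z hz => H.set z (hsub hz), fun z hz => H.met z ⟨hz.1, hsub hz.2⟩⟩

theorem scal_eq (H : RgfWin X X' h h' a N) {x : V} (hx : x ∈ N) :
    scal d X h (x + a) = scal d X' h' x := by
  rw [rgf_scal_translate, ← if_scal_inter' _ H.isOpen hx, H.inter_eq,
    if_scal_inter' _ H.isOpen hx]
  exact if_scal_congr (H.isOpen.mem_nhds hx) H.met

theorem lap_eq (H : RgfWin X X' h h' a N) (f : V → ℝ) {x : V} (hx : x ∈ N) :
    lap d X h f (x + a) = lap d X' h' (fun z => f (z + a)) x := by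
  rw [rgf_lap_translate, ← if_lap_inter' _ _ H.isOpen hx, H.inter_eq,
    if_lap_inter' _ _ H.isOpen hx]
  exact if_lap_congr (H.isOpen.mem_nhds hx) H.met fun _ _ => rfl

theorem gradIp_eq (H : RgfWin X X' h h' a N) (f g : V → ℝ) {x : V} (hx : x ∈ N) :
    gradIp d X h f g (x + a) = gradIp d X' h' (fun z => f (z + a)) (fun z => g (z + a)) x := by
  rw [rgf_gradIp_translate, ← if_gradIp_inter' _ _ _ H.isOpen hx, H.inter_eq,
    if_gradIp_inter' _ _ _ H.isOpen hx]
  exact if_gradIp_congr (H.isOpen.mem_nhds hx) H.met (fun _ _ => rfl) fun _ _ => rfl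

theorem gradSq_eq (H : RgfWin X X' h h' a N) (f : V → ℝ) {x : V} (hx : x ∈ N) :
    gradSq d X h f (x + a) = gradSq d X' h' (fun z => f (z + a)) x :=
  H.gradIp_eq f f hx

theorem wlap_eq (H : RgfWin X X' h h' a N) (t f : V → ℝ) {x : V} (hx : x ∈ N) :
    wlap d X h t f (x + a) = wlap d X' h' (fun z => t (z + a)) (fun z => f (z + a)) x := by
  unfold wlap
  rw [H.lap_eq f hx, H.gradIp_eq t f hx]

theorem Dsc_eq (H : RgfWin X X' h h' a N) (t : V → ℝ) {x : V} (hx : x ∈ N) :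
    Dsc d X h t (x + a) = Dsc d X' h' (fun z => t (z + a)) x := by
  unfold Dsc
  rw [H.scal_eq hx, H.lap_eq t hx, H.gradSq_eq t hx]

theorem rgL_eq (H : RgfWin X X' h h' a N) (t : V → ℝ) (C : ℝ) (Wp f : V → ℝ) {x : V}
    (hx : x ∈ N) :
    rgL d X h t C Wp f (x + a) =
      rgL d X' h' (fun z => t (z + a)) C (fun z => Wp (z + a)) (fun z => f (z + a)) x := by
  unfold rgL
  rw [H.wlap_eq t f hx]

end RgfWin

/-! ## Section C: the bridge to `CtConvAt` -/

section bridge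

variable {M : Set V} {a : ℕ → V → ℝ} {a' : V → ℝ} {x' : V}

theorem CtConvAt.rgf (h : CtConvAt d M a a' x') : RgfConv d M a a' x' := by
  intro ψ U u₀ hp hu he
  subst he
  exact h.rgs hp hu

theorem RgfConv.ct [FiniteDimensional ℝ V] (hM : IsMfd d M) (hx' : x' ∈ M)
    (h : RgfConv d M a a' x') : CtConvAt d M a a' x' := by
  obtain ⟨ψ, U, hp, u₀, hu, rfl⟩ := hM x' hx'
  exact ctConvAt_of_rgs hp hu (h ψ U u₀ hp hu rfl)

end bridge

/-! ## Section D: the soft lemma with moving windows -/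

section soft

variable [FiniteDimensional ℝ V] {M M' : Set V} {h h' : Ten V} {a : ℕ → V} {N : Set V}
  {q f g τ Wp : ℕ → V → ℝ} {q' f' g' τ' Wp' : V → ℝ} {y : ℕ → V} {y' : V}

theorem rgf_soft_ip (hM' : IsMfd (d + 1) M') (hh' : IsMetricOn (d + 1) M' h')
    (hwin : ∀ᶠ k in atTop, RgfWin M M' h h' (a k) N) (hN : y' ∈ N)
    (hq : RgfConv (d + 1) M' (fun k z => q k (z + a k)) q' y')
    (hf : RgfConv (d + 1) M' (fun k z => f k (z + a k)) f' y')
    (hg : RgfConv (d + 1) M' (fun k z => g k (z + a k)) g' y') (hy' : y' ∈ M')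
    (hreg : 0 < gradSq (d + 1) M' h' q' y') (hy : ∀ᶠ k in atTop, y k ∈ M')
    (hlim : Tendsto y atTop (𝓝 y')) :
    Tendsto (fun k => gradIp d (rm_Lv M (q k) (q k (y k + a k))) h (f k) (g k) (y k + a k)) atTop
      (𝓝 (gradIp d (rm_Lv M' q' (q' y')) h' f' g' y')) := by
  have h1 := rg_soft_ip hM' hh' (hq.ct hM' hy') (hf.ct hM' hy') (hg.ct hM' hy') hy' hreg hy hlim
  refine h1.congr' ?_
  obtain ⟨k₀, hk₀⟩ := hwin.exists
  filter_upwards [hwin, hlim (hk₀.isOpen.mem_nhds hN)] with k e1 e2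
  exact ((e1.level (q k) _).gradIp_eq (f k) (g k) e2).symm

theorem rgf_soft_lap (hM' : IsMfd (d + 1) M') (hh' : IsMetricOn (d + 1) M' h')
    (hwin : ∀ᶠ k in atTop, RgfWin M M' h h' (a k) N) (hN : y' ∈ N)
    (hq : RgfConv (d + 1) M' (fun k z => q k (z + a k)) q' y')
    (hf : RgfConv (d + 1) M' (fun k z => f k (z + a k)) f' y') (hy' : y' ∈ M')
    (hreg : 0 < gradSq (d + 1) M' h' q' y') (hy : ∀ᶠ k in atTop, y k ∈ M')
    (hlim : Tendsto y atTop (𝓝 y')) :
    Tendsto (fun k => lap d (rm_Lv M (q k) (q k (y k + a k))) h (f k) (y k + a k)) atTop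
      (𝓝 (lap d (rm_Lv M' q' (q' y')) h' f' y')) := by
  have h1 := rg_soft_lap hM' hh' (hq.ct hM' hy') (hf.ct hM' hy') hy' hreg hy hlim
  refine h1.congr' ?_
  obtain ⟨k₀, hk₀⟩ := hwin.exists
  filter_upwards [hwin, hlim (hk₀.isOpen.mem_nhds hN)] with k e1 e2
  exact ((e1.level (q k) _).lap_eq (f k) e2).symm

theorem rgf_soft_scal (hM' : IsMfd (d + 1) M') (hh' : IsMetricOn (d + 1) M' h')
    (hwin : ∀ᶠ k in atTop, RgfWin M M' h h' (a k) N) (hN : y' ∈ N)
    (hq : RgfConv (d + 1) M' (fun k z => q k (z + a k)) q' y') (hy' : y' ∈ M')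
    (hreg : 0 < gradSq (d + 1) M' h' q' y') (hy : ∀ᶠ k in atTop, y k ∈ M')
    (hlim : Tendsto y atTop (𝓝 y')) :
    Tendsto (fun k => scal d (rm_Lv M (q k) (q k (y k + a k))) h (y k + a k)) atTop
      (𝓝 (scal d (rm_Lv M' q' (q' y')) h' y')) := by
  have h1 := rg_soft_scal hM' hh' (hq.ct hM' hy') hy' hreg hy hlim
  refine h1.congr' ?_
  obtain ⟨k₀, hk₀⟩ := hwin.exists
  filter_upwards [hwin, hlim (hk₀.isOpen.mem_nhds hN)] with k e1 e2
  exact ((e1.level (q k) _).scal_eq e2).symm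

theorem rgf_soft_wlap (hM' : IsMfd (d + 1) M') (hh' : IsMetricOn (d + 1) M' h')
    (hwin : ∀ᶠ k in atTop, RgfWin M M' h h' (a k) N) (hN : y' ∈ N)
    (hτ : RgfConv (d + 1) M' (fun k z => τ k (z + a k)) τ' y')
    (hq : RgfConv (d + 1) M' (fun k z => q k (z + a k)) q' y')
    (hf : RgfConv (d + 1) M' (fun k z => f k (z + a k)) f' y') (hy' : y' ∈ M')
    (hreg : 0 < gradSq (d + 1) M' h' q' y') (hy : ∀ᶠ k in atTop, y k ∈ M')
    (hlim : Tendsto y atTop (𝓝 y')) :
    Tendsto (fun k => wlap d (rm_Lv M (q k) (q k (y k + a k))) h (τ k) (f k) (y k + a k)) atTop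
      (𝓝 (wlap d (rm_Lv M' q' (q' y')) h' τ' f' y')) :=
  (rgf_soft_lap hM' hh' hwin hN hq hf hy' hreg hy hlim).sub
    (rgf_soft_ip hM' hh' hwin hN hq hτ hf hy' hreg hy hlim)

theorem rgf_soft_Dsc (hM' : IsMfd (d + 1) M') (hh' : IsMetricOn (d + 1) M' h')
    (hwin : ∀ᶠ k in atTop, RgfWin M M' h h' (a k) N) (hN : y' ∈ N)
    (hτ : RgfConv (d + 1) M' (fun k z => τ k (z + a k)) τ' y')
    (hq : RgfConv (d + 1) M' (fun k z => q k (z + a k)) q' y') (hy' : y' ∈ M')
    (hreg : 0 < gradSq (d + 1) M' h' q' y') (hy : ∀ᶠ k in atTop, y k ∈ M')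
    (hlim : Tendsto y atTop (𝓝 y')) :
    Tendsto (fun k => Dsc d (rm_Lv M (q k) (q k (y k + a k))) h (τ k) (y k + a k)) atTop
      (𝓝 (Dsc d (rm_Lv M' q' (q' y')) h' τ' y')) :=
  ((rgf_soft_scal hM' hh' hwin hN hq hy' hreg hy hlim).add
    ((rgf_soft_lap hM' hh' hwin hN hq hτ hy' hreg hy hlim).const_mul 2)).sub
    (rgf_soft_ip hM' hh' hwin hN hq hτ hτ hy' hreg hy hlim)

/-- **THE SOFT LEMMA WITH MOVING WINDOWS** for `L = -C Δ_τ + W`; only the VALUES of the potentials at the points have to converge. -/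
theorem rgf_soft_L (hM' : IsMfd (d + 1) M') (hh' : IsMetricOn (d + 1) M' h')
    (hwin : ∀ᶠ k in atTop, RgfWin M M' h h' (a k) N) (hN : y' ∈ N)
    (hτ : RgfConv (d + 1) M' (fun k z => τ k (z + a k)) τ' y')
    (hq : RgfConv (d + 1) M' (fun k z => q k (z + a k)) q' y')
    (hf : RgfConv (d + 1) M' (fun k z => f k (z + a k)) f' y') (hy' : y' ∈ M')
    (hreg : 0 < gradSq (d + 1) M' h' q' y') (hy : ∀ᶠ k in atTop, y k ∈ M')
    (hlim : Tendsto y atTop (𝓝 y')) (C : ℝ)
    (hW : Tendsto (fun k => Wp k (y k + a k)) atTop (𝓝 (Wp' y'))) :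
    Tendsto (fun k => rgL d (rm_Lv M (q k) (q k (y k + a k))) h (τ k) C (Wp k) (f k) (y k + a k))
      atTop (𝓝 (rgL d (rm_Lv M' q' (q' y')) h' τ' C Wp' f' y')) :=
  ((rgf_soft_wlap hM' hh' hwin hN hτ hq hf hy' hreg hy hlim).const_mul (-C)).add
    (hW.mul (hf.eval hM' hy' hy hlim))

end soft

end Claimed.Agent.R315
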