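import Claimed.Agent.R315.Rg.Tail

/-!
# Row 315, package Rg-FIN (architect helper266), file `Rg/FinU.lean`: ITERATED CYLINDERS over an arbitrary base manifold

`RgfBase F J d X h t`: `(X, h, t)` is a Core manifold with drift, the coordinates `t j`, `j ∈ J`, vanish on `X` and the `e j`, `j ∈ J`, are unit normals of the ambient tensor `h` along `X`.
Then `F.cyl J X` with the data pulled back by `F.dropS J` is the Riemannian product `X × ℝ^J`: `Dsc`, `wlap`, `gradIp`, `rgL` of pulled back functions are pulled back.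
Induction on `J` from the one-step lemmas `CtGeo.cyl`, `ct_cyl_smooth`, `ct_cyl_Dsc` (`Ct/ProdB.lean`), `rg_cyl_ip`, `rg_cyl_wlap` (`Rg/Tail.lean`).  (For `X = E γ` this is `ct_mem_geo`.)  ALL PROVED HERE.
-/

set_option autoImplicit false
set_option linter.unusedSectionVars false
open scoped ContDiff Topology
open Claims.C0499 Set Filter

namespace Claimed.Agent.R315

variable {V W : Type} [NormedAddCommGroup V] [NormedSpace ℝ V] [NormedAddCommGroup W]
  [NormedSpace ℝ W] [FiniteDimensional ℝ W] {ι : Type}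

/-- base of an iterated cylinder. -/
structure RgfBase (F : Frame V W ι) (J : Finset ι) (d : ℕ) (X : Set W) (h : Ten W) (t : W → ℝ) :
    Prop where
  geo : CtGeo d X h t
  flat : ∀ x ∈ X, ∀ j ∈ J, F.t j x = 0
  normal : ∀ x ∈ X, ∀ j ∈ J, ∀ w, h x (F.e j) w = F.t j w ∧ h x w (F.e j) = F.t j w

variable {F : Frame V W ι} {d : ℕ} {X : Set W} {h : Ten W} {t : W → ℝ}

theorem RgfBase.mono {J J' : Finset ι} (H : RgfBase F J d X h t) (hJ : J' ⊆ J) :
    RgfBase F J' d X h t :=
  ⟨H.geo, fun x hx j hj => H.flat x hx j (hJ hj), fun x hx j hj => H.normal x hx j (hJ hj)⟩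

/-- everything at once (for the induction). -/
structure RgfCylOK (F : Frame V W ι) (J : Finset ι) (d : ℕ) (X : Set W) (h : Ten W) (t : W → ℝ) :
    Prop where
  geo : CtGeo (d + J.card) (F.cyl J X) (fun z => h (F.dropS J z)) (fun z => t (F.dropS J z))
  smooth : ∀ f : W → ℝ, SmoothAlong d X f →
    SmoothAlong (d + J.card) (F.cyl J X) (fun z => f (F.dropS J z))
  Dsc_eq : ∀ z ∈ F.cyl J X,
    Dsc (d + J.card) (F.cyl J X) (fun z => h (F.dropS J z)) (fun z => t (F.dropS J z)) z =
      Dsc d X h t (F.dropS J z)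
  wlap_eq : ∀ f : W → ℝ, SmoothAlong d X f → ∀ z ∈ F.cyl J X,
    wlap (d + J.card) (F.cyl J X) (fun z => h (F.dropS J z)) (fun z => t (F.dropS J z))
      (fun z => f (F.dropS J z)) z = wlap d X h t f (F.dropS J z)
  ip_eq : ∀ f g : W → ℝ, SmoothAlong d X f → SmoothAlong d X g → ∀ z ∈ F.cyl J X,
    gradIp (d + J.card) (F.cyl J X) (fun z => h (F.dropS J z)) (fun z => f (F.dropS J z))
      (fun z => g (F.dropS J z)) z = gradIp d X h f g (F.dropS J z)

theorem rgf_cyl_empty (F : Frame V W ι) (X : Set W) : F.cyl ∅ X = X := by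
  ext z
  simp [Frame.cyl, F.dropS_empty]

/-- **iterated cylinders.** -/
theorem RgfBase.cylOK {J : Finset ι} (H : RgfBase F J d X h t) : RgfCylOK F J d X h t := by
  classical
  induction J using Finset.induction_on with
  | empty =>
    refine ⟨?_, ?_, ?_, ?_, ?_⟩ <;>
      simp only [Finset.card_empty, add_zero, rgf_cyl_empty, F.dropS_empty]
    · exact H.geo
    · exact fun f hf => hf
    · exact fun _ _ => trivial
    · exact fun _ _ _ _ => trivial
    · exact fun _ _ _ _ _ _ => trivial
  | insert i J hi ih =>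
    have K := ih (H.mono (Finset.subset_insert i J))
    have hτ : F.t i (F.e i) = 1 := F.t_e i
    have hM : ∀ x ∈ F.cyl J X, F.t i x = 0 := by
      intro x hx
      rw [← F.t_dropS_notMem hi x]
      exact H.flat _ hx i (Finset.mem_insert_self i J)
    have hn : CtNormal (F.t i) (F.e i) (F.cyl J X) (fun z => h (F.dropS J z)) :=
      fun x hx w => H.normal _ hx i (Finset.mem_insert_self i J) w
    have ec : d + (insert i J).card = d + J.card + 1 := by
      rw [Finset.card_insert_of_notMem hi, add_assoc]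
    have es : F.cyl (insert i J) X = ctCyl (F.t i) (F.e i) (F.cyl J X) := F.cyl_insert hi X
    have ed : ∀ z, F.dropS (insert i J) z = F.dropS J (ctPr (F.t i) (F.e i) z) :=
      fun z => F.dropS_insert_ctPr hi z
    refine ⟨?_, ?_, ?_, ?_, ?_⟩ <;> simp only [ec, es, ed]
    · exact K.geo.cyl hτ hM hn
    · exact fun f hf => ct_cyl_smooth K.geo hτ hM (K.smooth f hf)
    · intro z hz
      rw [ct_cyl_Dsc K.geo hτ hM hn hz]
      exact K.Dsc_eq _ hz
    · intro f hf z hz
      have := rg_cyl_wlap K.geo hτ hM hn (K.smooth f hf) 0 hz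
      simp only [zero_mul, add_zero] at this
      rw [this]
      exact K.wlap_eq f hf _ hz
    · intro f g hf hg z hz
      have := rg_cyl_ip K.geo hτ hM hn (K.smooth f hf) (K.smooth g hg) 0 0 hz
      simp only [zero_mul, add_zero] at this
      rw [this]
      exact K.ip_eq f g hf hg _ hz

/-- the operator `L` on an iterated cylinder. -/
theorem RgfBase.rgL_eq {J : Finset ι} (H : RgfBase F J d X h t) (C : ℝ) (Wp : W → ℝ) {f : W → ℝ}
    (hf : SmoothAlong d X f) {z : W} (hz : z ∈ F.cyl J X) :
    rgL (d + J.card) (F.cyl J X) (fun z => h (F.dropS J z)) (fun z => t (F.dropS J z)) C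
      (fun z => Wp (F.dropS J z)) (fun z => f (F.dropS J z)) z =
      rgL d X h t C Wp f (F.dropS J z) := by
  unfold rgL
  rw [H.cylOK.wlap_eq f hf z hz]

end Claimed.Agent.R315
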