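import Claimed.Agent.R315.Rg.FinT
import Claimed.Agent.R315.Rg.FinU
import Claimed.Agent.R315.Rg.FinA
import Claimed.Agent.R315.Rg.Defs
import Claimed.Agent.R315.Rg.GenA

/-!
# Row 315, package Rg-FIN (architect helper266), file `Rg/FinV.lean`: TRANSFER of the operator `LL` from the moving pieces to the true pieces

* Section 1 `rgf_xfer`: ABSTRACT TRANSFER.  `Y₀` a base manifold, `g` a regular defining function, `X₀ = {g = 0}`; the ambient manifolds `M` look like the cylinder `F.cyl J Y₀` in the windows `N + a k`, the defining functions `q k`,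
  the drift and the test functions converge to pull backs by `F.dropS J`.  Then `L[{q k = 0}] (f k) (y k + a k) → L[X₀] f₀ (dropS J y')`, potential `Dsc - Vs` included.
* Section 2: algebra of the extended frame `F.ext` (`rgf_ext_dropS`, `rgf_ext_vec`, `rgf_par_faceS`, ...).
* Section 3 `RgfLoc`: geometry of the ambient manifolds `rgY E₀ γ'` and of the pieces `splitE E₀ U w k γ'` for a family `E₀` of (not necessarily closed) manifolds: `RgfLoc.geoY`, `RgfLoc.smG`, `RgfLoc.regG`, `RgfLoc.geoX`, `RgfLoc.baseY`, `RgfLoc.baseX`.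
-/

set_option autoImplicit false
set_option linter.unusedSectionVars false
open scoped ContDiff Topology
open Claims.C0499 Set Filter

namespace Claimed.Agent.R315

variable {V W : Type} [NormedAddCommGroup V] [NormedSpace ℝ V] [NormedAddCommGroup W]
  [NormedSpace ℝ W] {ι : Type}

/-! ## Section 1: abstract transfer -/

section xfer

variable [FiniteDimensional ℝ W]

/-- **ABSTRACT TRANSFER.** -/
theorem rgf_xfer {F : Frame V W ι} {J : Finset ι} {d₀ : ℕ} {Y₀ : Set W} {h₀ : Ten W}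
    {t₀ g f₀ Vs₀ : W → ℝ} (hY : RgfBase F J (d₀ + 1) Y₀ h₀ t₀)
    (hX : RgfBase F J d₀ (rm_Lv Y₀ g 0) h₀ t₀) (hg : SmoothAlong (d₀ + 1) Y₀ g)
    (hf₀ : SmoothAlong d₀ (rm_Lv Y₀ g 0) f₀) {M : Set W} {h : Ten W} {a : ℕ → W} {N : Set W}
    {t : W → ℝ} {q f Vs : ℕ → W → ℝ} {y : ℕ → W} {y' : W}
    (hwin : ∀ᶠ k in atTop, RgfWin M (F.cyl J Y₀) h (fun z => h₀ (F.dropS J z)) (a k) N)
    (hN : y' ∈ N)
    (ht : RgfConv (d₀ + J.card + 1) (F.cyl J Y₀) (fun k z => t (z + a k))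
      (fun z => t₀ (F.dropS J z)) y')
    (hq : RgfConv (d₀ + J.card + 1) (F.cyl J Y₀) (fun k z => q k (z + a k))
      (fun z => g (F.dropS J z)) y')
    (hf : RgfConv (d₀ + J.card + 1) (F.cyl J Y₀) (fun k z => f k (z + a k))
      (fun z => f₀ (F.dropS J z)) y')
    (hy' : y' ∈ F.cyl J Y₀) (hg0 : g (F.dropS J y') = 0)
    (hreg : 0 < gradSq (d₀ + 1) Y₀ h₀ g (F.dropS J y'))
    (hyM : ∀ᶠ k in atTop, y k + a k ∈ M) (hq0 : ∀ᶠ k in atTop, q k (y k + a k) = 0)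
    (hlim : Tendsto y atTop (𝓝 y')) (C : ℝ)
    (hVs : Tendsto (fun k => Vs k (y k + a k)) atTop (𝓝 (Vs₀ (F.dropS J y')))) :
    Tendsto (fun k => rgL (d₀ + J.card) (rm_Lv M (q k) 0) h t C
        (fun z => Dsc (d₀ + J.card) (rm_Lv M (q k) 0) h t z - Vs k z) (f k) (y k + a k)) atTop
      (𝓝 (rgL d₀ (rm_Lv Y₀ g 0) h₀ t₀ C (fun z => Dsc d₀ (rm_Lv Y₀ g 0) h₀ t₀ z - Vs₀ z) f₀
        (F.dropS J y'))) := by
  have e1 : d₀ + 1 + J.card = d₀ + J.card + 1 := by omega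
  have KY := hY.cylOK
  have KX := hX.cylOK
  have hM' : IsMfd (d₀ + J.card + 1) (F.cyl J Y₀) := e1 ▸ KY.geo.mfd
  have hh' : IsMetricOn (d₀ + J.card + 1) (F.cyl J Y₀) (fun z => h₀ (F.dropS J z)) :=
    e1 ▸ KY.geo.met
  have hreg' : 0 < gradSq (d₀ + J.card + 1) (F.cyl J Y₀) (fun z => h₀ (F.dropS J z))
      (fun z => g (F.dropS J z)) y' := by
    have h1 := KY.ip_eq g g hg hg y' hy'
    rw [e1] at h1
    rw [if_gradSq_eq_gradIp, h1]
    exact hreg
  have hy : ∀ᶠ k in atTop, y k ∈ F.cyl J Y₀ := by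
    obtain ⟨k₀, hk₀⟩ := hwin.exists
    filter_upwards [hwin, hyM, hlim (hk₀.isOpen.mem_nhds hN)] with k e1 e2 e3
    exact (e1.set _ e3).1 e2
  have eL : rm_Lv (F.cyl J Y₀) (fun z => g (F.dropS J z)) (g (F.dropS J y')) =
      F.cyl J (rm_Lv Y₀ g 0) := by
    rw [hg0]; rfl
  have hyX : y' ∈ F.cyl J (rm_Lv Y₀ g 0) := ⟨hy', hg0⟩
  have hD := rgf_soft_Dsc (τ := fun _ => t) hM' hh' hwin hN ht hq hy' hreg' hy hlim
  rw [eL, KX.Dsc_eq y' hyX] at hD
  have hL := rgf_soft_L (τ := fun _ => t)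
    (Wp := fun k z => Dsc (d₀ + J.card) (rm_Lv M (q k) 0) h t z - Vs k z)
    (Wp' := fun z => Dsc d₀ (rm_Lv Y₀ g 0) h₀ t₀ (F.dropS J z) - Vs₀ (F.dropS J z))
    hM' hh' hwin hN ht hq hf hy' hreg' hy hlim C ?_
  · rw [eL, hX.rgL_eq C (fun z => Dsc d₀ (rm_Lv Y₀ g 0) h₀ t₀ z - Vs₀ z) hf₀ hyX] at hL
    refine hL.congr' ?_
    filter_upwards [hq0] with k hk
    rw [hk]
  · refine Tendsto.sub (hD.congr' ?_) hVs
    filter_upwards [hq0] with k hk
    rw [hk]

end xfer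

/-! ## Section 2: the extended frame -/

section ext

open Classical in
theorem rgf_ext_dropS (F : Frame V W ι) (J' : Finset (Option ι)) (z : W × ℝ) :
    F.ext.dropS J' z = (F.dropS J'.eraseNone z.1, if none ∈ J' then 0 else z.2) := by
  refine F.ext.eq_of_coords ?_ fun i => ?_
  · rw [F.ext.q_dropS, F.ext_q, F.ext_q, F.q_dropS]
  · cases i with
    | none =>
      by_cases h : none ∈ J'
      · rw [F.ext.t_dropS_mem h, if_pos h]; rfl
      · rw [F.ext.t_dropS_notMem h, if_neg h]; rfl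
    | some i =>
      by_cases h : some i ∈ J'
      · rw [F.ext.t_dropS_mem h, F.ext_t_some, F.t_dropS_mem (Finset.mem_eraseNone.2 h)]
      · rw [F.ext.t_dropS_notMem h, F.ext_t_some, F.ext_t_some,
          F.t_dropS_notMem (fun h' => h (Finset.mem_eraseNone.1 h'))]

open Classical in
theorem rgf_ext_vec (F : Frame V W ι) (J' : Finset (Option ι)) (s' : Option ι → ℝ) :
    F.ext.vec J' s' =
      (F.vec J'.eraseNone (fun i => s' (some i)), if none ∈ J' then s' none else 0) := by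
  refine F.ext.eq_of_coords ?_ fun i => ?_
  · rw [F.ext.q_vec, F.ext_q, F.q_vec]
  · cases i with
    | none =>
      by_cases h : none ∈ J'
      · rw [F.ext.t_vec_mem h, if_pos h]; rfl
      · rw [F.ext.t_vec_notMem h, if_neg h]; rfl
    | some i =>
      by_cases h : some i ∈ J'
      · rw [F.ext.t_vec_mem h, F.ext_t_some, F.t_vec_mem (Finset.mem_eraseNone.2 h)]
      · rw [F.ext.t_vec_notMem h, F.ext_t_some,
          F.t_vec_notMem (fun h' => h (Finset.mem_eraseNone.1 h'))]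

theorem rgf_par_faceS (α' : Stat (Option ι)) (J' : Finset (Option ι)) :
    (α'.faceS J').par = α'.par.faceS J'.eraseNone := by
  funext i
  by_cases h : some i ∈ J'
  · have h' : i ∈ J'.eraseNone := Finset.mem_eraseNone.2 h
    simp [Stat.par, Stat.faceS, h, h']
  · have h' : i ∉ J'.eraseNone := fun h' => h (Finset.mem_eraseNone.1 h')
    simp [Stat.par, Stat.faceS, h, h']

open Classical in
theorem rgf_faceS_none (α' : Stat (Option ι)) (J' : Finset (Option ι)) :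
    (α'.faceS J') none = if none ∈ J' then 0 else α' none := by
  by_cases h : none ∈ J' <;> simp [Stat.faceS, h]

theorem rgf_par_ext (α : Stat ι) (σ : SignType) : (α.ext σ).par = α := rfl

theorem rgf_ext_par (α' : Stat (Option ι)) : α'.par.ext (α' none) = α' := by
  funext o
  cases o <;> rfl

theorem rgf_hits_par [Fintype ι] (α' : Stat (Option ι)) :
    hits α' = hits α'.par + if α' none = 0 then 1 else 0 := pk_hits_parent α'

end ext

/-! ## Section 3: geometry of the ambient manifolds `rgY` and of the pieces -/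

section loc

variable [FiniteDimensional ℝ W]

/-- positivity of the gradient is detected by any differentiable map into the manifold. -/
theorem rgf_gradSq_pos_of_map {A : Type} [NormedAddCommGroup A] [NormedSpace ℝ A] {d : ℕ}
    {X : Set W} {h : Ten W} (hX : IsMfd d X) (hh : IsMetricOn d X h) {u : W → ℝ}
    (hu : SmoothAlong d X u) {z : W} (hz : z ∈ X) {Φ : A → W} {b : A}
    (hΦ : DifferentiableAt ℝ Φ b) (hb : Φ b = z) (hmem : ∀ᶠ y in 𝓝 b, Φ y ∈ X)
    (hne : fderiv ℝ (u ∘ Φ) b ≠ 0) : 0 < gradSq d X h u z := by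
  obtain ⟨ψ, U, hp, a, ha, rfl⟩ := hX z hz
  rw [if_gradSq_eq hh hu hp ha]
  exact pk_gradSqC_pos hh hp u ha (rgn_fderiv_ne_of_map hu hp ha hΦ hb hmem hne)

theorem rgf_fderiv_ne_of_gradSq_pos {d : ℕ} {X : Set W} {h : Ten W} (hh : IsMetricOn d X h)
    {u : W → ℝ} (hu : SmoothAlong d X u) {ψ : E d → W} {U : Set (E d)} (hp : IsParam X ψ U)
    {a : E d} (ha : a ∈ U) (hpos : 0 < gradSq d X h u (ψ a)) : fderiv ℝ (u ∘ ψ) a ≠ 0 := by
  intro h0
  rw [if_gradSq_eq hh hu hp ha] at hpos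
  simp [gradSqC, pdiff, h0] at hpos

/-- `RegAt` from the positivity of the gradient. -/
theorem rgf_regAt_of_gradSq_pos {d : ℕ} {X : Set W} {h : Ten W} (hh : IsMetricOn d X h)
    {u : W → ℝ} (hu : SmoothAlong d X u) {z : W} (hpos : 0 < gradSq d X h u z) :
    RegAt d X u z := by
  intro ψ U hp a ha hz _
  subst hz
  exact rgf_fderiv_ne_of_gradSq_pos hh hu hp ha hpos

/-- the gradient vanishes at a critical point. -/
theorem rgf_gradSq_eq_zero_of_not_regAt {d : ℕ} {X : Set W} {h : Ten W} (hh : IsMetricOn d X h)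
    {u : W → ℝ} (hu : SmoothAlong d X u) {z : W} (hn : ¬ RegAt d X u z) :
    u z = 0 ∧ gradSq d X h u z = 0 := by
  unfold RegAt at hn
  push Not at hn
  obtain ⟨ψ, U, hp, a, ha, rfl, h0, h1⟩ := hn
  refine ⟨h0, ?_⟩
  rw [if_gradSq_eq hh hu hp ha]
  simp [gradSqC, pdiff, h1]

/-- **regularity of the corner function in the product chart** (from the proof of `pk_split_mfd`). -/
theorem rgf_G_fderiv_ne {d : ℕ} {X : Set W} {u w : W → ℝ} {k : ℝ → ℝ} (hk : IsCorner k)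
    {ψ : E d → W} {U : Set (E d)} (hp : IsParam X ψ U) (hU₁ : ContDiffOn ℝ ∞ (u ∘ ψ) U)
    (hW₁ : ContDiffOn ℝ ∞ (w ∘ ψ) U) (hWpos : ∀ b ∈ U, 0 < w (ψ b)) {s : ℝ} (hs0 : s ≠ 0)
    {a₀ : E d} (ha₀ : a₀ ∈ U) (τ : ℝ)
    (hsum : k (s * u (ψ a₀) / w (ψ a₀)) + k (s * τ / w (ψ a₀)) = 1)
    (hreg : u (ψ a₀) = 0 → fderiv ℝ (u ∘ ψ) a₀ ≠ 0) :
    fderiv ℝ ((fun z : W × ℝ => k (s * u z.1 / w z.1) + k (s * z.2 / w z.1) - 1) ∘
      fun b : E (d + 1) => (ψ (rm_tl d b), b 0)) (rm_J τ a₀) ≠ 0 := by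
  set G : W × ℝ → ℝ := fun z => k (s * u z.1 / w z.1) + k (s * z.2 / w z.1) - 1 with hG
  have hmaps : Set.MapsTo (rm_tl d) {b : R315.E (d + 1) | rm_tl d b ∈ U} U := fun b hb => hb
  have hopen : IsOpen {b : R315.E (d + 1) | rm_tl d b ∈ U} :=
    (if_open hp).preimage (rm_tl d).continuous
  have haU : rm_J τ a₀ ∈ {b : R315.E (d + 1) | rm_tl d b ∈ U} := by
    show rm_tl d (rm_J τ a₀) ∈ U
    rw [rm_tl_J]; exact ha₀
  have hsm : ContDiffOn ℝ ∞ (G ∘ fun b : R315.E (d + 1) => (ψ (rm_tl d b), b 0))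
      {b | rm_tl d b ∈ U} := by
    have h1 : ContDiffOn ℝ ∞ (fun b : R315.E (d + 1) => u (ψ (rm_tl d b))) {b | rm_tl d b ∈ U} :=
      hU₁.comp (rm_tl d).contDiff.contDiffOn hmaps
    have h2 : ContDiffOn ℝ ∞ (fun b : R315.E (d + 1) => w (ψ (rm_tl d b))) {b | rm_tl d b ∈ U} :=
      hW₁.comp (rm_tl d).contDiff.contDiffOn hmaps
    have h3 : ContDiffOn ℝ ∞ (fun b : R315.E (d + 1) => b 0) {b | rm_tl d b ∈ U} :=
      (if_pr (0 : Fin (d + 1))).contDiff.contDiffOn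
    have hne : ∀ b ∈ {b : R315.E (d + 1) | rm_tl d b ∈ U}, w (ψ (rm_tl d b)) ≠ 0 := fun b hb =>
      (hWpos _ hb).ne'
    exact ((hk.smooth.comp_contDiffOn ((contDiffOn_const.mul h1).div h2 hne)).add
      (hk.smooth.comp_contDiffOn ((contDiffOn_const.mul h3).div h2 hne))).sub contDiffOn_const
  have hdiff : DifferentiableAt ℝ (G ∘ fun b : R315.E (d + 1) => (ψ (rm_tl d b), b 0))
      (rm_J τ a₀) := (hsm.contDiffAt (hopen.mem_nhds haU)).differentiableAt (by simp)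
  have hw₀ : 0 < w (ψ a₀) := hWpos a₀ ha₀
  have hkd : ∀ x, HasDerivAt k (deriv k x) x := fun x =>
    (hk.smooth.differentiable (by simp) x).hasDerivAt
  rcases lt_or_ge (s * τ / w (ψ a₀)) 1 with hB | hB
  · -- derivative in the direction of the line
    refine pk_fderiv_ne_of_curve hdiff (c := fun t => rm_J t a₀) (t₀ := τ)
      (D := deriv k (s * τ / w (ψ a₀)) * (s / w (ψ a₀))) ?_ rfl ?_ ?_
    · unfold rm_J
      exact (differentiableAt_id.smul_const _).add_const _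
    · have h1 : (fun t => (G ∘ fun b : R315.E (d + 1) => (ψ (rm_tl d b), b 0)) (rm_J t a₀)) =
          fun t => k (s * u (ψ a₀) / w (ψ a₀)) + k (s * t / w (ψ a₀)) - 1 := by
        funext t
        simp only [Function.comp_apply, hG, rm_tl_J, rm_J_zero]
      rw [h1]
      have h2 : HasDerivAt (fun t : ℝ => s * t / w (ψ a₀)) (s / w (ψ a₀)) τ := by
        have := ((hasDerivAt_id τ).const_mul s).div_const (w (ψ a₀))
        simpa using this
      exact (((hkd _).comp τ h2).const_add _).sub_const _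
    · exact mul_ne_zero (hk.anti _ hB).ne (div_ne_zero hs0 hw₀.ne')
  · -- on the cylinder: `u = 0`
    have hkB : k (s * τ / w (ψ a₀)) = 0 := hk.far _ hB
    have hA : s * u (ψ a₀) / w (ψ a₀) = 0 := by
      rw [hkB, add_zero] at hsum
      exact hk.eq_one_iff.1 hsum
    have hu0 : u (ψ a₀) = 0 := by
      rcases div_eq_zero_iff.1 hA with h | h
      · exact (mul_eq_zero.1 h).resolve_left hs0
      · exact absurd h hw₀.ne'
    have hreg := hreg hu0
    obtain ⟨v, hv⟩ : ∃ v, fderiv ℝ (u ∘ ψ) a₀ v ≠ 0 := by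
      by_contra hcon
      push Not at hcon
      exact hreg (ContinuousLinearMap.ext hcon)
    have hl : HasDerivAt (fun t : ℝ => a₀ + t • v) v 0 := by
      have := ((hasDerivAt_id (0 : ℝ)).smul_const v).const_add a₀
      simpa using this
    have hl0 : a₀ = a₀ + (0 : ℝ) • v := by simp
    have hUd : HasDerivAt (fun t : ℝ => u (ψ (a₀ + t • v))) (fderiv ℝ (u ∘ ψ) a₀ v) 0 :=
      HasFDerivAt.comp_hasDerivAt_of_eq 0 ((hU₁.contDiffAt ((if_open hp).mem_nhds
        ha₀)).differentiableAt (by simp)).hasFDerivAt hl hl0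
    have hWd : HasDerivAt (fun t : ℝ => w (ψ (a₀ + t • v))) (fderiv ℝ (w ∘ ψ) a₀ v) 0 :=
      HasFDerivAt.comp_hasDerivAt_of_eq 0 ((hW₁.contDiffAt ((if_open hp).mem_nhds
        ha₀)).differentiableAt (by simp)).hasFDerivAt hl hl0
    have hw1 : w (ψ (a₀ + (0 : ℝ) • v)) = w (ψ a₀) := by rw [← hl0]
    have hu1 : u (ψ (a₀ + (0 : ℝ) • v)) = 0 := by rw [← hl0, hu0]
    have hq1 := (hUd.const_mul s).div hWd (by rw [hw1]; exact hw₀.ne')
    have hq2 := (hasDerivAt_const (0 : ℝ) (s * τ)).div hWd (by rw [hw1]; exact hw₀.ne')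
    have hk1 := HasDerivAt.comp_of_eq (0 : ℝ) (hkd (s * u (ψ a₀) / w (ψ a₀))) hq1
      (by simp only [Pi.div_apply, hu1, hw1, hu0])
    have hk2 := HasDerivAt.comp_of_eq (0 : ℝ) (hkd (s * τ / w (ψ a₀))) hq2
      (by simp only [Pi.div_apply, hw1])
    rw [hk.deriv_far hB, zero_mul] at hk2
    refine pk_fderiv_ne_of_curve hdiff (c := fun t => rm_J τ (a₀ + t • v)) (t₀ := 0)
      ?_ (by simp) (((hk1.add hk2).sub_const 1).congr_of_eventuallyEq
        (Filter.Eventually.of_forall fun t => ?_)) ?_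
    · exact ((rm_J_hasFDerivAt τ _).comp_hasDerivAt (0 : ℝ) hl).differentiableAt
    · simp only [Function.comp_apply, hG, rm_tl_J, rm_J_zero, Pi.add_apply, Pi.div_apply]
    · rw [add_zero, hA, hu1, hw1]
      refine mul_ne_zero (hk.anti 0 one_pos).ne ?_
      refine div_ne_zero ?_ (pow_ne_zero 2 hw₀.ne')
      rw [mul_zero, zero_mul, sub_zero]
      exact mul_ne_zero (mul_ne_zero hs0 hv) hw₀.ne'

/-- local geometric data: a family of (not necessarily closed) manifolds with metric, drift, defining function and width. -/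
structure RgfLoc [Fintype ι] (n : ℕ) (F : Frame V W ι) (E₀ : Stat ι → Set W) (h : Ten W)
    (dr U w : W → ℝ) (k : ℝ → ℝ) : Prop where
  mfd : ∀ α, IsMfd (n - hits α) (E₀ α)
  met : ∀ α, IsMetricOn (n - hits α) (E₀ α) h
  dr_sm : ∀ α, SmoothAlong (n - hits α) (E₀ α) dr
  U_sm : ∀ α, SmoothAlong (n - hits α) (E₀ α) U
  w_sm : ∀ α, SmoothAlong (n - hits α) (E₀ α) w
  w_pos : ∀ α, ∀ z ∈ E₀ α, 0 < w z
  reg : ∀ α, ∀ z ∈ E₀ α, U z = 0 → 0 < gradSq (n - hits α) (E₀ α) h U z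
  corner : IsCorner k
  dim : ∀ α, (E₀ α).Nonempty → hits α + 1 ≤ n
  t_hit : ∀ α, ∀ z ∈ E₀ α, ∀ i, α i = 0 → F.t i z = 0
  normal : ∀ α, ∀ z ∈ E₀ α, ∀ i, α i = 0 → ∀ x, h z (F.e i) x = F.t i x ∧ h z x (F.e i) = F.t i x

theorem rgY_sub_fst (E₀ : Stat ι → Set W) (γ' : Stat (Option ι)) :
    rgY E₀ γ' ⊆ Prod.fst ⁻¹' E₀ γ'.par := fun _ hz => hz.1

theorem rgY_of_hit (E₀ : Stat ι → Set W) {γ' : Stat (Option ι)} (h0 : γ' none = 0) :
    rgY E₀ γ' = {z : W × ℝ | z.1 ∈ E₀ γ'.par ∧ z.2 = 0} := by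
  ext z; simp [rgY, h0]

theorem rgY_of_side (E₀ : Stat ι → Set W) {γ' : Stat (Option ι)} (h0 : γ' none ≠ 0) :
    rgY E₀ γ' = Prod.fst ⁻¹' E₀ γ'.par := by
  ext z; simp [rgY, h0]

theorem splitE_sub_rgY (E₀ : Stat ι → Set W) (u w : W → ℝ) (k : ℝ → ℝ) (γ' : Stat (Option ι)) :
    splitE E₀ u w k γ' ⊆ rgY E₀ γ' := by
  rw [splitE_eq_Lv]; exact rm_Lv_sub _ _ _

theorem rgf_rgYd_eq [Fintype ι] {n : ℕ} {γ' : Stat (Option ι)} (hd : hits γ'.par + 1 ≤ n) :
    rgYd n γ' = n - hits γ' + 1 := by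
  unfold rgYd
  rw [rgf_hits_par]
  by_cases h0 : γ' none = 0
  · simp only [if_pos h0]; omega
  · simp only [if_neg h0]; omega

theorem rgf_sign_ne {s : SignType} (h : s ≠ 0) : (s : ℝ) ≠ 0 := by
  rcases SignType.trichotomy s with h1 | h1 | h1
  · rw [h1]; simp
  · exact absurd h1 h
  · rw [h1]; simp

namespace RgfLoc

variable [Fintype ι] {n : ℕ} {F : Frame V W ι} {E₀ : Stat ι → Set W} {h : Ten W}
  {dr U w : W → ℝ} {k : ℝ → ℝ}

theorem mfdY (H : RgfLoc n F E₀ h dr U w k) (γ' : Stat (Option ι)) :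
    IsMfd (rgYd n γ') (rgY E₀ γ') := by
  unfold rgYd
  by_cases h0 : γ' none = 0
  · rw [rgY_of_hit E₀ h0, if_pos h0, add_zero]
    exact pk_mfd_slice (H.mfd _)
  · rw [rgY_of_side E₀ h0, if_neg h0]
    exact pk_mfd_prod (H.mfd _)

theorem geoY (H : RgfLoc n F E₀ h dr U w k) (γ' : Stat (Option ι)) :
    CtGeo (rgYd n γ') (rgY E₀ γ') (extTen h) (fun y => dr y.1) :=
  ⟨H.mfdY γ', pk_isMetricOn_ext (H.mfd _) (rgY_sub_fst E₀ γ') (H.met _),
    pk_smoothAlong_fst (H.mfd _) (rgY_sub_fst E₀ γ') (H.dr_sm _)⟩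

theorem smG (H : RgfLoc n F E₀ h dr U w k) (γ' : Stat (Option ι)) :
    SmoothAlong (rgYd n γ') (rgY E₀ γ') (rgG U w k γ') := by
  have hU : SmoothAlong (rgYd n γ') (rgY E₀ γ') (fun z : W × ℝ => U z.1) :=
    pk_smoothAlong_fst (H.mfd _) (rgY_sub_fst E₀ γ') (H.U_sm _)
  have hw : SmoothAlong (rgYd n γ') (rgY E₀ γ') (fun z : W × ℝ => w z.1) :=
    pk_smoothAlong_fst (H.mfd _) (rgY_sub_fst E₀ γ') (H.w_sm _)
  have hne : ∀ z ∈ rgY E₀ γ', w z.1 ≠ 0 := fun z hz => (H.w_pos _ _ hz.1).ne'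
  have hs : SmoothAlong (rgYd n γ') (rgY E₀ γ') (fun z : W × ℝ => z.2) :=
    if_smoothAlong_of_contDiff contDiff_snd
  by_cases h0 : γ' none = 0
  · have e : rgG U w k γ' = fun z : W × ℝ => U z.1 := by
      funext z; simp [rgG, h0]
    rw [e]; exact hU
  · have e : rgG U w k γ' = fun z : W × ℝ =>
        k ((γ' none : ℝ) * U z.1 / w z.1) + k ((γ' none : ℝ) * z.2 / w z.1) - 1 := by
      funext z; simp [rgG, h0]
    rw [e]
    exact gs_sm_sub (gs_sm_add
      (gs_sm_comp' H.corner.smooth (gs_sm_div (gs_sm_smul _ hU) hw hne))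
      (gs_sm_comp' H.corner.smooth (gs_sm_div (gs_sm_smul _ hs) hw hne))) (gs_sm_const 1)

/-- **the defining functions of the pieces are regular.** -/
theorem regG (H : RgfLoc n F E₀ h dr U w k) (γ' : Stat (Option ι)) {z : W × ℝ}
    (hz : z ∈ rgY E₀ γ') (hz0 : rgG U w k γ' z = 0) :
    0 < gradSq (rgYd n γ') (rgY E₀ γ') (extTen h) (rgG U w k γ') z := by
  obtain ⟨ψ, O, hp, a₀, ha₀, hza⟩ := H.mfd γ'.par z.1 hz.1
  have hne : U (ψ a₀) = 0 → fderiv ℝ (U ∘ ψ) a₀ ≠ 0 := fun h0 =>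
    rgf_fderiv_ne_of_gradSq_pos (H.met _) (H.U_sm _) hp ha₀ (H.reg _ _ (if_mem hp ha₀) h0)
  by_cases h0 : γ' none = 0
  · have e : rgG U w k γ' = fun z : W × ℝ => U z.1 := by
      funext z; simp [rgG, h0]
    refine rgf_gradSq_pos_of_map (H.geoY γ').mfd (H.geoY γ').met (H.smG γ') hz
      (Φ := fun b => (ψ b, (0 : ℝ))) (b := a₀)
      ((if_differentiableAt hp ha₀).prodMk (differentiableAt_const _)) ?_ ?_ ?_
    · exact Prod.ext hza (hz.2 h0).symm
    · filter_upwards [(if_open hp).mem_nhds ha₀] with b hb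
      exact ⟨if_mem hp hb, fun _ => rfl⟩
    · have e2 : rgG U w k γ' ∘ (fun b => (ψ b, (0 : ℝ))) = U ∘ ψ := by
        rw [e]; rfl
      rw [e2]
      refine hne ?_
      rw [e] at hz0
      rw [hza]; exact hz0
  · have e : rgG U w k γ' = fun z : W × ℝ =>
        k ((γ' none : ℝ) * U z.1 / w z.1) + k ((γ' none : ℝ) * z.2 / w z.1) - 1 := by
      funext z; simp [rgG, h0]
    have hpp := pk_param_prod hp
    have haU : rm_J z.2 a₀ ∈ {b : R315.E (n - hits γ'.par + 1) | rm_tl _ b ∈ O} := by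
      show rm_tl _ (rm_J z.2 a₀) ∈ O
      rw [rm_tl_J]; exact ha₀
    refine rgf_gradSq_pos_of_map (H.geoY γ').mfd (H.geoY γ').met (H.smG γ') hz
      (Φ := fun b : R315.E (n - hits γ'.par + 1) => (ψ (rm_tl _ b), b 0)) (b := rm_J z.2 a₀)
      (if_differentiableAt hpp haU) ?_ ?_ ?_
    · show (ψ (rm_tl _ (rm_J z.2 a₀)), rm_J z.2 a₀ 0) = z
      rw [rm_tl_J, rm_J_zero, hza]
    · filter_upwards [(if_open hpp).mem_nhds haU] with b hb
      rw [rgY_of_side E₀ h0]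
      exact if_mem hpp hb
    · rw [e]
      refine rgf_G_fderiv_ne H.corner hp (H.U_sm _ ψ O hp) (H.w_sm _ ψ O hp)
        (fun b hb => H.w_pos _ _ (if_mem hp hb)) (rgf_sign_ne h0) ha₀ z.2 ?_ hne
      rw [e] at hz0
      rw [hza]
      linarith

theorem geoX (H : RgfLoc n F E₀ h dr U w k) (γ' : Stat (Option ι)) :
    CtGeo (n - hits γ') (splitE E₀ U w k γ') (extTen h) (fun y => dr y.1) := by
  have hsub : splitE E₀ U w k γ' ⊆ Prod.fst ⁻¹' E₀ γ'.par := fun z hz => hz.1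
  refine ⟨fun p hp => ?_, pk_isMetricOn_ext (H.mfd _) hsub (H.met _),
    pk_smoothAlong_fst (H.mfd _) hsub (H.dr_sm _)⟩
  have hd := rgf_rgYd_eq (H.dim γ'.par ⟨p.1, hp.1⟩)
  have G := H.geoY γ'
  have hs := H.smG γ'
  have hr := fun z hz hz0 => H.regG γ' (z := z) hz hz0
  rw [hd] at G hs hr
  have := rm_level_mfd G.mfd G.met hs hr
  rw [splitE_eq_Lv] at hp ⊢
  exact this p hp

theorem baseY (H : RgfLoc n F E₀ h dr U w k) {γ' : Stat (Option ι)} {J' : Finset (Option ι)}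
    (hJ : ∀ j ∈ J', γ' j = 0) :
    RgfBase F.ext J' (rgYd n γ') (rgY E₀ γ') (extTen h) (fun y => dr y.1) := by
  refine ⟨H.geoY γ', fun x hx j hj => ?_, fun x hx j hj y => ?_⟩
  · cases j with
    | none => exact hx.2 (hJ _ hj)
    | some i => exact H.t_hit _ _ hx.1 i (hJ _ hj)
  · cases j with
    | none =>
      have e : F.ext.e none = ((0 : W), (1 : ℝ)) := rfl
      rw [e, extTen_apply, extTen_apply, F.ext_t_none]
      simp
    | some i =>
      have e : F.ext.e (some i) = (F.e i, (0 : ℝ)) := rfl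
      have := H.normal _ _ hx.1 i (hJ _ hj) y.1
      rw [e, extTen_apply, extTen_apply, F.ext_t_some]
      simp [this.1, this.2]

theorem baseX (H : RgfLoc n F E₀ h dr U w k) {γ' : Stat (Option ι)} {J' : Finset (Option ι)}
    (hJ : ∀ j ∈ J', γ' j = 0) :
    RgfBase F.ext J' (n - hits γ') (splitE E₀ U w k γ') (extTen h) (fun y => dr y.1) :=
  ⟨H.geoX γ', fun x hx => (H.baseY hJ).flat x (splitE_sub_rgY _ _ _ _ _ hx),
    fun x hx => (H.baseY hJ).normal x (splitE_sub_rgY _ _ _ _ _ hx)⟩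

end RgfLoc

end loc

end Claimed.Agent.R315
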