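import Claimed.Agent.R315.Pk.Thr

/-!
# Row 315, unit BP-RG-FIN: forward compatible sets and their Urysohn functions

The union of the guards, the closures of the cores, the sets `{u ≤ 0}` ... are only FORWARD compatible: far out in a tail the projection `drop i`
maps the set into itself (the converse fails: the face has more undecided labels to offer / a lower requirement).  This is all that a compatible Urysohn function needs:

* `FCompat F E A`, `FThr F E A T`, `FCompat.exists_thr`, `FThr.dropS`, closure properties (`union`, `inter`, `iUnion`, `Compat.fcompat`, `Compat.fcompat_compl`);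
* `rgf_urysohn₀`, `rgf_urysohn` : `A`, `Z` closed in every status space, forward compatible, disjoint ⟹ `χ` smooth compatible, `0 ≤ χ ≤ 1`, `χ = 1` (near) `A`, `χ = 0` (near) `Z`;
* sub/superlevel sets of `SC`/`CC` functions: closed / relatively open, exactly compatible (`rgf_level_*`).
-/

set_option autoImplicit false
set_option linter.unusedSectionVars false
open scoped ContDiff Topology Manifold
open MeasureTheory Claims.C0499

namespace Claimed.Agent.R315

variable {V W : Type} [NormedAddCommGroup V] [NormedSpace ℝ V] [NormedAddCommGroup W]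
  [NormedSpace ℝ W] {ι : Type}

/-- forward compatible set: far out in every tail `drop i` maps `A` into `A`; thresholds locally uniform over `V`. -/
def FCompat (F : Frame V W ι) (E : Stat ι → Set W) (A : Set W) : Prop :=
  ∀ i, ∀ K : Set V, IsCompact K → ∃ R : ℝ, ∀ z ∈ tot E, F.q z ∈ K → R < |F.t i z| → z ∈ A →
    F.drop i z ∈ A

/-- `T` is a forward threshold function of `A`. -/
def FThr (F : Frame V W ι) (E : Stat ι → Set W) (A : Set W) (T : V → ℝ) : Prop :=
  ∀ i, ∀ z ∈ tot E, T (F.q z) < |F.t i z| → z ∈ A → F.drop i z ∈ A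

theorem FThr.mono {F : Frame V W ι} {E : Stat ι → Set W} {A : Set W} {T T' : V → ℝ}
    (h : FThr F E A T) (hTT : ∀ x, T x ≤ T' x) : FThr F E A T' :=
  fun i z hz hlt => h i z hz (lt_of_le_of_lt (hTT _) hlt)

theorem FThr.fcompat {F : Frame V W ι} {E : Stat ι → Set W} {A : Set W} {T : V → ℝ}
    (h : FThr F E A T) (hT : Continuous T) : FCompat F E A := by
  intro i K hK
  obtain ⟨C, hC⟩ := (hK.image hT).bddAbove
  exact ⟨C, fun z hz hq hlt => h i z hz (lt_of_le_of_lt (hC ⟨_, hq, rfl⟩) hlt)⟩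

theorem Compat.fcompat {F : Frame V W ι} {E : Stat ι → Set W} {A : Set W}
    (h : Compat F E (fun z => z ∈ A)) : FCompat F E A := by
  intro i K hK
  obtain ⟨R, hR⟩ := h i K hK
  exact ⟨R, fun z hz hq hlt hA => (hR z hz hq hlt).mpr hA⟩

theorem Compat.fcompat_compl {F : Frame V W ι} {E : Stat ι → Set W} {A : Set W}
    (h : Compat F E (fun z => z ∈ A)) : FCompat F E Aᶜ := by
  intro i K hK
  obtain ⟨R, hR⟩ := h i K hK
  exact ⟨R, fun z hz hq hlt hA hd => hA ((hR z hz hq hlt).mp hd)⟩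

theorem FCompat.union {F : Frame V W ι} {E : Stat ι → Set W} {A B : Set W}
    (hA : FCompat F E A) (hB : FCompat F E B) : FCompat F E (A ∪ B) := by
  intro i K hK
  obtain ⟨R, hR⟩ := hA i K hK
  obtain ⟨R', hR'⟩ := hB i K hK
  refine ⟨max R R', fun z hz hq hlt h => ?_⟩
  rcases h with h | h
  · exact Or.inl (hR z hz hq (lt_of_le_of_lt (le_max_left _ _) hlt) h)
  · exact Or.inr (hR' z hz hq (lt_of_le_of_lt (le_max_right _ _) hlt) h)

theorem FCompat.inter {F : Frame V W ι} {E : Stat ι → Set W} {A B : Set W}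
    (hA : FCompat F E A) (hB : FCompat F E B) : FCompat F E (A ∩ B) := by
  intro i K hK
  obtain ⟨R, hR⟩ := hA i K hK
  obtain ⟨R', hR'⟩ := hB i K hK
  exact ⟨max R R', fun z hz hq hlt h =>
    ⟨hR z hz hq (lt_of_le_of_lt (le_max_left _ _) hlt) h.1,
      hR' z hz hq (lt_of_le_of_lt (le_max_right _ _) hlt) h.2⟩⟩

theorem FCompat.exists_thr [FiniteDimensional ℝ V] [Fintype ι] {F : Frame V W ι}
    {E : Stat ι → Set W} {A : Set W} (h : FCompat F E A) :
    ∃ T : V → ℝ, ContDiff ℝ ∞ T ∧ (∀ x, 0 ≤ T x) ∧ FThr F E A T := by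
  classical
  obtain ⟨T, h1, h2, h3⟩ := pk_thr_of_local
    (Pr := fun R x => ∀ i, ∀ z ∈ tot E, F.q z = x → R < |F.t i z| → z ∈ A → F.drop i z ∈ A)
    (fun R R' x hRR h i z hz hq hlt => h i z hz hq (lt_of_le_of_lt hRR hlt))
    (fun K hK => by
      choose R hR using fun i => h i K hK
      obtain ⟨D, hD⟩ := (Finset.univ.image R).bddAbove
      refine ⟨D, fun x hx i z hz hq hlt => hR i z hz (hq ▸ hx) (lt_of_le_of_lt (hD ?_) hlt)⟩
      simp)
  exact ⟨T, h1, h2, fun i z hz hlt => h3 (F.q z) i z hz rfl hlt⟩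

section diag

variable [Fintype ι] {n : ℕ} {M : Set V} {F : Frame V W ι} {E : Stat ι → Set W}

theorem FThr.dropS (hD : IsDiag n M F E) {T : V → ℝ} (hT0 : ∀ x, 0 ≤ T x) (hT : DThr F E T)
    {A : Set W} (hA : FThr F E A T) (S : Finset ι) :
    ∀ {z : W}, z ∈ tot E → (∀ i ∈ S, T (F.q z) < |F.t i z|) → z ∈ A → F.dropS S z ∈ A := by
  classical
  induction S using Finset.induction_on with
  | empty =>
    intro z _ _ h
    rw [F.dropS_empty]; exact h
  | insert i S hi ih =>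
    intro z hz hS h
    obtain ⟨α, hα⟩ := mem_tot.1 hz
    have h1 := hT.drop_mem hD hT0 hα (hS i (Finset.mem_insert_self i S))
    rw [F.dropS_insert hi]
    refine ih (mem_tot.2 ⟨_, h1⟩) (fun j hj => ?_) (hA i z hz (hS i (Finset.mem_insert_self i S)) h)
    have hji : j ≠ i := fun h => hi (h ▸ hj)
    rw [F.q_drop, F.t_drop_ne hji]
    exact hS j (Finset.mem_insert_of_mem hj)

/-- **compatible Urysohn functions of forward compatible sets**, first form. -/
theorem rgf_urysohn₀ [FiniteDimensional ℝ V] [FiniteDimensional ℝ W] (hD : IsDiag n M F E)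
    {A Z : Set W} (hA : ∀ α, IsClosed (A ∩ E α)) (hZ : ∀ α, IsClosed (Z ∩ E α))
    (hAZ : ∀ z ∈ tot E, z ∈ A → z ∉ Z) (hAc : FCompat F E A) (hZc : FCompat F E Z) :
    ∃ χ : W → ℝ, SC n F E χ ∧ (∀ z, χ z ∈ Set.Icc (0 : ℝ) 1) ∧ (∀ z ∈ A ∩ tot E, χ z = 1) ∧
      ∀ z ∈ Z ∩ tot E, χ z = 0 := by
  obtain ⟨T1, h1s, h10, h1⟩ := hD.exists_thr
  obtain ⟨T2, h2s, h20, h2⟩ := hAc.exists_thr
  obtain ⟨T3, h3s, h30, h3⟩ := hZc.exists_thr
  set T : V → ℝ := fun x => T1 x + T2 x + T3 x with hTdef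
  have hTs : ContDiff ℝ ∞ T := (h1s.add h2s).add h3s
  have hT0 : ∀ x, 0 ≤ T x := fun x => add_nonneg (add_nonneg (h10 x) (h20 x)) (h30 x)
  have hT : DThr F E T := h1.mono fun x => by
    have := h20 x; have := h30 x; simp only [hTdef]; linarith
  have hTA : FThr F E A T := h2.mono fun x => by
    have := h10 x; have := h30 x; simp only [hTdef]; linarith
  have hTZ : FThr F E Z T := h3.mono fun x => by
    have := h10 x; have := h20 x; simp only [hTdef]; linarith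
  have hex : ∀ α, ∃ f : W → ℝ, ContDiff ℝ ∞ f ∧ Set.EqOn f 0 (Z ∩ E α) ∧
      Set.EqOn f 1 (A ∩ E α) ∧ ∀ x, f x ∈ Set.Icc (0 : ℝ) 1 := by
    intro α
    have hd : Disjoint (Z ∩ E α) (A ∩ E α) := by
      rw [Set.disjoint_left]
      intro z hz hz'
      exact hAZ z (mem_tot.2 ⟨α, hz.2⟩) hz'.1 hz.1
    obtain ⟨f, hf0, hf1, hf⟩ := exists_contMDiffMap_zero_one_of_isClosed (n := (⊤ : ℕ∞)) 𝓘(ℝ, W)
      (hZ α) (hA α) hd
    exact ⟨f, f.contMDiff.contDiff, hf0, hf1, hf⟩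
  choose v hvs hv0 hv1 hv using hex
  refine ⟨pkBlend F T (pkGlue E v), pkBlend_sc hD hT0 hTs hT fun α => ?_, fun z => ?_, ?_, ?_⟩
  · exact pk_smoothAlong_congr (if_smoothAlong_of_contDiff (hvs α)) fun z hz => pkGlue_eq hD v hz
  · exact pkBlend_mem_convex F T _ (convex_Icc 0 1) fun S _ => pkGlue_mem v hv _
  · rintro z ⟨hzA, hz⟩
    obtain ⟨α, hα⟩ := mem_tot.1 hz
    refine pkBlend_mem_convex F T _ (convex_singleton (1 : ℝ)) fun S hS => ?_
    have hm := pkWt_dropS_mem hD hT0 hT hα hS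
    have hmA : F.dropS S z ∈ A :=
      hTA.dropS hD hT0 hT S hz (fun i hi => by linarith [(pkWt_ne_zero F hS).1 i hi]) hzA
    rw [Set.mem_singleton_iff, pkGlue_eq hD v hm]
    exact hv1 _ ⟨hmA, hm⟩
  · rintro z ⟨hzZ, hz⟩
    obtain ⟨α, hα⟩ := mem_tot.1 hz
    refine pkBlend_mem_convex F T _ (convex_singleton (0 : ℝ)) fun S hS => ?_
    have hm := pkWt_dropS_mem hD hT0 hT hα hS
    have hmZ : F.dropS S z ∈ Z :=
      hTZ.dropS hD hT0 hT S hz (fun i hi => by linarith [(pkWt_ne_zero F hS).1 i hi]) hzZ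
    rw [Set.mem_singleton_iff, pkGlue_eq hD v hm]
    exact hv0 _ ⟨hmZ, hm⟩

/-- **compatible Urysohn functions of forward compatible sets**: `1` near `A`, `0` near `Z`. -/
theorem rgf_urysohn [FiniteDimensional ℝ V] [FiniteDimensional ℝ W] (hD : IsDiag n M F E)
    {A Z : Set W} (hA : ∀ α, IsClosed (A ∩ E α)) (hZ : ∀ α, IsClosed (Z ∩ E α))
    (hAZ : ∀ z ∈ tot E, z ∈ A → z ∉ Z) (hAc : FCompat F E A) (hZc : FCompat F E Z) :
    ∃ χ : W → ℝ, SC n F E χ ∧ (∀ z, χ z ∈ Set.Icc (0 : ℝ) 1) ∧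
      (∀ α, ∀ z ∈ A ∩ E α, ∃ N ∈ 𝓝 z, ∀ y ∈ N ∩ E α, χ y = 1) ∧
      ∀ α, ∀ z ∈ Z ∩ E α, ∃ N ∈ 𝓝 z, ∀ y ∈ N ∩ E α, χ y = 0 := by
  obtain ⟨χ, hsc, -, h1, h0⟩ := rgf_urysohn₀ hD hA hZ hAZ hAc hZc
  have hG : ContDiff ℝ ∞ fun x : ℝ => Real.smoothTransition (3 * x - 1) :=
    Real.smoothTransition.contDiff.comp ((contDiff_const.mul contDiff_id).sub contDiff_const)
  have hc : ∀ α, ContinuousOn χ (E α) := fun α =>
    if_smoothAlong_continuousOn (hD.mfd α) (hsc.1 α)
  refine ⟨_, hsc.comp_contDiff hG, fun z => ⟨Real.smoothTransition.nonneg _,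
    Real.smoothTransition.le_one _⟩, fun α z hz => ?_, fun α z hz => ?_⟩
  · have h2 : χ z = 1 := h1 z ⟨hz.1, mem_tot.2 ⟨α, hz.2⟩⟩
    have h3 : ∀ᶠ y in 𝓝[E α] z, (2 / 3 : ℝ) < χ y :=
      (hc α z hz.2).eventually (lt_mem_nhds (by rw [h2]; norm_num))
    obtain ⟨N, hN, hsub⟩ := mem_nhdsWithin_iff_exists_mem_nhds_inter.1 h3
    refine ⟨N, hN, fun y hy => Real.smoothTransition.one_of_one_le ?_⟩
    have : (2 / 3 : ℝ) < χ y := hsub hy
    linarith
  · have h2 : χ z = 0 := h0 z ⟨hz.1, mem_tot.2 ⟨α, hz.2⟩⟩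
    have h3 : ∀ᶠ y in 𝓝[E α] z, χ y < (1 / 3 : ℝ) :=
      (hc α z hz.2).eventually (gt_mem_nhds (by rw [h2]; norm_num))
    obtain ⟨N, hN, hsub⟩ := mem_nhdsWithin_iff_exists_mem_nhds_inter.1 h3
    refine ⟨N, hN, fun y hy => Real.smoothTransition.zero_of_nonpos ?_⟩
    have : χ y < (1 / 3 : ℝ) := hsub hy
    linarith

/-! ### level sets of compatible functions -/

theorem rgf_level_compat {X : Type} {φ : W → X} (h : Compat F E φ) (S : Set X) :
    Compat F E (fun z => z ∈ φ ⁻¹' S) := by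
  intro i K hK
  obtain ⟨R, hR⟩ := h i K hK
  exact ⟨R, fun z hz hq hlt => by simp only [Set.mem_preimage, hR z hz hq hlt]⟩

theorem rgf_level_closed {X : Type} [TopologicalSpace X] {φ : W → X} (hD : IsDiag n M F E)
    (h : ∀ α, ContinuousOn φ (E α)) {S : Set X} (hS : IsClosed S) (α : Stat ι) :
    IsClosed (φ ⁻¹' S ∩ E α) := by
  rw [Set.inter_comm]
  exact (h α).preimage_isClosed_of_isClosed (hD.closed α) hS

theorem rgf_level_relOpen {X : Type} [TopologicalSpace X] {φ : W → X}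
    (h : ∀ α, ContinuousOn φ (E α)) {S : Set X} (hS : IsOpen S) : RelOpen E (φ ⁻¹' S) := by
  intro α z hz
  have h3 : ∀ᶠ y in 𝓝[E α] z, φ y ∈ S := (h α z hz.2).eventually (hS.mem_nhds hz.1)
  obtain ⟨N, hN, hsub⟩ := mem_nhdsWithin_iff_exists_mem_nhds_inter.1 h3
  exact ⟨N, hN, fun y hy => hsub hy⟩

theorem SC.continuousOn {X : Type} [NormedAddCommGroup X] [NormedSpace ℝ X] {φ : W → X}
    (hD : IsDiag n M F E) (h : SC n F E φ) (α : Stat ι) : ContinuousOn φ (E α) :=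
  if_smoothAlong_continuousOn (hD.mfd α) (h.1 α)

end diag

end Claimed.Agent.R315
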