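import Claimed.Agent.R315.Rg.FinV

/-!
# Row 315, package Rg-FIN (architect helper266), file `Rg/FinX.lean`: THE DIAGRAM TRANSFER `rgf_transfer`

Setting: a diagram `(n, M, F, E)` with compatible metric `h`, drift `dr`, width `w`, corner profile `kk`; `Ω` open, `E₀ α = E α ∩ Ω`, `U` a regular defining function on the `E₀ α` (`RgfLoc`).
`α'` a status of the NEW diagram, `J'` a set of its non-hit entries (`none` allowed), `s'` escapes in the tails `J'` (`RgfEsc α' J' s'`, frame `F.ext`), `γ' = α'.faceS J'`, `a k = F.ext.vec J' (s' k)`,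
`J = J'.eraseNone`, `γ = γ'.par = α'.par.faceS J`.  `u k` arbitrary functions whose translates converge to `U ∘ dropS J` near `y'.1` along the member `(γ, J)`.

`rgf_transfer`:  `LL[splitE E (u k) w kk] α' (v α') (y k + a k) → LL[splitE E₀ U w kk] γ' (v γ') (F.ext.dropS J' y')`, and the limit point lies on the true piece.

Ingredients (leaves, all elementary):
* `rgf_win_Y`    : windows of the ambient manifolds `rgY E α'` (from `ct_window`, `ct_window_compat`);
* `rgf_win_compat`, `rgf_win_fam` : compatible data / compatible ambient families in the windows;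
* `rgfQ`, `rgf_conv_Q`, `rgf_piece_Q` : the effective defining functions (`u ∘ fst` if `none ∈ J'`: far out in the new tail the piece is the cylinder `{u = 0} × ℝ`), their convergence;
* `rgf_LL_local` : locality of `LL`.
-/

set_option autoImplicit false
set_option linter.unusedSectionVars false
open scoped ContDiff Topology
open Claims.C0499 Set Filter

namespace Claimed.Agent.R315

variable {V W : Type} [NormedAddCommGroup V] [NormedSpace ℝ V] [NormedAddCommGroup W]
  [NormedSpace ℝ W] {ι : Type}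

/-! ### locality -/

section local_

variable {d : ℕ} {X X' : Set W} {h : Ten W} {t f Vs : W → ℝ} {C : ℝ} {O : Set W} {x : W}

theorem rgf_wlap_local (hO : IsOpen O) (hx : x ∈ O) (e : X ∩ O = X' ∩ O) :
    wlap d X h t f x = wlap d X' h t f x := by
  unfold wlap
  rw [← if_lap_inter' (M := X) h f hO hx, ← if_gradIp_inter' (M := X) h t f hO hx, e,
    if_lap_inter' h f hO hx, if_gradIp_inter' h t f hO hx]

theorem rgf_Dsc_local (hO : IsOpen O) (hx : x ∈ O) (e : X ∩ O = X' ∩ O) :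
    Dsc d X h t x = Dsc d X' h t x := by
  rw [← if_Dsc_inter' (M := X) h t hO hx, e, if_Dsc_inter' h t hO hx]

/-- **locality of `LL`.** -/
theorem rgf_LL_local (hO : IsOpen O) (hx : x ∈ O) (e : X ∩ O = X' ∩ O) :
    rgL d X h t C (fun z => Dsc d X h t z - Vs z) f x =
      rgL d X' h t C (fun z => Dsc d X' h t z - Vs z) f x := by
  unfold rgL
  simp only [rgf_wlap_local (h := h) (t := t) (f := f) hO hx e,
    rgf_Dsc_local (h := h) (t := t) hO hx e]

end local_

/-! ### definitions -/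

/-- exactly compatible family of ambient functions (`RgSuper.compat`). -/
def RgfFam (F : Frame V W ι) (E : Stat ι → Set W) (v : Stat (Option ι) → W × ℝ → ℝ) : Prop :=
  ∀ (i' : Option ι) (K : Set V), IsCompact K → ∃ R : ℝ, ∀ α' : Stat (Option ι),
    α' i' ≠ 0 → ∀ z ∈ rgY E α', F.q z.1 ∈ K → R < |F.ext.t i' z| →
      v (α'.face i') (F.ext.drop i' z) = v α' z

/-- the window around `y'`. -/
def rgfN (F : Frame V W ι) (J' : Finset (Option ι)) (Ω : Set W) (y' : W × ℝ) : Set (W × ℝ) :=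
  {z | z ∈ Metric.ball y' 1 ∧ F.dropS J'.eraseNone z.1 ∈ Ω}

open Classical in
/-- the effective defining function of the piece `α'` in the windows escaping in `J'`. -/
noncomputable def rgfQ (u w : W → ℝ) (kk : ℝ → ℝ) (α' : Stat (Option ι)) (J' : Finset (Option ι)) :
    W × ℝ → ℝ :=
  if none ∈ J' then fun z => u z.1 else rgG u w kk α'

theorem RgfX_eqns_cite : True := by
  have := @RgfFam.eq_1; have := @rgfN.eq_1; have := @rgfQ.eq_1; trivial

theorem rgfN_isOpen (F : Frame V W ι) (J' : Finset (Option ι)) {Ω : Set W} (hΩ : IsOpen Ω)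
    (y' : W × ℝ) : IsOpen (rgfN F J' Ω y') :=
  Metric.isOpen_ball.inter (hΩ.preimage ((F.continuous_dropS _).comp continuous_fst))

theorem rgf_esc_par {α' : Stat (Option ι)} {J' : Finset (Option ι)} {s' : ℕ → Option ι → ℝ}
    (hs : RgfEsc α' J' s') : RgfEsc α'.par J'.eraseNone (fun k i => s' k (some i)) :=
  ⟨fun _ hj => hs.1 _ (Finset.mem_eraseNone.1 hj), fun _ hj => hs.2 _ (Finset.mem_eraseNone.1 hj)⟩

section diag

variable [FiniteDimensional ℝ V] [FiniteDimensional ℝ W] [Fintype ι] {n : ℕ} {M : Set V}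
  {F : Frame V W ι} {E : Stat ι → Set W} {α' : Stat (Option ι)} {J' : Finset (Option ι)}
  {s' : ℕ → Option ι → ℝ}

/-! ### LEAF PACKAGE L-RG-FIN-X1: windows -/

omit [NormedAddCommGroup V] [NormedSpace ℝ V] [FiniteDimensional ℝ V] [FiniteDimensional ℝ W] [Fintype ι] in
theorem rgfx_fst_mem {y' z : W × ℝ} (hz : z ∈ Metric.ball y' 1) : z.1 ∈ Metric.closedBall y'.1 1 := by
  rw [Metric.mem_closedBall]
  rw [Metric.mem_ball, Prod.dist_eq] at hz
  exact (le_max_left _ _).trans hz.le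

omit [NormedAddCommGroup V] [NormedSpace ℝ V] [NormedAddCommGroup W] [NormedSpace ℝ W]
  [FiniteDimensional ℝ V] [FiniteDimensional ℝ W] [Fintype ι] in
theorem rgfx_sign_mul_le (a : SignType) (x : ℝ) : (a : ℝ) * x ≤ |x| := by
  calc (a : ℝ) * x ≤ |(a : ℝ) * x| := le_abs_self _
    _ = |(a : ℝ)| * |x| := abs_mul _ _
    _ ≤ 1 * |x| := by gcongr; exact ct_abs_sign_le a
    _ = |x| := one_mul _

/-- compatible data in the windows.
PLAN: `rgf_ext_vec`, `rgf_ext_dropS`; `ct_window_compat hD α'.par J'.eraseNone (rgf_esc_par hs).1 _ (rgf_esc_par hs).2 (K := closedBall y'.1 1) hφ`; `z ∈ ball y' 1 → z.1 ∈ closedBall y'.1 1` (sup norm on the product). -/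
theorem rgf_win_compat (hD : IsDiag n M F E) {X : Type} {φ : W → X} (hφ : Compat F E φ)
    (hs : RgfEsc α' J' s') (y' : W × ℝ) :
    ∀ᶠ k in atTop, ∀ z ∈ Metric.ball y' 1, z + F.ext.vec J' (s' k) ∈ rgY E α' →
      φ (z + F.ext.vec J' (s' k)).1 = φ (F.ext.dropS J' z).1 := by
  have hp := rgf_esc_par hs
  filter_upwards [ct_window_compat hD α'.par J'.eraseNone hp.1 _ hp.2
    (isCompact_closedBall y'.1 1) hφ] with k hk z hz hzY
  rw [rgf_ext_vec] at hzY ⊢
  rw [rgf_ext_dropS]
  exact hk z.1 (rgfx_fst_mem hz) hzY.1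

/-- **windows of the ambient manifolds.**
PLAN: `ct_window hD α'.par J'.eraseNone ..` on `closedBall y'.1 1` + `rgf_win_compat` for `h`.  `set`: unfold `rgY`, `Frame.cyl`, `rgf_ext_vec`, `rgf_ext_dropS`, `rgf_par_faceS`, `rgf_faceS_none`; cases `none ∈ J'`
(then `α' none ≠ 0` by `hs.1`, both side conditions are trivial) or not (then the last coordinate is not moved).  `met`: `extTen h z` only depends on `h z.1` (`ext`, `extTen_apply`). -/
theorem rgf_win_Y (hD : IsDiag n M F E) {h : Ten W} (hh : Compat F E h) {Ω : Set W}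
    (hΩ : IsOpen Ω) (hs : RgfEsc α' J' s') (y' : W × ℝ) :
    ∀ᶠ k in atTop, RgfWin (rgY E α') (F.ext.cyl J' (rgY (fun α => E α ∩ Ω) (α'.faceS J')))
      (extTen h) (fun z => extTen h (F.ext.dropS J' z)) (F.ext.vec J' (s' k))
      (rgfN F J' Ω y') := by
  classical
  have hp := rgf_esc_par hs
  filter_upwards [ct_window hD α'.par J'.eraseNone hp.1 _ hp.2 (isCompact_closedBall y'.1 1),
    rgf_win_compat hD hh hs y'] with k hk hk2
  have hset : ∀ z ∈ rgfN F J' Ω y', (z + F.ext.vec J' (s' k) ∈ rgY E α' ↔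
      z ∈ F.ext.cyl J' (rgY (fun α => E α ∩ Ω) (α'.faceS J'))) := by
    intro z hz
    have h1 := hk z.1 (rgfx_fst_mem hz.1)
    show _ ↔ F.ext.dropS J' z ∈ rgY (fun α => E α ∩ Ω) (α'.faceS J')
    rw [rgf_ext_vec, rgf_ext_dropS]
    unfold rgY
    simp only [mem_ofPred_eq, rgf_par_faceS, rgf_faceS_none, Prod.fst_add, Prod.snd_add]
    by_cases hn : none ∈ J'
    · have hα : α' none ≠ 0 := hs.1 _ hn
      simp only [if_pos hn, hα, false_imp_iff, and_true, forall_true_left]
      exact ⟨fun h => ⟨h1.1 h, hz.2⟩, fun h => h1.2 h.1⟩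
    · simp only [if_neg hn, add_zero]
      exact ⟨fun h => ⟨⟨h1.1 h.1, hz.2⟩, h.2⟩, fun h => ⟨h1.2 h.1.1, h.2⟩⟩
  refine ⟨rgfN_isOpen F J' hΩ y', hset, fun z hz => ?_⟩
  have h2 := hk2 z hz.2.1 ((hset z hz.2).2 hz.1)
  unfold extTen
  simp only [h2]

/-- iterated compatibility of an ambient family.
PLAN: induction on `S` as in `Thr.dropS` (`F.ext.dropS_insert`, `Stat.faceS_insert`).  One step: `z ∈ rgY E α'`, `α' j ≠ 0`, `R < |t j z|` ⟹ `F.ext.drop j z ∈ rgY E (α'.face j)`
(`j = none`: `Frame.ext_drop_none`; `j = some i`: `Frame.ext_drop_some`, `sh_unif_thr`/`DThr.drop_mem`) and `v (α'.face j) (drop j z) = v α' z`; `R` = max of the finitely many thresholds over `K`. -/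
theorem rgf_fam_dropS (hD : IsDiag n M F E) {v : Stat (Option ι) → W × ℝ → ℝ}
    (hv : RgfFam F E v) {K : Set V} (hK : IsCompact K) :
    ∃ R : ℝ, ∀ (S : Finset (Option ι)) (α' : Stat (Option ι)), ∀ z ∈ rgY E α', F.q z.1 ∈ K →
      (∀ j ∈ S, α' j ≠ 0 ∧ R < |F.ext.t j z|) →
      v (α'.faceS S) (F.ext.dropS S z) = v α' z := by
  classical
  obtain ⟨T, hTs, hT0, hT⟩ := hD.exists_thr
  obtain ⟨C, hC⟩ := (hK.image hTs.continuous).bddAbove
  choose Rv hRv using fun i' => hv i' K hK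
  have hle : ∀ i', Rv i' ≤ |C| + ∑ i', |Rv i'| := fun i' => by
    have h1 : |Rv i'| ≤ ∑ i', |Rv i'| :=
      Finset.single_le_sum (f := fun i' => |Rv i'|) (fun _ _ => abs_nonneg _) (Finset.mem_univ i')
    linarith [le_abs_self (Rv i'), abs_nonneg C]
  have hCle : C ≤ |C| + ∑ i', |Rv i'| := by
    have h1 : 0 ≤ ∑ i', |Rv i'| := Finset.sum_nonneg fun _ _ => abs_nonneg _
    linarith [le_abs_self C]
  refine ⟨|C| + ∑ i', |Rv i'|, fun S => ?_⟩
  induction S using Finset.induction_on with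
  | empty =>
    intro α' z _ _ _
    rw [F.ext.dropS_empty, Stat.faceS_empty]
  | insert j S hj ih =>
    intro α' z hz hq hS
    obtain ⟨hαj, hRj⟩ := hS j (Finset.mem_insert_self j S)
    rw [F.ext.dropS_insert hj, ← Stat.faceS_insert]
    have hmem : F.ext.drop j z ∈ rgY E (α'.face j) := by
      cases j with
      | none =>
        rw [F.ext_drop_none]
        refine ⟨?_, fun _ => rfl⟩
        have : (α'.face none).par = α'.par := by
          funext i
          exact Stat.face_ne _ (by simp)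
        rw [this]
        exact hz.1
      | some i =>
        rw [F.ext_drop_some]
        have hpar : (α'.face (some i)).par = α'.par.face i := by
          funext i₁
          by_cases h : i₁ = i
          · subst h
            show (α'.face (some i₁)) (some i₁) = α'.par.face i₁ i₁
            rw [Stat.face_self, Stat.face_self]
          · have h' : some i₁ ≠ some i := fun e => h (Option.some.inj e)
            show (α'.face (some i)) (some i₁) = α'.par.face i i₁
            rw [Stat.face_ne _ h', Stat.face_ne _ h]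
            rfl
        refine ⟨?_, fun h0 => hz.2 ?_⟩
        · rw [hpar]
          refine hT.drop_mem hD hT0 hz.1 ?_
          rw [F.ext_t_some] at hRj
          exact lt_of_le_of_lt ((hC ⟨_, hq, rfl⟩).trans hCle) hRj
        · rwa [Stat.face_ne _ (by simp)] at h0
    have hq' : F.q (F.ext.drop j z).1 ∈ K := by
      have : F.ext.q (F.ext.drop j z) = F.ext.q z := F.ext.q_drop j z
      rw [F.ext_q, F.ext_q] at this
      rw [this]; exact hq
    rw [ih (α'.face j) (F.ext.drop j z) hmem hq' fun j' hj' => ?_]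
    · exact hRv j α' hαj z hz hq (lt_of_le_of_lt (hle j) hRj)
    · have hne : j' ≠ j := fun h => hj (h ▸ hj')
      obtain ⟨h1, h2⟩ := hS j' (Finset.mem_insert_of_mem hj')
      rw [F.ext.t_drop_ne hne]
      refine ⟨?_, h2⟩
      rwa [Stat.face_ne _ hne]

/-- compatible ambient families in the windows.
PLAN: `rgf_fam_dropS` over `K = q '' closedBall y'.1 1`, `ct_window_large (F := F.ext) α' J' s' hs.2 (isCompact_closedBall y' 1) R`, `le_abs_self`/`abs_mul`, `Frame.dropS_add_vec`, `Frame.q_vec`. -/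
theorem rgf_win_fam (hD : IsDiag n M F E) {v : Stat (Option ι) → W × ℝ → ℝ} (hv : RgfFam F E v)
    (hs : RgfEsc α' J' s') (y' : W × ℝ) :
    ∀ᶠ k in atTop, ∀ z ∈ Metric.ball y' 1, z + F.ext.vec J' (s' k) ∈ rgY E α' →
      v α' (z + F.ext.vec J' (s' k)) = v (α'.faceS J') (F.ext.dropS J' z) := by
  obtain ⟨R, hR⟩ := rgf_fam_dropS hD hv
    ((isCompact_closedBall y'.1 1).image F.q.continuous)
  filter_upwards [ct_window_large (F := F.ext) α' J' s' hs.2 (isCompact_closedBall y' 1) R]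
    with k hk z hz hzY
  have h1 := hR J' α' _ hzY ?_ fun j hj => ⟨hs.1 j hj,
    lt_of_lt_of_le (hk z (Metric.ball_subset_closedBall hz) j hj) (rgfx_sign_mul_le _ _)⟩
  · rw [← h1, F.ext.dropS_add_vec]
  · refine ⟨z.1, rgfx_fst_mem hz, ?_⟩
    have : F.ext.q (z + F.ext.vec J' (s' k)) = F.ext.q z := by
      rw [map_add, F.ext.q_vec, add_zero]
    rw [F.ext_q, F.ext_q] at this
    exact this.symm

/-! ### LEAF PACKAGE L-RG-FIN-X2: the effective defining functions -/

omit [FiniteDimensional ℝ V] [Fintype ι] in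
/-- pull back of a smooth function by a smooth map into the manifold (any dimension `d'`). -/
theorem rgf_smoothAlong_comp {W' Y : Type} [NormedAddCommGroup W'] [NormedSpace ℝ W']
    [NormedAddCommGroup Y] [NormedSpace ℝ Y] {d d' : ℕ} {X : Set W} (hX : IsMfd d X) {f : W → Y}
    (hf : SmoothAlong d X f) {Z : Set W'} {π : W' → W} (hπ : ContDiff ℝ ∞ π)
    (hmaps : MapsTo π Z X) : SmoothAlong d' Z (fun z => f (π z)) := by
  obtain ⟨f', ⟨O, hO, hXO, hf'⟩, heq⟩ := if_exists_extension hX hf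
  intro χ U hχ
  have h1 : ContDiffOn ℝ ∞ (f' ∘ (fun u => π (χ u))) U :=
    hf'.comp (hπ.comp_contDiffOn (if_smooth hχ)) fun u hu => hXO (hmaps (if_mem hχ hu))
  exact h1.congr fun u hu => (heq (hmaps (if_mem hχ hu))).symm

omit [FiniteDimensional ℝ V] in
theorem rgf_mfdY {E₀ : Stat ι → Set W} (hmfd : ∀ α, IsMfd (n - hits α) (E₀ α))
    (γ' : Stat (Option ι)) : IsMfd (rgYd n γ') (rgY E₀ γ') := by
  unfold rgYd
  by_cases h0 : γ' none = 0
  · rw [rgY_of_hit E₀ h0, if_pos h0, add_zero]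
    exact pk_mfd_slice (hmfd _)
  · rw [rgY_of_side E₀ h0, if_neg h0]
    exact pk_mfd_prod (hmfd _)

omit [FiniteDimensional ℝ V] [Fintype ι] in
theorem rgY_isClosed {E₀ : Stat ι → Set W} {γ' : Stat (Option ι)} (hE : IsClosed (E₀ γ'.par)) :
    IsClosed (rgY E₀ γ') := by
  by_cases h0 : γ' none = 0
  · rw [rgY_of_hit E₀ h0]
    exact (hE.preimage continuous_fst).inter (isClosed_eq continuous_snd continuous_const)
  · rw [rgY_of_side E₀ h0]
    exact hE.preimage continuous_fst

/-- **convergence of the effective defining functions.**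
PLAN.  `A`: `RgfConv.comp_map (hY _ _ ..) (π := Prod.fst) isOpen_univ .. hu` gives the convergence of `u k (z + a k).1` to `U (dropS J' z).1` (`rgf_ext_vec`, `rgf_ext_dropS`).  This is the claim if `none ∈ J'`
(`rgfQ = u ∘ fst`, `(α'.faceS J') none = 0`, `rgG = U ∘ fst`) and if `α' none = 0`.  Otherwise `σ = α' none = (α'.faceS J') none ≠ 0`, the last coordinate is not moved;
`B`: `w (z + a k).1 = w (dropS J' z).1` on the window for large `k` (`rgf_win_Y`, `rgf_win_compat hw.2`), `rgfConv_of_eventually_eq`, smoothness of the limit by `rgf_smoothAlong_comp`;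
`C`: `z.2`: `rgfConv_fixed`; then `RgfConv.comp_real` (`x⁻¹` on `Ioi 0`, `kk` on `univ`), `.mul`, `.add`, `.sub`, `div_eq_mul_inv`. -/
theorem rgf_conv_Q (hD : IsDiag n M F E) (hY : RgfMem n F E) {h : Ten W} (hh : Compat F E h)
    {dr U w : W → ℝ} {kk : ℝ → ℝ} {Ω : Set W} (hΩ : IsOpen Ω) (hw : SC n F E w)
    (H : RgfLoc n F (fun α => E α ∩ Ω) h dr U w kk) (hs : RgfEsc α' J' s') {u : ℕ → W → ℝ}
    {y' : W × ℝ} (hy' : y' ∈ F.ext.cyl J' (rgY (fun α => E α ∩ Ω) (α'.faceS J')))
    (hu : RgfConv (mdim n (α'.par.faceS J'.eraseNone) J'.eraseNone)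
      (F.cyl J'.eraseNone (E (α'.par.faceS J'.eraseNone)))
      (fun k z => u k (z + F.vec J'.eraseNone (fun i => s' k (some i))))
      (fun z => U (F.dropS J'.eraseNone z)) y'.1) (D : ℕ) :
    RgfConv D (F.ext.cyl J' (rgY (fun α => E α ∩ Ω) (α'.faceS J')))
      (fun k z => rgfQ (u k) w kk α' J' (z + F.ext.vec J' (s' k)))
      (fun z => rgG U w kk (α'.faceS J') (F.ext.dropS J' z)) y' := by
  classical
  have hγJ : ∀ j ∈ J'.eraseNone, (α'.par.faceS J'.eraseNone) j = 0 := fun j hj => by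
    simp [Stat.faceS, hj]
  have hXmem : ∀ z ∈ F.ext.cyl J' (rgY (fun α => E α ∩ Ω) (α'.faceS J')),
      F.dropS J'.eraseNone z.1 ∈ E (α'.par.faceS J'.eraseNone) ∩ Ω := by
    intro z hz
    have h1 := hz.1
    rw [rgf_ext_dropS, rgf_par_faceS] at h1
    exact h1
  have hA : RgfConv D (F.ext.cyl J' (rgY (fun α => E α ∩ Ω) (α'.faceS J')))
      (fun k z => u k (z.1 + F.vec J'.eraseNone (fun i => s' k (some i))))
      (fun z => U (F.dropS J'.eraseNone z.1)) y' :=
    RgfConv.comp_map (hY _ _ hγJ) (π := Prod.fst) isOpen_univ (mem_univ _)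
      contDiff_fst.contDiffOn (fun z hz => (hXmem z hz.1).1) hy' hu
  by_cases hn : none ∈ J'
  · refine hA.congr (O := univ) univ_mem (Eventually.of_forall fun k z _ => ?_) fun z _ => ?_
    · unfold rgfQ
      rw [if_pos hn, rgf_ext_vec]
      rfl
    · unfold rgG
      rw [if_pos (by rw [rgf_faceS_none, if_pos hn]), rgf_ext_dropS]
  · by_cases h0 : α' none = 0
    · refine hA.congr (O := univ) univ_mem (Eventually.of_forall fun k z _ => ?_) fun z _ => ?_
      · unfold rgfQ rgG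
        rw [if_neg hn, if_pos h0, rgf_ext_vec]
        rfl
      · unfold rgG
        rw [if_pos (by rw [rgf_faceS_none, if_neg hn]; exact h0), rgf_ext_dropS]
    · have hyΩ := hXmem y' hy'
      have hN : rgfN F J' Ω y' ∈ 𝓝 y' :=
        (rgfN_isOpen F J' hΩ y').mem_nhds ⟨Metric.mem_ball_self one_pos, hyΩ.2⟩
      have hπ : ContDiff ℝ ∞ (fun z : W × ℝ => F.dropS J'.eraseNone z.1) :=
        (F.contDiff_dropS _).comp contDiff_fst
      have hwsm : SmoothAlong D (F.ext.cyl J' (rgY (fun α => E α ∩ Ω) (α'.faceS J')))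
          (fun z => w (F.dropS J'.eraseNone z.1)) :=
        rgf_smoothAlong_comp (hD.mfd _) (hw.1 _) hπ (fun z hz => (hXmem z hz).1)
      have hB : RgfConv D (F.ext.cyl J' (rgY (fun α => E α ∩ Ω) (α'.faceS J')))
          (fun k z => w (z.1 + F.vec J'.eraseNone (fun i => s' k (some i))))
          (fun z => w (F.dropS J'.eraseNone z.1)) y' := by
        refine rgfConv_of_eventually_eq hwsm hN ?_
        filter_upwards [rgf_win_Y hD hh hΩ hs y', rgf_win_compat hD hw.2 hs y'] with k w1 w2 z hz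
        have h3 := w2 z hz.2.1 ((w1.set z hz.2).2 hz.1)
        rw [rgf_ext_vec, rgf_ext_dropS] at h3
        exact h3
      have hC : RgfConv D (F.ext.cyl J' (rgY (fun α => E α ∩ Ω) (α'.faceS J')))
          (fun _ z => z.2) (fun z => z.2) y' :=
        rgfConv_fixed (if_smoothAlong_of_contDiff contDiff_snd)
      have hwpos : 0 < w (F.dropS J'.eraseNone y'.1) := H.w_pos _ _ hyΩ
      have hBi := hB.comp_real (Θ := fun x => x⁻¹) isOpen_Ioi
        (contDiffOn_inv ℝ |>.mono fun x hx => ne_of_gt hx) hwpos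
      have hσc := rgfConv_const (d := D)
        (X := F.ext.cyl J' (rgY (fun α => E α ∩ Ω) (α'.faceS J'))) (y := y') (α' none : ℝ)
      have h1 := ((hσc.mul hA).mul hBi).comp_real (Θ := kk) isOpen_univ
        H.corner.smooth.contDiffOn (mem_univ _)
      have h2 := ((hσc.mul hC).mul hBi).comp_real (Θ := kk) isOpen_univ
        H.corner.smooth.contDiffOn (mem_univ _)
      refine ((h1.add h2).sub (rgfConv_const 1)).congr (O := univ) univ_mem
        (Eventually.of_forall fun k z _ => ?_) fun z _ => ?_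
      · unfold rgfQ rgG
        rw [if_neg hn, if_neg h0, rgf_ext_vec, if_neg hn]
        simp only [Prod.fst_add, Prod.snd_add, add_zero, div_eq_mul_inv]
      · unfold rgG
        rw [if_neg (by rw [rgf_faceS_none, if_neg hn]; exact h0), rgf_ext_dropS, if_neg hn,
          rgf_faceS_none, if_neg hn]
        simp only [div_eq_mul_inv]

/-- **the pieces in the windows are the zero sets of the effective defining functions.**
PLAN.  `none ∉ J'`: `rgfQ = rgG`, `splitE_eq_Lv`.  `none ∈ J'`: `σ = α' none ≠ 0`.  `w ≤ Cw` on the compact set `E γ ∩ dropS J '' closedBall y'.1 1` (`SC.continuousOn`/`if_smoothAlong_continuousOn`, `IsCompact.exists_bound..`);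
for large `k` and `z` in the ball with `(z + a k).1 ∈ E α'.par`: `w (z + a k).1 = w (dropS J z.1) ∈ (0, Cw]` (`ct_window`, `ct_window_compat`), `σ * (z.2 + s' k none) ≥ σ * s' k none - |y'.2| - 1 ≥ Cw`,
so `kk (σ * τ / w) = 0` (`IsCorner.far`, `one_le_div`), and `kk (σ * u / w) = 1 ↔ u = 0` (`IsCorner.eq_one_iff`, `rgf_sign_ne`). -/
theorem rgf_piece_Q (hD : IsDiag n M F E) {w : W → ℝ} {kk : ℝ → ℝ} (hw : SC n F E w)
    (hwpos : ∀ z ∈ tot E, 0 < w z) (hk : IsCorner kk) (hs : RgfEsc α' J' s') (u : ℕ → W → ℝ)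
    (y' : W × ℝ) :
    ∀ᶠ k in atTop, ∀ z ∈ Metric.ball y' 1,
      (z + F.ext.vec J' (s' k) ∈ splitE E (u k) w kk α' ↔
        z + F.ext.vec J' (s' k) ∈ rm_Lv (rgY E α') (rgfQ (u k) w kk α' J') 0) := by
  classical
  by_cases hn : none ∈ J'
  · have hσ : α' none ≠ 0 := hs.1 _ hn
    have hσ' : (α' none : ℝ) ≠ 0 := rgf_sign_ne hσ
    have hp := rgf_esc_par hs
    -- bound of the width
    have hKc : IsCompact (E (α'.par.faceS J'.eraseNone) ∩
        F.dropS J'.eraseNone '' Metric.closedBall y'.1 1) :=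
      ((isCompact_closedBall y'.1 1).image (F.continuous_dropS _)).inter_left (hD.closed _)
    obtain ⟨Cw, hCw⟩ := (hKc.image_of_continuousOn
      ((if_smoothAlong_continuousOn (hD.mfd _) (hw.1 _)).mono inter_subset_left)).bddAbove
    filter_upwards [ct_window hD α'.par J'.eraseNone hp.1 _ hp.2 (isCompact_closedBall y'.1 1),
      ct_window_compat hD α'.par J'.eraseNone hp.1 _ hp.2 (isCompact_closedBall y'.1 1) hw.2,
      ct_window_large (F := F.ext) α' J' s' hs.2 (isCompact_closedBall y' 1) Cw]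
      with k k1 k2 k3 z hz
    rw [splitE_eq_Lv]
    have hz1 := rgfx_fst_mem hz
    have h3 := k3 z (Metric.ball_subset_closedBall hz) none hn
    rw [F.ext_t_none] at h3
    have hfst : (z + F.ext.vec J' (s' k)).1 =
        z.1 + F.vec J'.eraseNone (fun i => s' k (some i)) := by
      rw [rgf_ext_vec]; rfl
    have key : z + F.ext.vec J' (s' k) ∈ rgY E α' →
        (rgG (u k) w kk α' (z + F.ext.vec J' (s' k)) = 0 ↔
          rgfQ (u k) w kk α' J' (z + F.ext.vec J' (s' k)) = 0) := by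
      intro hY
      have hE : z.1 + F.vec J'.eraseNone (fun i => s' k (some i)) ∈ E α'.par := hfst ▸ hY.1
      have hwpos' : 0 < w (z + F.ext.vec J' (s' k)).1 := hwpos _ (mem_tot.2 ⟨_, hY.1⟩)
      have hwle : w (z + F.ext.vec J' (s' k)).1 ≤ Cw := by
        rw [hfst, k2 z.1 hz1 hE]
        exact hCw ⟨_, ⟨(k1 z.1 hz1).1 hE, ⟨z.1, hz1, rfl⟩⟩, rfl⟩
      have hfar : kk ((α' none : ℝ) * (z + F.ext.vec J' (s' k)).2 /
          w (z + F.ext.vec J' (s' k)).1) = 0 :=
        hk.far _ ((one_le_div hwpos').2 (hwle.trans h3.le))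
      unfold rgG rgfQ
      rw [if_neg hσ, if_pos hn, hfar, add_zero, sub_eq_zero, hk.eq_one_iff, div_eq_zero_iff,
        mul_eq_zero]
      constructor
      · rintro ((h | h) | h)
        · exact absurd h hσ'
        · exact h
        · exact absurd h hwpos'.ne'
      · intro h
        exact Or.inl (Or.inr h)
    exact ⟨fun h => ⟨h.1, (key h.1).1 h.2⟩, fun h => ⟨h.1, (key h.1).2 h.2⟩⟩
  · refine Eventually.of_forall fun k z _ => ?_
    rw [splitE_eq_Lv]
    unfold rgfQ
    rw [if_neg hn]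

/-! ### THE DIAGRAM TRANSFER -/

/-- **THE DIAGRAM TRANSFER.** -/
theorem rgf_transfer (hD : IsDiag n M F E) (hY : RgfMem n F E) {h : Ten W}
    (hh : Compat F E h) {dr U w : W → ℝ} {kk : ℝ → ℝ} (hdr : SC n F E dr) (hw : SC n F E w)
    (hwpos : ∀ z ∈ tot E, 0 < w z) {Ω : Set W} (hΩ : IsOpen Ω)
    (H : RgfLoc n F (fun α => E α ∩ Ω) h dr U w kk) {v : Stat (Option ι) → W × ℝ → ℝ}
    (hvs : ∀ α', SmoothAlong (rgYd n α') (rgY E α') (v α')) (hv : RgfFam F E v) {Vs : W → ℝ}
    (hVs : CC F E Vs) (hs : RgfEsc α' J' s') {u : ℕ → W → ℝ} {y : ℕ → W × ℝ} {y' : W × ℝ}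
    (hlim : Tendsto y atTop (𝓝 y'))
    (hyk : ∀ k, y k + F.ext.vec J' (s' k) ∈ splitE E (u k) w kk α')
    (hyΩ : F.dropS J'.eraseNone y'.1 ∈ Ω)
    (hu : RgfConv (mdim n (α'.par.faceS J'.eraseNone) J'.eraseNone)
      (F.cyl J'.eraseNone (E (α'.par.faceS J'.eraseNone)))
      (fun k z => u k (z + F.vec J'.eraseNone (fun i => s' k (some i))))
      (fun z => U (F.dropS J'.eraseNone z)) y'.1) (C : ℝ) :
    F.ext.dropS J' y' ∈ splitE (fun α => E α ∩ Ω) U w kk (α'.faceS J') ∧
    Tendsto (fun k => rgL (n - hits α') (splitE E (u k) w kk α') (extTen h) (fun z => dr z.1) C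
        (fun z => Dsc (n - hits α') (splitE E (u k) w kk α') (extTen h) (fun z => dr z.1) z -
          Vs z.1) (v α') (y k + F.ext.vec J' (s' k))) atTop
      (𝓝 (rgL (n - hits (α'.faceS J')) (splitE (fun α => E α ∩ Ω) U w kk (α'.faceS J'))
        (extTen h) (fun z => dr z.1) C
        (fun z => Dsc (n - hits (α'.faceS J')) (splitE (fun α => E α ∩ Ω) U w kk (α'.faceS J'))
          (extTen h) (fun z => dr z.1) z - Vs z.1) (v (α'.faceS J')) (F.ext.dropS J' y'))) := by
  classical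
  set γ' := α'.faceS J' with hγ'
  set E₀ : Stat ι → Set W := fun α => E α ∩ Ω with hE₀
  set a : ℕ → W × ℝ := fun k => F.ext.vec J' (s' k) with ha
  set Y₀ := rgY E₀ γ' with hY₀
  set N := rgfN F J' Ω y' with hNdef
  set g := rgG U w kk γ' with hgdef
  have hJγ : ∀ j ∈ J', γ' j = 0 := fun j hj => by simp [hγ', Stat.faceS, hj]
  have hwin := rgf_win_Y hD hh hΩ hs y'
  have hN : y' ∈ N := ⟨Metric.mem_ball_self one_pos, hyΩ⟩
  have hNo : IsOpen N := rgfN_isOpen F J' hΩ y'
  have hyN : ∀ᶠ k in atTop, y k ∈ N := hlim (hNo.mem_nhds hN)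
  have hyM : ∀ k, y k + a k ∈ rgY E α' := fun k => splitE_sub_rgY _ _ _ _ _ (hyk k)
  have hyc : ∀ᶠ k in atTop, y k ∈ F.ext.cyl J' Y₀ := by
    filter_upwards [hwin, hyN] with k e1 e2
    exact (e1.set _ e2).1 (hyM k)
  have hsubY : Y₀ ⊆ rgY E γ' := fun z hz => ⟨hz.1.1, hz.2⟩
  have hy'E : F.ext.dropS J' y' ∈ rgY E γ' := by
    have hcl : IsClosed (F.ext.dropS J' ⁻¹' rgY E γ') :=
      (rgY_isClosed (hD.closed _)).preimage (F.ext.continuous_dropS J')
    exact hcl.mem_of_tendsto hlim (hyc.mono fun k hk => hsubY hk)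
  have hy' : y' ∈ F.ext.cyl J' Y₀ := by
    refine ⟨⟨hy'E.1, ?_⟩, hy'E.2⟩
    rw [rgf_ext_dropS]
    exact hyΩ
  -- dimensions
  have hd : hits γ'.par + 1 ≤ n := H.dim γ'.par ⟨_, hy'.1⟩
  have hdY : rgYd n γ' = n - hits γ' + 1 := rgf_rgYd_eq hd
  have hhit : hits γ' = hits α' + J'.card := ct_hits_faceS α' J' hs.1
  have hle : hits γ' ≤ n := by
    rw [rgf_hits_par]
    split_ifs <;> omega
  have e2 : n - hits γ' + J'.card = n - hits α' := by omega
  have e1 : n - hits γ' + 1 + J'.card = n - hits γ' + J'.card + 1 := by omega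
  -- bases
  have hYb : RgfBase F.ext J' (n - hits γ' + 1) Y₀ (extTen h) (fun z => dr z.1) :=
    hdY ▸ H.baseY hJγ
  have hXb : RgfBase F.ext J' (n - hits γ') (rm_Lv Y₀ g 0) (extTen h) (fun z => dr z.1) := by
    rw [hY₀, hgdef, ← splitE_eq_Lv]; exact H.baseX hJγ
  have hg : SmoothAlong (n - hits γ' + 1) Y₀ g := hdY ▸ H.smG γ'
  have hmY := rgf_mfdY hD.mfd γ'
  have hf₀ : SmoothAlong (n - hits γ') (rm_Lv Y₀ g 0) (v γ') :=
    pk_smoothAlong_sub hmY (fun z hz => hsubY hz.1) (hvs γ')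
  have hfY : SmoothAlong (n - hits γ' + 1) Y₀ (v γ') := pk_smoothAlong_sub hmY hsubY (hvs γ')
  have hM' : IsMfd (n - hits γ' + J'.card + 1) (F.ext.cyl J' Y₀) := e1 ▸ hYb.cylOK.geo.mfd
  have ht : RgfConv (n - hits γ' + J'.card + 1) (F.ext.cyl J' Y₀) (fun k z => dr (z + a k).1)
      (fun z => dr (F.ext.dropS J' z).1) y' := by
    refine rgfConv_of_eventually_eq (e1 ▸ hYb.cylOK.smooth _ hYb.geo.drift) (hNo.mem_nhds hN) ?_
    filter_upwards [hwin, rgf_win_compat hD hdr.2 hs y'] with k w1 w2 z hz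
    exact w2 z hz.2.1 ((w1.set z hz.2).2 hz.1)
  have hf : RgfConv (n - hits γ' + J'.card + 1) (F.ext.cyl J' Y₀) (fun k z => v α' (z + a k))
      (fun z => v γ' (F.ext.dropS J' z)) y' := by
    refine rgfConv_of_eventually_eq (e1 ▸ hYb.cylOK.smooth _ hfY) (hNo.mem_nhds hN) ?_
    filter_upwards [hwin, rgf_win_fam hD hv hs y'] with k w1 w2 z hz
    exact w2 z hz.2.1 ((w1.set z hz.2).2 hz.1)
  have hq := rgf_conv_Q hD hY hh hΩ hw H hs hy' hu (n - hits γ' + J'.card + 1)
  have hpc := rgf_piece_Q hD hw hwpos H.corner hs u y'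
  have hq0 : ∀ᶠ k in atTop, rgfQ (u k) w kk α' J' (y k + a k) = 0 := by
    filter_upwards [hpc, hyN] with k w1 w2
    exact ((w1 _ w2.1).1 (hyk k)).2
  have hg0 : g (F.ext.dropS J' y') = 0 :=
    tendsto_nhds_unique (hq.eval hM' hy' hyc hlim)
      (tendsto_const_nhds.congr' (hq0.mono fun k hk => hk.symm))
  have hreg : 0 < gradSq (n - hits γ' + 1) Y₀ (extTen h) g (F.ext.dropS J' y') :=
    hdY ▸ H.regG γ' hy' hg0
  have hVs' : Tendsto (fun k => Vs (y k + a k).1) atTop (𝓝 (Vs (F.ext.dropS J' y').1)) := by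
    have h1 : Tendsto (fun k => (F.ext.dropS J' (y k)).1) atTop
        (𝓝[E γ'.par] (F.ext.dropS J' y').1) := by
      refine tendsto_nhdsWithin_iff.2 ⟨?_, hyc.mono fun k hk => hk.1.1⟩
      exact (continuous_fst.comp (F.ext.continuous_dropS J')).continuousAt.tendsto.comp hlim
    have h2 := (hVs.1 γ'.par _ hy'E.1).tendsto.comp h1
    refine h2.congr' ?_
    filter_upwards [rgf_win_compat hD hVs.2 hs y', hyN] with k w1 w2
    exact (w1 _ w2.1 (hyM k)).symm
  have main := rgf_xfer (f := fun _ => v α') (Vs := fun _ z => Vs z.1) (Vs₀ := fun z => Vs z.1)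
    (t := fun z => dr z.1) hYb hXb hg hf₀ hwin hN ht hq hf hy' hg0 hreg
    (Eventually.of_forall hyM) hq0 hlim C hVs'
  rw [e2] at main
  refine ⟨?_, ?_⟩
  · rw [splitE_eq_Lv]; exact ⟨hy', hg0⟩
  · rw [splitE_eq_Lv]
    refine main.congr' ?_
    filter_upwards [hpc, hyN] with k w1 w2
    have hOk : IsOpen {x : W × ℝ | x - a k ∈ Metric.ball y' 1} :=
      Metric.isOpen_ball.preimage (continuous_id.sub continuous_const)
    refine rgf_LL_local hOk (by
      show y k + a k - a k ∈ Metric.ball y' 1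
      rw [add_sub_cancel_right]; exact w2.1) ?_
    ext x
    constructor
    · rintro ⟨h1, h2⟩
      have := (w1 _ h2).2 (by rw [sub_add_cancel]; exact h1)
      rw [sub_add_cancel] at this
      exact ⟨this, h2⟩
    · rintro ⟨h1, h2⟩
      have := (w1 _ h2).1 (by rw [sub_add_cancel]; exact h1)
      rw [sub_add_cancel] at this
      exact ⟨this, h2⟩

end diag

end Claimed.Agent.R315
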