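import Claimed.Agent.R315.Rg.GenA

/-!
# Row 315, package Rg/Gen (Ruling 9 (5c)): compatible cut functions can be made regular (merged file: former `GenC1`, `GenC`, `Gen`; architect helper48)

OPEN LEAVES IN THIS FILE: L-RG-GEN-C1 #11349 (`rgn_norm_le`, `hits_faceS_lt`, `rgn_cut`), L-RG-GEN-C2 #11350 (`rgn_step`).  The export `rgn_generic` (last part) is PROVED from `rgn_step`.
-/

/-!
## PART (formerly `Rg/GenC1.lean`)

### Row 315, package Rg/Gen (Ruling 9 (5c)), part C1: tools for the step (norm bound, hits of faces, the cutoff)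

`rgn_step` : `v` compatible, regular on all strata with more than `k` hits and at all points with `θ ≥ τ` (`θ` a compatible function).  Then there is a compatible `v'`, regular on all strata with at least `k`
hits, `v' = v` where `θ ≥ τ`, `|v' - v| ≤ κ ∘ q`.
PACKAGE L-RG-GEN-C1 (paper-free) = THIS FILE: `rgn_norm_le`, `hits_faceS_lt`, `rgn_cut`.  (L-RG-GEN-C2 = `Rg/GenC.lean`: `rgn_step`; its construction is recalled here.)

CONSTRUCTION.  `T` = common smooth threshold of the diagram, of `v` and of `θ` (`IsDiag.exists_thr`, `Compat.exists_thr`, sum of the three, `DThr.mono`, `Thr.mono`, as in `pk_urysohn₀`).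
 `c z = smoothTransition (τ - θ z) * pkWt F T ∅ z * η (q z)` (`rgn_cut`): `c ≥ 0`, smooth along every stratum, and on `tot E`:  `c z = 0 ↔ τ ≤ θ z ∨ ∃ i, T (q z) + 2 ≤ |t i z|`;  `c z * (1 + ‖z‖) ≤ κ (q z)`.
 For every status `α` : `(a₀ α, l α)` from `rgn_generic_one (hD.mfd α) (hv.1 α) (hc α) (ε = 1/2)`; so `|a₀ α + l α z| ≤ 1 + ‖z‖`.
 `v₁ = pkGlue E (fun α z => if hits α = k then v z + c z * (a₀ α + l α z) else v z)`,   `T' = T + 2`,   `v' = pkBlend F T' v₁`.
VERIFICATION.  Let `z ∈ E α`, `S` active for `T'` at `z` (`pkWt F T' S z ≠ 0`); then `T (q z) + 3 < |t i z|` for `i ∈ S` (`pkWt_ne_zero`), `y = dropS S z ∈ E (α.faceS S)` (`pkWt_dropS_mem`), `q y = q z`,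
 `v y = v z`, `θ y = θ z` (`Thr.dropS`).  `δ := v₁ - v` satisfies `|δ y| ≤ c y (1 + ‖y‖) ≤ κ (q y)` on `tot E`, `δ y = 0` if `c y = 0` or if the stratum of `y` does not have `k` hits.
 (1) `SC v'` : `pkBlend_sc` (`v₁` is smooth along every stratum: `pk_smoothAlong_congr`, `pkGlue_eq`, `gs_sm_*`, `if_smoothAlong_of_contDiff` for the affine function).
 (2) `|v' z - v z| ≤ κ (q z)` : `pkBlend_sub_le` with `c := v z`.
 (3) `τ ≤ θ z → v' z = v z` : `pkBlend_sub_le` with `δ = 0` (`c y = 0` because `θ y = θ z ≥ τ`).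
 (4) `k ≤ hits α → v' z = v₁ z` : `pkBlend_eq_of_forall`.  `S = ∅` trivial (`Frame.dropS_empty`).  `S ≠ ∅` : `hits (α.faceS S) > hits α ≥ k` (`hits_faceS_lt`; `α i ≠ 0` for `i ∈ S` by `IsDiag.ne_zero_of_t_ne`), so `v₁ y = v y = v z`; and `c z = 0`
     (some `|t i z| ≥ T + 2`), so `v₁ z = v z`.
 (5) `k < hits α` : `v' = v₁ = v` on `E α` : `RegAt.congr` and `hreg`.
 (6) `hits α = k` : `v' = v₁ = v + c (a₀ α + l α)` on `E α`.  At `z ∈ E α` : if `c z ≠ 0` `rgn_generic_one`; if `c z = 0` `RegAt.add_mul` reduces to `RegAt v z`: either `τ ≤ θ z` (`hprot`) or `T (q z) < |t i z|` for some `i`: `rgn_tail`, the face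
     `α.face i` has `k + 1` hits (`hits_faceS_lt` with `S = {i}` or directly), `hreg`, `regularOn_iff_regAt`, `DThr.drop_mem`.
-/
set_option autoImplicit false
set_option linter.unusedSectionVars false
open scoped ContDiff Topology
open MeasureTheory Claims.C0499

namespace Claimed.Agent.R315

variable {V W : Type} [NormedAddCommGroup V] [NormedSpace ℝ V] [NormedAddCommGroup W]
  [NormedSpace ℝ W] {ι : Type} [Fintype ι]

/-- `(q,t)` is injective, hence bounded below.
PLAN: the linear map `z ↦ (q z, fun i => t i z)` into `V × (ι → ℝ)` has trivial kernel (`F.inj`); `LinearMap.exists_antilipschitzWith`; sup norms are bounded by the sum. -/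
theorem rgn_norm_le [FiniteDimensional ℝ W] (F : Frame V W ι) :
    ∃ C : ℝ, 0 < C ∧ ∀ z : W, ‖z‖ ≤ C * (‖F.q z‖ + ∑ i, |F.t i z|) := by
  let L : W →ₗ[ℝ] V × (ι → ℝ) :=
    (F.q : W →ₗ[ℝ] V).prod (LinearMap.pi fun i => (F.t i : W →ₗ[ℝ] ℝ))
  have hker : LinearMap.ker L = ⊥ := by
    rw [LinearMap.ker_eq_bot']
    intro z hz
    have h1 : F.q z = 0 := congrArg Prod.fst hz
    have h2 : ∀ i, F.t i z = 0 := fun i => congrFun (congrArg Prod.snd hz) i
    exact F.inj z h1 h2
  obtain ⟨K, hK, hL⟩ := L.exists_antilipschitzWith hker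
  refine ⟨K, by exact_mod_cast hK, fun z => ?_⟩
  have h1 := hL.le_mul_dist z 0
  rw [dist_zero_right, map_zero, dist_zero_right] at h1
  refine h1.trans (mul_le_mul_of_nonneg_left ?_ K.2)
  have hs : 0 ≤ ∑ i, |F.t i z| := Finset.sum_nonneg fun i _ => abs_nonneg _
  rw [Prod.norm_def]
  refine max_le (le_add_of_nonneg_right hs) ?_
  rw [pi_norm_le_iff_of_nonneg (add_nonneg (norm_nonneg _) hs)]
  intro i
  have h2 : |F.t i z| ≤ ∑ i, |F.t i z| :=
    Finset.single_le_sum (f := fun i => |F.t i z|) (fun i _ => abs_nonneg _) (Finset.mem_univ i)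
  change ‖F.t i z‖ ≤ _
  rw [Real.norm_eq_abs]
  linarith [norm_nonneg (F.q z)]

/-- passing to a proper face increases the number of hits.
PLAN: `hits` is a sum of indicators; termwise `≤`, strict at some `i ∈ S` (`Finset.sum_lt_sum`). -/
theorem hits_faceS_lt (α : Stat ι) {S : Finset ι} (hS : S.Nonempty) (h : ∀ i ∈ S, α i ≠ 0) :
    hits α < hits (α.faceS S) := by
  classical
  unfold hits
  obtain ⟨i₀, hi₀⟩ := hS
  refine Finset.sum_lt_sum (fun i _ => ?_) ⟨i₀, Finset.mem_univ _, ?_⟩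
  · by_cases hi : i ∈ S
    · simp [Stat.faceS, hi, h i hi]
    · simp [Stat.faceS, hi]
  · simp [Stat.faceS, hi₀, h i₀ hi₀]

theorem hits_face_lt (α : Stat ι) {i : ι} (h : α i ≠ 0) : hits α < hits (α.face i) := by
  classical
  have e : α.face i = α.faceS {i} := by
    have := Stat.faceS_insert α i ∅
    rw [Stat.faceS_empty] at this
    simpa using this
  rw [e]
  exact hits_faceS_lt α (Finset.singleton_nonempty i) (by simpa using h)

variable {n : ℕ} {M : Set V} {F : Frame V W ι} {E : Stat ι → Set W}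

/-- **the cutoff of a step.**
PLAN: `C` from `rgn_norm_le`; `β x = 1 + C * (‖x‖ + card ι * (T x + 2))` is continuous and `≥ 1`; `pk_exists_tol` (`m = 0`) for `b = κ / β` (locally bounded below by positive constants: `β` is bounded on compact sets) gives `η`
smooth, positive, `η x ≤ κ x / β x` (`norm_iteratedFDeriv_zero`).  `c z = Real.smoothTransition (τ - θ z) * pkWt F T ∅ z * η (F.q z)`.  Zeros: `Real.smoothTransition.pos_of_pos` / `zero_of_nonpos`; `pkWt F T ∅ z = ∏ i, (1 - pkF F T i z)`,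
`pkF = 1 ↔ T + 2 ≤ |t i z|` (`pkF_eq_one`, `pkF_ne_one`).  Size: if `c z ≠ 0` then `|t i z| < T (q z) + 2` for all `i`, so `1 + ‖z‖ ≤ β (q z)`; the first two factors are `≤ 1` (`pkWt_nonneg`, `pkWt_sum` or factorwise).
Smoothness: `gs_sm_mul`, `gs_sm_comp'`, `if_smoothAlong_of_contDiff` (`pkWt_contDiff`, `η ∘ q`). -/
theorem rgn_cut [FiniteDimensional ℝ V] [FiniteDimensional ℝ W] {θ : W → ℝ}
    (hθ : ∀ α, SmoothAlong (n - hits α) (E α) θ) (τ : ℝ) {T : V → ℝ} (hT0 : ∀ x, 0 ≤ T x)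
    (hTs : ContDiff ℝ ∞ T) {κ : V → ℝ}
    (hκ : ∀ K : Set V, IsCompact K → ∃ δ : ℝ, 0 < δ ∧ ∀ x ∈ K, δ ≤ κ x) :
    ∃ c : W → ℝ, (∀ α, SmoothAlong (n - hits α) (E α) c) ∧ (∀ z, 0 ≤ c z) ∧
      (∀ z, c z = 0 ↔ (τ ≤ θ z ∨ ∃ i, T (F.q z) + 2 ≤ |F.t i z|)) ∧
      ∀ z, c z * (1 + ‖z‖) ≤ κ (F.q z) := by
  classical
  obtain ⟨C, hC, hCn⟩ := rgn_norm_le F
  set β : V → ℝ := fun x => 1 + C * (‖x‖ + (Fintype.card ι : ℝ) * (T x + 2)) with hβ
  have hβc : Continuous β := by
    have hTc := hTs.continuous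
    exact continuous_const.add (continuous_const.mul
      (continuous_norm.add (continuous_const.mul (hTc.add continuous_const))))
  have hβ1 : ∀ x, 1 ≤ β x := by
    intro x
    have h1 := hT0 x
    have h2 : 0 ≤ C * (‖x‖ + (Fintype.card ι : ℝ) * (T x + 2)) := by positivity
    simp only [hβ]
    linarith
  have hκpos : ∀ x, 0 < κ x := fun x => by
    obtain ⟨δ, hδ, h⟩ := hκ {x} isCompact_singleton
    exact hδ.trans_le (h x rfl)
  have hb : ∀ K : Set V, IsCompact K → ∃ δ : ℝ, 0 < δ ∧ ∀ x ∈ K, δ ≤ κ x / β x := by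
    intro K hK
    obtain ⟨δ, hδ, h⟩ := hκ K hK
    obtain ⟨B, hB⟩ := hK.exists_bound_of_continuousOn hβc.continuousOn
    refine ⟨δ / (|B| + 1), by positivity, fun x hx => ?_⟩
    have h1 : β x ≤ |B| + 1 := by
      have h3 := hB x hx
      rw [Real.norm_eq_abs] at h3
      linarith [le_abs_self (β x), le_abs_self B]
    have h2 : 0 < β x := by linarith [hβ1 x]
    calc δ / (|B| + 1) ≤ δ / β x := div_le_div_of_nonneg_left hδ.le h2 h1
      _ ≤ κ x / β x := div_le_div_of_nonneg_right (h x hx) h2.le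
  obtain ⟨η, hηs, hηpos, hηb⟩ := pk_exists_tol hb 0
  have hηle : ∀ x, η x * β x ≤ κ x := by
    intro x
    have h1 := hηb x 0 le_rfl
    rw [norm_iteratedFDeriv_zero, Real.norm_eq_abs, abs_of_pos (hηpos x)] at h1
    have h2 : 0 < β x := by linarith [hβ1 x]
    rwa [le_div_iff₀ h2] at h1
  have hW0 : ∀ z, pkWt F T ∅ z = 0 ↔ ∃ i, T (F.q z) + 2 ≤ |F.t i z| := by
    intro z
    unfold pkWt
    rw [Finset.prod_eq_zero_iff]
    constructor
    · rintro ⟨i, -, hi⟩
      simp only [Finset.notMem_empty, if_false] at hi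
      refine ⟨i, ?_⟩
      by_contra hc
      have h1 : pkF F T i z < 1 :=
        Real.smoothTransition.lt_one_of_lt_one (by linarith [not_le.1 hc])
      linarith
    · rintro ⟨i, hi⟩
      refine ⟨i, Finset.mem_univ _, ?_⟩
      simp only [Finset.notMem_empty, if_false]
      rw [pkF_eq_one F hi, sub_self]
  have hS0 : ∀ z, Real.smoothTransition (τ - θ z) = 0 ↔ τ ≤ θ z := by
    intro z
    constructor
    · intro h
      by_contra hc
      exact (Real.smoothTransition.pos_of_pos (by linarith [not_le.1 hc])).ne' h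
    · intro h
      exact Real.smoothTransition.zero_of_nonpos (by linarith)
  have hWle : ∀ z, pkWt F T ∅ z ≤ 1 := by
    intro z
    rw [← pkWt_sum F T z]
    exact Finset.single_le_sum (f := fun S => pkWt F T S z) (fun S _ => pkWt_nonneg F T S z)
      (Finset.mem_univ ∅)
  refine ⟨fun z => Real.smoothTransition (τ - θ z) * pkWt F T ∅ z * η (F.q z), fun α => ?_,
    fun z => ?_, fun z => ?_, fun z => ?_⟩
  · refine gs_sm_mul (gs_sm_mul ?_ (if_smoothAlong_of_contDiff (pkWt_contDiff F hT0 hTs ∅)))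
      (if_smoothAlong_of_contDiff (hηs.comp F.q.contDiff))
    exact fun ψ U hp =>
      Real.smoothTransition.contDiff.comp_contDiffOn (contDiffOn_const.sub (hθ α ψ U hp))
  · exact mul_nonneg (mul_nonneg (Real.smoothTransition.nonneg _) (pkWt_nonneg F T ∅ z))
      (hηpos _).le
  · rw [mul_eq_zero, mul_eq_zero, hS0, hW0]
    constructor
    · rintro ((h | h) | h)
      · exact Or.inl h
      · exact Or.inr h
      · exact absurd h (hηpos _).ne'
    · rintro (h | h)
      · exact Or.inl (Or.inl h)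
      · exact Or.inl (Or.inr h)
  · change Real.smoothTransition (τ - θ z) * pkWt F T ∅ z * η (F.q z) * (1 + ‖z‖) ≤ κ (F.q z)
    by_cases hz : ∃ i, T (F.q z) + 2 ≤ |F.t i z|
    · rw [(hW0 z).2 hz, mul_zero, zero_mul, zero_mul]
      exact (hκpos _).le
    · push Not at hz
      have h1 : ‖z‖ ≤ C * (‖F.q z‖ + (Fintype.card ι : ℝ) * (T (F.q z) + 2)) := by
        refine (hCn z).trans (mul_le_mul_of_nonneg_left ?_ hC.le)
        have h4 : ∑ i, |F.t i z| ≤ ∑ _i : ι, (T (F.q z) + 2) :=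
          Finset.sum_le_sum fun i _ => (hz i).le
        rw [Finset.sum_const, Finset.card_univ, nsmul_eq_mul] at h4
        linarith
      have h2 : 1 + ‖z‖ ≤ β (F.q z) := by
        simp only [hβ]
        linarith
      have h3 : Real.smoothTransition (τ - θ z) * pkWt F T ∅ z ≤ 1 :=
        mul_le_one₀ (Real.smoothTransition.le_one _) (pkWt_nonneg F T ∅ z) (hWle z)
      calc Real.smoothTransition (τ - θ z) * pkWt F T ∅ z * η (F.q z) * (1 + ‖z‖)
          ≤ 1 * η (F.q z) * β (F.q z) :=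
            mul_le_mul (mul_le_mul_of_nonneg_right h3 (hηpos _).le) h2 (by positivity)
              (by rw [one_mul]; exact (hηpos _).le)
        _ ≤ κ (F.q z) := by rw [one_mul]; exact hηle _

end Claimed.Agent.R315

/-!
## PART (formerly `Rg/GenC.lean`)

### Row 315, package Rg/Gen (Ruling 9 (5c)), part C: one step of the induction over faces

`rgn_step` : `v` compatible, regular on all strata with more than `k` hits and at all points with `θ ≥ τ` (`θ` a compatible function).  Then there is a compatible `v'`, regular on all strata with at least `k`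
hits, `v' = v` where `θ ≥ τ`, `|v' - v| ≤ κ ∘ q`.
PACKAGE L-RG-GEN-C2 (paper-free) = THIS FILE: `rgn_step`.  (L-RG-GEN-C1 = `Rg/GenC1.lean`: `rgn_norm_le`, `hits_faceS_lt`, `rgn_cut`.)

CONSTRUCTION.  `T` = common smooth threshold of the diagram, of `v` and of `θ` (`IsDiag.exists_thr`, `Compat.exists_thr`, sum of the three, `DThr.mono`, `Thr.mono`, as in `pk_urysohn₀`).
 `c z = smoothTransition (τ - θ z) * pkWt F T ∅ z * η (q z)` (`rgn_cut`): `c ≥ 0`, smooth along every stratum, and on `tot E`:  `c z = 0 ↔ τ ≤ θ z ∨ ∃ i, T (q z) + 2 ≤ |t i z|`;  `c z * (1 + ‖z‖) ≤ κ (q z)`.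
 For every status `α` : `(a₀ α, l α)` from `rgn_generic_one (hD.mfd α) (hv.1 α) (hc α) (ε = 1/2)`; so `|a₀ α + l α z| ≤ 1 + ‖z‖`.
 `v₁ = pkGlue E (fun α z => if hits α = k then v z + c z * (a₀ α + l α z) else v z)`,   `T' = T + 2`,   `v' = pkBlend F T' v₁`.
VERIFICATION.  Let `z ∈ E α`, `S` active for `T'` at `z` (`pkWt F T' S z ≠ 0`); then `T (q z) + 3 < |t i z|` for `i ∈ S` (`pkWt_ne_zero`), `y = dropS S z ∈ E (α.faceS S)` (`pkWt_dropS_mem`), `q y = q z`,
 `v y = v z`, `θ y = θ z` (`Thr.dropS`).  `δ := v₁ - v` satisfies `|δ y| ≤ c y (1 + ‖y‖) ≤ κ (q y)` on `tot E`, `δ y = 0` if `c y = 0` or if the stratum of `y` does not have `k` hits.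
 (1) `SC v'` : `pkBlend_sc` (`v₁` is smooth along every stratum: `pk_smoothAlong_congr`, `pkGlue_eq`, `gs_sm_*`, `if_smoothAlong_of_contDiff` for the affine function).
 (2) `|v' z - v z| ≤ κ (q z)` : `pkBlend_sub_le` with `c := v z`.
 (3) `τ ≤ θ z → v' z = v z` : `pkBlend_sub_le` with `δ = 0` (`c y = 0` because `θ y = θ z ≥ τ`).
 (4) `k ≤ hits α → v' z = v₁ z` : `pkBlend_eq_of_forall`.  `S = ∅` trivial (`Frame.dropS_empty`).  `S ≠ ∅` : `hits (α.faceS S) > hits α ≥ k` (`hits_faceS_lt`; `α i ≠ 0` for `i ∈ S` by `IsDiag.ne_zero_of_t_ne`), so `v₁ y = v y = v z`; and `c z = 0`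
     (some `|t i z| ≥ T + 2`), so `v₁ z = v z`.
 (5) `k < hits α` : `v' = v₁ = v` on `E α` : `RegAt.congr` and `hreg`.
 (6) `hits α = k` : `v' = v₁ = v + c (a₀ α + l α)` on `E α`.  At `z ∈ E α` : if `c z ≠ 0` `rgn_generic_one`; if `c z = 0` `RegAt.add_mul` reduces to `RegAt v z`: either `τ ≤ θ z` (`hprot`) or `T (q z) < |t i z|` for some `i`: `rgn_tail`, the face
     `α.face i` has `k + 1` hits (`hits_faceS_lt` with `S = {i}` or directly), `hreg`, `regularOn_iff_regAt`, `DThr.drop_mem`.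
-/
set_option autoImplicit false
set_option linter.unusedSectionVars false
open scoped ContDiff Topology
open MeasureTheory Claims.C0499

namespace Claimed.Agent.R315

variable {V W : Type} [NormedAddCommGroup V] [NormedSpace ℝ V] [NormedAddCommGroup W]
  [NormedSpace ℝ W] {ι : Type} [Fintype ι]

variable {n : ℕ} {M : Set V} {F : Frame V W ι} {E : Stat ι → Set W}

/-- **one step of the induction over faces** (plan: file header). -/
theorem rgn_step [FiniteDimensional ℝ V] [FiniteDimensional ℝ W] (hD : IsDiag n M F E)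
    {θ : W → ℝ} (hθ : SC n F E θ) {v : W → ℝ} (hv : SC n F E v) (k : ℕ) (τ : ℝ)
    (hreg : ∀ α, k < hits α → RegularOn (n - hits α) (E α) v)
    (hprot : ∀ α, ∀ z ∈ E α, τ ≤ θ z → RegAt (n - hits α) (E α) v z) {κ : V → ℝ}
    (hκ : ∀ K : Set V, IsCompact K → ∃ δ : ℝ, 0 < δ ∧ ∀ x ∈ K, δ ≤ κ x) :
    ∃ v' : W → ℝ, SC n F E v' ∧ (∀ α, k ≤ hits α → RegularOn (n - hits α) (E α) v') ∧
      (∀ z ∈ tot E, τ ≤ θ z → v' z = v z) ∧ ∀ z ∈ tot E, |v' z - v z| ≤ κ (F.q z) := by
  classical
  obtain ⟨T1, h1s, h10, h1⟩ := hD.exists_thr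
  obtain ⟨T2, h2s, h20, h2⟩ := hv.2.exists_thr
  obtain ⟨T3, h3s, h30, h3⟩ := hθ.2.exists_thr
  set T : V → ℝ := fun x => T1 x + T2 x + T3 x with hTdef
  have hTs : ContDiff ℝ ∞ T := (h1s.add h2s).add h3s
  have hT0 : ∀ x, 0 ≤ T x := fun x => add_nonneg (add_nonneg (h10 x) (h20 x)) (h30 x)
  have hT : DThr F E T := h1.mono fun x => by
    have := h20 x; have := h30 x; simp only [hTdef]; linarith
  have hTv : Thr F E v T := h2.mono fun x => by
    have := h10 x; have := h30 x; simp only [hTdef]; linarith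
  have hTθ : Thr F E θ T := h3.mono fun x => by
    have := h10 x; have := h20 x; simp only [hTdef]; linarith
  obtain ⟨c, hcs, hc0, hcz, hcsz⟩ := rgn_cut (n := n) (F := F) (E := E) hθ.1 τ hT0 hTs hκ
  choose a₀ l ha₀ hl hgen using fun α =>
    rgn_generic_one (hD.mfd α) (hv.1 α) (hcs α) (ε := 1 / 2) (by norm_num)
  set w : Stat ι → W → ℝ :=
    fun α z => if hits α = k then v z + c z * (a₀ α + l α z) else v z with hw
  set v₁ : W → ℝ := pkGlue E w with hv₁
  set T' : V → ℝ := fun x => T x + 2 with hT'def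
  have hT's : ContDiff ℝ ∞ T' := hTs.add contDiff_const
  have hT'0 : ∀ x, 0 ≤ T' x := fun x => by have := hT0 x; simp only [hT'def]; linarith
  have hT' : DThr F E T' := hT.mono fun x => by simp only [hT'def]; linarith
  have hg : ∀ {β : Stat ι} {y : W}, y ∈ E β → v₁ y = w β y := fun hy => pkGlue_eq hD w hy
  have hF1a : ∀ {β : Stat ι} {y : W}, y ∈ E β → c y = 0 → v₁ y = v y := by
    intro β y hy hc
    rw [hg hy]
    simp only [hw]
    split_ifs
    · rw [hc, zero_mul, add_zero]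
    · rfl
  have hF1b : ∀ {β : Stat ι} {y : W}, y ∈ E β → hits β ≠ k → v₁ y = v y := by
    intro β y hy hne
    rw [hg hy]
    simp only [hw, if_neg hne]
  have hF1c : ∀ {β : Stat ι} {y : W}, y ∈ E β → |v₁ y - v y| ≤ κ (F.q y) := by
    intro β y hy
    have hκ0 : 0 ≤ κ (F.q y) := le_trans (mul_nonneg (hc0 y) (by positivity)) (hcsz y)
    rw [hg hy]
    simp only [hw]
    split_ifs
    · rw [add_sub_cancel_left, abs_mul, abs_of_nonneg (hc0 y)]
      refine le_trans (mul_le_mul_of_nonneg_left ?_ (hc0 y)) (hcsz y)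
      calc |a₀ β + l β y| ≤ |a₀ β| + |l β y| := abs_add_le _ _
        _ ≤ 1 / 2 + 1 / 2 * ‖y‖ := add_le_add (ha₀ β) (by
            rw [← Real.norm_eq_abs]
            exact ((l β).le_opNorm y).trans (mul_le_mul_of_nonneg_right (hl β) (norm_nonneg _)))
        _ ≤ 1 + ‖y‖ := by have := norm_nonneg y; linarith
    · rw [sub_self, abs_zero]
      exact hκ0
  have hF2 : ∀ {α : Stat ι} {z : W}, z ∈ E α → ∀ S : Finset ι, pkWt F T' S z ≠ 0 →
      (∀ i ∈ S, T (F.q z) + 3 < |F.t i z|) ∧ F.dropS S z ∈ E (α.faceS S) ∧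
        v (F.dropS S z) = v z ∧ θ (F.dropS S z) = θ z := by
    intro α z hz S hS
    have h1 : ∀ i ∈ S, T (F.q z) + 3 < |F.t i z| := fun i hi => by
      have h5 := (pkWt_ne_zero F hS).1 i hi
      simp only [hT'def] at h5
      linarith
    have h2 : ∀ i ∈ S, T (F.q z) < |F.t i z| := fun i hi => by linarith [h1 i hi]
    exact ⟨h1, pkWt_dropS_mem hD hT'0 hT' hz hS, hTv.dropS hD hT0 hT S (mem_tot.2 ⟨α, hz⟩) h2,
      hTθ.dropS hD hT0 hT S (mem_tot.2 ⟨α, hz⟩) h2⟩
  have hws : ∀ α, SmoothAlong (n - hits α) (E α) (w α) := by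
    intro α
    by_cases hk : hits α = k
    · simp only [hw, if_pos hk]
      exact gs_sm_add (hv.1 α) (gs_sm_mul (hcs α)
        (gs_sm_add (gs_sm_const _) (if_smoothAlong_of_contDiff (l α).contDiff)))
    · simp only [hw, if_neg hk]
      exact hv.1 α
  have h4 : ∀ {α : Stat ι} {z : W}, z ∈ E α → k ≤ hits α → pkBlend F T' v₁ z = v₁ z := by
    intro α z hz hk
    refine pkBlend_eq_of_forall F T' v₁ fun S hS => ?_
    obtain ⟨h1, h2, h3, -⟩ := hF2 hz S hS
    rcases S.eq_empty_or_nonempty with rfl | hne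
    · rw [F.dropS_empty]
    · have hα : ∀ i ∈ S, α i ≠ 0 := fun i hi => hD.ne_zero_of_t_ne hz (by
        intro h0
        have h5 := h1 i hi
        rw [h0, abs_zero] at h5
        linarith [hT0 (F.q z)])
      have hlt := hits_faceS_lt α hne hα
      obtain ⟨i, hi⟩ := hne
      have hcz0 : c z = 0 := (hcz z).2 (Or.inr ⟨i, by linarith [h1 i hi]⟩)
      rw [hF1b h2 (by omega), h3, hF1a hz hcz0]
  refine ⟨pkBlend F T' v₁, pkBlend_sc hD hT'0 hT's hT' fun α =>
    pk_smoothAlong_congr (hws α) fun z hz => hg hz, fun α hk => ?_, fun z hz hτ => ?_,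
    fun z hz => ?_⟩
  · rw [regularOn_iff_regAt]
    intro z hz
    have hcong : ∀ y ∈ E α, pkBlend F T' v₁ y = w α y := fun y hy => by rw [h4 hy hk, hg hy]
    refine RegAt.congr ?_ hcong
    rcases hk.lt_or_eq with hlt | heq
    · have e : w α = v := by
        funext y
        simp only [hw, if_neg (by omega : hits α ≠ k)]
      rw [e]
      exact regularOn_iff_regAt.1 (hreg α hlt) z hz
    · have e : w α = fun y => v y + c y * (a₀ α + l α y) := by
        funext y
        simp only [hw, if_pos heq.symm]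
      rw [e]
      by_cases hc : c z = 0
      · refine RegAt.add_mul (hv.1 α) (hcs α)
          (gs_sm_add (gs_sm_const _) (if_smoothAlong_of_contDiff (l α).contDiff))
          (fun y _ => hc0 y) hc ?_
        rcases (hcz z).1 hc with hτ | ⟨i, hi⟩
        · exact hprot α z hz hτ
        · have hi' : T (F.q z) < |F.t i z| := by linarith
          have hαi : α i ≠ 0 := hD.ne_zero_of_t_ne hz (by
            intro h0
            rw [h0, abs_zero] at hi'
            linarith [hT0 (F.q z)])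
          refine rgn_tail hD hT0 hTs.continuous hT hv.1 hTv hz hi' ?_
          exact regularOn_iff_regAt.1
            (hreg (α.face i) (by have := hits_face_lt α hαi; omega)) _ (hT.drop_mem hD hT0 hz hi')
      · exact hgen α z hz hc
  · obtain ⟨α, hα⟩ := mem_tot.1 hz
    have h5 := pkBlend_sub_le F T' v₁ (z := z) (c := v z) (δ := 0) fun S hS => by
      obtain ⟨-, h2, h3, h6⟩ := hF2 hα S hS
      rw [hF1a h2 ((hcz _).2 (Or.inl (by rw [h6]; exact hτ))), h3, sub_self, abs_zero]
    exact sub_eq_zero.1 (abs_nonpos_iff.1 h5)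
  · obtain ⟨α, hα⟩ := mem_tot.1 hz
    refine pkBlend_sub_le F T' v₁ fun S hS => ?_
    obtain ⟨-, h2, h3, -⟩ := hF2 hα S hS
    rw [← h3, ← F.q_dropS S z]
    exact hF1c h2

end Claimed.Agent.R315

/-!
## PART (formerly `Rg/Gen.lean`)

### Row 315, package Rg/Gen (Ruling 9 (5c)): compatible cut functions can be made regular

EXPORT `rgn_generic` : on a diagram `(F,E)` let `u` be smooth and compatible (`SC`), `A ⊆ O` compatible sets (`A` closed, `O` relatively open in every stratum) such that `u` has no critical zero in `O`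
(`RegAt`; e.g. `u ≠ 0` there, or `u` = a true defining function).  Then there is `u'`, `SC`, with `0` a regular value along EVERY stratum (`RegularOn`, the field `IsCut.reg`), `u' = u` near `A`,
`|u' - u| ≤ κ ∘ q` (`κ` any function on `V` which is locally bounded below by positive constants).

PROOF (this file: glue, proved).  `θ` = compatible Urysohn function of `(A,O)` (`pk_urysohn`).  Induction over the number of hits, deepest faces first: `card ι + 1` applications of `rgn_step` (`Rg/GenC.lean`) with the levels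
`τ j = 1 - 1/(j+1)` of `θ`:  after `j` steps `v = u` on `{θ > τ j}` and `v` is regular on the strata with more than `card ι - j` hits.
One step = ONE generic affine perturbation `c (a₀ + l)` on each stratum of the current level (`Rg/GenA.lean`: dimension count, no Sard) followed by a blend (`pkBlend`) which restores compatibility on the cofaces.
-/
set_option autoImplicit false
set_option linter.unusedSectionVars false
open scoped ContDiff Topology
open MeasureTheory Claims.C0499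

namespace Claimed.Agent.R315

variable {V W : Type} [NormedAddCommGroup V] [NormedSpace ℝ V] [NormedAddCommGroup W]
  [NormedSpace ℝ W] {ι : Type} [Fintype ι]

theorem hits_le_card (α : Stat ι) : hits α ≤ Fintype.card ι := by
  unfold hits
  calc ∑ i, (if α i = 0 then 1 else 0) ≤ ∑ _i : ι, 1 :=
        Finset.sum_le_sum fun i _ => by split_ifs <;> simp
    _ = Fintype.card ι := by simp

/-- the levels of the Urysohn function. -/
noncomputable def rgnTau (j : ℕ) : ℝ := 1 - 1 / ((j : ℝ) + 1)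

theorem rgnTau_nonneg (j : ℕ) : 0 ≤ rgnTau j := by
  unfold rgnTau
  have h : (1 : ℝ) ≤ (j : ℝ) + 1 := by
    have : (0 : ℝ) ≤ (j : ℝ) := Nat.cast_nonneg j
    linarith
  have : 1 / ((j : ℝ) + 1) ≤ 1 := by
    rw [div_le_one (by linarith)]; exact h
  linarith

theorem rgnTau_lt_one (j : ℕ) : rgnTau j < 1 := by
  unfold rgnTau
  have : (0 : ℝ) < 1 / ((j : ℝ) + 1) := by positivity
  linarith

theorem rgnTau_lt_succ (j : ℕ) : rgnTau j < rgnTau (j + 1) := by
  unfold rgnTau
  have h0 : (0 : ℝ) < (j : ℝ) + 1 := by positivity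
  have : 1 / (((j + 1 : ℕ) : ℝ) + 1) < 1 / ((j : ℝ) + 1) := by
    apply one_div_lt_one_div_of_lt h0
    push_cast
    linarith
  linarith

variable {n : ℕ} {M : Set V} {F : Frame V W ι} {E : Stat ι → Set W}

/-- **compatible cut functions can be made regular** (Ruling 9 (5c)). -/
theorem rgn_generic [FiniteDimensional ℝ V] [FiniteDimensional ℝ W] (hD : IsDiag n M F E)
    {u : W → ℝ} (hu : SC n F E u) {A O : Set W} (hA : ∀ α, IsClosed (A ∩ E α))
    (hO : RelOpen E O) (hAO : A ∩ tot E ⊆ O) (hAc : Compat F E (fun z => z ∈ A))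
    (hOc : Compat F E (fun z => z ∈ O))
    (hreg : ∀ α, ∀ z ∈ O ∩ E α, RegAt (n - hits α) (E α) u z) {κ : V → ℝ}
    (hκ : ∀ K : Set V, IsCompact K → ∃ δ : ℝ, 0 < δ ∧ ∀ x ∈ K, δ ≤ κ x) :
    ∃ u' : W → ℝ, SC n F E u' ∧ (∀ α, RegularOn (n - hits α) (E α) u') ∧
      (∀ α, ∀ z ∈ A ∩ E α, ∃ N ∈ 𝓝 z, ∀ y ∈ N ∩ E α, u' y = u y) ∧
      ∀ z ∈ tot E, |u' z - u z| ≤ κ (F.q z) := by
  obtain ⟨θ, hθ, -, hθ1, hθ0⟩ := pk_urysohn hD hA hO hAO hAc hOc
  set m : ℕ := Fintype.card ι with hm
  have hm0 : (0 : ℝ) < (m : ℝ) + 1 := by positivity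
  have hκ' : ∀ K : Set V, IsCompact K → ∃ δ : ℝ, 0 < δ ∧ ∀ x ∈ K, δ ≤ κ x / ((m : ℝ) + 1) := by
    intro K hK
    obtain ⟨δ, hδ, h⟩ := hκ K hK
    exact ⟨δ / ((m : ℝ) + 1), by positivity, fun x hx => by gcongr; exact h x hx⟩
  have key : ∀ j : ℕ, ∃ v : W → ℝ, SC n F E v ∧
      (∀ α, m < hits α + j → RegularOn (n - hits α) (E α) v) ∧
      (∀ z ∈ tot E, rgnTau j < θ z → v z = u z) ∧
      ∀ z ∈ tot E, |v z - u z| ≤ (j : ℝ) * (κ (F.q z) / ((m : ℝ) + 1)) := by
    intro j
    induction j with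
    | zero =>
      refine ⟨u, hu, fun α h => ?_, fun _ _ _ => rfl, fun z _ => by simp⟩
      have := hits_le_card α
      omega
    | succ j ih =>
      obtain ⟨v, hv, hvreg, hveq, hvsz⟩ := ih
      have hprot : ∀ α, ∀ z ∈ E α, rgnTau (j + 1) ≤ θ z → RegAt (n - hits α) (E α) v z := by
        intro α z hz hτ
        have h1 : rgnTau j < θ z := lt_of_lt_of_le (rgnTau_lt_succ j) hτ
        have hzO : z ∈ O := by
          by_contra hc
          obtain ⟨N, hN, h0⟩ := hθ0 α z hz hc
          have := h0 z ⟨mem_of_mem_nhds hN, hz⟩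
          have h2 := rgnTau_nonneg j
          linarith
        have hc : ContinuousOn θ (E α) := if_smoothAlong_continuousOn (hD.mfd α) (hθ.1 α)
        have h3 : ∀ᶠ y in 𝓝[E α] z, rgnTau j < θ y := (hc z hz).eventually (lt_mem_nhds h1)
        obtain ⟨N, hN, hsub⟩ := mem_nhdsWithin_iff_exists_mem_nhds_inter.1 h3
        exact (hreg α z ⟨hzO, hz⟩).congr_near hN fun y hy =>
          hveq y (mem_tot.2 ⟨α, hy.2⟩) (hsub hy)
      obtain ⟨v', hv', hv'reg, hv'eq, hv'sz⟩ := rgn_step hD hθ hv (m - j) (rgnTau (j + 1))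
        (fun α h => hvreg α (by omega)) hprot hκ'
      refine ⟨v', hv', fun α h => hv'reg α (by omega), fun z hz h => ?_, fun z hz => ?_⟩
      · rw [hv'eq z hz h.le, hveq z hz ((rgnTau_lt_succ j).trans h)]
      · have h1 := hv'sz z hz
        have h2 := hvsz z hz
        have h3 : |v' z - u z| ≤ |v' z - v z| + |v z - u z| := by
          have : v' z - u z = (v' z - v z) + (v z - u z) := by ring
          rw [this]; exact abs_add_le _ _
        push_cast
        linarith
  obtain ⟨u', h1, h2, h3, h4⟩ := key (m + 1)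
  refine ⟨u', h1, fun α => h2 α (by omega), fun α z hz => ?_, fun z hz => ?_⟩
  · obtain ⟨N, hN, hN1⟩ := hθ1 α z hz
    refine ⟨N, hN, fun y hy => h3 y (mem_tot.2 ⟨α, hy.2⟩) ?_⟩
    rw [hN1 y hy]
    exact rgnTau_lt_one _
  · have := h4 z hz
    have e : ((m + 1 : ℕ) : ℝ) * (κ (F.q z) / ((m : ℝ) + 1)) = κ (F.q z) := by
      push_cast
      field_simp
    rwa [e] at this

end Claimed.Agent.R315
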