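import Claimed.Agent.R315.Rg.FinX
import Claimed.Agent.R315.Rg.FinB
import Claimed.Agent.R315.Rg.FinW
import Claimed.Agent.R315.Rg.Gen

/-!
# Row 315, package Rg-FIN (architect helper266), file `Rg/FinY.lean`: diagram level steps of the final assembly

All statements of this file are about an abstract diagram `(n, M, F, E)`.

* `rgfCl E A` = union of the closures of `A ∩ E α`: closed, forward compatible (`rgfCl_closed`, `rgfCl_fcompat`);
* `rgf_U0`     : the individually smooth function `U0` (`= U` near the guard, right signs on the closures of the cores) and the compatible cutoff `θ`;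
* `rgf_ac_of`  : (AC) of `U` over `Ω` gives `RgfAC` of `U0` over `{1/8 < θ}`;
* `rgf_soft_regAt` : regular zeros are soft;
* `rgf_finish` : signs + generic perturbation away from the guard and the cores (`rgn_generic`);
* `rgf_glue_sc`: the glued supersolution is smooth and compatible on the new diagram.
-/

set_option autoImplicit false
set_option linter.unusedSectionVars false
open scoped ContDiff Topology
open Claims.C0499 Set Filter

namespace Claimed.Agent.R315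

variable {V W : Type} [NormedAddCommGroup V] [NormedSpace ℝ V] [NormedAddCommGroup W]
  [NormedSpace ℝ W] {ι : Type}

/-- union of the closures of `A` in the status spaces. -/
def rgfCl (E : Stat ι → Set W) (A : Set W) : Set W := {z | ∃ α, z ∈ closure (A ∩ E α)}

theorem rgfCl_eqns_cite : True := by have := @rgfCl.eq_1; trivial

variable [FiniteDimensional ℝ V] [FiniteDimensional ℝ W] [Fintype ι] {n : ℕ} {M : Set V}
  {F : Frame V W ι} {E : Stat ι → Set W}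

/-! ### LEAF PACKAGE L-RG-FIN-Y1: closures of the cores -/

/-- PLAN: `closure (A ∩ E β) ⊆ E β` (`hD.closed`), `hD.disj`. -/
theorem rgfCl_inter (hD : IsDiag n M F E) (A : Set W) (α : Stat ι) :
    rgfCl E A ∩ E α = closure (A ∩ E α) := by
  have hsub : ∀ β, closure (A ∩ E β) ⊆ E β := fun β =>
    closure_minimal inter_subset_right (hD.closed β)
  apply Subset.antisymm
  · rintro z ⟨⟨β, hβ⟩, hz⟩
    have e : β = α := by
      by_contra hne
      exact Set.disjoint_left.1 (hD.disj _ _ hne) (hsub β hβ) hz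
    rw [← e]; exact hβ
  · intro z hz
    exact ⟨⟨α, hz⟩, hsub α hz⟩

theorem rgfCl_closed (hD : IsDiag n M F E) (A : Set W) (α : Stat ι) :
    IsClosed (rgfCl E A ∩ E α) := by
  rw [rgfCl_inter hD]; exact isClosed_closure

/-- PLAN: `K' = cthickening 1 K` compact; `R'` = threshold of `hA i K'` and of the tail `hD.exists_tail` over `K'`, `R = max R' 0 + 1`.  `z ∈ closure (A ∩ E α)`, `q z ∈ K`, `R < |t i z|`: `mem_closure_iff_seq_limit` gives
`z k ∈ A ∩ E α`, `z k → z`; eventually `q (z k) ∈ K'`, `R' < |t i (z k)|`, so `drop i (z k) ∈ A ∩ E (α.face i)` (`DThr.drop_mem`-type argument: `hD.ne_zero_of_t_ne`, `hD.sign_mul`), and `drop i (z k) → drop i z`. -/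
theorem rgfCl_fcompat (hD : IsDiag n M F E) {A : Set W} (hA : Compat F E (fun z => z ∈ A)) :
    FCompat F E (rgfCl E A) := by
  intro i K hK
  have hK' : IsCompact (Metric.cthickening 1 K) := hK.cthickening
  obtain ⟨R0, hR0⟩ := hA i _ hK'
  obtain ⟨R, hRR0, -, hdrop, -⟩ := hD.tail_induction hK' R0
  refine ⟨R, fun z _ hq hlt hz => ?_⟩
  obtain ⟨α, hα⟩ := hz
  refine ⟨α.face i, ?_⟩
  have hO : IsOpen ({y | F.q y ∈ Metric.thickening 1 K} ∩ {y | R < |F.t i y|} : Set W) :=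
    (Metric.isOpen_thickening.preimage F.q.continuous).inter
      (isOpen_lt continuous_const (F.t i).continuous.abs)
  have hzO : z ∈ ({y | F.q y ∈ Metric.thickening 1 K} ∩ {y | R < |F.t i y|} : Set W) :=
    ⟨Metric.self_subset_thickening one_pos K hq, hlt⟩
  have h1 := hO.inter_closure ⟨hzO, hα⟩
  refine map_mem_closure (F.continuous_drop i) h1 ?_
  rintro y ⟨⟨hy1, hy2⟩, hyA, hyE⟩
  have hy1' : F.q y ∈ Metric.cthickening 1 K := Metric.thickening_subset_cthickening _ _ hy1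
  refine ⟨?_, hdrop α y hyE hy1' i hy2⟩
  exact (hR0 y (mem_tot.2 ⟨α, hyE⟩) hy1' (lt_of_le_of_lt hRR0 hy2)).mpr hyA

/-! ### LEAF PACKAGE L-RG-FIN-Y2: the function `U0` -/

/-- **the individually smooth function `U0` and the cutoff `θ`.**
PLAN.  `θ = rgf_urysohn₀ hD hG (Ωᶜ closed) .. hGc hΩc.fcompat_compl`; `θp = rgf_urysohn₀ hD hKp hKn ..`, `uc = 2 θp - 1`; `lam x = Real.smoothTransition (16 * x - 1)` (`= 0` for `x ≤ 1/16`, `= 1` for `1/8 ≤ x`);
`U0 z = lam (θ z) * U z + (1 - lam (θ z)) * uc z`.  Smoothness of the first term: `if_smoothAlong_of_zero_off hΩ (K := {x | 1/16 ≤ θ x} ∩ E α)` (`rgf_level_closed`); the other terms: `gs_sm_*`, `gs_sm_comp'`.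
Signs on `Kp`: `uc = 1`, and `lam (θ z) ≠ 0` implies `z ∈ Ω`, `U z > 0`; convex combination. -/
theorem rgf_U0 (hD : IsDiag n M F E) {Ω : Set W} (hΩ : IsOpen Ω)
    (hΩc : Compat F E (fun z => z ∈ Ω)) {U : W → ℝ}
    (hU : ∀ α, SmoothAlong (n - hits α) (E α ∩ Ω) U) {G Kp Kn : Set W}
    (hG : ∀ α, IsClosed (G ∩ E α)) (hGc : FCompat F E G) (hGΩ : G ∩ tot E ⊆ Ω)
    (hKp : ∀ α, IsClosed (Kp ∩ E α)) (hKpc : FCompat F E Kp) (hKn : ∀ α, IsClosed (Kn ∩ E α))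
    (hKnc : FCompat F E Kn) (hdisj : ∀ z ∈ tot E, z ∈ Kp → z ∉ Kn)
    (hpos : ∀ z ∈ tot E, z ∈ Kp → z ∈ Ω → 0 < U z)
    (hneg : ∀ z ∈ tot E, z ∈ Kn → z ∈ Ω → U z < 0) :
    ∃ (θ U0 : W → ℝ), SC n F E θ ∧ (∀ z ∈ G ∩ tot E, θ z = 1) ∧
      (∀ z ∈ tot E, 0 < θ z → z ∈ Ω) ∧ (∀ α, SmoothAlong (n - hits α) (E α) U0) ∧
      (∀ z ∈ tot E, 1 / 8 ≤ θ z → U0 z = U z) ∧ (∀ z ∈ tot E, z ∈ Kp → 0 < U0 z) ∧
      ∀ z ∈ tot E, z ∈ Kn → U0 z < 0 := by
  obtain ⟨θ, hθ, hθI, hθ1, hθ0⟩ := rgf_urysohn₀ hD hG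
    (fun α => hΩ.isClosed_compl.inter (hD.closed α))
    (fun z hz hzG hzΩ => hzΩ (hGΩ ⟨hzG, hz⟩)) hGc hΩc.fcompat_compl
  obtain ⟨θp, hθp, hθpI, hθp1, hθp0⟩ := rgf_urysohn₀ hD hKp hKn hdisj hKpc hKnc
  have hlam : ContDiff ℝ ∞ fun x : ℝ => Real.smoothTransition (16 * x - 1) :=
    Real.smoothTransition.contDiff.comp ((contDiff_const.mul contDiff_id).sub contDiff_const)
  have hθΩ : ∀ z ∈ tot E, 0 < θ z → z ∈ Ω := by
    intro z hz h0
    by_contra hzΩ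
    rw [hθ0 z ⟨hzΩ, hz⟩] at h0
    exact lt_irrefl _ h0
  have hl0 : ∀ z, 0 ≤ Real.smoothTransition (16 * θ z - 1) := fun z =>
    Real.smoothTransition.nonneg _
  have hl1 : ∀ z, Real.smoothTransition (16 * θ z - 1) ≤ 1 := fun z =>
    Real.smoothTransition.le_one _
  have hlΩ : ∀ z ∈ tot E, Real.smoothTransition (16 * θ z - 1) ≠ 0 → z ∈ Ω := by
    intro z hz hne
    refine hθΩ z hz ?_
    by_contra h0
    exact hne (Real.smoothTransition.zero_of_nonpos (by linarith))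
  refine ⟨θ, fun z => Real.smoothTransition (16 * θ z - 1) * U z +
    (1 - Real.smoothTransition (16 * θ z - 1)) * (2 * θp z - 1), hθ, hθ1, hθΩ, fun α => ?_,
    fun z _ h8 => ?_, fun z hz hzK => ?_, fun z hz hzK => ?_⟩
  · have hs1 : SmoothAlong (n - hits α) (E α) fun z => Real.smoothTransition (16 * θ z - 1) :=
      gs_sm_comp' (φ := fun x : ℝ => Real.smoothTransition (16 * x - 1)) hlam (hθ.1 α)
    refine gs_sm_add ?_ (gs_sm_mul (gs_sm_sub (gs_sm_const 1) hs1)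
      (gs_sm_sub (gs_sm_smul 2 (hθp.1 α)) (gs_sm_const 1)))
    refine if_smoothAlong_of_zero_off hΩ
      (rgf_level_closed hD (fun α => hθ.continuousOn hD α) (S := Set.Ici (1 / 16 : ℝ)) isClosed_Ici α)
      ?_ (gs_sm_mul (if_smoothAlong_inter hs1 hΩ) (hU α)) ?_
    · rintro z ⟨hz1, hz2⟩
      have hz1' : (1 / 16 : ℝ) ≤ θ z := hz1
      exact hθΩ z (mem_tot.2 ⟨α, hz2⟩) (by linarith)
    · intro z hz hzK
      have h16 : θ z < 1 / 16 := by
        by_contra hcon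
        exact hzK ⟨not_lt.1 hcon, hz⟩
      show Real.smoothTransition (16 * θ z - 1) * U z = 0
      rw [Real.smoothTransition.zero_of_nonpos (by linarith), zero_mul]
  · show Real.smoothTransition (16 * θ z - 1) * U z +
      (1 - Real.smoothTransition (16 * θ z - 1)) * (2 * θp z - 1) = U z
    rw [Real.smoothTransition.one_of_one_le (by linarith)]
    ring
  · show 0 < Real.smoothTransition (16 * θ z - 1) * U z +
      (1 - Real.smoothTransition (16 * θ z - 1)) * (2 * θp z - 1)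
    rw [hθp1 z ⟨hzK, hz⟩]
    by_cases hl : Real.smoothTransition (16 * θ z - 1) = 0
    · rw [hl]; norm_num
    · have hU0 := hpos z hz hzK (hlΩ z hz hl)
      have hlp : 0 < Real.smoothTransition (16 * θ z - 1) := lt_of_le_of_ne (hl0 z) (Ne.symm hl)
      have := mul_pos hlp hU0
      have := hl1 z
      nlinarith
  · show Real.smoothTransition (16 * θ z - 1) * U z +
      (1 - Real.smoothTransition (16 * θ z - 1)) * (2 * θp z - 1) < 0
    rw [hθp0 z ⟨hzK, hz⟩]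
    by_cases hl : Real.smoothTransition (16 * θ z - 1) = 0
    · rw [hl]; norm_num
    · have hU0 := hneg z hz hzK (hlΩ z hz hl)
      have hlp : 0 < Real.smoothTransition (16 * θ z - 1) := lt_of_le_of_ne (hl0 z) (Ne.symm hl)
      have := mul_pos hlp (neg_pos.2 hU0)
      have := hl1 z
      nlinarith

/-- **(AC) for `U0`.**
PLAN: `hAC α J s hs y hy ..` + `RgfConv.congr` on `O = ball y 1 ∩ (dropS J) ⁻¹' N`, `N` a neighbourhood of `dropS J y` with `1/8 < θ` on `N ∩ E γ` (`rgf_level_relOpen`, `SC.continuousOn`).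
For `z ∈ cyl ∩ O` and large `k`: `z + vec ∈ E α` (`ct_window` on `closedBall y 1`), `θ (z + vec) = θ (dropS J z)` (`ct_window_compat hθ.2`), so `U0 = U` at `z + vec` and at `dropS J z`. -/
theorem rgf_ac_of (hD : IsDiag n M F E) {Ω : Set W} {U U0 θ : W → ℝ} (hθ : SC n F E θ)
    (hθΩ : ∀ z ∈ tot E, 0 < θ z → z ∈ Ω) (hU0 : ∀ z ∈ tot E, 1 / 8 ≤ θ z → U0 z = U z)
    (hAC : RgfAC n F E Ω U) : RgfAC n F E {z | 1 / 8 < θ z} U0 := by
  intro α J s hs y hy hyθ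
  have hyθ' : 1 / 8 < θ (F.dropS J y) := hyθ
  have hyE : F.dropS J y ∈ E (α.faceS J) := hy
  have hyΩ : F.dropS J y ∈ Ω := hθΩ _ (mem_tot.2 ⟨_, hyE⟩) (by linarith)
  obtain ⟨N, hN, hNsub⟩ := rgf_level_relOpen (fun α => hθ.continuousOn hD α)
    (S := Set.Ioi (1 / 8 : ℝ)) isOpen_Ioi (α.faceS J) (F.dropS J y) ⟨hyθ', hyE⟩
  have hK : IsCompact (Metric.closedBall y 1) := isCompact_closedBall y 1
  have hO : Metric.ball y 1 ∩ F.dropS J ⁻¹' N ∈ 𝓝 y :=
    inter_mem (Metric.ball_mem_nhds y one_pos)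
      ((F.continuous_dropS J).continuousAt.preimage_mem_nhds hN)
  refine (hAC α J s hs y hy hyΩ).congr hO ?_ ?_
  · filter_upwards [ct_window hD α J hs.1 s hs.2 hK, ct_window_compat hD α J hs.1 s hs.2 hK hθ.2]
      with k hk1 hk2 z hz
    have hzK : z ∈ Metric.closedBall y 1 := Metric.ball_subset_closedBall hz.2.1
    have hzE : z + F.vec J (s k) ∈ E α := (hk1 z hzK).2 hz.1
    have h8 : 1 / 8 < θ (F.dropS J z) := hNsub ⟨hz.2.2, hz.1⟩
    refine hU0 _ (mem_tot.2 ⟨α, hzE⟩) ?_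
    rw [hk2 z hzK hzE]
    exact h8.le
  · intro z hz
    have h8 : 1 / 8 < θ (F.dropS J z) := hNsub ⟨hz.2.2, hz.1⟩
    exact hU0 _ (mem_tot.2 ⟨_, hz.1⟩) h8.le

/-! ### LEAF PACKAGE L-RG-FIN-Y3: regular zeros are soft -/

/-- windows of the status spaces themselves.  PLAN: `ct_window`, `ct_window_compat` on `closedBall y' 1`. -/
theorem rgf_win_E (hD : IsDiag n M F E) {h : Ten W} (hh : Compat F E h) {Ω : Set W}
    (hΩ : IsOpen Ω) {α : Stat ι} {J : Finset ι} {s : ℕ → ι → ℝ} (hs : RgfEsc α J s) (y' : W) :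
    ∀ᶠ k in atTop, RgfWin (E α) (F.cyl J (E (α.faceS J) ∩ Ω)) h (fun z => h (F.dropS J z))
      (F.vec J (s k)) {z | z ∈ Metric.ball y' 1 ∧ F.dropS J z ∈ Ω} := by
  have hK : IsCompact (Metric.closedBall y' 1) := isCompact_closedBall y' 1
  filter_upwards [ct_window hD α J hs.1 s hs.2 hK, ct_window_compat hD α J hs.1 s hs.2 hK hh]
    with k hk1 hk2
  refine ⟨Metric.isOpen_ball.inter (hΩ.preimage (F.continuous_dropS J)), fun z hz => ?_,
    fun z hz => ?_⟩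
  · have hzK : z ∈ Metric.closedBall y' 1 := Metric.ball_subset_closedBall hz.1
    rw [hk1 z hzK]
    exact ⟨fun h1 => ⟨h1, hz.2⟩, fun h1 => h1.1⟩
  · have hzK : z ∈ Metric.closedBall y' 1 := Metric.ball_subset_closedBall hz.2.1
    exact hk2 z hzK ((hk1 z hzK).2 hz.1.1)

/-- **regular zeros are soft.**
PLAN.  `γ = α.faceS J`, `Y₀ = E γ ∩ Ω`, `B : RgfBase F J (n - hits γ) Y₀ h dr` (`if_mfd_inter`, `if_isMetricOn_inter`, `if_smoothAlong_inter`, `hD.t_hit`, `hm.normal`), `n - hits α = n - hits γ + J.card` (`ct_hits_faceS`, `hdim`).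
`F.cyl J Y₀ = F.cyl J (E γ) ∩ (dropS J) ⁻¹' Ω`: `hu.inter`, `.ct`, `CtConvAt.gradIp`, `CtConvAt.tendsto` give `gradSq (cyl) (u k (· + a k)) (y k) → gradSq (cyl) (U ∘ dropS J) y' = gradSq Y₀ U y'` (`B.cylOK.ip_eq`,
`rgf_dropS_of_mem`); the left side is `gradSq (E α) (u k) (y k + a k)` (`rgf_win_E`, `RgfWin.gradSq_eq`).  `u k (y k + a k) → U y'` (`RgfConv.eval`).
`U y' ≠ 0`: `regAt_of_ne` eventually; `U y' = 0`: the gradients are eventually positive, `rgf_regAt_of_gradSq_pos`. -/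
theorem rgf_soft_regAt (hD : IsDiag n M F E) {h : Ten W} (hm : IsPMetric n F E h) {dr : W → ℝ}
    (hdr : SC n F E dr) {Ω : Set W} (hΩ : IsOpen Ω) {U : W → ℝ}
    (hU : ∀ α, SmoothAlong (n - hits α) (E α ∩ Ω) U)
    (hreg : ∀ α, ∀ z ∈ E α ∩ Ω, U z = 0 → 0 < gradSq (n - hits α) (E α ∩ Ω) h U z)
    (hdim : ∀ α, (E α).Nonempty → hits α ≤ n) {α : Stat ι} {J : Finset ι} {s : ℕ → ι → ℝ}
    (hs : RgfEsc α J s) {u : ℕ → W → ℝ} (hus : ∀ k, SmoothAlong (n - hits α) (E α) (u k))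
    {y : ℕ → W} {y' : W} (hy : ∀ k, y k + F.vec J (s k) ∈ E α) (hlim : Tendsto y atTop (𝓝 y'))
    (hy' : y' ∈ E (α.faceS J) ∩ Ω)
    (hu : RgfConv (mdim n (α.faceS J) J) (F.cyl J (E (α.faceS J)))
      (fun k z => u k (z + F.vec J (s k))) (fun z => U (F.dropS J z)) y') :
    ∀ᶠ k in atTop, RegAt (n - hits α) (E α) (u k) (y k + F.vec J (s k)) := by
  classical
  have hface : ∀ j ∈ J, α.faceS J j = 0 := fun j hj => by simp [Stat.faceS, hj]
  have B : RgfBase F J (n - hits (α.faceS J)) (E (α.faceS J) ∩ Ω) h dr :=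
    ⟨CtGeo.inter ⟨hD.mfd _, hm.met _, hdr.1 _⟩ hΩ,
      fun x hx j hj => hD.t_hit _ x hx.1 j (hface j hj),
      fun x hx j hj w => hm.normal _ x hx.1 j (hface j hj) w⟩
  have hOK := B.cylOK
  have hdimE : n - hits α = n - hits (α.faceS J) + J.card := by
    have h1 := ct_hits_faceS α J hs.1
    have h2 := hdim (α.faceS J) ⟨y', hy'.1⟩
    omega
  have hdy : F.dropS J y' = y' := rgf_dropS_of_mem hD α J hy'.1
  have hy'c : y' ∈ F.cyl J (E (α.faceS J) ∩ Ω) := by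
    show F.dropS J y' ∈ E (α.faceS J) ∩ Ω
    rw [hdy]; exact hy'
  have hO : IsOpen (F.dropS J ⁻¹' Ω) := hΩ.preimage (F.continuous_dropS J)
  have hu' : RgfConv (n - hits (α.faceS J) + J.card) (F.cyl J (E (α.faceS J) ∩ Ω))
      (fun k z => u k (z + F.vec J (s k))) (fun z => U (F.dropS J z)) y' := hu.inter hO
  have hct := hu'.ct hOK.geo.mfd hy'c
  have hwin := rgf_win_E hD hm.compat hΩ hs y'
  have hNopen : IsOpen {z | z ∈ Metric.ball y' 1 ∧ F.dropS J z ∈ Ω} :=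
    Metric.isOpen_ball.inter hO
  have hyN : ∀ᶠ k in atTop, y k ∈ {z | z ∈ Metric.ball y' 1 ∧ F.dropS J z ∈ Ω} :=
    hlim.eventually (hNopen.mem_nhds ⟨Metric.mem_ball_self one_pos, by rw [hdy]; exact hy'.2⟩)
  have hyc : ∀ᶠ k in atTop, y k ∈ F.cyl J (E (α.faceS J) ∩ Ω) := by
    filter_upwards [hwin, hyN] with k hk1 hk2
    exact (hk1.set _ hk2).1 (hy k)
  have hval : Tendsto (fun k => u k (y k + F.vec J (s k))) atTop (𝓝 (U y')) := by
    have := hu'.eval hOK.geo.mfd hy'c hyc hlim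
    rwa [hdy] at this
  by_cases h0 : U y' = 0
  · have hg := (hct.gradIp hOK.geo.mfd hOK.geo.met hy'c hct).tendsto hOK.geo.mfd hy'c hyc hlim
    rw [hOK.ip_eq U U (hU _) (hU _) y' hy'c, hdy] at hg
    have hpos : 0 < gradIp (n - hits (α.faceS J)) (E (α.faceS J) ∩ Ω) h U U y' :=
      hreg _ y' hy' h0
    filter_upwards [hg.eventually (lt_mem_nhds hpos), hwin, hyN] with k hk1 hk2 hk3
    refine rgf_regAt_of_gradSq_pos (hm.met α) (hus k) ?_
    rw [hdimE, hk2.gradSq_eq (u k) hk3]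
    exact hk1
  · filter_upwards [hval.eventually (isOpen_ne.mem_nhds h0)] with k hk
    exact regAt_of_ne hk

/-! ### LEAF PACKAGE L-RG-FIN-Y4: signs, generic perturbation, the glued supersolution -/

omit [FiniteDimensional ℝ V] [FiniteDimensional ℝ W] [Fintype ι] in
/-- functions of two compatible data are compatible. -/
theorem rgf_compat₂ {X Y Z : Type} {φ : W → X} {ψ : W → Y} (hφ : Compat F E φ)
    (hψ : Compat F E ψ) (G : X → Y → Z) : Compat F E (fun z => G (φ z) (ψ z)) := by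
  intro i K hK
  obtain ⟨R, hR⟩ := hφ i K hK
  obtain ⟨R', hR'⟩ := hψ i K hK
  refine ⟨max R R', fun z hz hq hlt => ?_⟩
  simp only [hR z hz hq (lt_of_le_of_lt (le_max_left _ _) hlt),
    hR' z hz hq (lt_of_le_of_lt (le_max_right _ _) hlt)]

/-- **generic perturbation away from the guard and the cores.**
PLAN.  `θp = rgf_urysohn₀ hD hKp ({u₁ ≤ 0} closed: rgf_level_closed) .. hKpc (Compat.fcompat (rgf_level_compat hu.2 (Iic 0)))`, `θn` likewise with `Kn`, `{0 ≤ u₁}`.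
`A = {1/2 ≤ θ} ∪ {1/2 ≤ θp} ∪ {1/2 ≤ θn}`, `O = {1/4 < θ} ∪ {u₁ ≠ 0}` (preimages: `rgf_level_closed`, `rgf_level_relOpen`, `rgf_level_compat`; unions of compatible sets are compatible).  `A ∩ tot E ⊆ O`: `1/2 ≤ θp z` excludes `u₁ z ≤ 0`.
`rgn_generic hD hu .. (κ := fun _ => 1)`; on `Kp`: `θp = 1`, `z ∈ A`, `u z = u₁ z > 0`. -/
theorem rgf_finish (hD : IsDiag n M F E) {u₁ θ : W → ℝ} (hu : SC n F E u₁) (hθ : SC n F E θ)
    (hreg : ∀ α, ∀ z ∈ E α, 1 / 4 ≤ θ z → RegAt (n - hits α) (E α) u₁ z) {Kp Kn : Set W}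
    (hKp : ∀ α, IsClosed (Kp ∩ E α)) (hKpc : FCompat F E Kp) (hKn : ∀ α, IsClosed (Kn ∩ E α))
    (hKnc : FCompat F E Kn) (hpos : ∀ z ∈ tot E, z ∈ Kp → 0 < u₁ z)
    (hneg : ∀ z ∈ tot E, z ∈ Kn → u₁ z < 0) :
    ∃ u : W → ℝ, SC n F E u ∧ (∀ α, RegularOn (n - hits α) (E α) u) ∧
      (∀ α, ∀ z ∈ E α, 1 / 2 ≤ θ z → ∃ N ∈ 𝓝 z, ∀ y ∈ N ∩ E α, u y = u₁ y) ∧
      (∀ z ∈ tot E, z ∈ Kp → 0 < u z) ∧ ∀ z ∈ tot E, z ∈ Kn → u z < 0 := by
  have huc := fun α => SC.continuousOn hD hu α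
  have hθc := fun α => SC.continuousOn hD hθ α
  obtain ⟨θp, hθp, -, hp1, hp0⟩ := rgf_urysohn₀ hD hKp
    (fun α => rgf_level_closed hD huc (isClosed_Iic (a := (0 : ℝ))) α)
    (fun z hz hzK (hz0 : u₁ z ≤ 0) => absurd (hpos z hz hzK) (not_lt.2 hz0)) hKpc
    (rgf_level_compat hu.2 (Iic (0 : ℝ))).fcompat
  obtain ⟨θn, hθn, -, hn1, hn0⟩ := rgf_urysohn₀ hD hKn
    (fun α => rgf_level_closed hD huc (isClosed_Ici (a := (0 : ℝ))) α)
    (fun z hz hzK (hz0 : 0 ≤ u₁ z) => absurd (hneg z hz hzK) (not_lt.2 hz0)) hKnc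
    (rgf_level_compat hu.2 (Ici (0 : ℝ))).fcompat
  have hθpc := fun α => SC.continuousOn hD hθp α
  have hθnc := fun α => SC.continuousOn hD hθn α
  set A : Set W := θ ⁻¹' Ici (1 / 2 : ℝ) ∪ θp ⁻¹' Ici (1 / 2 : ℝ) ∪ θn ⁻¹' Ici (1 / 2 : ℝ) with hAdef
  set O : Set W := θ ⁻¹' Ioi (1 / 4 : ℝ) ∪ u₁ ⁻¹' {(0 : ℝ)}ᶜ with hOdef
  have hA : ∀ α, IsClosed (A ∩ E α) := by
    intro α
    rw [hAdef, union_inter_distrib_right, union_inter_distrib_right]
    exact ((rgf_level_closed hD hθc isClosed_Ici α).union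
      (rgf_level_closed hD hθpc isClosed_Ici α)).union (rgf_level_closed hD hθnc isClosed_Ici α)
  have hO : RelOpen E O := by
    intro α z hz
    rcases hz.1 with h | h
    · obtain ⟨N, hN, hs⟩ := rgf_level_relOpen hθc (isOpen_Ioi (a := (1 / 4 : ℝ))) α z ⟨h, hz.2⟩
      exact ⟨N, hN, fun y hy => Or.inl (hs hy)⟩
    · obtain ⟨N, hN, hs⟩ := rgf_level_relOpen huc (isOpen_compl_singleton (x := (0 : ℝ))) α z
        ⟨h, hz.2⟩
      exact ⟨N, hN, fun y hy => Or.inr (hs hy)⟩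
  have hAc : Compat F E (fun z => z ∈ A) :=
    rgf_compat₂ (rgf_compat₂ (rgf_level_compat hθ.2 (Ici (1 / 2 : ℝ)))
      (rgf_level_compat hθp.2 (Ici (1 / 2 : ℝ))) Or) (rgf_level_compat hθn.2 (Ici (1 / 2 : ℝ))) Or
  have hOc : Compat F E (fun z => z ∈ O) :=
    rgf_compat₂ (rgf_level_compat hθ.2 (Ioi (1 / 4 : ℝ))) (rgf_level_compat hu.2 {(0 : ℝ)}ᶜ) Or
  have hAO : A ∩ tot E ⊆ O := by
    rintro z ⟨(h | h) | h, hz⟩
    · left
      show (1 / 4 : ℝ) < θ z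
      have : (1 / 2 : ℝ) ≤ θ z := h
      linarith
    · right
      intro (h0 : u₁ z = 0)
      have h1 := hp0 z ⟨(le_of_eq h0 : u₁ z ≤ 0), hz⟩
      have : (1 / 2 : ℝ) ≤ θp z := h
      rw [h1] at this
      norm_num at this
    · right
      intro (h0 : u₁ z = 0)
      have h1 := hn0 z ⟨(le_of_eq h0.symm : 0 ≤ u₁ z), hz⟩
      have : (1 / 2 : ℝ) ≤ θn z := h
      rw [h1] at this
      norm_num at this
  have hregO : ∀ α, ∀ z ∈ O ∩ E α, RegAt (n - hits α) (E α) u₁ z := by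
    rintro α z ⟨h | h, hz⟩
    · exact hreg α z hz (le_of_lt h)
    · exact regAt_of_ne h
  obtain ⟨u, hus, hur, hun, -⟩ := rgn_generic hD hu hA hO hAO hAc hOc hregO (κ := fun _ => 1)
    (fun K _ => ⟨1, one_pos, fun _ _ => le_rfl⟩)
  refine ⟨u, hus, hur, fun α z hz hθz => hun α z ⟨Or.inl (Or.inl hθz), hz⟩, fun z hz hzK => ?_,
    fun z hz hzK => ?_⟩
  · obtain ⟨α, hα⟩ := mem_tot.1 hz
    obtain ⟨N, hN, he⟩ := hun α z ⟨Or.inl (Or.inr (by
      show (1 / 2 : ℝ) ≤ θp z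
      rw [hp1 z ⟨hzK, hz⟩]; norm_num)), hα⟩
    rw [he z ⟨mem_of_mem_nhds hN, hα⟩]
    exact hpos z hz hzK
  · obtain ⟨α, hα⟩ := mem_tot.1 hz
    obtain ⟨N, hN, he⟩ := hun α z ⟨Or.inr (by
      show (1 / 2 : ℝ) ≤ θn z
      rw [hn1 z ⟨hzK, hz⟩]; norm_num), hα⟩
    rw [he z ⟨mem_of_mem_nhds hN, hα⟩]
    exact hneg z hz hzK

/-- **the glued supersolution.**
PLAN.  `hD' = pk_split_diag hD hC`.  Smooth: `pk_smoothAlong_congr (pk_smoothAlong_sub (rgf_mfdY hD.mfd α') (splitE_sub_rgY ..) (hvs α')) (fun z hz => pkGlue_eq hD' v hz)`.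
Compatible: `i'`, `K`; `R₁` from `hv i' K`, `R₂` from `hD'.exists_tail hK`; `R = max (max R₁ R₂) 0`; `z ∈ splitE .. α'`, `R < |t i' z|`: `α' i' ≠ 0` (`hD'.ne_zero_of_t_ne`), `drop i' z ∈ splitE .. (α'.face i')` (`hD'.sign_mul`), `pkGlue_eq` twice. -/
theorem rgf_glue_sc (hD : IsDiag n M F E) {u w : W → ℝ} {k : ℝ → ℝ} (hC : IsCut n F E u w k)
    {v : Stat (Option ι) → W × ℝ → ℝ}
    (hvs : ∀ α', SmoothAlong (rgYd n α') (rgY E α') (v α')) (hv : RgfFam F E v) :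
    SC n F.ext (splitE E u w k) (pkGlue (splitE E u w k) v) := by
  have hD' := pk_split_diag hD hC
  refine ⟨fun α' => ?_, fun i' K hK => ?_⟩
  · exact pk_smoothAlong_congr (pk_smoothAlong_sub (rgf_mfdY hD.mfd α')
      (splitE_sub_rgY _ _ _ _ α') (hvs α')) fun z hz => pkGlue_eq hD' v hz
  · obtain ⟨R₁, hR₁⟩ := hv i' K hK
    obtain ⟨R₂, hR₂⟩ := hD'.exists_tail hK
    refine ⟨max (max R₁ R₂) 0, fun z hz hq hlt => ?_⟩
    obtain ⟨α', hα'⟩ := mem_tot.1 hz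
    have h0 : F.ext.t i' z ≠ 0 := by
      intro h
      rw [h, abs_zero] at hlt
      exact absurd hlt (not_lt.2 (le_max_right _ _))
    have hαi := hD'.ne_zero_of_t_ne hα' h0
    have hdrop : F.ext.drop i' z ∈ splitE E u w k (α'.face i') :=
      (hR₂ i' α' hαi z hq (by
        rw [hD'.sign_mul hα' i']
        exact lt_of_le_of_lt ((le_max_right _ _).trans (le_max_left _ _)) hlt)).1 hα'
    rw [pkGlue_eq hD' v hdrop, pkGlue_eq hD' v hα']
    exact hR₁ α' hαi z (splitE_sub_rgY _ _ _ _ _ hα') hq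
      (lt_of_le_of_lt ((le_max_left _ _).trans (le_max_left _ _)) hlt)

end Claimed.Agent.R315
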