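import Claimed.Agent.R315.Rg.Ident
import Claimed.Agent.R315.Pack004
import Claimed.Agent.R315.Ct.BvA

/-!
# Row 315, package Rg, part 2: gluing a local supersolution to a prescribed one at infinity

REPLACES P Lemmas E.5 (correction `K_A`), E.6 (bounded gapped resolvent), E.7 (exact solutions, exponential convergence, compatible
approximations).  No bounded geometry, no volume growth, no decay estimate, no elliptic estimate.

SETTING. `(A,h,t)` a Core manifold (NOT necessarily closed), `L = rgL .. C W = -C Δ_t + W`; `D ⊆ A` ("required set"); `O ⊇ D` open such that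
 * the form of `L` has a gap `e₀ > 0` on `A ∩ O` (`GsGap`);
 * `ψ > 0` smooth on `A` (the function prescribed at infinity), `ρ` smooth on `A` with `D ∩ {ρ ≤ s}` compact, and on `A ∩ O ∩ {ρ > 0}`:
   `L ψ ≥ δ ψ`, and only BOUNDS (any finite `κ₁`; RULING 9: the tails of the true pieces are not exact products):
   `|⟨dψ,dρ⟩| ≤ κ₁ ψ`, `|dρ|² ≤ κ₁`, `|Δ_t ρ| ≤ κ₁`.
CONCLUSION (`rg_glue_super`): `v > 0` smooth on `A`, `v = ψ` on `{ρ ≥ s}` and outside a compact subset of `A ∩ O`, `L v ≥ min(e₀/4, δ/2) v` on `A ∩ O'`, `O' ⊇ D` open.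

PROOF.  `z₀ > 0` on `N = A ∩ O` with `L z₀ > (e₀/2) z₀` (`gs_aap` for `W - e₀/2`, gap `e₀/2`).  Fix `α = δ/(8 C κ₁)`.
 By `rg_L_mul_comp`, for every smooth `G ≥ 0` and `ρ x > 0`:  `L(ψ G(ρ)) ≥ ψ (δ G - C κ₁ (|G'| + max G'' 0) - 2 C κ₁ |G'|) ≥ ψ (δ G - 4 C κ₁ B)` if `|G'| ≤ B`, `G'' ≤ B`   (*) = `rg_L_mul_comp_ge`.
 `g` (`rg_exists_g α`): `g = 0` on `(-∞,1/2]`, `|g'| + |g''| ≤ η` everywhere on `(-∞,3/2]`, `≤ α g` on `[3/2,∞)`, `g → ∞`.
 (*):  `L(ψ g(ρ)) ≥ (δ/2) ψ g(ρ)` where `ρ ≥ 3/2`, `≥ - 4 C κ₁ η ψ` where `ρ ≤ 3/2` (and `= 0` where `ρ ≤ 1/2`).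
 `a = z₀ + ε ψ g(ρ)`, `4 ε C κ₁ η ψ ≤ (e₀/4) z₀` on the compact `K₁`:  `L a ≥ min(e₀/4,δ/2) a` on `K₁ ∪ {ρ > 3/2}`.
 `Y` (`rg_exists_Y α Big`), `Big ≥ 2 sup_{K₁} a/ψ`: `b = ψ Y(ρ)`, `L b ≥ (δ/2) b` where `ρ > 0` ((*) with `|Y'| ≤ α Y`, `Y'' ≤ α Y`).
 `v = b m(a/b)` (`rg_exists_smin`, `rg_smin_super`).  For `ρ ≥ max(s₂,s₃)`, `ε g ≥ 2` on `[s₃,∞)`: `Y = 1`, `a ≥ 2 b`, `v = b = ψ`.
Owner: helper209.
-/

set_option autoImplicit false
set_option linter.unusedSectionVars false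
open scoped ContDiff Topology
open Claims.C0499 Set MeasureTheory Filter

namespace Claimed.Agent.R315

/-! ## one-dimensional functions (leaves RG-1D-*) -/

/-- primitive of a smooth function -/
theorem rg1d_prim {σ : ℝ → ℝ} (hσ : ContDiff ℝ ∞ σ) :
    ContDiff ℝ ∞ (fun r => ∫ s in (0:ℝ)..r, σ s) ∧ deriv (fun r => ∫ s in (0:ℝ)..r, σ s) = σ := by
  have hd : ∀ r, HasDerivAt (fun r => ∫ s in (0:ℝ)..r, σ s) (σ r) r := fun r =>
    intervalIntegral.integral_hasDerivAt_right (hσ.continuous.intervalIntegrable _ _)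
      (hσ.continuous.stronglyMeasurableAtFilter _ _) hσ.continuous.continuousAt
  have e : deriv (fun r => ∫ s in (0:ℝ)..r, σ s) = σ := funext fun r => (hd r).deriv
  exact ⟨contDiff_infty_iff_deriv.2 ⟨fun r => (hd r).differentiableAt, by rw [e]; exact hσ⟩, e⟩

/-- the derivative of a smooth function is smooth -/
theorem rg1d_deriv_smooth {f : ℝ → ℝ} (hf : ContDiff ℝ ∞ f) : ContDiff ℝ ∞ (deriv f) :=
  (contDiff_infty_iff_deriv.1 hf).2

/-- two smooth functions which agree on a left half line have the same derivative there -/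
theorem rg1d_deriv_eq_Iic {f g : ℝ → ℝ} (hf : ContDiff ℝ ∞ f) (hg : ContDiff ℝ ∞ g) {a : ℝ}
    (h : ∀ s, s ≤ a → f s = g s) : ∀ s, s ≤ a → deriv f s = deriv g s := by
  have hcl : IsClosed {s | deriv f s = deriv g s} :=
    isClosed_eq (rg1d_deriv_smooth hf).continuous (rg1d_deriv_smooth hg).continuous
  have hsub : Iio a ⊆ {s | deriv f s = deriv g s} := fun s hs => by
    have : f =ᶠ[𝓝 s] g := by
      filter_upwards [Iio_mem_nhds hs] with y hy using h y (le_of_lt hy)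
    exact this.deriv_eq
  intro s hs
  have := closure_minimal hsub hcl
  rw [closure_Iio] at this
  exact this hs

/-- two smooth functions which agree on a right half line have the same derivative there -/
theorem rg1d_deriv_eq_Ici {f g : ℝ → ℝ} (hf : ContDiff ℝ ∞ f) (hg : ContDiff ℝ ∞ g) {a : ℝ}
    (h : ∀ s, a ≤ s → f s = g s) : ∀ s, a ≤ s → deriv f s = deriv g s := by
  have hcl : IsClosed {s | deriv f s = deriv g s} :=
    isClosed_eq (rg1d_deriv_smooth hf).continuous (rg1d_deriv_smooth hg).continuous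
  have hsub : Ioi a ⊆ {s | deriv f s = deriv g s} := fun s hs => by
    have : f =ᶠ[𝓝 s] g := by
      filter_upwards [Ioi_mem_nhds hs] with y hy using h y (le_of_lt hy)
    exact this.deriv_eq
  intro s hs
  have := closure_minimal hsub hcl
  rw [closure_Ioi] at this
  exact this hs

/-- the derivative of the smooth transition is bounded and nonnegative -/
theorem rg1d_dT_bound : ∃ cf : ℝ, 0 ≤ cf ∧ ∀ x, 0 ≤ deriv Real.smoothTransition x ∧
    deriv Real.smoothTransition x ≤ cf := by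
  have hT : ContDiff ℝ ∞ Real.smoothTransition := Real.smoothTransition.contDiff
  have hT' := rg1d_deriv_smooth hT
  obtain ⟨cf, hcf⟩ := (isCompact_Icc (a := (0 : ℝ)) (b := 1)).exists_bound_of_continuousOn
    hT'.continuous.continuousOn
  have hcf0 : 0 ≤ cf := (norm_nonneg _).trans (hcf 0 ⟨le_rfl, zero_le_one⟩)
  refine ⟨cf, hcf0, fun x => ⟨Real.smoothTransition.monotone.deriv_nonneg, ?_⟩⟩
  rcases le_total x 0 with h | h
  · rw [rg1d_deriv_eq_Iic hT (contDiff_const (c := (0 : ℝ)))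
      (fun s hs => Real.smoothTransition.zero_of_nonpos hs) x h]
    simpa using hcf0
  rcases le_total x 1 with h1 | h1
  · exact (le_abs_self _).trans (hcf x ⟨h, h1⟩)
  · rw [rg1d_deriv_eq_Ici hT (contDiff_const (c := (1 : ℝ)))
      (fun s hs => Real.smoothTransition.one_of_one_le hs) x h1]
    simpa using hcf0

/-- **leaf RG-1D-M**: profile of the smooth concave minimum.
PLAN: `σ(s) = 1 - Real.smoothTransition (s - 1/2)` (smooth, antitone, `1` on `(-∞,1/2]`, `0` on `[3/2,∞)`), `m₀ r = ∫ s in 0..r, σ s`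
(`ContDiff`: `deriv m₀ = σ` by FTC, `contDiff_infty_iff_deriv`/`contDiff_succ_iff_deriv`), `c = m₀ 2 > 0`, `m = m₀ / c`, `κ = 1/c`.
`(m - r m')' = - r m'' ≥ 0` on `r ≥ 0` and `m 0 = 0`. -/
theorem rg_exists_smin : ∃ (m : ℝ → ℝ) (κ : ℝ), ContDiff ℝ ∞ m ∧ 0 < κ ∧
    (∀ r, r ≤ 1 / 2 → m r = κ * r ∧ deriv m r = κ) ∧ (∀ r, 2 ≤ r → m r = 1 ∧ deriv m r = 0) ∧
    (∀ r, 0 ≤ deriv m r) ∧ (∀ r, deriv (deriv m) r ≤ 0) ∧
    (∀ r, 0 ≤ r → 0 ≤ m r - r * deriv m r) ∧ (∀ r, 0 < r → 0 < m r) := by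
  set σ : ℝ → ℝ := fun s => 1 - Real.smoothTransition (s - 1 / 2) with hσdef
  have hσ : ContDiff ℝ ∞ σ :=
    contDiff_const.sub (Real.smoothTransition.contDiff.comp (contDiff_id.sub contDiff_const))
  have hσ0 : ∀ s, 0 ≤ σ s := fun s => sub_nonneg.2 (Real.smoothTransition.le_one _)
  have hσanti : Antitone σ := fun x y hxy => by
    have := Real.smoothTransition.monotone (show x - 1 / 2 ≤ y - 1 / 2 by linarith)
    show 1 - _ ≤ 1 - _
    linarith
  have hσ1 : ∀ s, s ≤ 1 / 2 → σ s = 1 := fun s hs => by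
    show 1 - Real.smoothTransition (s - 1 / 2) = 1
    rw [Real.smoothTransition.zero_of_nonpos (by linarith), sub_zero]
  have hσ2 : ∀ s, 3 / 2 ≤ s → σ s = 0 := fun s hs => by
    show 1 - Real.smoothTransition (s - 1 / 2) = 0
    rw [Real.smoothTransition.one_of_one_le (by linarith), sub_self]
  obtain ⟨hm₀, hd₀⟩ := rg1d_prim hσ
  set m₀ : ℝ → ℝ := fun r => ∫ s in (0:ℝ)..r, σ s with hm₀def
  have hint : ∀ a b, IntervalIntegrable σ volume a b := fun a b => hσ.continuous.intervalIntegrable _ _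
  have hdiff : Differentiable ℝ m₀ := hm₀.differentiable (by simp)
  have hmono : Monotone m₀ := monotone_of_deriv_nonneg hdiff fun x => by rw [hd₀]; exact hσ0 x
  have hlin : ∀ r, r ≤ 1 / 2 → m₀ r = r := fun r hr => by
    have : ∫ s in (0:ℝ)..r, σ s = ∫ s in (0:ℝ)..r, (1 : ℝ) := by
      refine intervalIntegral.integral_congr fun s hs => hσ1 s ?_
      rcases le_total 0 r with h | h
      · rw [uIcc_of_le h] at hs; exact hs.2.trans hr
      · rw [uIcc_of_ge h] at hs; exact hs.2.trans (by norm_num)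
    show ∫ s in (0:ℝ)..r, σ s = r
    rw [this]
    simp
  have hconst : ∀ r, 2 ≤ r → m₀ r = m₀ 2 := fun r hr => by
    have h1 : ∫ s in (0:ℝ)..r, σ s = (∫ s in (0:ℝ)..2, σ s) + ∫ s in (2:ℝ)..r, σ s :=
      (intervalIntegral.integral_add_adjacent_intervals (hint _ _) (hint _ _)).symm
    have h2 : ∫ s in (2:ℝ)..r, σ s = ∫ s in (2:ℝ)..r, (0 : ℝ) := by
      refine intervalIntegral.integral_congr fun s hs => hσ2 s ?_
      rw [uIcc_of_le hr] at hs
      linarith [hs.1]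
    show ∫ s in (0:ℝ)..r, σ s = ∫ s in (0:ℝ)..2, σ s
    rw [h1, h2]
    simp
  have hc : 0 < m₀ 2 := by
    have h1 := hmono (show (1 / 2 : ℝ) ≤ 2 by norm_num)
    rw [hlin _ le_rfl] at h1
    linarith
  have hdm : deriv (fun r => (m₀ 2)⁻¹ * m₀ r) = fun r => (m₀ 2)⁻¹ * σ r := by
    funext r
    rw [deriv_const_mul _ (hdiff r), hd₀]
  have hddm : deriv (deriv (fun r => (m₀ 2)⁻¹ * m₀ r)) = fun r => (m₀ 2)⁻¹ * deriv σ r := by
    rw [hdm]
    funext r
    rw [deriv_const_mul _ ((hσ.differentiable (by simp)) r)]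
  have hk : 0 < (m₀ 2)⁻¹ := inv_pos.2 hc
  refine ⟨fun r => (m₀ 2)⁻¹ * m₀ r, (m₀ 2)⁻¹, contDiff_const.mul hm₀, hk, fun r hr => ?_, fun r hr => ?_,
    fun r => ?_, fun r => ?_, fun r hr => ?_, fun r hr => ?_⟩
  · rw [hdm]
    exact ⟨by show (m₀ 2)⁻¹ * m₀ r = _; rw [hlin r hr], by show (m₀ 2)⁻¹ * σ r = _; rw [hσ1 r hr, mul_one]⟩
  · rw [hdm]
    exact ⟨by show (m₀ 2)⁻¹ * m₀ r = _; rw [hconst r hr, inv_mul_cancel₀ hc.ne'],
      by show (m₀ 2)⁻¹ * σ r = _; rw [hσ2 r (by linarith), mul_zero]⟩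
  · rw [hdm]
    exact mul_nonneg hk.le (hσ0 r)
  · rw [hddm]
    exact mul_nonpos_of_nonneg_of_nonpos hk.le hσanti.deriv_nonpos
  · rw [hdm]
    show 0 ≤ (m₀ 2)⁻¹ * m₀ r - r * ((m₀ 2)⁻¹ * σ r)
    have h1 : r * σ r ≤ m₀ r := by
      have h2 : ∫ s in (0:ℝ)..r, σ r ≤ ∫ s in (0:ℝ)..r, σ s :=
        intervalIntegral.integral_mono_on hr intervalIntegrable_const (hint _ _)
          fun s hs => hσanti hs.2
      simpa using h2
    have : (m₀ 2)⁻¹ * m₀ r - r * ((m₀ 2)⁻¹ * σ r) = (m₀ 2)⁻¹ * (m₀ r - r * σ r) := by ring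
    rw [this]
    exact mul_nonneg hk.le (sub_nonneg.2 h1)
  · have h1 := hmono (min_le_left r (1 / 2))
    rw [hlin _ (min_le_right _ _)] at h1
    have h2 : 0 < min r (1 / 2) := lt_min hr (by norm_num)
    exact mul_pos hk (lt_of_lt_of_le h2 h1)

/-- **leaf RG-1D-Y**: a decreasing function, `1` far out, huge on `(-∞,1]`, with `|Y'| ≤ α Y`, `Y'' ≤ α Y`.
PLAN: `Y s = exp (P (s₂ - s))`, `P x = c ∫ y in 0..x, Real.smoothTransition (y / ℓ)`; `Y'' = (P'' + P'²) Y`, `P' ∈ [0,c]`,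
`0 ≤ P'' ≤ c c_f / ℓ` (`c_f` = a bound of the derivative of `smoothTransition`, exists by compactness: its derivative is continuous with
compact support); choose `c ≤ α`, `c² ≤ α/2`, `ℓ ≥ 2 c c_f/α`; `|Y'| = P' Y ≤ c Y`; `P x ≥ c (x - ℓ)`, so `s₂ = 1 + ℓ + log(max Big 1)/c`. -/
theorem rg_exists_Y {α : ℝ} (hα : 0 < α) (Big : ℝ) : ∃ (Y : ℝ → ℝ) (s₂ : ℝ), ContDiff ℝ ∞ Y ∧
    (∀ s, 1 ≤ Y s) ∧ (∀ s, s₂ ≤ s → Y s = 1) ∧ (∀ s, s ≤ 1 → Big ≤ Y s) ∧ (∀ s, deriv Y s ≤ 0) ∧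
    (∀ s, |deriv Y s| ≤ α * Y s) ∧ ∀ s, deriv (deriv Y) s ≤ α * Y s := by
  obtain ⟨cf, hcf0, hcf⟩ := rg1d_dT_bound
  obtain ⟨c, hc0, hc1, hc2⟩ : ∃ c : ℝ, 0 < c ∧ c ≤ 1 ∧ c ≤ α / 2 :=
    ⟨min 1 (α / 2), lt_min one_pos (by positivity), min_le_left _ _, min_le_right _ _⟩
  have hcc : c ^ 2 ≤ α / 2 := by nlinarith
  obtain ⟨ℓ, hℓ0, hℓ⟩ : ∃ ℓ : ℝ, 0 < ℓ ∧ c * cf / ℓ ≤ α / 2 := by
    refine ⟨2 * c * cf / α + 1, by positivity, ?_⟩
    rw [div_le_iff₀ (by positivity)]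
    have : α / 2 * (2 * c * cf / α + 1) = c * cf + α / 2 := by field_simp
    rw [this]
    linarith
  set τ : ℝ → ℝ := fun y => c * Real.smoothTransition (y / ℓ) with hτdef
  have hτ : ContDiff ℝ ∞ τ :=
    contDiff_const.mul (Real.smoothTransition.contDiff.comp (contDiff_id.div_const ℓ))
  have hτ0 : ∀ y, 0 ≤ τ y := fun y => mul_nonneg hc0.le (Real.smoothTransition.nonneg _)
  have hτc : ∀ y, τ y ≤ c := fun y => by
    have := Real.smoothTransition.le_one (y / ℓ)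
    show c * _ ≤ c
    nlinarith
  have hdτ : ∀ y, deriv τ y = c / ℓ * deriv Real.smoothTransition (y / ℓ) := fun y => by
    have h1 : HasDerivAt (fun y : ℝ => y / ℓ) (1 / ℓ) y := (hasDerivAt_id y).div_const ℓ
    have h2 : HasDerivAt Real.smoothTransition (deriv Real.smoothTransition (y / ℓ)) (y / ℓ) :=
      ((Real.smoothTransition.contDiff (n := 1)).differentiable (by simp) _).hasDerivAt
    have h3 := (h2.comp y h1).const_mul c
    rw [show τ = fun y => c * (Real.smoothTransition ∘ fun y : ℝ => y / ℓ) y from rfl, h3.deriv]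
    ring
  obtain ⟨hP, hdP⟩ := rg1d_prim hτ
  set P : ℝ → ℝ := fun x => ∫ y in (0:ℝ)..x, τ y with hPdef
  have hint : ∀ a b, IntervalIntegrable τ volume a b := fun a b => hτ.continuous.intervalIntegrable _ _
  have hPdiff : Differentiable ℝ P := hP.differentiable (by simp)
  have hPmono : Monotone P := monotone_of_deriv_nonneg hPdiff fun x => by rw [hdP]; exact hτ0 x
  have hP0 : ∀ x, x ≤ 0 → P x = 0 := fun x hx => by
    have : ∫ y in (0:ℝ)..x, τ y = ∫ y in (0:ℝ)..x, (0 : ℝ) := by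
      refine intervalIntegral.integral_congr fun y hy => ?_
      rw [uIcc_of_ge hx] at hy
      show c * Real.smoothTransition (y / ℓ) = 0
      rw [Real.smoothTransition.zero_of_nonpos (div_nonpos_of_nonpos_of_nonneg hy.2 hℓ0.le), mul_zero]
    show ∫ y in (0:ℝ)..x, τ y = 0
    rw [this]
    simp
  have hPnn : ∀ x, 0 ≤ P x := fun x => by
    rcases le_total x 0 with h | h
    · rw [hP0 x h]
    · have := hPmono h
      rwa [hP0 0 le_rfl] at this
  have hPlow : ∀ x, ℓ ≤ x → c * (x - ℓ) ≤ P x := fun x hx => by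
    have h1 : ∫ y in (0:ℝ)..x, τ y = (∫ y in (0:ℝ)..ℓ, τ y) + ∫ y in ℓ..x, τ y :=
      (intervalIntegral.integral_add_adjacent_intervals (hint _ _) (hint _ _)).symm
    have h2 : ∫ y in ℓ..x, τ y = ∫ y in ℓ..x, c := by
      refine intervalIntegral.integral_congr fun y hy => ?_
      rw [uIcc_of_le hx] at hy
      show c * Real.smoothTransition (y / ℓ) = c
      rw [Real.smoothTransition.one_of_one_le ((one_le_div hℓ0).2 hy.1), mul_one]
    have h3 : 0 ≤ ∫ y in (0:ℝ)..ℓ, τ y := hPnn ℓ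
    show c * (x - ℓ) ≤ ∫ y in (0:ℝ)..x, τ y
    rw [h1, h2]
    simp only [intervalIntegral.integral_const, smul_eq_mul]
    linarith [mul_comm c (x - ℓ)]
  set s₂ : ℝ := 1 + ℓ + Real.log (max Big 1) / c with hs₂
  set Y : ℝ → ℝ := fun s => Real.exp (P (s₂ - s)) with hYdef
  have hQ : ContDiff ℝ ∞ (fun s => P (s₂ - s)) := hP.comp (contDiff_const.sub contDiff_id)
  have hY : ContDiff ℝ ∞ Y := Real.contDiff_exp.comp hQ
  have hYpos : ∀ s, 0 < Y s := fun s => Real.exp_pos _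
  have hsub : ∀ s : ℝ, HasDerivAt (fun s : ℝ => s₂ - s) (-1) s := fun s => by
    simpa using (hasDerivAt_id s).const_sub s₂
  have hYd : ∀ s, HasDerivAt Y (-(τ (s₂ - s) * Y s)) s := fun s => by
    have h2 : HasDerivAt P (τ (s₂ - s)) (s₂ - s) := by
      have := (hPdiff (s₂ - s)).hasDerivAt
      rwa [hdP] at this
    have h3 := (h2.comp s (hsub s)).exp
    have e1 : -(τ (s₂ - s) * Y s) = Real.exp ((P ∘ fun s : ℝ => s₂ - s) s) * (τ (s₂ - s) * -1) := by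
      show -(τ (s₂ - s) * Real.exp (P (s₂ - s))) = Real.exp (P (s₂ - s)) * (τ (s₂ - s) * -1)
      ring
    rw [e1]
    exact h3
  have hdY : deriv Y = fun s => -(τ (s₂ - s) * Y s) := funext fun s => (hYd s).deriv
  have hddY : ∀ s, deriv (deriv Y) s = (deriv τ (s₂ - s) + τ (s₂ - s) ^ 2) * Y s := fun s => by
    rw [hdY]
    have h2 : HasDerivAt τ (deriv τ (s₂ - s)) (s₂ - s) :=
      ((hτ.differentiable (by simp)) _).hasDerivAt
    have h3 := ((h2.comp s (hsub s)).mul (hYd s)).neg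
    rw [show (fun s => -(τ (s₂ - s) * Y s)) = -((τ ∘ fun s : ℝ => s₂ - s) * Y) from rfl, h3.deriv]
    show -(deriv τ (s₂ - s) * -1 * Y s + τ (s₂ - s) * -(τ (s₂ - s) * Y s)) = _
    ring
  refine ⟨Y, s₂, hY, fun s => Real.one_le_exp (hPnn _), fun s hs => ?_, fun s hs => ?_, fun s => ?_,
    fun s => ?_, fun s => ?_⟩
  · show Real.exp (P (s₂ - s)) = 1
    rw [hP0 _ (by linarith), Real.exp_zero]
  · have hB : 0 < max Big 1 := lt_of_lt_of_le one_pos (le_max_right _ _)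
    have hlog : 0 ≤ Real.log (max Big 1) := Real.log_nonneg (le_max_right _ _)
    have h1 : ℓ ≤ s₂ - s := by
      have : 0 ≤ Real.log (max Big 1) / c := div_nonneg hlog hc0.le
      rw [hs₂]
      linarith
    have h2 := hPlow _ h1
    have h3 : Real.log (max Big 1) ≤ c * (s₂ - s - ℓ) := by
      have : c * (s₂ - s - ℓ) = c * (1 - s) + Real.log (max Big 1) := by
        rw [hs₂]
        field_simp
        ring
      rw [this]
      nlinarith
    calc Big ≤ max Big 1 := le_max_left _ _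
      _ = Real.exp (Real.log (max Big 1)) := (Real.exp_log hB).symm
      _ ≤ Real.exp (P (s₂ - s)) := Real.exp_le_exp.2 (h3.trans h2)
  · rw [hdY]
    exact neg_nonpos.2 (mul_nonneg (hτ0 _) (hYpos s).le)
  · rw [hdY]
    show |-(τ (s₂ - s) * Y s)| ≤ α * Y s
    rw [abs_neg, abs_of_nonneg (mul_nonneg (hτ0 _) (hYpos s).le)]
    exact mul_le_mul_of_nonneg_right ((hτc _).trans (by linarith)) (hYpos s).le
  · rw [hddY]
    refine mul_le_mul_of_nonneg_right ?_ (hYpos s).le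
    have h1 : deriv τ (s₂ - s) ≤ α / 2 := by
      rw [hdτ]
      calc c / ℓ * deriv Real.smoothTransition ((s₂ - s) / ℓ) ≤ c / ℓ * cf :=
            mul_le_mul_of_nonneg_left (hcf _).2 (by positivity)
        _ = c * cf / ℓ := by ring
        _ ≤ α / 2 := hℓ
    have h2 : τ (s₂ - s) ^ 2 ≤ α / 2 :=
      (pow_le_pow_left₀ (hτ0 _) (hτc _) 2).trans hcc
    linarith

/-- **leaf RG-1D-G**: a function which vanishes on `(-∞,1/2]` and grows exponentially with a small rate.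
PLAN: `g s = Real.smoothTransition (s - 1/2) * exp (c s)`, `c + c² ≤ α`; on `[3/2,∞)`, `g = exp (c s)`; on `(-∞,3/2]` the first two
derivatives are bounded (they vanish on `(-∞,1/2]` and are continuous on the compact `[1/2,3/2]`). -/
theorem rg_exists_g {α : ℝ} (hα : 0 < α) : ∃ (g : ℝ → ℝ) (η : ℝ), ContDiff ℝ ∞ g ∧ 0 ≤ η ∧
    (∀ s, 0 ≤ g s) ∧ (∀ s, s ≤ 1 / 2 → g s = 0 ∧ deriv g s = 0 ∧ deriv (deriv g) s = 0) ∧
    (∀ s, s ≤ 3 / 2 → |deriv g s| + |deriv (deriv g) s| ≤ η) ∧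
    (∀ s, 3 / 2 ≤ s → |deriv g s| + |deriv (deriv g) s| ≤ α * g s) ∧ Tendsto g atTop atTop := by
  obtain ⟨c, hc0, hc1, hc2⟩ : ∃ c : ℝ, 0 < c ∧ c ≤ 1 ∧ c ≤ α / 2 :=
    ⟨min 1 (α / 2), lt_min one_pos (by positivity), min_le_left _ _, min_le_right _ _⟩
  have hcα : c + c ^ 2 ≤ α := by nlinarith
  set g : ℝ → ℝ := fun s => Real.smoothTransition (s - 1 / 2) * Real.exp (c * s) with hgdef
  set e : ℝ → ℝ := fun s => Real.exp (c * s) with hedef
  have he : ContDiff ℝ ∞ e := Real.contDiff_exp.comp (contDiff_const.mul contDiff_id)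
  have hg : ContDiff ℝ ∞ g :=
    (Real.smoothTransition.contDiff.comp (contDiff_id.sub contDiff_const)).mul he
  have hg' := rg1d_deriv_smooth hg
  have hg'' := rg1d_deriv_smooth hg'
  have hz : ContDiff ℝ ∞ (fun _ : ℝ => (0 : ℝ)) := contDiff_const
  have hg0 : ∀ s, s ≤ 1 / 2 → g s = 0 := fun s hs => by
    show Real.smoothTransition (s - 1 / 2) * _ = 0
    rw [Real.smoothTransition.zero_of_nonpos (by linarith), zero_mul]
  have hg0' : ∀ s, s ≤ 1 / 2 → deriv g s = 0 := fun s hs => by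
    rw [rg1d_deriv_eq_Iic hg hz hg0 s hs]
    simp
  have hg0'' : ∀ s, s ≤ 1 / 2 → deriv (deriv g) s = 0 := fun s hs => by
    rw [rg1d_deriv_eq_Iic hg' hz hg0' s hs]
    simp
  have hde : deriv e = fun s => c * e s := by
    funext s
    have h1 : HasDerivAt (fun s : ℝ => c * s) c s := by simpa using (hasDerivAt_id s).const_mul c
    have := h1.exp
    rw [this.deriv]
    show Real.exp (c * s) * c = c * Real.exp (c * s)
    ring
  have hdde : deriv (deriv e) = fun s => c ^ 2 * e s := by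
    rw [hde]
    funext s
    rw [deriv_const_mul _ ((he.differentiable (by simp)) s), hde]
    ring
  have hg1 : ∀ s, 3 / 2 ≤ s → g s = e s := fun s hs => by
    show Real.smoothTransition (s - 1 / 2) * _ = _
    rw [Real.smoothTransition.one_of_one_le (by linarith), one_mul]
  have hg1' : ∀ s, 3 / 2 ≤ s → deriv g s = deriv e s := rg1d_deriv_eq_Ici hg he hg1
  have hg1'' : ∀ s, 3 / 2 ≤ s → deriv (deriv g) s = deriv (deriv e) s :=
    rg1d_deriv_eq_Ici hg' (rg1d_deriv_smooth he) hg1'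
  have hcont : Continuous fun s => |deriv g s| + |deriv (deriv g) s| :=
    hg'.continuous.abs.add hg''.continuous.abs
  obtain ⟨η, hη⟩ := (isCompact_Icc (a := (1 / 2 : ℝ)) (b := 3 / 2)).exists_bound_of_continuousOn
    hcont.continuousOn
  have hη0 : 0 ≤ η := (norm_nonneg _).trans (hη (1 / 2) ⟨le_rfl, by norm_num⟩)
  refine ⟨g, η, hg, hη0, fun s => mul_nonneg (Real.smoothTransition.nonneg _) (Real.exp_pos _).le,
    fun s hs => ⟨hg0 s hs, hg0' s hs, hg0'' s hs⟩, fun s hs => ?_, fun s hs => ?_, ?_⟩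
  · rcases le_total s (1 / 2) with h | h
    · rw [hg0' s h, hg0'' s h]
      simpa using hη0
    · exact (le_abs_self _).trans (hη s ⟨h, hs⟩)
  · rw [hg1' s hs, hg1'' s hs, hg1 s hs, hdde, hde]
    have hpos : 0 < e s := Real.exp_pos _
    show |c * e s| + |c ^ 2 * e s| ≤ α * e s
    rw [abs_of_pos (mul_pos hc0 hpos), abs_of_pos (mul_pos (pow_pos hc0 2) hpos), ← add_mul]
    exact mul_le_mul_of_nonneg_right hcα hpos.le
  · have h1 : Tendsto e atTop atTop :=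
      Real.tendsto_exp_atTop.comp (tendsto_id.const_mul_atTop hc0)
    refine h1.congr' ?_
    filter_upwards [eventually_ge_atTop (3 / 2 : ℝ)] with s hs using (hg1 s hs).symm

variable {V : Type} [NormedAddCommGroup V] [NormedSpace ℝ V] [FiniteDimensional ℝ V]
variable {d : ℕ} {M N A : Set V} {h : Ten V} {t W : V → ℝ} {C e₀ δ κ₁ : ℝ} {x : V}
variable {a b f ψ ρ : V → ℝ}

theorem rg_wlap_inter (hM : IsMfd d M) (hh : IsMetricOn d M h) {O : Set V} (hO : IsOpen O)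
    (ht : SmoothAlong d M t) (hf : SmoothAlong d M f) (hx : x ∈ M ∩ O) :
    wlap d (M ∩ O) h t f x = wlap d M h t f x := by
  unfold wlap
  rw [if_lap_inter hM hh hO hf hx, if_gradIp_inter hM hh hO ht hf hx]

theorem rg_L_inter (hM : IsMfd d M) (hh : IsMetricOn d M h) {O : Set V} (hO : IsOpen O)
    (ht : SmoothAlong d M t) (hf : SmoothAlong d M f) (hx : x ∈ M ∩ O) :
    rgL d (M ∩ O) h t C W f x = rgL d M h t C W f x := by
  unfold rgL
  rw [rg_wlap_inter hM hh hO ht hf hx]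

/-- the smooth minimum of two (relatively strict) supersolutions, pointwise form. -/
theorem rg_smin_super (hM : IsMfd d M) (hh : IsMetricOn d M h) (ht : SmoothAlong d M t)
    (hC : 0 ≤ C) (ha : SmoothAlong d M a) (hb : SmoothAlong d M b) (ha0 : ∀ y ∈ M, 0 < a y)
    (hb0 : ∀ y ∈ M, 0 < b y) {m : ℝ → ℝ} (hm : ContDiff ℝ ∞ m) (hm1 : ∀ r, 0 ≤ deriv m r)
    (hm2 : ∀ r, deriv (deriv m) r ≤ 0) (hm3 : ∀ r, 0 ≤ r → 0 ≤ m r - r * deriv m r) (hx : x ∈ M)
    {δ' : ℝ}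
    (hLa : deriv m (a x / b x) = 0 ∨ δ' * a x ≤ rgL d M h t C W a x)
    (hLb : m (a x / b x) - a x / b x * deriv m (a x / b x) = 0 ∨ δ' * b x ≤ rgL d M h t C W b x) :
    δ' * (b x * m (a x / b x)) ≤ rgL d M h t C W (fun y => b y * m (a y / b y)) x := by
  rw [rg_L_smin hM hh ht ha hb hb0 hm hx]
  have hbx := hb0 x hx
  have hax := ha0 x hx
  have hr : SmoothAlong d M (fun y => a y / b y) := gs_sm_div ha hb fun y hy => (hb0 y hy).ne'
  have hsq : 0 ≤ gradSq d M h (fun y => a y / b y) x := gs_sq_nonneg hM hh hr hx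
  have hr0 : 0 ≤ a x / b x := (div_pos hax hbx).le
  have e2 : a x = b x * (a x / b x) := by field_simp
  have t1 : deriv m (a x / b x) * (δ' * a x) ≤ deriv m (a x / b x) * rgL d M h t C W a x := by
    rcases hLa with h0 | h1
    · rw [h0]; simp
    · exact mul_le_mul_of_nonneg_left h1 (hm1 _)
  have t2 : (m (a x / b x) - a x / b x * deriv m (a x / b x)) * (δ' * b x) ≤
      (m (a x / b x) - a x / b x * deriv m (a x / b x)) * rgL d M h t C W b x := by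
    rcases hLb with h0 | h1
    · rw [h0]; simp
    · exact mul_le_mul_of_nonneg_left h1 (hm3 _ hr0)
  have t3 : C * b x * deriv (deriv m) (a x / b x) * gradSq d M h (fun y => a y / b y) x ≤ 0 := by
    have : C * b x * deriv (deriv m) (a x / b x) ≤ 0 :=
      mul_nonpos_of_nonneg_of_nonpos (mul_nonneg hC hbx.le) (hm2 _)
    exact mul_nonpos_of_nonpos_of_nonneg this hsq
  have t4 : δ' * (b x * m (a x / b x)) = deriv m (a x / b x) * (δ' * a x) +
      (m (a x / b x) - a x / b x * deriv m (a x / b x)) * (δ' * b x) := by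
    generalize a x / b x = r at e2 ⊢
    rw [e2]; ring
  linarith

/-- lower bound of `L(ψ G(ρ))` from bounds on `ρ` and `ψ`. -/
theorem rg_L_mul_comp_ge (hM : IsMfd d M) (hh : IsMetricOn d M h) (ht : SmoothAlong d M t)
    (hC : 0 ≤ C) (hψ : SmoothAlong d M ψ) (hρ : SmoothAlong d M ρ) {G : ℝ → ℝ}
    (hG : ContDiff ℝ ∞ G) (hx : x ∈ M) (hψx : 0 < ψ x) (hG0 : 0 ≤ G (ρ x))
    (h1 : δ * ψ x ≤ rgL d M h t C W ψ x) (h2 : |gradIp d M h ψ ρ x| ≤ κ₁ * ψ x)
    (h3 : gradSq d M h ρ x ≤ κ₁) (h4 : |wlap d M h t ρ x| ≤ κ₁) {B : ℝ}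
    (hB1 : |deriv G (ρ x)| ≤ B) (hB2 : deriv (deriv G) (ρ x) ≤ B) :
    ψ x * (δ * G (ρ x) - 4 * C * κ₁ * B) ≤ rgL d M h t C W (fun y => ψ y * G (ρ y)) x := by
  rw [rg_L_mul_comp hM hh ht hψ hρ hG hx]
  have hB0 : 0 ≤ B := (abs_nonneg _).trans hB1
  have hsq : 0 ≤ gradSq d M h ρ x := gs_sq_nonneg hM hh hρ hx
  have hκ0 : 0 ≤ κ₁ := hsq.trans h3
  set G0 := G (ρ x)
  set G1 := deriv G (ρ x)
  set G2 := deriv (deriv G) (ρ x)
  set Lp := rgL d M h t C W ψ x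
  set wl := wlap d M h t ρ x
  set sq := gradSq d M h ρ x
  set ip := gradIp d M h ψ ρ x
  have e1 : G0 * (δ * ψ x) ≤ G0 * Lp := mul_le_mul_of_nonneg_left h1 hG0
  have e2 : G1 * wl ≤ B * κ₁ := by
    calc G1 * wl ≤ |G1 * wl| := le_abs_self _
      _ = |G1| * |wl| := abs_mul _ _
      _ ≤ B * κ₁ := mul_le_mul hB1 h4 (abs_nonneg _) hB0
  have e3 : G2 * sq ≤ B * κ₁ := by
    calc G2 * sq ≤ B * sq := mul_le_mul_of_nonneg_right hB2 hsq
      _ ≤ B * κ₁ := mul_le_mul_of_nonneg_left h3 hB0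
  have e4 : G1 * ip ≤ B * (κ₁ * ψ x) := by
    calc G1 * ip ≤ |G1 * ip| := le_abs_self _
      _ = |G1| * |ip| := abs_mul _ _
      _ ≤ B * (κ₁ * ψ x) := mul_le_mul hB1 h2 (abs_nonneg _) hB0
  have e5 : C * ψ x * (G1 * wl + G2 * sq) ≤ C * ψ x * (2 * (B * κ₁)) :=
    mul_le_mul_of_nonneg_left (by linarith) (mul_nonneg hC hψx.le)
  have e6 : 2 * C * (G1 * ip) ≤ 2 * C * (B * (κ₁ * ψ x)) :=
    mul_le_mul_of_nonneg_left e4 (by positivity)
  nlinarith [e1, e5, e6]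

theorem rg_exists_lower {K : Set V} (hK : IsCompact K) {f : V → ℝ} (hf : ContinuousOn f K)
    (hpos : ∀ x ∈ K, 0 < f x) : ∃ m : ℝ, 0 < m ∧ ∀ x ∈ K, m ≤ f x := by
  rcases K.eq_empty_or_nonempty with rfl | hne
  · exact ⟨1, one_pos, fun x hx => absurd hx (notMem_empty x)⟩
  · obtain ⟨x₀, hx₀, hmin⟩ := hK.exists_isMinOn hne hf
    exact ⟨f x₀, hpos x₀ hx₀, fun x hx => hmin hx⟩

theorem rg_exists_upper {K : Set V} (hK : IsCompact K) {f : V → ℝ} (hf : ContinuousOn f K) :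
    ∃ B : ℝ, 0 < B ∧ ∀ x ∈ K, f x ≤ B := by
  obtain ⟨B, hB⟩ := hK.bddAbove_image hf
  exact ⟨max B 1, lt_of_lt_of_le one_pos (le_max_right _ _),
    fun x hx => (hB ⟨x, hx, rfl⟩).trans (le_max_left _ _)⟩

theorem rg_L_inter' {O : Set V} (hO : IsOpen O) (hx : x ∈ O) :
    rgL d (M ∩ O) h t C W f x = rgL d M h t C W f x := by
  unfold rgL wlap
  rw [if_lap_inter' _ _ hO hx, if_gradIp_inter' _ _ _ hO hx]

section meas

variable [MeasurableSpace V] [BorelSpace V]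

/-- shifting the potential. -/
theorem gs_gap_shift (hG : CtGeo d M h t) (hW : SmoothAlong d M W) {γ c : ℝ}
    (hgap : GsGap d M h t C W γ) : GsGap d M h t C (fun x => W x - c) (γ - c) := by
  intro φ hφ
  have h1 := hgap φ hφ
  have i1 := gs_B_integrable (C := C) hG.gs hW hφ.1 hφ
  have i2 := (gs_N_integrable hG.gs hφ.1 hφ).const_mul c
  have e : gsB d M h t C (fun x => W x - c) φ φ = gsB d M h t C W φ φ - c * gsN d M h t φ φ := by
    unfold gsB gsN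
    rw [← integral_const_mul, ← integral_sub i1 i2]
    congr 1
    funext x
    ring
  rw [e]
  linarith

/-- **RG-GLUE-LOC** (PROVED): the gluing on the manifold `N` where the gap holds (plan: file header). -/
theorem rg_glue_local (hG : CtGeo d N h t) (hW : SmoothAlong d N W) (hC : 0 < C) (he : 0 < e₀)
    (hδ : 0 < δ) (hκ : 0 < κ₁) (hψ : SmoothAlong d N ψ) (hψ0 : ∀ x ∈ N, 0 < ψ x)
    (hρ : SmoothAlong d N ρ) (hgap : GsGap d N h t C W e₀)
    (h1 : ∀ x ∈ N, 0 < ρ x → δ * ψ x ≤ rgL d N h t C W ψ x)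
    (h2 : ∀ x ∈ N, 0 < ρ x → |gradIp d N h ψ ρ x| ≤ κ₁ * ψ x)
    (h3 : ∀ x ∈ N, 0 < ρ x → gradSq d N h ρ x ≤ κ₁)
    (h4 : ∀ x ∈ N, 0 < ρ x → |wlap d N h t ρ x| ≤ κ₁)
    {K₁ : Set V} (hK₁ : IsCompact K₁) (hK₁N : K₁ ⊆ N) :
    ∃ (v : V → ℝ) (s : ℝ), 0 ≤ s ∧ SmoothAlong d N v ∧ (∀ x ∈ N, 0 < v x) ∧
      (∀ x ∈ N, s ≤ ρ x → v x = ψ x) ∧
      ∀ x ∈ N, (x ∈ K₁ ∨ 3 / 2 < ρ x) → min (e₀ / 4) (δ / 2) * v x ≤ rgL d N h t C W v x := by
  have hM := hG.mfd
  have hh := hG.met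
  have ht := hG.drift
  set δ' := min (e₀ / 4) (δ / 2) with hδ'
  have hδ'1 : δ' ≤ e₀ / 4 := min_le_left _ _
  have hδ'2 : δ' ≤ δ / 2 := min_le_right _ _
  have hδ'0 : 0 < δ' := lt_min (by positivity) (by positivity)
  -- the central supersolution
  have hgap' : GsGap d N h t C (fun x => W x - e₀ / 2) (e₀ / 2) := by
    have := gs_gap_shift (c := e₀ / 2) hG hW hgap
    have e : e₀ - e₀ / 2 = e₀ / 2 := by ring
    rwa [e] at this
  obtain ⟨z₀, hz₀, hz₀pos, hz₀sup⟩ := gs_aap hG.gs (gs_sm_sub hW (gs_sm_const (e₀ / 2))) hC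
    (by positivity) hgap'
  have hLz : ∀ x ∈ N, e₀ / 2 * z₀ x ≤ rgL d N h t C W z₀ x := by
    intro x hx
    have := hz₀sup x hx
    unfold rgL
    linarith
  -- the rate
  set α := δ / (8 * C * κ₁) with hα
  have hα0 : 0 < α := by positivity
  have hαe : 4 * C * κ₁ * α = δ / 2 := by
    rw [hα]; field_simp; ring
  obtain ⟨g, η, hg, hη, hg0, hgz, hg1, hg2, hgtop⟩ := rg_exists_g hα0
  have hgρ : SmoothAlong d N (fun y => ψ y * g (ρ y)) := gs_sm_mul hψ (gs_sm_comp' hg hρ)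
  -- estimates for `ψ g(ρ)`
  have hLg_far : ∀ x ∈ N, 3 / 2 ≤ ρ x → δ / 2 * (ψ x * g (ρ x)) ≤
      rgL d N h t C W (fun y => ψ y * g (ρ y)) x := by
    intro x hx hρx
    have hpos : 0 < ρ x := by linarith
    have hb := hg2 (ρ x) hρx
    have := rg_L_mul_comp_ge (W := W) hM hh ht hC.le hψ hρ hg hx (hψ0 x hx) (hg0 _) (h1 x hx hpos)
      (h2 x hx hpos) (h3 x hx hpos) (h4 x hx hpos) (B := α * g (ρ x))
      (by linarith [abs_nonneg (deriv (deriv g) (ρ x))])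
      (by linarith [abs_nonneg (deriv g (ρ x)), le_abs_self (deriv (deriv g) (ρ x))])
    refine le_trans (le_of_eq ?_) this
    have : 4 * C * κ₁ * (α * g (ρ x)) = δ / 2 * g (ρ x) := by rw [← hαe]; ring
    rw [this]; ring
  have hLg_mid : ∀ x ∈ N, 0 < ρ x → ρ x ≤ 3 / 2 → ψ x * (δ * g (ρ x) - 4 * C * κ₁ * η) ≤
      rgL d N h t C W (fun y => ψ y * g (ρ y)) x := by
    intro x hx hpos hρx
    have hb := hg1 (ρ x) hρx
    exact rg_L_mul_comp_ge (W := W) hM hh ht hC.le hψ hρ hg hx (hψ0 x hx) (hg0 _) (h1 x hx hpos)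
      (h2 x hx hpos) (h3 x hx hpos) (h4 x hx hpos) (B := η)
      (by linarith [abs_nonneg (deriv (deriv g) (ρ x))])
      (by linarith [abs_nonneg (deriv g (ρ x)), le_abs_self (deriv (deriv g) (ρ x))])
  have hLg_zero : ∀ x ∈ N, ρ x ≤ 1 / 2 → rgL d N h t C W (fun y => ψ y * g (ρ y)) x = 0 := by
    intro x hx hρx
    obtain ⟨a1, a2, a3⟩ := hgz (ρ x) hρx
    rw [rg_L_mul_comp hM hh ht hψ hρ hg hx, a1, a2, a3]
    ring
  -- `ε`
  have hcz : ContinuousOn (fun x => z₀ x / ψ x) K₁ :=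
    (if_smoothAlong_continuousOn hM (gs_sm_div hz₀ hψ fun y hy => (hψ0 y hy).ne')).mono hK₁N
  obtain ⟨m₀, hm₀, hm₀le⟩ := rg_exists_lower hK₁ hcz fun x hx =>
    div_pos (hz₀pos x (hK₁N hx)) (hψ0 x (hK₁N hx))
  set ε := e₀ / 4 * m₀ / (4 * C * κ₁ * η + 1) with hε
  have hden : 0 < 4 * C * κ₁ * η + 1 := by positivity
  have hε0 : 0 < ε := by positivity
  have hεK : ∀ x ∈ K₁, ε * (4 * C * κ₁ * η) * ψ x ≤ e₀ / 4 * z₀ x := by
    intro x hx
    have hψx := hψ0 x (hK₁N hx)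
    have h5 : m₀ * ψ x ≤ z₀ x := by
      have := hm₀le x hx
      rwa [le_div_iff₀ hψx] at this
    have h6 : ε * (4 * C * κ₁ * η) ≤ e₀ / 4 * m₀ := by
      rw [hε, div_mul_eq_mul_div, div_le_iff₀ hden]
      have : 0 ≤ e₀ / 4 * m₀ := by positivity
      nlinarith
    calc ε * (4 * C * κ₁ * η) * ψ x ≤ e₀ / 4 * m₀ * ψ x :=
          mul_le_mul_of_nonneg_right h6 hψx.le
      _ = e₀ / 4 * (m₀ * ψ x) := by ring
      _ ≤ e₀ / 4 * z₀ x := mul_le_mul_of_nonneg_left h5 (by positivity)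
  -- `a`
  set a : V → ℝ := fun y => z₀ y + ε * (ψ y * g (ρ y)) with ha
  have hasm : SmoothAlong d N a := gs_sm_add hz₀ (gs_sm_smul ε hgρ)
  have hapos : ∀ x ∈ N, 0 < a x := fun x hx => by
    have h5 := hz₀pos x hx
    have h6 : 0 ≤ ε * (ψ x * g (ρ x)) := by
      have := hψ0 x hx
      have := hg0 (ρ x)
      positivity
    show 0 < z₀ x + ε * (ψ x * g (ρ x))
    linarith
  have hLa_eq : ∀ x ∈ N, rgL d N h t C W a x =
      rgL d N h t C W z₀ x + ε * rgL d N h t C W (fun y => ψ y * g (ρ y)) x := by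
    intro x hx
    rw [ha, rg_L_add hM hh ht hz₀ (gs_sm_smul ε hgρ) hx, rg_L_smul hM hh ht ε hgρ hx]
  have hLa : ∀ x ∈ N, (x ∈ K₁ ∨ 3 / 2 < ρ x) → δ' * a x ≤ rgL d N h t C W a x := by
    intro x hx hcase
    rw [hLa_eq x hx]
    have hzx := hz₀pos x hx
    have hψx := hψ0 x hx
    have hgx := hg0 (ρ x)
    have hLzx := hLz x hx
    have hpg : 0 ≤ ψ x * g (ρ x) := by positivity
    show δ' * (z₀ x + ε * (ψ x * g (ρ x))) ≤ _
    by_cases hfar : 3 / 2 ≤ ρ x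
    · have h5 := hLg_far x hx hfar
      have h6 : ε * (δ / 2 * (ψ x * g (ρ x))) ≤
          ε * rgL d N h t C W (fun y => ψ y * g (ρ y)) x := mul_le_mul_of_nonneg_left h5 hε0.le
      have h7 : δ' * z₀ x ≤ e₀ / 2 * z₀ x := mul_le_mul_of_nonneg_right (by linarith) hzx.le
      have h8 : δ' * (ε * (ψ x * g (ρ x))) ≤ δ / 2 * (ε * (ψ x * g (ρ x))) :=
        mul_le_mul_of_nonneg_right hδ'2 (by positivity)
      nlinarith
    · have hxK : x ∈ K₁ := by
        rcases hcase with h | h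
        · exact h
        · exact absurd h.le hfar
      push Not at hfar
      by_cases hsmall : ρ x ≤ 1 / 2
      · rw [hLg_zero x hx hsmall, (hgz (ρ x) hsmall).1]
        have h7 : δ' * z₀ x ≤ e₀ / 2 * z₀ x := mul_le_mul_of_nonneg_right (by linarith) hzx.le
        simp only [mul_zero, add_zero]
        linarith
      · push Not at hsmall
        have h5 := hLg_mid x hx (by linarith) hfar.le
        have h6 : ε * (ψ x * (δ * g (ρ x) - 4 * C * κ₁ * η)) ≤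
            ε * rgL d N h t C W (fun y => ψ y * g (ρ y)) x := mul_le_mul_of_nonneg_left h5 hε0.le
        have h7 := hεK x hxK
        have h8 : δ' * z₀ x ≤ e₀ / 4 * z₀ x := mul_le_mul_of_nonneg_right hδ'1 hzx.le
        have h9 : δ' * (ε * (ψ x * g (ρ x))) ≤ δ * (ε * (ψ x * g (ρ x))) :=
          mul_le_mul_of_nonneg_right (by linarith) (by positivity)
        nlinarith
  -- `b`
  have hca : ContinuousOn (fun x => a x / ψ x) K₁ :=
    (if_smoothAlong_continuousOn hM (gs_sm_div hasm hψ fun y hy => (hψ0 y hy).ne')).mono hK₁N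
  obtain ⟨B₀, hB₀, hB₀le⟩ := rg_exists_upper hK₁ hca
  obtain ⟨Y, s₂, hY, hY1, hYfar, hYbig, -, hYd1, hYd2⟩ := rg_exists_Y hα0 (2 * B₀)
  set b : V → ℝ := fun y => ψ y * Y (ρ y) with hb
  have hbsm : SmoothAlong d N b := gs_sm_mul hψ (gs_sm_comp' hY hρ)
  have hbpos : ∀ x ∈ N, 0 < b x := fun x hx =>
    mul_pos (hψ0 x hx) (lt_of_lt_of_le one_pos (hY1 _))
  have hLb : ∀ x ∈ N, 0 < ρ x → δ' * b x ≤ rgL d N h t C W b x := by
    intro x hx hpos
    have hYx : 0 < Y (ρ x) := lt_of_lt_of_le one_pos (hY1 _)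
    have := rg_L_mul_comp_ge (W := W) hM hh ht hC.le hψ hρ hY hx (hψ0 x hx) hYx.le (h1 x hx hpos)
      (h2 x hx hpos) (h3 x hx hpos) (h4 x hx hpos) (B := α * Y (ρ x)) (hYd1 _) (hYd2 _)
    refine le_trans ?_ this
    have e : 4 * C * κ₁ * (α * Y (ρ x)) = δ / 2 * Y (ρ x) := by rw [← hαe]; ring
    rw [e]
    have hψx := hψ0 x hx
    show δ' * (ψ x * Y (ρ x)) ≤ _
    have : δ' * (ψ x * Y (ρ x)) ≤ δ / 2 * (ψ x * Y (ρ x)) :=
      mul_le_mul_of_nonneg_right hδ'2 (by positivity)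
    nlinarith
  -- the smooth minimum
  obtain ⟨m, κ, hm, hκ0, hmlow, hmhigh, hm1, hm2, hm3, hmpos⟩ := rg_exists_smin
  obtain ⟨s₃, hs₃⟩ := (hgtop.eventually_ge_atTop (2 / ε)).exists_forall_of_atTop
  refine ⟨fun y => b y * m (a y / b y), max (max s₂ s₃) 0, le_max_right _ _,
    gs_sm_mul hbsm (gs_sm_comp' hm (gs_sm_div hasm hbsm fun y hy => (hbpos y hy).ne')),
    fun x hx => mul_pos (hbpos x hx) (hmpos _ (div_pos (hapos x hx) (hbpos x hx))),
    fun x hx hs => ?_, fun x hx hcase => ?_⟩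
  · have hs2 : s₂ ≤ ρ x := ((le_max_left _ _).trans (le_max_left _ _)).trans hs
    have hs3 : s₃ ≤ ρ x := ((le_max_right _ _).trans (le_max_left _ _)).trans hs
    have hψx := hψ0 x hx
    have hbx : b x = ψ x := by
      show ψ x * Y (ρ x) = ψ x
      rw [hYfar _ hs2, mul_one]
    have hg2' : 2 / ε ≤ g (ρ x) := hs₃ _ hs3
    have hge : 2 ≤ ε * g (ρ x) := by
      rw [div_le_iff₀ hε0] at hg2'
      linarith
    have hax : 2 * ψ x ≤ a x := by
      show 2 * ψ x ≤ z₀ x + ε * (ψ x * g (ρ x))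
      have := hz₀pos x hx
      nlinarith
    have hr : 2 ≤ a x / b x := by
      rw [hbx, le_div_iff₀ hψx]; exact hax
    show b x * m (a x / b x) = ψ x
    rw [(hmhigh _ hr).1, mul_one, hbx]
  · refine rg_smin_super hM hh ht hC.le hasm hbsm hapos hbpos hm hm1 hm2 hm3 hx
      (Or.inr (hLa x hx hcase)) ?_
    by_cases hpos : 0 < ρ x
    · exact Or.inr (hLb x hx hpos)
    · left
      push Not at hpos
      have hxK : x ∈ K₁ := by
        rcases hcase with h | h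
        · exact h
        · linarith
      have hψx := hψ0 x hx
      have h5 : a x ≤ B₀ * ψ x := by
        have := hB₀le x hxK
        rwa [div_le_iff₀ hψx] at this
      have h6 : 2 * B₀ ≤ Y (ρ x) := hYbig _ (by linarith)
      have h7 : 2 * a x ≤ b x := by
        show 2 * a x ≤ ψ x * Y (ρ x)
        nlinarith
      have hr : a x / b x ≤ 1 / 2 := by
        rw [div_le_iff₀ (hbpos x hx)]; linarith
      obtain ⟨c1, c2⟩ := hmlow _ hr
      rw [c1, c2]; ring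

/-- **leaf RG-TEST-EXT**: extension by zero of a test function on the open piece `M ∩ O`.
PLAN: `K` = support, compact in `M ∩ O`.  Let `(ψ,U)` be a parametrisation of `M`, `u ∈ U`.  If `ψ u ∈ O`: restrict the parametrisation to
`U ∩ ψ⁻¹' O` (`if_param_restrict`), there the indicator is `φ`.  If `ψ u ∉ K`: near `u` the function vanishes (`K` closed; on `O \ K`, `φ = 0` on
`M`; off `O` the indicator vanishes). -/
theorem gs_test_extend (hM : IsMfd d M) {O : Set V} (hO : IsOpen O) {φ : V → ℝ}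
    (hφ : IsTestOn d (M ∩ O) φ) : IsTestOn d M (O.indicator φ) := by
  obtain ⟨h1, K, hK, hKM, h0⟩ := hφ
  have hz : ∀ x ∈ M, x ∉ K → O.indicator φ x = 0 := by
    intro x hx hxK
    by_cases hxO : x ∈ O
    · rw [indicator_of_mem hxO]
      exact h0 x ⟨hx, hxO⟩ hxK
    · exact indicator_of_notMem hxO _
  exact ⟨if_smoothAlong_of_zero_off hO hK.isClosed (fun x hx => (hKM hx).2)
    (if_smoothAlong_congr h1 fun x hx => indicator_of_mem hx.2 _) hz, K, hK,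
    fun x hx => (hKM hx).1, hz⟩

/-- **leaf RG-GAP-MONO**: a gap on `M ∩ O` gives the gap on the smaller piece `M ∩ O'`.
PLAN: `φ` a test function on `M ∩ O'`; `φ' = O'.indicator φ` is a test function on `M ∩ O` (`gs_test_extend` for the manifold `M ∩ O` and
`(M ∩ O) ∩ O' = M ∩ O'`); `wvol (M ∩ O') = (wvol (M ∩ O)).restrict O'` (`if_vol_inter`), `gradSq` agree on `M ∩ O'` (`if_gradSq_inter`,
`gs_sq_congr_near`), and the integrands of `φ'` vanish on `(M ∩ O) \ O'` (`gs_ip_off`). -/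
theorem gs_gap_mono (hG : CtGeo d M h t) {O O' : Set V} (hO : IsOpen O) (hO' : IsOpen O')
    (hsub : O' ⊆ O) (hgap : GsGap d (M ∩ O) h t C W e₀) : GsGap d (M ∩ O') h t C W e₀ := by
  intro φ hφ
  have hGN : CtGeo d (M ∩ O) h t := hG.inter hO
  have hset : (M ∩ O) ∩ O' = M ∩ O' := by
    ext x
    constructor
    · rintro ⟨⟨h1, -⟩, h3⟩
      exact ⟨h1, h3⟩
    · rintro ⟨h1, h3⟩
      exact ⟨⟨h1, hsub h3⟩, h3⟩
  rw [← hset] at hφ ⊢
  have hφ' : IsTestOn d (M ∩ O) (O'.indicator φ) := gs_test_extend hGN.mfd hO' hφ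
  obtain ⟨-, K, hK, hKM, h0⟩ := hφ
  have hz : ∀ x ∈ M ∩ O, x ∉ K → O'.indicator φ x = 0 := by
    intro x hx hxK
    by_cases hxO : x ∈ O'
    · rw [indicator_of_mem hxO]
      exact h0 x ⟨hx, hxO⟩ hxK
    · exact indicator_of_notMem hxO _
  have e1 : gsN d ((M ∩ O) ∩ O') h t φ φ = gsN d (M ∩ O) h t (O'.indicator φ) (O'.indicator φ) := by
    unfold gsN
    rw [ct_wvol_inter hGN hO', ← integral_indicator hO'.measurableSet]
    refine integral_congr_ae (Eventually.of_forall fun x => ?_)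
    by_cases hx : x ∈ O'
    · simp only [indicator_of_mem hx]
    · simp only [indicator_of_notMem hx, mul_zero]
  have e2 : gsB d ((M ∩ O) ∩ O') h t C W φ φ
      = gsB d (M ∩ O) h t C W (O'.indicator φ) (O'.indicator φ) := by
    unfold gsB
    rw [ct_wvol_inter hGN hO', ← integral_indicator hO'.measurableSet]
    refine integral_congr_ae ?_
    filter_upwards [gs_ae_mem hGN.gs] with x hxN
    by_cases hx : x ∈ O'
    · simp only [indicator_of_mem hx]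
      rw [← if_gradIp_inter hGN.mfd hGN.met hO' hφ'.1 hφ'.1 ⟨hxN, hx⟩,
        gs_ip_congr_near (f := O'.indicator φ) (k := O'.indicator φ) (f' := φ) (k' := φ)
          (hO'.mem_nhds hx) (fun y hy => indicator_of_mem hy.2 _)
          (fun y hy => indicator_of_mem hy.2 _)]
    · have hxK : x ∉ K := fun hk => hx (hKM hk).2
      rw [indicator_of_notMem hx, gs_ip_off hGN.gs hφ'.1 hK hz hxN hxK, indicator_of_notMem hx]
      ring
  rw [e1, e2]
  exact hgap _ hφ'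

/-- **RG-GLUE-TOP** (PROVED): the gluing theorem.
PLAN: `N = A ∩ O`.  `K_D = D ∩ {ρ ≤ 2}` is compact in `N`; `gs_exists_compact_nhd` (on `N`): `K₁ ⊆ N` compact, `O_B ⊇ K_D` open,
`N ∩ O_B ⊆ K₁`.  `rg_glue_local` (operators on `N` = operators on `A`: `rg_L_inter`, `if_gradIp_inter`, ...) gives `v_N`, `s`.
`gs_exists_cutoff` (on `N`) for `D ∩ {ρ ≤ s + 1}`: `η = 1` on `O_c`.  `v = ψ + O.indicator (η (v_N - ψ))` (`gs_test_extend`): smooth, positive
(`= (1-η) ψ + η v_N` on `N`, `= ψ` off `O`), `= ψ` where `ρ ≥ s` and off the compact support `K` of `η`.  Let `O₂`, `O₃` be open with `A ∩ O₂ = A ∩ {ρ > 3/2}`,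
`A ∩ O₃ = A ∩ {ρ > s}` (`ρ` is continuous on `A`).  `O' = O ∩ ((O_c ∩ (O_B ∪ O₂)) ∪ O₃)`.  On `A ∩ O ∩ O_c`: `v = v_N` near the point
(`rg_L_congr_near`, `rg_L_inter`); on `A ∩ O ∩ O₃`: `v = ψ` near the point and `L ψ ≥ δ ψ`. -/
theorem rg_glue_super (hG : CtGeo d A h t) (hW : SmoothAlong d A W) (hC : 0 < C) (he : 0 < e₀)
    (hδ : 0 < δ) (hκ : 0 < κ₁) (hψ : SmoothAlong d A ψ) (hψ0 : ∀ x ∈ A, 0 < ψ x)
    (hρ : SmoothAlong d A ρ) {D O : Set V} (hDA : D ⊆ A)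
    (hDc : ∀ s : ℝ, IsCompact (D ∩ {x | ρ x ≤ s})) (hO : IsOpen O) (hDO : D ⊆ O)
    (hgap : GsGap d (A ∩ O) h t C W e₀)
    (h1 : ∀ x ∈ A ∩ O, 0 < ρ x → δ * ψ x ≤ rgL d A h t C W ψ x)
    (h2 : ∀ x ∈ A ∩ O, 0 < ρ x → |gradIp d A h ψ ρ x| ≤ κ₁ * ψ x)
    (h3 : ∀ x ∈ A ∩ O, 0 < ρ x → gradSq d A h ρ x ≤ κ₁)
    (h4 : ∀ x ∈ A ∩ O, 0 < ρ x → |wlap d A h t ρ x| ≤ κ₁) :
    ∃ (v : V → ℝ) (s : ℝ) (O' : Set V), SmoothAlong d A v ∧ (∀ x ∈ A, 0 < v x) ∧
      (∀ x ∈ A, s ≤ ρ x → v x = ψ x) ∧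
      (∃ K : Set V, IsCompact K ∧ K ⊆ A ∩ O ∧ ∀ x ∈ A, x ∉ K → v x = ψ x) ∧ IsOpen O' ∧ D ⊆ O' ∧
      ∀ x ∈ A ∩ O', min (e₀ / 4) (δ / 2) * v x ≤ rgL d A h t C W v x := by
  have hGN : CtGeo d (A ∩ O) h t := hG.inter hO
  have hDN : D ⊆ A ∩ O := fun x hx => ⟨hDA hx, hDO hx⟩
  obtain ⟨K₁, O_B, hK₁, hK₁N, hOB, hKDB, hNB⟩ := gs_exists_compact_nhd hGN.mfd (hDc 2)
    (fun x hx => hDN hx.1)
  obtain ⟨vN, s, hs0, hvsm, hvpos, hvfar, hvsup⟩ := rg_glue_local hGN (if_smoothAlong_inter hW hO)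
    hC he hδ hκ (if_smoothAlong_inter hψ hO) (fun x hx => hψ0 x hx.1) (if_smoothAlong_inter hρ hO)
    hgap (fun x hx hp => by rw [rg_L_inter' hO hx.2]; exact h1 x hx hp)
    (fun x hx hp => by rw [if_gradIp_inter' _ _ _ hO hx.2]; exact h2 x hx hp)
    (fun x hx hp => by rw [if_gradSq_inter' _ _ hO hx.2]; exact h3 x hx hp)
    (fun x hx hp => by
      have e : wlap d (A ∩ O) h t ρ x = wlap d A h t ρ x := by
        unfold wlap
        rw [if_lap_inter' _ _ hO hx.2, if_gradIp_inter' _ _ _ hO hx.2]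
      rw [e]; exact h4 x hx hp) hK₁ hK₁N
  obtain ⟨η, O_c, hη, hη01, hOc, hKc, hη1⟩ := gs_exists_cutoff hGN.mfd (hDc (s + 1))
    (fun x hx => hDN hx.1)
  obtain ⟨K, hK, hKN, hηK⟩ := hη.2
  set φ : V → ℝ := fun x => η x * (vN x - ψ x) with hφdef
  have hφ : IsTestOn d (A ∩ O) φ :=
    ⟨gs_sm_mul hη.1 (gs_sm_sub hvsm (if_smoothAlong_inter hψ hO)),
      K, hK, hKN, fun x hx hxK => by simp only [hφdef, hηK x hx hxK, zero_mul]⟩
  have hφA := gs_test_extend hG.mfd hO hφ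
  have hcont : ContinuousOn ρ A := if_smoothAlong_continuousOn hG.mfd hρ
  obtain ⟨O₂, hO₂, hO₂e⟩ := continuousOn_iff'.1 hcont (Ioi (3 / 2)) isOpen_Ioi
  obtain ⟨O₃, hO₃, hO₃e⟩ := continuousOn_iff'.1 hcont (Ioi s) isOpen_Ioi
  have hin : ∀ x ∈ O, ψ x + O.indicator φ x = ψ x + η x * (vN x - ψ x) := fun x hx => by
    rw [indicator_of_mem hx]
  have hout : ∀ x, x ∉ O → ψ x + O.indicator φ x = ψ x := fun x hx => by
    rw [indicator_of_notMem hx, add_zero]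
  have hfar : ∀ x ∈ A, s ≤ ρ x → ψ x + O.indicator φ x = ψ x := by
    intro x hx hs
    by_cases hxO : x ∈ O
    · rw [hin x hxO, hvfar x ⟨hx, hxO⟩ hs]; ring
    · exact hout x hxO
  refine ⟨fun x => ψ x + O.indicator φ x, s, O ∩ ((O_c ∩ (O_B ∪ O₂)) ∪ O₃),
    gs_sm_add hψ hφA.1, fun x hx => ?_, hfar, ⟨K, hK, hKN, fun x hx hxK => ?_⟩,
    hO.inter ((hOc.inter (hOB.union hO₂)).union hO₃), fun x hx => ?_, fun x hx => ?_⟩
  · show 0 < ψ x + O.indicator φ x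
    by_cases hxO : x ∈ O
    · rw [hin x hxO]
      have a1 := hψ0 x hx
      have a2 := hvpos x ⟨hx, hxO⟩
      obtain ⟨a3, a4⟩ := hη01 x
      by_cases a5 : η x ≤ 1 / 2
      · nlinarith
      · push Not at a5
        nlinarith
    · rw [hout x hxO]; exact hψ0 x hx
  · show ψ x + O.indicator φ x = ψ x
    by_cases hxO : x ∈ O
    · rw [hin x hxO, hηK x ⟨hx, hxO⟩ hxK]; ring
    · exact hout x hxO
  · refine ⟨hDO hx, ?_⟩
    by_cases hs : s < ρ x
    · right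
      have : x ∈ ρ ⁻¹' Ioi s ∩ A := ⟨hs, hDA hx⟩
      rw [hO₃e] at this
      exact this.1
    · push Not at hs
      left
      refine ⟨hKc ⟨hx, by show ρ x ≤ s + 1; linarith⟩, ?_⟩
      by_cases h2' : ρ x ≤ 2
      · exact Or.inl (hKDB ⟨hx, h2'⟩)
      · push Not at h2'
        right
        have : x ∈ ρ ⁻¹' Ioi (3 / 2) ∩ A := ⟨by show (3:ℝ) / 2 < ρ x; linarith, hDA hx⟩
        rw [hO₂e] at this
        exact this.1
  · obtain ⟨hxA, hxO, hcase⟩ := hx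
    show min (e₀ / 4) (δ / 2) * (ψ x + O.indicator φ x) ≤ _
    rcases hcase with ⟨hxc, hB2⟩ | hx3
    · have hnear : ∀ y ∈ A ∩ (O ∩ O_c), ψ y + O.indicator φ y = vN y := by
        intro y hy
        rw [hin y hy.2.1, hη1 y hy.2.2]; ring
      rw [rg_L_congr_near ((hO.inter hOc).mem_nhds ⟨hxO, hxc⟩) hxA hnear,
        hnear x ⟨hxA, hxO, hxc⟩, ← rg_L_inter' hO hxO]
      refine hvsup x ⟨hxA, hxO⟩ ?_
      rcases hB2 with hB | h2'
      · exact Or.inl (hNB ⟨⟨hxA, hxO⟩, hB⟩)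
      · right
        have : x ∈ O₂ ∩ A := ⟨h2', hxA⟩
        rw [← hO₂e] at this
        exact this.1
    · have hnear : ∀ y ∈ A ∩ O₃, ψ y + O.indicator φ y = ψ y := by
        intro y hy
        have : y ∈ O₃ ∩ A := ⟨hy.2, hy.1⟩
        rw [← hO₃e] at this
        exact hfar y hy.1 (le_of_lt this.1)
      have hρx : s < ρ x := by
        have : x ∈ O₃ ∩ A := ⟨hx3, hxA⟩
        rw [← hO₃e] at this
        exact this.1
      rw [rg_L_congr_near (hO₃.mem_nhds hx3) hxA hnear, hnear x ⟨hxA, hx3⟩]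
      have a1 := h1 x ⟨hxA, hxO⟩ (lt_of_le_of_lt hs0 hρx)
      have a2 := hψ0 x hxA
      have a3 : min (e₀ / 4) (δ / 2) ≤ δ := (min_le_right _ _).trans (by linarith)
      exact (mul_le_mul_of_nonneg_right a3 a2.le).trans a1

end meas

end Claimed.Agent.R315
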