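import Claimed.Agent.R315.Gs.Aap

/-!
# Row 315, package Rg (P Appendix E), part 1: the operator `L = -C Δ_t + W` and two identities

* `rgL d M h t C W f = -C Δ_t f + W f`;
* `rg_L_add`, `rg_L_smul`;
* `rg_L_mul_comp` : `L(ψ G(ρ)) = G(ρ) Lψ - C ψ (G'(ρ) Δ_t ρ + G''(ρ)|dρ|²) - 2 C G'(ρ) ⟨dψ,dρ⟩`;
* `rg_L_smin` : for `a, b > 0`, `r = a/b`:
  `L(b m(r)) = m'(r) L a + (m(r) - r m'(r)) L b - C b m''(r) |dr|²`
  (gluing of supersolutions by a concave `1`-homogeneous function).
Owner: helper209.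
-/

set_option autoImplicit false
set_option linter.unusedSectionVars false
open scoped ContDiff Topology
open Claims.C0499 Set

namespace Claimed.Agent.R315

variable {V : Type} [NormedAddCommGroup V] [NormedSpace ℝ V]

/-- `L f = -C Δ_t f + W f`. -/
noncomputable def rgL (d : ℕ) (M : Set V) (h : Ten V) (t : V → ℝ) (C : ℝ) (W f : V → ℝ) (x : V) :
    ℝ :=
  -C * wlap d M h t f x + W x * f x

variable [FiniteDimensional ℝ V]
variable {d : ℕ} {M : Set V} {h : Ten V} {t W : V → ℝ} {C : ℝ} {x : V}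
variable {a b f k ψ ρ : V → ℝ}

theorem rg_L_add (hM : IsMfd d M) (hh : IsMetricOn d M h) (ht : SmoothAlong d M t)
    (hf : SmoothAlong d M f) (hk : SmoothAlong d M k) (hx : x ∈ M) :
    rgL d M h t C W (fun y => f y + k y) x = rgL d M h t C W f x + rgL d M h t C W k x := by
  unfold rgL
  rw [gs_wlap_add hM hh ht hf hk hx]
  ring

theorem rg_L_smul (hM : IsMfd d M) (hh : IsMetricOn d M h) (ht : SmoothAlong d M t) (c : ℝ)
    (hf : SmoothAlong d M f) (hx : x ∈ M) :
    rgL d M h t C W (fun y => c * f y) x = c * rgL d M h t C W f x := by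
  unfold rgL
  rw [gs_wlap_smul hM hh ht c hf hx]
  ring

theorem rg_L_congr_near {f' : V → ℝ} {O : Set V} (hO : O ∈ 𝓝 x) (hx : x ∈ M)
    (hf : ∀ y ∈ M ∩ O, f y = f' y) : rgL d M h t C W f x = rgL d M h t C W f' x := by
  unfold rgL
  rw [gs_wlap_congr_near hO hf, hf x ⟨hx, mem_of_mem_nhds hO⟩]

theorem rg_L_mul_comp (hM : IsMfd d M) (hh : IsMetricOn d M h) (ht : SmoothAlong d M t)
    (hψ : SmoothAlong d M ψ) (hρ : SmoothAlong d M ρ) {G : ℝ → ℝ} (hG : ContDiff ℝ ∞ G)
    (hx : x ∈ M) :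
    rgL d M h t C W (fun y => ψ y * G (ρ y)) x =
      G (ρ x) * rgL d M h t C W ψ x
        - C * ψ x * (deriv G (ρ x) * wlap d M h t ρ x + deriv (deriv G) (ρ x) * gradSq d M h ρ x)
        - 2 * C * deriv G (ρ x) * gradIp d M h ψ ρ x := by
  have hGρ : SmoothAlong d M (fun y => G (ρ y)) := gs_sm_comp' hG hρ
  unfold rgL
  rw [gs_wlap_mul hM hh ht hψ hGρ hx,
    gs_wlap_comp hM hh ht isOpen_univ hG.contDiffOn hρ (fun _ _ => mem_univ _) hx,
    gs_ip_comp_right hM hh isOpen_univ hG.contDiffOn hρ (fun _ _ => mem_univ _) hψ hx]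
  ring

theorem rg_L_smin (hM : IsMfd d M) (hh : IsMetricOn d M h) (ht : SmoothAlong d M t)
    (ha : SmoothAlong d M a) (hb : SmoothAlong d M b) (hb0 : ∀ y ∈ M, 0 < b y)
    {m : ℝ → ℝ} (hm : ContDiff ℝ ∞ m) (hx : x ∈ M) :
    rgL d M h t C W (fun y => b y * m (a y / b y)) x =
      deriv m (a x / b x) * rgL d M h t C W a x
        + (m (a x / b x) - a x / b x * deriv m (a x / b x)) * rgL d M h t C W b x
        - C * b x * deriv (deriv m) (a x / b x) * gradSq d M h (fun y => a y / b y) x := by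
  have hr : SmoothAlong d M (fun y => a y / b y) := gs_sm_div ha hb fun y hy => (hb0 y hy).ne'
  have hmr : SmoothAlong d M (fun y => m (a y / b y)) := gs_sm_comp' hm hr
  have hbx := hb0 x hx
  -- `a = b r`
  have e1 : wlap d M h t a x = wlap d M h t (fun y => b y * (a y / b y)) x :=
    gs_wlap_congr fun y hy => by
      have := (hb0 y hy).ne'
      field_simp
  rw [gs_wlap_mul hM hh ht hb hr hx] at e1
  unfold rgL
  rw [gs_wlap_mul hM hh ht hb hmr hx,
    gs_wlap_comp hM hh ht isOpen_univ hm.contDiffOn hr (fun _ _ => mem_univ _) hx,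
    gs_ip_comp_right hM hh isOpen_univ hm.contDiffOn hr (fun _ _ => mem_univ _) hb hx, e1]
  have e2 : a x = b x * (a x / b x) := by field_simp
  beta_reduce
  generalize a x / b x = r at e2 ⊢
  rw [e2]
  ring

end Claimed.Agent.R315
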