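import Claimed.Agent.R315.Rg.Defs
import Claimed.Agent.R315.Rm.Glob
import Claimed.Agent.R315.Pk.Loc


/-!
# Row 315, package Rg, units BUD + SEAM + UT (P Lemmas E.1 (uniformity), E.3 (true budget), E.4 (seam)): DEFINITIONS AND CONTRACTS   (architect: helper36; prefixes `rgs`, `rgb`, `rgu`)

GOAL: `rg_gap` (`Rg/Top.lean`).  Glue: `Rg/SeamTop.lean`.

## Setting of one side
`M = C.EO Ω α` (open piece of `E α`, dimension `d + 1`), metric `h`, drift `t = dr`, `U` = (sign) * true defining function, `|dU| = 1` on `S = rm_Lv M U 0`, `N = 1/|dU|`.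
The new side is `X = rgsX M U w k e = {(x, τ) | x ∈ M, k (U x / w x) + k (e τ / w x) = 1}`, `e = ±1`, metric `extTen h = h + dτ²`, drift `t ∘ fst`:
flat (`τ = 0`) where `U ≥ w`, the cylinder `S × {e τ ≥ w}`, and the rounded corner in between.

## NO FLOWS.  Lapse parametrisations (`rm_LapseP M h U x0 ψ r`, helper39, `Rm/Orth.lean`, `Rm/Glob.lean`)
`ψ : rm_box d (U x0) r → M`, `U (ψ v) = v 0`, `cm h ψ = N² da² + γ_a` (no shift).  FIBRES = the lines `a ↦ ψ (rm_J a u)`.  All dictionaries invariant `↔` chart are PROVED in `Rm/Glob.lean`.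
`(a, b) : ℝ → ℝ²` = UNIT SPEED parametrisation of the corner `{k x + k y = 1}` (`RgsProf`): `(a,b)(s) = (-s, 0)` for `s ≤ -1`, `(0, s - ℓ + 1)` for `s ≥ ℓ`; scaled: `δ a (s/δ)`, `δ b (s/δ)`.
`rgsPsi ψ a b δ e (s, u) = (ψ (δ a (s/δ), u), e δ b (s/δ))` parametrises `X` over the chart; its coordinate matrix is `rgsGX G a b δ = (a'² N² + b'²) ds² + γ_{δ a(s/δ)}`, again WITHOUT SHIFT
(this needs `w` CONSTANT on the chart: (FLAT)), so `rm_adm_Dsc` applies to it.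

## The raw pair of a test `φ` on `X`:  THE SAME FUNCTION OF `(s, u)`
`F = φ ∘ rgsPsi`;  `vb (ψ (a, u)) = F (-a, u)` (bulk, `a > 0`),  `vc (ψ (0, u), s) = F (s, u)` (cylinder, `s > 0`).  Both parametrisations have unit speed up to `1 + O(Bδ)` because `N = 1` on `S` (`RgTrue.unit`); the shift `2δ - length` of the
corner disappears in the translation invariance of the cylinder.  Outside `-δ ≤ s ≤ ℓδ` the integrands of `X` and of the raw side are EQUAL pointwise.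

## The estimate on a fibre (`rgs_fibre`, pure calculus)
`Ñ² = a'² N² + b'²`, `c = a' N / Ñ`, `P = c S(δ a)` (`S = rm_S` = weighted mean curvature of the levels), `ϱ = e^{-t} √det γ`, `∂_a ϱ = N S ϱ`.  `rm_adm_Dsc` for `GX`:
`D_X = D_L - c² |J|² - P² - 2 Ñ⁻¹ ∂_s P - 2 Δ_{L,t} Ñ / Ñ`.  ONE integration by parts in `s` on `[-δ, ℓδ]`: `-2 ∫ P' F² ϱ = -2 S(δ) F(-δ)² ϱ(δ) + ∫ (4 P F F' + 2 Ñ P² F²) ϱ` (`P(ℓδ) = 0`, `P(-δ) = -S(δ)`),
and `-2 S(δ) F(-δ)² ϱ(δ) = -2 S(0) F(0)² ϱ(0) - 2 ∫_0^δ ∂_a (S ϱ F(-a)²) da`: the first term is the SEAM TERM of the raw form.  No second derivative of the profile, no convexity.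
Everything else on the strip is `≥ - C B² (F² + |F F'|) ϱ(0)`, and the gradient terms are compared by Grönwall in `a` (`|∂_a γ⁻¹(ξ,ξ)| ≤ 2 N |J| γ⁻¹(ξ,ξ)`, `|∂_a log ϱ| ≤ N |S|`, `|N - 1| ≤ C B δ`): factor `e^{-C B δ}`.
1-D trace inequality on `[-δ, 1]`: `sup_{[-δ,δ]} F² ≤ 4 ∫_{-δ}^1 (F² + F'²)`.  The errors `≤ C B² √δ (grad + mass)` are paid by the reserves `.2` and `97 e0` of the raw inequality.

## Units
| unit | exit | owner |
|------|------|-------|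
| BUD  | `rgb_wall`, `rgb_raw`, `rgb_pi` | helper204 |
| UT   | `rgu_width` (uniform lapse charts + choice of `w`; uses LOC, (AC)) | (helper48 asked) |
| SEAM-A | `rgs_prof_exists`, `rgs_fibre` | helper36 |
| SEAM-G | `rgs_side_gap` from SEAM-A | helper35 |
-/

set_option autoImplicit false
open scoped ContDiff ENNReal Topology
open MeasureTheory Claims.C0499 Set Filter

namespace Claimed.Agent.R315

/-! ## 1. manifold level -/

section mfd

variable {V : Type} [NormedAddCommGroup V] [NormedSpace ℝ V]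

/-- the rounded side over `(M, U)`: width `w`, corner `k`, orientation `e = ±1` of the new coordinate. -/
def rgsX (M : Set V) (U w : V → ℝ) (k : ℝ → ℝ) (e : ℝ) : Set (V × ℝ) :=
  {z | z.1 ∈ M ∧ k (U z.1 / w z.1) + k (e * z.2 / w z.1) = 1}

/-- **matching pairs** on the raw joined side of `{U > 0}`, supported in the region `P`. -/
structure RgPair (d : ℕ) (M : Set V) (U : V → ℝ) (P : Set V) (vb : V → ℝ) (vc : V → ℝ → ℝ) :
    Prop where
  b_smooth : SmoothAlong (d + 1) M vb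
  c_smooth : SmoothAlong (d + 2) (M ×ˢ (Set.univ : Set ℝ)) (fun z : V × ℝ => vc z.1 z.2)
  cs : ∃ (K : Set V) (L : ℝ), IsCompact K ∧ K ⊆ M ∩ P ∧
    (∀ x ∈ M, x ∉ K → vb x = 0 ∧ ∀ s, vc x s = 0) ∧ ∀ x s, L < |s| → vc x s = 0
  seam : ∀ x ∈ M, U x = 0 → vc x 0 = vb x

/-- the lapse `N = 1 / |dU|`. -/
noncomputable def rgsN (d : ℕ) (M : Set V) (h : Ten V) (U : V → ℝ) (x : V) : ℝ :=
  (gradN (d + 1) M h U x)⁻¹

/-- **the eight invariants** of `(M, h, t, U, Vs)` at `x` are bounded by `B`. -/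
structure RgsBd (d : ℕ) (M : Set V) (h : Ten V) (t U Vs : V → ℝ) (B : ℝ) (x : V) : Prop where
  dN : |gradIp (d + 1) M h U (rgsN d M h U) x| ≤ B
  S : |wmc (d + 1) M h t U x| ≤ B
  dS : |gradIp (d + 1) M h U (wmc (d + 1) M h t U) x| ≤ B
  DM : |Dsc (d + 1) M h t x| ≤ B
  DL : |Dsc d (rm_Lv M U (U x)) h t x| ≤ B
  lapN : |wlap d (rm_Lv M U (U x)) h t (rgsN d M h U) x| ≤ B
  sqN : gradSq d (rm_Lv M U (U x)) h (rgsN d M h U) x ≤ B
  Vs0 : 0 ≤ Vs x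
  VsB : Vs x ≤ B

/-- smallness of the width `δ` against the bound `B` of the invariants and the gap `e0`. -/
def RgsSmall (e0 B δ : ℝ) : Prop :=
  0 < δ ∧ 1 ≤ B ∧ 10 ^ 6 * B ^ 2 * Real.sqrt δ ≤ min 1 e0

/-- **a good lapse chart at `x0`**: radius `3 w x0`, `w` constant, invariants bounded, inside `P`, width small. -/
structure RgsChart (d : ℕ) (M : Set V) (h : Ten V) (t U w Vs : V → ℝ) (P : Set V) (e0 : ℝ)
    (x0 : V) (ψ : E (d + 1) → V) (B : ℝ) : Prop where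
  lapse : rm_LapseP M h U x0 ψ (3 * w x0)
  flat : ∀ v ∈ rm_box d (U x0) (3 * w x0), w (ψ v) = w x0
  bd : ∀ v ∈ rm_box d (U x0) (3 * w x0), RgsBd d M h t U Vs B (ψ v)
  mem : ∀ v ∈ rm_box d (U x0) (3 * w x0), ψ v ∈ P
  small : RgsSmall e0 B (w x0)

variable [MeasurableSpace V] [BorelSpace V]

/-- bulk part of the raw form, gradient coefficient `c`, mass `γ` subtracted. -/
noncomputable def rgRawB (d : ℕ) (M : Set V) (h : Ten V) (t U Vs : V → ℝ) (c γ : ℝ)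
    (vb : V → ℝ) : ℝ :=
  ∫ x in {x | 0 < U x}, (c * gradSq (d + 1) M h vb x +
    (Dsc (d + 1) M h t x - Vs x - γ) * vb x ^ 2) ∂(wvol (d + 1) M h t)

/-- cylinder part of the raw form. -/
noncomputable def rgRawC (d : ℕ) (M : Set V) (h : Ten V) (t U Vs : V → ℝ) (c γ : ℝ)
    (vc : V → ℝ → ℝ) : ℝ :=
  ∫ s in Set.Ioi (0 : ℝ), ∫ x, (c * (gradSq d (rm_Lv M U 0) h (fun y => vc y s) x +
      deriv (fun σ => vc x σ) s ^ 2) +
    (Dsc d (rm_Lv M U 0) h t x - Vs x - γ) * vc x s ^ 2) ∂(wvol d (rm_Lv M U 0) h t)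

/-- seam term: `∫_S H_t[U] vb²` (the raw form contains `-2` times it: `-H_t[U]` is the outward mean curvature of `{U > 0}`). -/
noncomputable def rgRawS (d : ℕ) (M : Set V) (h : Ten V) (t U : V → ℝ) (vb : V → ℝ) : ℝ :=
  ∫ x, wmc (d + 1) M h t U x * vb x ^ 2 ∂(wvol d (rm_Lv M U 0) h t)

/-- **THE RAW JOINED INEQUALITY WITH RESERVES** `.2` (gradient) and `98 e0` (mass), smooth form. -/
def RgRawOK (d : ℕ) (M : Set V) (h : Ten V) (t U Vs : V → ℝ) (P : Set V) (e0 : ℝ) : Prop :=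
  ∀ (vb : V → ℝ) (vc : V → ℝ → ℝ), RgPair d M U P vb vc →
    0 ≤ rgRawB d M h t U Vs 3.8 (98 * e0) vb + rgRawC d M h t U Vs 3.8 (98 * e0) vc -
      2 * rgRawS d M h t U vb

end mfd

/-! ## 2. the profile -/

/-- unit speed parametrisation `(a, b)` of the corner `{k x + k y = 1}`; `ℓ + 1` = length of the rounded part. -/
structure RgsProf (k a b : ℝ → ℝ) (ℓ : ℝ) : Prop where
  a_smooth : ContDiff ℝ ∞ a
  b_smooth : ContDiff ℝ ∞ b
  speed : ∀ s, deriv a s ^ 2 + deriv b s ^ 2 = 1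
  a_anti : ∀ s, deriv a s ≤ 0
  b_mono : ∀ s, 0 ≤ deriv b s
  left : ∀ s, s ≤ -1 → a s = -s ∧ b s = 0
  right : ∀ s, ℓ ≤ s → a s = 0 ∧ b s = s - ℓ + 1
  l0 : 0 ≤ ℓ
  l1 : ℓ ≤ 1
  on : ∀ s, k (a s) + k (b s) = 1
  onto : ∀ x y, k x + k y = 1 → ∃ s, a s = x ∧ b s = y

/-! ## 3. chart level -/

section chart

variable {d : ℕ}

/-- `(s, u) ↦ (δ a (s/δ), u)`. -/
noncomputable def rgsK (a : ℝ → ℝ) (δ : ℝ) (v : E (d + 1)) : E (d + 1) :=
  rm_J (δ * a (v 0 / δ)) (rm_tl d v)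

/-- `(a, u) ↦ (-a, u)`. -/
noncomputable def rgsRf (v : E (d + 1)) : E (d + 1) := rm_J (-(v 0)) (rm_tl d v)

/-- domain of the parametrisation of `X` over a lapse chart of radius `3 δ`. -/
def rgsDom (d : ℕ) (δ : ℝ) : Set (E (d + 1)) := {v | -(2 * δ) < v 0 ∧ ‖rm_tl d v‖ < 3 * δ}

/-- the parametrisation of `X` over the lapse chart `ψ`. -/
noncomputable def rgsPsi {V : Type} (ψ : E (d + 1) → V) (a b : ℝ → ℝ) (δ e : ℝ) (v : E (d + 1)) :
    V × ℝ :=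
  (ψ (rgsK a δ v), e * (δ * b (v 0 / δ)))

/-- the coordinate matrix of `X`: `(a'² G₀₀ + b'²) ds² + γ_{δ a (s/δ)}`. -/
noncomputable def rgsGX (G : rm_MF (d + 1)) (a b : ℝ → ℝ) (δ : ℝ) : rm_MF (d + 1) := fun v =>
  Matrix.of fun i j =>
    (if i = 0 then deriv a (v 0 / δ) else 1) * (if j = 0 then deriv a (v 0 / δ) else 1) *
        G (rgsK a δ v) i j +
      if i = 0 ∧ j = 0 then deriv b (v 0 / δ) ^ 2 else 0

/-- the invariants in a lapse chart (`RgsBd.chart`). -/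
structure RgsBdC (G : rm_MF (d + 1)) (t Vs : E (d + 1) → ℝ) (B : ℝ) (v : E (d + 1)) : Prop where
  dN : |rm_e G (rm_lps G) v / rm_lps G v| ≤ B
  S : |rm_S G t v| ≤ B
  dS : |rm_e G (rm_S G t) v / rm_lps G v| ≤ B
  DM : |rm_DscC G t v| ≤ B
  DL : |rm_DscS G t v| ≤ B
  lapN : |rm_lapS G (rm_lps G) v - rm_ipS G t (rm_lps G) v| ≤ B
  sqN : rm_ipS G (rm_lps G) (rm_lps G) v ≤ B
  Vs0 : 0 ≤ Vs v
  VsB : Vs v ≤ B

/-- chart integrand of `∫_X (4 |dφ|² + (D_X - V* - e0) φ²) dμ_X`, `F = φ ∘ rgsPsi`. -/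
noncomputable def rgsIX (G : rm_MF (d + 1)) (a b : ℝ → ℝ) (δ : ℝ) (t Vs : E (d + 1) → ℝ) (e0 : ℝ)
    (F : E (d + 1) → ℝ) (v : E (d + 1)) : ℝ :=
  (4 * gradSqC (rgsGX G a b δ) F v +
    (rm_DscC (rgsGX G a b δ) (fun v' => t (rgsK a δ v')) v - Vs (rgsK a δ v) - e0) * F v ^ 2) *
    (Real.exp (-t (rgsK a δ v)) * Real.sqrt (rgsGX G a b δ v).det)

/-- chart integrand of the bulk part of the raw form; `vb ∘ ψ = F ∘ rgsRf`. -/
noncomputable def rgsIB (G : rm_MF (d + 1)) (t Vs : E (d + 1) → ℝ) (e0 : ℝ) (F : E (d + 1) → ℝ)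
    (v : E (d + 1)) : ℝ :=
  (3.8 * gradSqC G (fun v' => F (rgsRf v')) v +
    (rm_DscC G t v - Vs v - 98 * e0) * F (rgsRf v) ^ 2) *
    (Real.exp (-t v) * Real.sqrt (G v).det)

/-- chart integrand of the cylinder part of the raw form at `v = (s, u)`; `vc (ψ (0, u)) s = F (s, u)`. -/
noncomputable def rgsIC (G : rm_MF (d + 1)) (t Vs : E (d + 1) → ℝ) (e0 : ℝ) (F : E (d + 1) → ℝ)
    (v : E (d + 1)) : ℝ :=
  (3.8 * (gradSqC (rm_sl G 0) (rm_fs F (v 0)) (rm_tl d v) + pdiff F 0 v ^ 2) +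
    (rm_DscC (rm_sl G 0) (rm_fs t 0) (rm_tl d v) - Vs (rm_J 0 (rm_tl d v)) - 98 * e0) * F v ^ 2) *
    (Real.exp (-t (rm_J 0 (rm_tl d v))) * Real.sqrt (rm_sl G 0 (rm_tl d v)).det)

/-- chart integrand of `-2 ∫_S H_t[U] vb²`. -/
noncomputable def rgsIS (G : rm_MF (d + 1)) (t : E (d + 1) → ℝ) (F : E (d + 1) → ℝ) (u : E d) : ℝ :=
  -2 * rm_S G t (rm_J 0 u) * F (rm_J 0 u) ^ 2 *
    (Real.exp (-t (rm_J 0 u)) * Real.sqrt (rm_sl G 0 u).det)

end chart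

/-! ## 4. the context -/

section ctx

variable {V W : Type} [NormedAddCommGroup V] [NormedSpace ℝ V] [NormedAddCommGroup W]
  [NormedSpace ℝ W] {ι : Type}

/-- the target potential `V*` as a function on `W`. -/
noncomputable def ShCtx.Vb (C : ShCtx V W ι) (P1 : PData W ι C.B.J) (s' : ℝ) (x : W) : ℝ :=
  rgVs P1 C.R C.s s' (x, 0)

/-- **the pointwise budget** with margin `γ e0`:  `V* + γ e0 - 1.16 Σ D_j + 1.02 Π_{j0} ≤ D(E α)`. -/
def ShCtx.PI [Fintype ι] (C : ShCtx V W ι) (P1 : PData W ι C.B.J) (s' : ℝ) (α : Stat ι) (γ : ℝ)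
    (z : W) : Prop :=
  C.Vb P1 s' z + γ * C.e0 - 1.16 * C.add P1 z + 1.02 * C.P.pot C.j0 z ≤
    Dsc (C.m α) (C.P.E α) C.P.h C.P.dr z

/-- (LOC), RULING 10 (3). -/
def ShCtx.Loc (C : ShCtx V W ι) : Prop := PkLoc C.B C.F C.P C.j0

end ctx

end Claimed.Agent.R315
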