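import Claimed.Agent.R315.Rg.SeamDefs
import Claimed.Agent.R315.Rg.SeamFc

/-!
# Row 315, package Rg, unit SEAM-A: THE FIBRE INEQUALITY `rgs_fibre_pf`   (architect: helper36; prefixes `rg1` = one dimensional, `rgs` = chart level)

Plan and notation: header of `Rg/SeamDefs.lean`.  TWO LAYERS.

## Layer 2 (sections 1-3 of this file): PURE 1-D ANALYSIS
`Rg1Dat` = the functions on one fibre: of the level `x ∈ I = (-2δ, 2δ)`: lapse `N`, density `rho = e^{-t} √det γ`, weighted mean curvature `S`, `DM = D(M)`, `DL = D(level)`, `Jq = |J|²`, `LN = Δ_{L,t} N`, `sN = |d_L N|²`, `Vs`;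
`Gam x s` = tangential energy `γ_x⁻¹(ξ_s, ξ_s)` of the test function at parameter `s`, measured at the level `x`;  `f s` = the test function.   `Rg1Dat.Ok` = regularity, relations (`rho' = N S rho`, ADM) and bounds.
With `α s = δ a (s/δ)`, `p = a'(s/δ) ≤ 0`, `q = b'(s/δ) ≥ 0`: `Ñ = √(p² N(α)² + q²)`, `c = p N(α)/Ñ`, `P = c S(α)`, `Λ = Δ_{L,t} Ñ / Ñ = (p² N/Ñ²) LN + (p² q²/Ñ⁴) sN`.
`rg1_main`:  `∫_0^{3δ/2} IB + ∫_0^∞ IC + IS ≤ ∫_{-3δ/2}^∞ IX`.
 * `s < -δ`:  `IX s - IB (-s) = (.2 (Gam + f'²/N²) + 97 e0 f²) N rho ≥ 0` by ADM (`rg1_left`);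
 * `s > ℓδ`:  `IX s - IC s = (.2 (Gam + f'²) + 97 e0 f²) rho 0` (`rg1_right`);
 * strip `[-δ, ℓδ]` (levels in `[0, δ]`): all ratios `N`, `Ñ`, `rho x / rho y`, `Gam x s / Gam y s` lie in `[.999, 1.001]` (`rg1_N_bd`, ...), `Jq ≤ 7 B` (ADM);  integration by parts `rg1_ibp`, fundamental theorem `rg1_ftc`; result `rg1_strip`;
 * `rg1_trace`, `rg1_absorb`: the errors are absorbed.
NUMBERS (checked by hand): regular potential of `X` `≥ -15 B²`, `(4 P f f')` `≥ -4.1 B |f f'|`, `rg1_ftc` `≥ -(4.2 B²) f² - 4.1 B |f f'|`, raw potentials `≥ -2.1 B`; total `≥ -22 B² (f² + |f f'|) rho 0`; gradient: `4 * .999⁴ ≥ 3.9`, `(3.9 - 3.8) * .99 ≥ .09`.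
`∫_strip f² ≤ 8 δ K`, `∫_strip |f f'| ≤ √(8δ) K`, `K = ∫_δ^1 f² + ∫_{-δ}^1 f'²`;  `22 B² (8δ + √(8δ)) ≤ 88 B² √δ ≤ 10⁻⁴ min 1 e0`.

## Layer 1 (section 4): FROM THE CHART TO THE FIBRE
`rgsDat G t Vs F u : Rg1Dat`.  `rgs_IX_eq`, `rgs_IB_eq`, `rgs_IC_eq`, `rgs_IS_eq`: the chart integrands are the 1-D integrands; `rgs_dat_ok`.  Tools: `rm_adm_Dsc`, `rm_adm_sq`, `rm_blk_det`, `rm_H_eq_log`, `rm_pdiff_tanInv`, `rm_lap_comp`, `rm_tr_factor` (Pack005/006).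
-/

set_option autoImplicit false
open scoped ContDiff ENNReal Topology
open MeasureTheory Claims.C0499 Set Filter

namespace Claimed.Agent.R315

/-! ## 1. one dimensional data -/

/-- the functions on one fibre. -/
structure Rg1Dat where
  N : ℝ → ℝ
  rho : ℝ → ℝ
  S : ℝ → ℝ
  DM : ℝ → ℝ
  DL : ℝ → ℝ
  Jq : ℝ → ℝ
  LN : ℝ → ℝ
  sN : ℝ → ℝ
  Vs : ℝ → ℝ
  Gam : ℝ → ℝ → ℝ
  f : ℝ → ℝ

/-- the interval of levels. -/
def rg1I (δ : ℝ) : Set ℝ := Set.Ioo (-(2 * δ)) (2 * δ)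

/-- regularity, relations and bounds. -/
structure Rg1Dat.Ok (D : Rg1Dat) (δ B L : ℝ) : Prop where
  N_sm : ContDiffOn ℝ ∞ D.N (rg1I δ)
  rho_sm : ContDiffOn ℝ ∞ D.rho (rg1I δ)
  S_sm : ContDiffOn ℝ ∞ D.S (rg1I δ)
  DM_c : ContinuousOn D.DM (rg1I δ)
  DL_c : ContinuousOn D.DL (rg1I δ)
  Jq_c : ContinuousOn D.Jq (rg1I δ)
  LN_c : ContinuousOn D.LN (rg1I δ)
  sN_c : ContinuousOn D.sN (rg1I δ)
  Vs_c : ContinuousOn D.Vs (rg1I δ)
  Gam_c : ContinuousOn (fun p : ℝ × ℝ => D.Gam p.1 p.2) (rg1I δ ×ˢ Set.Ioi (-(2 * δ)))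
  f_sm : ContDiffOn ℝ ∞ D.f (Set.Ioi (-(2 * δ)))
  N_pos : ∀ x ∈ rg1I δ, 0 < D.N x
  rho_pos : ∀ x ∈ rg1I δ, 0 < D.rho x
  unit : D.N 0 = 1
  drho : ∀ x ∈ rg1I δ, deriv D.rho x = D.N x * D.S x * D.rho x
  adm : ∀ x ∈ rg1I δ, D.DM x = D.DL x - D.Jq x - D.S x ^ 2 - 2 * deriv D.S x / D.N x -
    2 * D.LN x / D.N x
  bN : ∀ x ∈ rg1I δ, |deriv D.N x / D.N x ^ 2| ≤ B
  bS : ∀ x ∈ rg1I δ, |D.S x| ≤ B
  bdS : ∀ x ∈ rg1I δ, |deriv D.S x / D.N x ^ 2| ≤ B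
  bDM : ∀ x ∈ rg1I δ, |D.DM x| ≤ B
  bDL : ∀ x ∈ rg1I δ, |D.DL x| ≤ B
  bLN : ∀ x ∈ rg1I δ, |D.LN x| ≤ B
  sN0 : ∀ x ∈ rg1I δ, 0 ≤ D.sN x
  bsN : ∀ x ∈ rg1I δ, D.sN x ≤ B
  Jq0 : ∀ x ∈ rg1I δ, 0 ≤ D.Jq x
  Vs0 : ∀ x ∈ rg1I δ, 0 ≤ D.Vs x
  VsB : ∀ x ∈ rg1I δ, D.Vs x ≤ B
  Gam0 : ∀ x ∈ rg1I δ, ∀ s, -(2 * δ) < s → 0 ≤ D.Gam x s
  Gam_d : ∀ x ∈ rg1I δ, ∀ s, -(2 * δ) < s → DifferentiableAt ℝ (fun y => D.Gam y s) x ∧
    |deriv (fun y => D.Gam y s) x| ≤ 2 * D.N x * Real.sqrt (D.Jq x) * D.Gam x s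
  Gam_L : ∀ x ∈ rg1I δ, ∀ s, -(2 * δ) < s → L ≤ s → D.Gam x s = 0
  f_L : ∀ s, -(2 * δ) < s → L ≤ s → D.f s = 0

/-- `α s = δ a (s/δ)`. -/
noncomputable def rg1A (a : ℝ → ℝ) (δ s : ℝ) : ℝ := δ * a (s / δ)

/-- `Ñ`. -/
noncomputable def rg1Nt (D : Rg1Dat) (a b : ℝ → ℝ) (δ s : ℝ) : ℝ :=
  Real.sqrt (deriv a (s / δ) ^ 2 * D.N (rg1A a δ s) ^ 2 + deriv b (s / δ) ^ 2)

/-- `P = c S(α)`, `c = a' N(α) / Ñ`. -/
noncomputable def rg1P (D : Rg1Dat) (a b : ℝ → ℝ) (δ s : ℝ) : ℝ :=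
  deriv a (s / δ) * D.N (rg1A a δ s) / rg1Nt D a b δ s * D.S (rg1A a δ s)

/-- `Λ = Δ_{L,t} Ñ / Ñ`. -/
noncomputable def rg1Lam (D : Rg1Dat) (a b : ℝ → ℝ) (δ s : ℝ) : ℝ :=
  deriv a (s / δ) ^ 2 * D.N (rg1A a δ s) / rg1Nt D a b δ s ^ 2 * D.LN (rg1A a δ s) +
    deriv a (s / δ) ^ 2 * deriv b (s / δ) ^ 2 / rg1Nt D a b δ s ^ 4 * D.sN (rg1A a δ s)

/-- the regular part of the potential of `X`: `D_L - c² |J|² - P² - 2 Λ - V* - e0`. -/
noncomputable def rg1Q (D : Rg1Dat) (a b : ℝ → ℝ) (δ e0 s : ℝ) : ℝ :=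
  D.DL (rg1A a δ s) -
    (deriv a (s / δ) * D.N (rg1A a δ s) / rg1Nt D a b δ s) ^ 2 * D.Jq (rg1A a δ s) -
    rg1P D a b δ s ^ 2 - 2 * rg1Lam D a b δ s - D.Vs (rg1A a δ s) - e0

/-- integrand of `X`. -/
noncomputable def rg1IX (D : Rg1Dat) (a b : ℝ → ℝ) (δ e0 s : ℝ) : ℝ :=
  (4 * D.Gam (rg1A a δ s) s + 4 * deriv D.f s ^ 2 / rg1Nt D a b δ s ^ 2 +
    (rg1Q D a b δ e0 s - 2 / rg1Nt D a b δ s * deriv (rg1P D a b δ) s) * D.f s ^ 2) *
    (rg1Nt D a b δ s * D.rho (rg1A a δ s))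

/-- integrand of the raw bulk at the level `x > 0` (parameter `s = -x`). -/
noncomputable def rg1IB (D : Rg1Dat) (e0 x : ℝ) : ℝ :=
  (3.8 * (D.Gam x (-x) + deriv D.f (-x) ^ 2 / D.N x ^ 2) +
    (D.DM x - D.Vs x - 98 * e0) * D.f (-x) ^ 2) * (D.N x * D.rho x)

/-- integrand of the raw cylinder. -/
noncomputable def rg1IC (D : Rg1Dat) (e0 s : ℝ) : ℝ :=
  (3.8 * (D.Gam 0 s + deriv D.f s ^ 2) + (D.DL 0 - D.Vs 0 - 98 * e0) * D.f s ^ 2) * D.rho 0

/-- the seam term. -/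
noncomputable def rg1IS (D : Rg1Dat) : ℝ := -2 * D.S 0 * D.f 0 ^ 2 * D.rho 0

/-! ## 2. leaves of the 1-D analysis -/

section one

variable {D : Rg1Dat} {k a b : ℝ → ℝ} {ℓ δ B e0 L : ℝ}

/-! ### L-RG-SEAM-F1: the scaled profile -/

theorem rg1_A_hasDeriv (hp : RgsProf k a b ℓ) (hδ : 0 < δ) (s : ℝ) :
    HasDerivAt (rg1A a δ) (deriv a (s / δ)) s := by
  have h1 : HasDerivAt a (deriv a (s / δ)) (s / δ) :=
    ((hp.a_smooth.differentiable (by simp)) (s / δ)).hasDerivAt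
  have h2 : HasDerivAt (fun s : ℝ => s / δ) (1 / δ) s := (hasDerivAt_id s).div_const δ
  have h3 := (h1.scomp s h2).const_mul δ
  have e : δ * ((1 / δ) • deriv a (s / δ)) = deriv a (s / δ) := by
    rw [smul_eq_mul]
    field_simp
  rw [e] at h3
  exact h3

theorem rg1_prof_dleft (hp : RgsProf k a b ℓ) {σ : ℝ} (hσ : σ ≤ -1) : deriv a σ = -1 ∧ deriv b σ = 0 := by
  have ha : HasDerivAt a (deriv a σ) σ := ((hp.a_smooth.differentiable (by simp)) σ).hasDerivAt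
  have hb : HasDerivAt b (deriv b σ) σ := ((hp.b_smooth.differentiable (by simp)) σ).hasDerivAt
  have hu : UniqueDiffWithinAt ℝ (Set.Iic σ) σ := uniqueDiffOn_Iic σ σ Set.self_mem_Iic
  constructor
  · have h1 : HasDerivWithinAt a (-1) (Set.Iic σ) σ :=
      ((hasDerivAt_id σ).neg.hasDerivWithinAt).congr (fun x hx => (hp.left x (le_trans hx hσ)).1) (hp.left σ hσ).1
    exact hu.eq_deriv _ ha.hasDerivWithinAt h1
  · have h1 : HasDerivWithinAt b 0 (Set.Iic σ) σ :=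
      ((hasDerivAt_const σ (0 : ℝ)).hasDerivWithinAt).congr (fun x hx => (hp.left x (le_trans hx hσ)).2)
        (hp.left σ hσ).2
    exact hu.eq_deriv _ hb.hasDerivWithinAt h1

theorem rg1_prof_dright (hp : RgsProf k a b ℓ) {σ : ℝ} (hσ : ℓ ≤ σ) : deriv a σ = 0 ∧ deriv b σ = 1 := by
  have ha : HasDerivAt a (deriv a σ) σ := ((hp.a_smooth.differentiable (by simp)) σ).hasDerivAt
  have hb : HasDerivAt b (deriv b σ) σ := ((hp.b_smooth.differentiable (by simp)) σ).hasDerivAt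
  have hu : UniqueDiffWithinAt ℝ (Set.Ici σ) σ := uniqueDiffOn_Ici σ σ Set.self_mem_Ici
  constructor
  · have h1 : HasDerivWithinAt a 0 (Set.Ici σ) σ :=
      ((hasDerivAt_const σ (0 : ℝ)).hasDerivWithinAt).congr (fun x hx => (hp.right x (le_trans hσ hx)).1)
        (hp.right σ hσ).1
    exact hu.eq_deriv _ ha.hasDerivWithinAt h1
  · have h1 : HasDerivWithinAt b 1 (Set.Ici σ) σ :=
      ((((hasDerivAt_id σ).sub_const ℓ).add_const (1 : ℝ)).hasDerivWithinAt).congr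
        (fun x hx => (hp.right x (le_trans hσ hx)).2) (hp.right σ hσ).2
    exact hu.eq_deriv _ hb.hasDerivWithinAt h1

theorem rg1_prof_anti (hp : RgsProf k a b ℓ) : Antitone a :=
  antitone_of_deriv_nonpos (hp.a_smooth.differentiable (by simp)) hp.a_anti

theorem rg1_A_left (hp : RgsProf k a b ℓ) (hδ : 0 < δ) {s : ℝ} (hs : s ≤ -δ) :
    rg1A a δ s = -s ∧ deriv a (s / δ) = -1 ∧ deriv b (s / δ) = 0 := by
  have h1 : s / δ ≤ -1 := by
    rw [div_le_iff₀ hδ]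
    linarith
  refine ⟨?_, (rg1_prof_dleft hp h1).1, (rg1_prof_dleft hp h1).2⟩
  unfold rg1A
  rw [(hp.left _ h1).1]
  field_simp

theorem rg1_A_right (hp : RgsProf k a b ℓ) (hδ : 0 < δ) {s : ℝ} (hs : ℓ * δ ≤ s) :
    rg1A a δ s = 0 ∧ deriv a (s / δ) = 0 ∧ deriv b (s / δ) = 1 := by
  have h1 : ℓ ≤ s / δ := by
    rw [le_div_iff₀ hδ]
    exact hs
  refine ⟨?_, (rg1_prof_dright hp h1).1, (rg1_prof_dright hp h1).2⟩
  unfold rg1A
  rw [(hp.right _ h1).1, mul_zero]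

theorem rg1_A_mem (hp : RgsProf k a b ℓ) (hδ : 0 < δ) {s : ℝ} (hs : s ∈ Set.Icc (-δ) (ℓ * δ)) :
    rg1A a δ s ∈ Set.Icc 0 δ := by
  have h1 : -1 ≤ s / δ := by
    rw [le_div_iff₀ hδ]
    linarith [hs.1]
  have h2 : s / δ ≤ ℓ := by
    rw [div_le_iff₀ hδ]
    exact hs.2
  have h3 : a (s / δ) ≤ 1 := by
    have := rg1_prof_anti hp h1
    rw [(hp.left (-1) le_rfl).1] at this
    linarith
  have h4 : 0 ≤ a (s / δ) := by
    have := rg1_prof_anti hp h2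
    rwa [(hp.right ℓ le_rfl).1] at this
  unfold rg1A
  constructor
  · positivity
  · have := mul_le_mul_of_nonneg_left h3 hδ.le
    linarith

/-- all levels `α s`, `s > -2δ`, lie in `[0, 2δ)`. -/
theorem rg1_A_mem' (hp : RgsProf k a b ℓ) (hδ : 0 < δ) {s : ℝ} (hs : -(2 * δ) < s) :
    0 ≤ rg1A a δ s ∧ rg1A a δ s < 2 * δ := by
  rcases le_total s (-δ) with h | h
  · rw [(rg1_A_left hp hδ h).1]
    constructor <;> linarith
  · rcases le_total s (ℓ * δ) with h2 | h2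
    · have := rg1_A_mem hp hδ ⟨h, h2⟩
      exact ⟨this.1, by linarith [this.2]⟩
    · rw [(rg1_A_right hp hδ h2).1]
      constructor <;> linarith

/-! ### L-RG-SEAM-F2: consequences of the bounds on the levels `[0, δ]`
`(1/N)' = -N'/N²`, so `|1/N - 1| ≤ B x`.  `Jq` from `adm`.  `log rho`, `log Gam` (or Grönwall `norm_le_gronwallBound_of_norm_deriv_right_le`; if `Gam y s = 0` at one level then at all levels). -/

theorem rg1_small_Bd (hsm : RgsSmall e0 B δ) : B * δ ≤ 1 / 10 ^ 12 := by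
  obtain ⟨hδ, hB, h⟩ := hsm
  have h1 : 10 ^ 6 * B ^ 2 * Real.sqrt δ ≤ 1 := h.trans (min_le_left _ _)
  have hr0 : 0 ≤ Real.sqrt δ := Real.sqrt_nonneg _
  have hrr : Real.sqrt δ * Real.sqrt δ = δ := Real.mul_self_sqrt hδ.le
  have hBB : B ≤ B ^ 2 := by nlinarith
  have h2 : B * Real.sqrt δ ≤ 1 / 10 ^ 6 := by
    have : B * Real.sqrt δ ≤ B ^ 2 * Real.sqrt δ := mul_le_mul_of_nonneg_right hBB hr0
    linarith
  have h3 : Real.sqrt δ ≤ 1 / 10 ^ 6 := by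
    have : 1 * Real.sqrt δ ≤ B * Real.sqrt δ := mul_le_mul_of_nonneg_right hB hr0
    linarith
  calc B * δ = (B * Real.sqrt δ) * Real.sqrt δ := by rw [mul_assoc, hrr]
    _ ≤ (1 / 10 ^ 6) * (1 / 10 ^ 6) := mul_le_mul h2 h3 hr0 (by norm_num)
    _ = 1 / 10 ^ 12 := by norm_num

theorem rg1_Icc_sub (hδ : 0 < δ) : Set.Icc 0 δ ⊆ rg1I δ := fun x hx =>
  ⟨by linarith [hx.1], by linarith [hx.2]⟩

theorem rg1_exp_small {u : ℝ} (hu : u ≤ 1 / 10 ^ 4) : Real.exp u ≤ 1.001 := by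
  have h2 : 1 - (1.001 : ℝ)⁻¹ ≤ Real.log 1.001 := Real.one_sub_inv_le_log_of_pos (by norm_num)
  have h3 : (1 : ℝ) / 10 ^ 4 ≤ 1 - (1.001 : ℝ)⁻¹ := by norm_num
  calc Real.exp u ≤ Real.exp (Real.log 1.001) := Real.exp_le_exp.2 (by linarith)
    _ = 1.001 := Real.exp_log (by norm_num)

theorem rg1_N_bd (hD : D.Ok δ B L) (hsm : RgsSmall e0 B δ) {x : ℝ} (hx : x ∈ Set.Icc 0 δ) :
    0.999 ≤ D.N x ∧ D.N x ≤ 1.001 := by
  have hδ := hsm.1
  have hB := hsm.2.1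
  have hs := rg1_small_Bd hsm
  have hdiff : ∀ y ∈ rg1I δ, DifferentiableAt ℝ D.N y := fun y hy =>
    (hD.N_sm.contDiffAt (isOpen_Ioo.mem_nhds hy)).differentiableAt (by simp)
  have hd : ∀ y ∈ rg1I δ, DifferentiableAt ℝ (fun z => (D.N z)⁻¹) y := fun y hy =>
    (hdiff y hy).fun_inv (hD.N_pos y hy).ne'
  have hb : ∀ y ∈ rg1I δ, ‖deriv (fun z => (D.N z)⁻¹) y‖ ≤ B := fun y hy => by
    rw [deriv_fun_inv'' (hdiff y hy) (hD.N_pos y hy).ne', Real.norm_eq_abs, neg_div, abs_neg]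
    exact hD.bN y hy
  have h0 : (0 : ℝ) ∈ rg1I δ := ⟨by linarith, by linarith⟩
  have hxI := rg1_Icc_sub hδ hx
  have hmv := (convex_Ioo (-(2 * δ)) (2 * δ)).norm_image_sub_le_of_norm_deriv_le hd hb h0 hxI
  rw [hD.unit, inv_one, sub_zero, Real.norm_eq_abs, Real.norm_eq_abs, abs_of_nonneg hx.1] at hmv
  have h1 : |(D.N x)⁻¹ - 1| ≤ 1 / 10 ^ 12 :=
    hmv.trans ((mul_le_mul_of_nonneg_left hx.2 (by linarith)).trans hs)
  have hN := hD.N_pos x hxI
  obtain ⟨h2, h3⟩ := abs_le.1 h1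
  have h4 : D.N x * (D.N x)⁻¹ = 1 := mul_inv_cancel₀ hN.ne'
  have h5 : D.N x * (D.N x)⁻¹ ≤ D.N x * (1 + 1 / 10 ^ 12) :=
    mul_le_mul_of_nonneg_left (by linarith) hN.le
  have h6 : D.N x * (1 - 1 / 10 ^ 12) ≤ D.N x * (D.N x)⁻¹ :=
    mul_le_mul_of_nonneg_left (by linarith) hN.le
  constructor <;> linarith

theorem rg1_J_bd (hD : D.Ok δ B L) (hsm : RgsSmall e0 B δ) {x : ℝ} (hx : x ∈ Set.Icc 0 δ) :
    D.Jq x ≤ 7 * B := by
  have hδ := hsm.1
  have hB := hsm.2.1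
  have hxI := rg1_Icc_sub hδ hx
  obtain ⟨hN1, hN2⟩ := rg1_N_bd hD hsm hx
  have hN := hD.N_pos x hxI
  have hadm := hD.adm x hxI
  have h1 := abs_le.1 (hD.bDM x hxI)
  have h2 := abs_le.1 (hD.bDL x hxI)
  have h3 := abs_le.1 (hD.bdS x hxI)
  have h4 := abs_le.1 (hD.bLN x hxI)
  have e1 : deriv D.S x / D.N x = deriv D.S x / D.N x ^ 2 * D.N x := by field_simp
  have h5 : -(1.001 * B) ≤ deriv D.S x / D.N x := by
    rw [e1]
    nlinarith [mul_nonneg (by linarith [h3.1] : 0 ≤ deriv D.S x / D.N x ^ 2 + B) hN.le,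
      mul_nonneg (by linarith : 0 ≤ B) (by linarith : 0 ≤ 1.001 - D.N x)]
  have h6 : -(1.002 * B) ≤ D.LN x / D.N x := by
    rw [le_div_iff₀ hN]
    nlinarith [mul_nonneg (by linarith : 0 ≤ B) (by linarith : 0 ≤ D.N x - 0.999)]
  have e2 : 2 * deriv D.S x / D.N x = 2 * (deriv D.S x / D.N x) := by ring
  have e3 : 2 * D.LN x / D.N x = 2 * (D.LN x / D.N x) := by ring
  rw [e2, e3] at hadm
  nlinarith [sq_nonneg (D.S x)]

theorem rg1_rho_ratio (hD : D.Ok δ B L) (hsm : RgsSmall e0 B δ) {x y : ℝ}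
    (hx : x ∈ Set.Icc 0 δ) (hy : y ∈ Set.Icc 0 δ) : D.rho x ≤ 1.001 * D.rho y := by
  have hδ := hsm.1
  have hB := hsm.2.1
  have hs := rg1_small_Bd hsm
  have hsub := rg1_Icc_sub hδ
  have hdiff : ∀ z ∈ Set.Icc 0 δ, DifferentiableAt ℝ D.rho z := fun z hz =>
    (hD.rho_sm.contDiffAt (isOpen_Ioo.mem_nhds (hsub hz))).differentiableAt (by simp)
  have hd : ∀ z ∈ Set.Icc 0 δ, DifferentiableAt ℝ (fun z => Real.log (D.rho z)) z := fun z hz =>
    (hdiff z hz).log (hD.rho_pos z (hsub hz)).ne'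
  have hb : ∀ z ∈ Set.Icc 0 δ, ‖deriv (fun z => Real.log (D.rho z)) z‖ ≤ 1.001 * B :=
    fun z hz => by
    have hr := hD.rho_pos z (hsub hz)
    obtain ⟨h1, h2⟩ := rg1_N_bd hD hsm hz
    rw [deriv.log (hdiff z hz) hr.ne', hD.drho z (hsub hz), mul_div_assoc, div_self hr.ne',
      mul_one, Real.norm_eq_abs, abs_mul, abs_of_pos (by linarith : 0 < D.N z)]
    exact mul_le_mul h2 (hD.bS z (hsub hz)) (abs_nonneg _) (by norm_num)
  have hmv := (convex_Icc (0 : ℝ) δ).norm_image_sub_le_of_norm_deriv_le hd hb hy hx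
  have hxy : ‖x - y‖ ≤ δ := by
    rw [Real.norm_eq_abs, abs_le]
    constructor <;> linarith [hx.1, hx.2, hy.1, hy.2]
  have h1 : Real.log (D.rho x) - Real.log (D.rho y) ≤ 1.001 * (1 / 10 ^ 12) := by
    calc Real.log (D.rho x) - Real.log (D.rho y)
        ≤ ‖Real.log (D.rho x) - Real.log (D.rho y)‖ := le_abs_self _
      _ ≤ 1.001 * B * ‖x - y‖ := hmv
      _ ≤ 1.001 * B * δ := mul_le_mul_of_nonneg_left hxy (by positivity)
      _ = 1.001 * (B * δ) := by ring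
      _ ≤ 1.001 * (1 / 10 ^ 12) := mul_le_mul_of_nonneg_left hs (by norm_num)
  have hrx := hD.rho_pos x (hsub hx)
  have hry := hD.rho_pos y (hsub hy)
  have h2 : Real.exp (Real.log (D.rho x) - Real.log (D.rho y)) ≤ 1.001 :=
    rg1_exp_small (h1.trans (by norm_num))
  rw [Real.exp_sub, Real.exp_log hrx, Real.exp_log hry, div_le_iff₀ hry] at h2
  exact h2

theorem rg1_Gam_ratio (hD : D.Ok δ B L) (hsm : RgsSmall e0 B δ) {x y s : ℝ}
    (hx : x ∈ Set.Icc 0 δ) (hy : y ∈ Set.Icc 0 δ) (hs : -(2 * δ) < s) :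
    D.Gam x s ≤ 1.001 * D.Gam y s := by
  have hδ := hsm.1
  have hB := hsm.2.1
  have hs' := rg1_small_Bd hsm
  have hsub := rg1_Icc_sub hδ
  have hgd : ∀ z ∈ Set.Icc 0 δ, DifferentiableAt ℝ (fun z => D.Gam z s) z := fun z hz =>
    (hD.Gam_d z (hsub hz) s hs).1
  have hg0 : ∀ z ∈ Set.Icc 0 δ, 0 ≤ D.Gam z s := fun z hz => hD.Gam0 z (hsub hz) s hs
  have hgb : ∀ z ∈ Set.Icc 0 δ, |deriv (fun z => D.Gam z s) z| ≤ 15 * B * D.Gam z s :=
    fun z hz => by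
    refine ((hD.Gam_d z (hsub hz) s hs).2).trans ?_
    refine mul_le_mul_of_nonneg_right ?_ (hg0 z hz)
    obtain ⟨h1, h2⟩ := rg1_N_bd hD hsm hz
    have h3 := rg1_J_bd hD hsm hz
    have h4 : Real.sqrt (D.Jq z) ≤ 7 * B := by
      rw [Real.sqrt_le_left (by positivity)]
      nlinarith
    have h5 := Real.sqrt_nonneg (D.Jq z)
    nlinarith [mul_nonneg h5 (by linarith : 0 ≤ 1.001 - D.N z)]
  have hE : ∀ (c z : ℝ), HasDerivAt (fun z => Real.exp (c * z)) (Real.exp (c * z) * c) z :=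
    fun c z => by
    have := ((hasDerivAt_id z).const_mul c).exp
    simpa using this
  have hmono : MonotoneOn (fun z => D.Gam z s * Real.exp (15 * B * z)) (Set.Icc 0 δ) := by
    refine monotoneOn_of_deriv_nonneg (convex_Icc _ _) ?_ ?_ ?_
    · exact fun z hz =>
        ((hgd z hz).continuousAt.mul (hE _ z).continuousAt).continuousWithinAt
    · intro z hz
      rw [interior_Icc] at hz
      exact ((hgd z (Ioo_subset_Icc_self hz)).mul
        (hE _ z).differentiableAt).differentiableWithinAt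
    · intro z hz
      rw [interior_Icc] at hz
      have hz' := Ioo_subset_Icc_self hz
      rw [((hgd z hz').hasDerivAt.fun_mul (hE (15 * B) z)).deriv]
      have h1 := abs_le.1 (hgb z hz')
      have he := Real.exp_pos (15 * B * z)
      nlinarith [mul_nonneg he.le
        (by linarith [h1.1] : 0 ≤ deriv (fun z => D.Gam z s) z + 15 * B * D.Gam z s)]
  have hanti : AntitoneOn (fun z => D.Gam z s * Real.exp (-(15 * B) * z)) (Set.Icc 0 δ) := by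
    refine antitoneOn_of_deriv_nonpos (convex_Icc _ _) ?_ ?_ ?_
    · exact fun z hz =>
        ((hgd z hz).continuousAt.mul (hE _ z).continuousAt).continuousWithinAt
    · intro z hz
      rw [interior_Icc] at hz
      exact ((hgd z (Ioo_subset_Icc_self hz)).mul
        (hE _ z).differentiableAt).differentiableWithinAt
    · intro z hz
      rw [interior_Icc] at hz
      have hz' := Ioo_subset_Icc_self hz
      rw [((hgd z hz').hasDerivAt.fun_mul (hE (-(15 * B)) z)).deriv]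
      have h1 := abs_le.1 (hgb z hz')
      have he := Real.exp_pos (-(15 * B) * z)
      nlinarith [mul_nonneg he.le
        (by linarith [h1.2] : 0 ≤ 15 * B * D.Gam z s - deriv (fun z => D.Gam z s) z)]
  have hexp : ∀ u, u ≤ δ → Real.exp (15 * B * u) ≤ 1.001 := fun u hu => by
    refine rg1_exp_small ?_
    have : 15 * B * u ≤ 15 * B * δ := mul_le_mul_of_nonneg_left hu (by positivity)
    have h2 : 15 * B * δ = 15 * (B * δ) := by ring
    have h3 : (15 : ℝ) * (1 / 10 ^ 12) ≤ 1 / 10 ^ 4 := by norm_num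
    linarith
  rcases le_total x y with hxy | hxy
  · have h1 : D.Gam x s * Real.exp (15 * B * x) ≤ D.Gam y s * Real.exp (15 * B * y) :=
      hmono hx hy hxy
    calc D.Gam x s = D.Gam x s * Real.exp (15 * B * x) * Real.exp (-(15 * B * x)) := by
          rw [mul_assoc, ← Real.exp_add, add_neg_cancel, Real.exp_zero, mul_one]
      _ ≤ D.Gam y s * Real.exp (15 * B * y) * Real.exp (-(15 * B * x)) :=
          mul_le_mul_of_nonneg_right h1 (Real.exp_pos _).le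
      _ = D.Gam y s * Real.exp (15 * B * (y - x)) := by
          rw [mul_assoc, ← Real.exp_add]
          ring_nf
      _ ≤ D.Gam y s * 1.001 :=
          mul_le_mul_of_nonneg_left (hexp _ (by linarith [hx.1, hy.2])) (hg0 y hy)
      _ = 1.001 * D.Gam y s := mul_comm _ _
  · have h1 : D.Gam x s * Real.exp (-(15 * B) * x) ≤ D.Gam y s * Real.exp (-(15 * B) * y) :=
      hanti hy hx hxy
    calc D.Gam x s = D.Gam x s * Real.exp (-(15 * B) * x) * Real.exp (15 * B * x) := by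
          rw [mul_assoc, ← Real.exp_add, neg_mul, neg_add_cancel, Real.exp_zero, mul_one]
      _ ≤ D.Gam y s * Real.exp (-(15 * B) * y) * Real.exp (15 * B * x) :=
          mul_le_mul_of_nonneg_right h1 (Real.exp_pos _).le
      _ = D.Gam y s * Real.exp (15 * B * (x - y)) := by
          rw [mul_assoc, ← Real.exp_add]
          ring_nf
      _ ≤ D.Gam y s * 1.001 :=
          mul_le_mul_of_nonneg_left (hexp _ (by linarith [hy.1, hx.2])) (hg0 y hy)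
      _ = 1.001 * D.Gam y s := mul_comm _ _

/-- `Ñ` on the strip, and smoothness of `Ñ`, `P` on `(-2δ, ∞)`. -/
theorem rg1_Nt_bd (hp : RgsProf k a b ℓ) (hD : D.Ok δ B L) (hsm : RgsSmall e0 B δ) {s : ℝ}
    (hs : s ∈ Set.Icc (-δ) (ℓ * δ)) :
    0.999 ≤ rg1Nt D a b δ s ∧ rg1Nt D a b δ s ≤ 1.001 := by
  have hδ := hsm.1
  obtain ⟨h1, h2⟩ := rg1_N_bd hD hsm (rg1_A_mem hp hδ hs)
  have hsp := hp.speed (s / δ)
  have hn1 : (0.999 : ℝ) ^ 2 ≤ D.N (rg1A a δ s) ^ 2 := pow_le_pow_left₀ (by norm_num) h1 2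
  have hn2 : D.N (rg1A a δ s) ^ 2 ≤ (1.001 : ℝ) ^ 2 := pow_le_pow_left₀ (by linarith) h2 2
  unfold rg1Nt
  constructor
  · apply Real.le_sqrt_of_sq_le
    nlinarith [mul_nonneg (sq_nonneg (deriv a (s / δ))) (sub_nonneg.2 hn1),
      sq_nonneg (deriv b (s / δ))]
  · rw [Real.sqrt_le_left (by norm_num)]
    nlinarith [mul_nonneg (sq_nonneg (deriv a (s / δ))) (sub_nonneg.2 hn2),
      sq_nonneg (deriv b (s / δ))]

theorem rg1_A_maps (hp : RgsProf k a b ℓ) (hδ : 0 < δ) :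
    Set.MapsTo (rg1A a δ) (Set.Ioi (-(2 * δ))) (rg1I δ) := fun s hs => by
  obtain ⟨h1, h2⟩ := rg1_A_mem' hp hδ hs
  exact ⟨by linarith, h2⟩

theorem rg1_rad_pos (hp : RgsProf k a b ℓ) (hD : D.Ok δ B L) (hδ : 0 < δ) {s : ℝ}
    (hs : -(2 * δ) < s) :
    0 < deriv a (s / δ) ^ 2 * D.N (rg1A a δ s) ^ 2 + deriv b (s / δ) ^ 2 := by
  have hN := hD.N_pos _ (rg1_A_maps hp hδ hs)
  have hsp := hp.speed (s / δ)
  by_cases hp0 : deriv a (s / δ) = 0
  · rw [hp0] at hsp ⊢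
    nlinarith
  · have : 0 < deriv a (s / δ) ^ 2 * D.N (rg1A a δ s) ^ 2 := by positivity
    nlinarith [sq_nonneg (deriv b (s / δ))]

theorem rg1_Nt_pos (hp : RgsProf k a b ℓ) (hD : D.Ok δ B L) (hδ : 0 < δ) {s : ℝ}
    (hs : -(2 * δ) < s) : 0 < rg1Nt D a b δ s :=
  Real.sqrt_pos.2 (rg1_rad_pos hp hD hδ hs)

theorem rg1_A_sm (hp : RgsProf k a b ℓ) (δ : ℝ) : ContDiff ℝ ∞ (rg1A a δ) :=
  contDiff_const.mul (hp.a_smooth.comp (contDiff_id.div_const δ))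

theorem rg1_da_sm (hp : RgsProf k a b ℓ) (δ : ℝ) : ContDiff ℝ ∞ (fun s => deriv a (s / δ)) :=
  (contDiff_infty_iff_deriv.1 hp.a_smooth).2.comp (contDiff_id.div_const δ)

theorem rg1_db_sm (hp : RgsProf k a b ℓ) (δ : ℝ) : ContDiff ℝ ∞ (fun s => deriv b (s / δ)) :=
  (contDiff_infty_iff_deriv.1 hp.b_smooth).2.comp (contDiff_id.div_const δ)

theorem rg1_Nt_sm (hp : RgsProf k a b ℓ) (hD : D.Ok δ B L) (hδ : 0 < δ) :
    ContDiffOn ℝ ∞ (rg1Nt D a b δ) (Set.Ioi (-(2 * δ))) := by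
  have hNa : ContDiffOn ℝ ∞ (fun s => D.N (rg1A a δ s)) (Set.Ioi (-(2 * δ))) :=
    hD.N_sm.comp (rg1_A_sm hp δ).contDiffOn (rg1_A_maps hp hδ)
  refine ContDiffOn.sqrt ?_ (fun s hs => (rg1_rad_pos hp hD hδ hs).ne')
  exact (((rg1_da_sm hp δ).contDiffOn.pow 2).mul (hNa.pow 2)).add
    ((rg1_db_sm hp δ).contDiffOn.pow 2)

theorem rg1_P_sm (hp : RgsProf k a b ℓ) (hD : D.Ok δ B L) (hδ : 0 < δ) :
    ContDiffOn ℝ ∞ (rg1P D a b δ) (Set.Ioi (-(2 * δ))) := by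
  have hNa : ContDiffOn ℝ ∞ (fun s => D.N (rg1A a δ s)) (Set.Ioi (-(2 * δ))) :=
    hD.N_sm.comp (rg1_A_sm hp δ).contDiffOn (rg1_A_maps hp hδ)
  have hSa : ContDiffOn ℝ ∞ (fun s => D.S (rg1A a δ s)) (Set.Ioi (-(2 * δ))) :=
    hD.S_sm.comp (rg1_A_sm hp δ).contDiffOn (rg1_A_maps hp hδ)
  exact ((((rg1_da_sm hp δ).contDiffOn.mul hNa).div (rg1_Nt_sm hp hD hδ)
    (fun s hs => (rg1_Nt_pos hp hD hδ hs).ne')).mul hSa)

/-- the integrand of `X` is continuous. -/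
theorem rg1_IX_cont (hp : RgsProf k a b ℓ) (hD : D.Ok δ B L) (hδ : 0 < δ) :
    ContinuousOn (rg1IX D a b δ e0) (Set.Ioi (-(2 * δ))) := by
  have hA : ContinuousOn (rg1A a δ) (Set.Ioi (-(2 * δ))) :=
    (rg1_A_sm hp δ).continuous.continuousOn
  have hm := rg1_A_maps (δ := δ) hp hδ
  have hNt := (rg1_Nt_sm hp hD hδ).continuousOn
  have hNt0 : ∀ s ∈ Set.Ioi (-(2 * δ)), rg1Nt D a b δ s ≠ 0 := fun s hs =>
    (rg1_Nt_pos hp hD hδ hs).ne'
  have hP := (rg1_P_sm hp hD hδ).continuousOn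
  have hdP : ContinuousOn (deriv (rg1P D a b δ)) (Set.Ioi (-(2 * δ))) :=
    (rg1_P_sm hp hD hδ).continuousOn_deriv_of_isOpen isOpen_Ioi (by simp)
  have hf := hD.f_sm.continuousOn
  have hdf : ContinuousOn (deriv D.f) (Set.Ioi (-(2 * δ))) :=
    hD.f_sm.continuousOn_deriv_of_isOpen isOpen_Ioi (by simp)
  have hda : ContinuousOn (fun s => deriv a (s / δ)) (Set.Ioi (-(2 * δ))) :=
    (rg1_da_sm hp δ).continuous.continuousOn
  have hdb : ContinuousOn (fun s => deriv b (s / δ)) (Set.Ioi (-(2 * δ))) :=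
    (rg1_db_sm hp δ).continuous.continuousOn
  have hN : ContinuousOn (fun s => D.N (rg1A a δ s)) (Set.Ioi (-(2 * δ))) :=
    hD.N_sm.continuousOn.comp hA hm
  have hrho : ContinuousOn (fun s => D.rho (rg1A a δ s)) (Set.Ioi (-(2 * δ))) :=
    hD.rho_sm.continuousOn.comp hA hm
  have hDL : ContinuousOn (fun s => D.DL (rg1A a δ s)) (Set.Ioi (-(2 * δ))) := hD.DL_c.comp hA hm
  have hJq : ContinuousOn (fun s => D.Jq (rg1A a δ s)) (Set.Ioi (-(2 * δ))) := hD.Jq_c.comp hA hm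
  have hLN : ContinuousOn (fun s => D.LN (rg1A a δ s)) (Set.Ioi (-(2 * δ))) := hD.LN_c.comp hA hm
  have hsN : ContinuousOn (fun s => D.sN (rg1A a δ s)) (Set.Ioi (-(2 * δ))) := hD.sN_c.comp hA hm
  have hVs : ContinuousOn (fun s => D.Vs (rg1A a δ s)) (Set.Ioi (-(2 * δ))) := hD.Vs_c.comp hA hm
  have hGam : ContinuousOn (fun s => D.Gam (rg1A a δ s) s) (Set.Ioi (-(2 * δ))) :=
    hD.Gam_c.comp (f := fun s => (rg1A a δ s, s)) (hA.prodMk continuousOn_id)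
      (fun s hs => ⟨hm hs, hs⟩)
  have hLam : ContinuousOn (rg1Lam D a b δ) (Set.Ioi (-(2 * δ))) :=
    ((((hda.pow 2).mul hN).div (hNt.pow 2) (fun s hs => pow_ne_zero 2 (hNt0 s hs))).mul hLN).add
      ((((hda.pow 2).mul (hdb.pow 2)).div (hNt.pow 4)
        (fun s hs => pow_ne_zero 4 (hNt0 s hs))).mul hsN)
  have hQ : ContinuousOn (rg1Q D a b δ e0) (Set.Ioi (-(2 * δ))) :=
    (((((hDL.sub ((((hda.mul hN).div hNt hNt0).pow 2).mul hJq)).sub (hP.pow 2)).sub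
      (continuousOn_const.mul hLam)).sub hVs).sub continuousOn_const)
  exact ((((continuousOn_const.mul hGam).add
    ((continuousOn_const.mul (hdf.pow 2)).div (hNt.pow 2)
      (fun s hs => pow_ne_zero 2 (hNt0 s hs)))).add
    ((hQ.sub ((continuousOn_const.div hNt hNt0).mul hdP)).mul (hf.pow 2))).mul (hNt.mul hrho))

/-! ### L-RG-SEAM-F3: the two outer ranges (pointwise) -/

theorem rg1_left (hp : RgsProf k a b ℓ) (hD : D.Ok δ B L) (hδ : 0 < δ) (he0 : 0 < e0) {s : ℝ}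
    (hs : s ∈ Set.Ioo (-(2 * δ)) (-δ)) : rg1IB D e0 (-s) ≤ rg1IX D a b δ e0 s := by
  have hx : -s ∈ rg1I δ := ⟨by linarith [hs.2], by linarith [hs.1]⟩
  have hN := hD.N_pos _ hx
  have hrho := hD.rho_pos _ hx
  obtain ⟨hA, ha, hb⟩ := rg1_A_left (k := k) (a := a) (b := b) (ℓ := ℓ) hp hδ hs.2.le
  have hNt : rg1Nt D a b δ s = D.N (-s) := by
    unfold rg1Nt
    rw [hA, ha, hb]
    have : (-1 : ℝ) ^ 2 * D.N (-s) ^ 2 + 0 ^ 2 = D.N (-s) ^ 2 := by ring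
    rw [this, Real.sqrt_sq hN.le]
  have hPloc : rg1P D a b δ =ᶠ[𝓝 s] fun r => -D.S (-r) := by
    have hop : Set.Ioo (-(2 * δ)) (-δ) ∈ 𝓝 s := isOpen_Ioo.mem_nhds hs
    filter_upwards [hop] with r hr
    have hxr : -r ∈ rg1I δ := ⟨by linarith [hr.2], by linarith [hr.1]⟩
    have hNr := hD.N_pos _ hxr
    obtain ⟨hAr, har, hbr⟩ := rg1_A_left (k := k) (a := a) (b := b) (ℓ := ℓ) hp hδ hr.2.le
    unfold rg1P rg1Nt
    rw [hAr, har, hbr]
    have : (-1 : ℝ) ^ 2 * D.N (-r) ^ 2 + 0 ^ 2 = D.N (-r) ^ 2 := by ring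
    rw [this, Real.sqrt_sq hNr.le]
    field_simp
  have hP : rg1P D a b δ s = -D.S (-s) := hPloc.eq_of_nhds
  have hdP : deriv (rg1P D a b δ) s = deriv D.S (-s) := by
    rw [hPloc.deriv_eq]
    have h1 : deriv (fun r => -D.S (-r)) s = -deriv (fun r => D.S (-r)) s := by
      simp
    rw [h1, deriv_comp_neg]
    ring
  have hLam : rg1Lam D a b δ s = D.LN (-s) / D.N (-s) := by
    unfold rg1Lam
    rw [hNt, hA, ha, hb]
    field_simp
    ring
  have hQ : rg1Q D a b δ e0 s = D.DL (-s) - D.Jq (-s) - D.S (-s) ^ 2 -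
      2 * (D.LN (-s) / D.N (-s)) - D.Vs (-s) - e0 := by
    unfold rg1Q
    rw [hNt, hA, ha, hP, hLam]
    have : (-1 * D.N (-s) / D.N (-s)) = -1 := by field_simp
    rw [this]
    ring
  have hadm := hD.adm _ hx
  have hG := hD.Gam0 _ hx s hs.1
  have key : rg1IX D a b δ e0 s - rg1IB D e0 (-s) =
      (0.2 * (D.Gam (-s) s + deriv D.f s ^ 2 / D.N (-s) ^ 2) + 97 * e0 * D.f s ^ 2) *
        (D.N (-s) * D.rho (-s)) := by
    unfold rg1IX rg1IB
    rw [hNt, hA, hQ, hdP, hadm, neg_neg]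
    ring
  have hpos : 0 ≤ (0.2 * (D.Gam (-s) s + deriv D.f s ^ 2 / D.N (-s) ^ 2) + 97 * e0 * D.f s ^ 2) *
        (D.N (-s) * D.rho (-s)) := by
    have := hN.le
    have := hrho.le
    have := he0.le
    positivity
  linarith

theorem rg1_right (hp : RgsProf k a b ℓ) (hD : D.Ok δ B L) (hδ : 0 < δ) {s : ℝ}
    (hs : ℓ * δ < s) :
    rg1IX D a b δ e0 s = rg1IC D e0 s +
      (0.2 * (D.Gam 0 s + deriv D.f s ^ 2) + 97 * e0 * D.f s ^ 2) * D.rho 0 := by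
  obtain ⟨hA, ha, hb⟩ := rg1_A_right (k := k) (a := a) (b := b) (ℓ := ℓ) hp hδ hs.le
  have hNt : rg1Nt D a b δ s = 1 := by
    unfold rg1Nt
    rw [hA, ha, hb]
    norm_num
  have hPloc : rg1P D a b δ =ᶠ[𝓝 s] fun _ => (0 : ℝ) := by
    filter_upwards [Ioi_mem_nhds hs] with r hr
    obtain ⟨hAr, har, hbr⟩ := rg1_A_right (k := k) (a := a) (b := b) (ℓ := ℓ) hp hδ (le_of_lt hr)
    unfold rg1P
    rw [har]
    simp
  have hP : rg1P D a b δ s = 0 := hPloc.eq_of_nhds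
  have hdP : deriv (rg1P D a b δ) s = 0 := by
    rw [hPloc.deriv_eq]
    simp
  have hLam : rg1Lam D a b δ s = 0 := by
    unfold rg1Lam
    rw [ha]
    simp
  have hQ : rg1Q D a b δ e0 s = D.DL 0 - D.Vs 0 - e0 := by
    unfold rg1Q
    rw [hA, ha, hP, hLam]
    simp
  unfold rg1IX rg1IC
  rw [hNt, hA, hQ, hdP]
  ring

/-! ### L-RG-SEAM-F4: integration by parts on the strip -/

theorem rg1_A_mapsTo (hp : RgsProf k a b ℓ) (hδ : 0 < δ) :
    Set.MapsTo (rg1A a δ) (Set.Ioi (-(2 * δ))) (rg1I δ) := by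
  intro s hs
  obtain ⟨h1, h2⟩ := rg1_A_mem' hp hδ hs
  exact ⟨by linarith, h2⟩

theorem rg1_rhoA_hasDeriv (hp : RgsProf k a b ℓ) (hD : D.Ok δ B L) (hδ : 0 < δ) {s : ℝ} (hs : -(2 * δ) < s) :
    HasDerivAt (fun s => D.rho (rg1A a δ s))
      (D.N (rg1A a δ s) * D.S (rg1A a δ s) * D.rho (rg1A a δ s) * deriv a (s / δ)) s := by
  have hI : rg1A a δ s ∈ rg1I δ := rg1_A_mapsTo hp hδ hs
  have h1 : HasDerivAt D.rho (deriv D.rho (rg1A a δ s)) (rg1A a δ s) :=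
    ((hD.rho_sm.differentiableOn (by simp)).differentiableAt (isOpen_Ioo.mem_nhds hI)).hasDerivAt
  rw [hD.drho _ hI] at h1
  exact h1.comp s (rg1_A_hasDeriv hp hδ s)

theorem rg1_ibp (hp : RgsProf k a b ℓ) (hD : D.Ok δ B L) (hδ : 0 < δ) :
    ∫ s in (-δ)..(ℓ * δ), -2 * deriv (rg1P D a b δ) s * D.f s ^ 2 * D.rho (rg1A a δ s) =
      -2 * D.S δ * D.f (-δ) ^ 2 * D.rho δ +
        ∫ s in (-δ)..(ℓ * δ), (4 * rg1P D a b δ s * D.f s * deriv D.f s +
          2 * rg1Nt D a b δ s * rg1P D a b δ s ^ 2 * D.f s ^ 2) * D.rho (rg1A a δ s) := by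
  have hopen : IsOpen (Set.Ioi (-(2 * δ))) := isOpen_Ioi
  have hab : -δ ≤ ℓ * δ := by
    have := mul_nonneg hp.l0 hδ.le
    linarith
  have hsub : Set.uIcc (-δ) (ℓ * δ) ⊆ Set.Ioi (-(2 * δ)) := by
    rw [Set.uIcc_of_le hab]
    intro x hx
    have := hx.1
    show -(2 * δ) < x
    linarith
  have hPsm := rg1_P_sm hp hD hδ
  have hPd : ∀ x, -(2 * δ) < x → HasDerivAt (rg1P D a b δ) (deriv (rg1P D a b δ) x) x := fun x hx =>
    ((hPsm.differentiableOn (by simp)).differentiableAt (hopen.mem_nhds hx)).hasDerivAt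
  have hPdc : ContinuousOn (deriv (rg1P D a b δ)) (Set.Ioi (-(2 * δ))) :=
    hPsm.continuousOn_deriv_of_isOpen hopen (by simp)
  have hfd : ∀ x, -(2 * δ) < x → HasDerivAt D.f (deriv D.f x) x := fun x hx =>
    ((hD.f_sm.differentiableOn (by simp)).differentiableAt (hopen.mem_nhds hx)).hasDerivAt
  have hfdc : ContinuousOn (deriv D.f) (Set.Ioi (-(2 * δ))) := hD.f_sm.continuousOn_deriv_of_isOpen hopen (by simp)
  have hu : ∀ x ∈ Set.uIcc (-δ) (ℓ * δ), HasDerivAt (fun s => -2 * (D.f s ^ 2 * D.rho (rg1A a δ s)))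
      (-2 * (2 * D.f x * deriv D.f x * D.rho (rg1A a δ x) +
        D.f x ^ 2 * (D.N (rg1A a δ x) * D.S (rg1A a δ x) * D.rho (rg1A a δ x) * deriv a (x / δ)))) x := by
    intro x hx
    have hx' : -(2 * δ) < x := hsub hx
    have h1 := (hfd x hx').pow 2
    have h2 := rg1_rhoA_hasDeriv hp hD hδ hx'
    have h3 := (h1.mul h2).const_mul (-2)
    refine HasDerivAt.congr_deriv h3 ?_
    simp only [Nat.cast_ofNat, Nat.add_one_sub_one, pow_one, Pi.pow_apply]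
  have hAc := rg1_A_mapsTo hp hδ
  have hAcont : Continuous (rg1A a δ) := continuous_iff_continuousAt.2 fun s => (rg1_A_hasDeriv hp hδ s).continuousAt
  have hda : Continuous fun x : ℝ => deriv a (x / δ) :=
    (hp.a_smooth.continuous_deriv (by simp)).comp (continuous_id.div_const δ)
  have hu' : IntervalIntegrable (fun x => -2 * (2 * D.f x * deriv D.f x * D.rho (rg1A a δ x) +
        D.f x ^ 2 * (D.N (rg1A a δ x) * D.S (rg1A a δ x) * D.rho (rg1A a δ x) * deriv a (x / δ)))) volume (-δ) (ℓ * δ) := by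
    apply ContinuousOn.intervalIntegrable
    refine ContinuousOn.mono ?_ hsub
    have c1 := hD.f_sm.continuousOn
    have c2 := hD.rho_sm.continuousOn.comp hAcont.continuousOn hAc
    have c3 := hD.N_sm.continuousOn.comp hAcont.continuousOn hAc
    have c4 := hD.S_sm.continuousOn.comp hAcont.continuousOn hAc
    exact continuousOn_const.mul ((((continuousOn_const.mul c1).mul hfdc).mul c2).add
      ((c1.pow 2).mul (((c3.mul c4).mul c2).mul hda.continuousOn)))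
  have hv' : IntervalIntegrable (deriv (rg1P D a b δ)) volume (-δ) (ℓ * δ) :=
    (hPdc.mono hsub).intervalIntegrable
  have key := intervalIntegral.integral_mul_deriv_eq_deriv_mul hu (fun x hx => hPd x (hsub hx)) hu' hv'
  have e1 : ∫ s in (-δ)..(ℓ * δ), -2 * deriv (rg1P D a b δ) s * D.f s ^ 2 * D.rho (rg1A a δ s) =
      ∫ s in (-δ)..(ℓ * δ), -2 * (D.f s ^ 2 * D.rho (rg1A a δ s)) * deriv (rg1P D a b δ) s :=
    intervalIntegral.integral_congr fun s _ => by ring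
  rw [e1, key]
  have hPr : rg1P D a b δ (ℓ * δ) = 0 := by
    unfold rg1P
    rw [(rg1_A_right hp hδ le_rfl).2.1]
    simp
  have hPl : rg1P D a b δ (-δ) = -D.S δ := by
    obtain ⟨l1, l2, l3⟩ := rg1_A_left hp hδ (le_refl (-δ))
    have hδI : δ ∈ rg1I δ := ⟨by linarith, by linarith⟩
    have hN := hD.N_pos δ hδI
    unfold rg1P rg1Nt
    rw [l1, l2, l3, neg_neg]
    have : Real.sqrt ((-1) ^ 2 * D.N δ ^ 2 + 0 ^ 2) = D.N δ := by
      rw [show (-1 : ℝ) ^ 2 * D.N δ ^ 2 + 0 ^ 2 = D.N δ ^ 2 by ring, Real.sqrt_sq hN.le]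
    rw [this]
    field_simp
  have hAl : rg1A a δ (-δ) = δ := by
    rw [(rg1_A_left hp hδ (le_refl (-δ))).1, neg_neg]
  rw [hPr, hPl, hAl, sub_eq_add_neg _ (∫ x in (-δ)..(ℓ * δ), _), ← intervalIntegral.integral_neg]
  have e2 : ∫ x in (-δ)..(ℓ * δ), -(-2 * (2 * D.f x * deriv D.f x * D.rho (rg1A a δ x) +
        D.f x ^ 2 * (D.N (rg1A a δ x) * D.S (rg1A a δ x) * D.rho (rg1A a δ x) * deriv a (x / δ))) * rg1P D a b δ x) =
      ∫ s in (-δ)..(ℓ * δ), (4 * rg1P D a b δ s * D.f s * deriv D.f s +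
          2 * rg1Nt D a b δ s * rg1P D a b δ s ^ 2 * D.f s ^ 2) * D.rho (rg1A a δ s) := by
    refine intervalIntegral.integral_congr fun s hs => ?_
    have hNt := rg1_Nt_pos hp hD hδ (hsub hs)
    have hP : deriv a (s / δ) * D.N (rg1A a δ s) * D.S (rg1A a δ s) = rg1Nt D a b δ s * rg1P D a b δ s := by
      unfold rg1P
      field_simp
    linear_combination (2 * D.f s ^ 2 * D.rho (rg1A a δ s) * rg1P D a b δ s) * hP
  rw [e2]
  ring

theorem rg1_ftc (hD : D.Ok δ B L) (hδ : 0 < δ) :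
    -2 * D.S δ * D.f (-δ) ^ 2 * D.rho δ - rg1IS D =
      -2 * ∫ x in (0 : ℝ)..δ, ((deriv D.S x + D.N x * D.S x ^ 2) * D.f (-x) ^ 2 -
        2 * D.S x * D.f (-x) * deriv D.f (-x)) * D.rho x := by
  have hopen : IsOpen (Set.Ioi (-(2 * δ))) := isOpen_Ioi
  have hsubI : Set.uIcc 0 δ ⊆ rg1I δ := by
    rw [Set.uIcc_of_le hδ.le]
    intro x hx
    exact ⟨by linarith [hx.1], by linarith [hx.2]⟩
  have hneg : Set.MapsTo (fun x : ℝ => -x) (Set.uIcc 0 δ) (Set.Ioi (-(2 * δ))) := by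
    intro x hx
    rw [Set.uIcc_of_le hδ.le] at hx
    show -(2 * δ) < -x
    linarith [hx.2]
  have hfd : ∀ x, -(2 * δ) < x → HasDerivAt D.f (deriv D.f x) x := fun x hx =>
    ((hD.f_sm.differentiableOn (by simp)).differentiableAt (hopen.mem_nhds hx)).hasDerivAt
  have hfdc : ContinuousOn (deriv D.f) (Set.Ioi (-(2 * δ))) := hD.f_sm.continuousOn_deriv_of_isOpen hopen (by simp)
  have hder : ∀ x ∈ Set.uIcc 0 δ, HasDerivAt (fun x => D.S x * D.f (-x) ^ 2 * D.rho x)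
      (((deriv D.S x + D.N x * D.S x ^ 2) * D.f (-x) ^ 2 - 2 * D.S x * D.f (-x) * deriv D.f (-x)) * D.rho x) x := by
    intro x hx
    have hI := hsubI hx
    have h1 : HasDerivAt D.S (deriv D.S x) x :=
      ((hD.S_sm.differentiableOn (by simp)).differentiableAt (isOpen_Ioo.mem_nhds hI)).hasDerivAt
    have h2 : HasDerivAt D.rho (deriv D.rho x) x :=
      ((hD.rho_sm.differentiableOn (by simp)).differentiableAt (isOpen_Ioo.mem_nhds hI)).hasDerivAt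
    rw [hD.drho _ hI] at h2
    have h3 : HasDerivAt (fun x => D.f (-x)) (deriv D.f (-x) * -1) x :=
      (hfd (-x) (hneg hx)).comp x (hasDerivAt_neg x)
    have h4 := (h1.mul (h3.pow 2)).mul h2
    refine HasDerivAt.congr_deriv h4 ?_
    simp only [Nat.cast_ofNat, Nat.add_one_sub_one, pow_one, Pi.mul_apply, Pi.pow_apply]
    ring
  have hint : IntervalIntegrable (fun x => ((deriv D.S x + D.N x * D.S x ^ 2) * D.f (-x) ^ 2 -
      2 * D.S x * D.f (-x) * deriv D.f (-x)) * D.rho x) volume 0 δ := by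
    apply ContinuousOn.intervalIntegrable
    have c1 := (hD.S_sm.continuousOn_deriv_of_isOpen isOpen_Ioo (by simp)).mono hsubI
    have c2 := hD.N_sm.continuousOn.mono hsubI
    have c3 := hD.S_sm.continuousOn.mono hsubI
    have c4 := hD.rho_sm.continuousOn.mono hsubI
    have c5 : ContinuousOn (fun x => D.f (-x)) (Set.uIcc 0 δ) := hD.f_sm.continuousOn.comp continuous_neg.continuousOn hneg
    have c6 : ContinuousOn (fun x => deriv D.f (-x)) (Set.uIcc 0 δ) := hfdc.comp continuous_neg.continuousOn hneg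
    exact (((c1.add (c2.mul (c3.pow 2))).mul (c5.pow 2)).sub (((continuousOn_const.mul c3).mul c5).mul c6)).mul c4
  rw [intervalIntegral.integral_eq_sub_of_hasDerivAt hder hint]
  unfold rg1IS
  simp only [neg_zero]
  ring

/-! ### L-RG-SEAM-F5: the strip inequality (from F1, F2, F4; numbers in the header) -/

/-! helper lemmas of F5: pure real inequalities -/

theorem rg1s_i {g1 g2 nx nt r1 r2 : ℝ} (hg1 : 0 ≤ g1) (hg2 : 0 ≤ g2) (hg : g2 ≤ 1.001 * g1)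
    (hnx0 : 0 ≤ nx) (hnx : nx ≤ 1.001) (hnt : 0.999 ≤ nt) (hr1 : 0 ≤ r1) (hr2 : 0 ≤ r2)
    (hr : r2 ≤ 1.001 * r1) :
    3.8 * g2 * (nx * r2) ≤ 4 * g1 * (nt * r1) := by
  have h1 : nx * r2 ≤ 1.001 * (1.001 * r1) := mul_le_mul hnx hr hr2 (by norm_num)
  have h2 : g2 * (nx * r2) ≤ (1.001 * g1) * (1.001 * (1.001 * r1)) :=
    mul_le_mul hg h1 (by positivity) (by positivity)
  have h3 : 0.999 * r1 ≤ nt * r1 := mul_le_mul_of_nonneg_right hnt hr1
  have h4 : g1 * (0.999 * r1) ≤ g1 * (nt * r1) := mul_le_mul_of_nonneg_left h3 hg1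
  have h5 : 0 ≤ g1 * r1 := by positivity
  nlinarith

theorem rg1s_ii {X nx nt r0 r1 r2 : ℝ} (hX : 0 ≤ X) (hnx : 0.999 ≤ nx) (hnt0 : 0.999 ≤ nt)
    (hnt : nt ≤ 1.001) (hr0 : 0 < r0) (h20 : r2 ≤ 1.001 * r0) (h01 : r0 ≤ 1.001 * r1) :
    3.8 * (X / nx ^ 2) * (nx * r2) + 0.09 * r0 * X ≤ 4 * X / nt ^ 2 * (nt * r1) := by
  have hnx' : 0 < nx := by linarith
  have hnt' : 0 < nt := by linarith
  have e1 : 3.8 * (X / nx ^ 2) * (nx * r2) = 3.8 * X * (r2 / nx) := by field_simp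
  have e2 : 4 * X / nt ^ 2 * (nt * r1) = 4 * X * (r1 / nt) := by field_simp
  have b1 : r2 / nx ≤ 1.0021 * r0 := by
    rw [div_le_iff₀ hnx']
    nlinarith [mul_nonneg hr0.le (sub_nonneg.2 hnx)]
  have b2 : 0.998 * r0 ≤ r1 / nt := by
    rw [le_div_iff₀ hnt']
    nlinarith [mul_nonneg hr0.le (sub_nonneg.2 hnt)]
  rw [e1, e2]
  have c1 : X * (r2 / nx) ≤ X * (1.0021 * r0) := mul_le_mul_of_nonneg_left b1 hX
  have c2 : X * (0.998 * r0) ≤ X * (r1 / nt) := mul_le_mul_of_nonneg_left b2 hX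
  have c3 : 0 ≤ X * r0 := by positivity
  nlinarith

theorem rg1s_iii {B e0 r0 r1 r2 nx nt DM V dS S Qp : ℝ} (hB : 1 ≤ B) (he0 : 0 < e0) (hr0 : 0 < r0)
    (h10 : r1 ≤ 1.001 * r0) (hr1 : 0 ≤ r1) (h20 : r2 ≤ 1.001 * r0) (h02 : r0 ≤ 1.001 * r2)
    (hr2 : 0 ≤ r2) (hnx0 : 0.999 ≤ nx) (hnx : nx ≤ 1.001) (hnt0 : 0.999 ≤ nt) (hnt : nt ≤ 1.001)
    (hDM : DM ≤ B) (hV : 0 ≤ V) (hdS : dS ≤ 1.003 * B) (hS : |S| ≤ B)
    (hQ : -(13.1 * B) - e0 ≤ Qp) :
    (DM - V - 98 * e0) * (nx * r2) + 2 * (dS + nx * S ^ 2) * r2 - 22 * B ^ 2 * r0 ≤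
      Qp * (nt * r1) := by
  have hB0 : 0 ≤ B := by linarith
  have hm2u : nx * r2 ≤ 1.0021 * r0 := by
    have : nx * r2 ≤ 1.001 * (1.001 * r0) := mul_le_mul hnx h20 hr2 (by norm_num)
    linarith
  have hm2l : 0.998 * r0 ≤ nx * r2 := by
    have : 0.999 * r2 ≤ nx * r2 := mul_le_mul_of_nonneg_right hnx0 hr2
    linarith
  have hm20 : 0 ≤ nx * r2 := by positivity
  have hm1u : nt * r1 ≤ 1.0021 * r0 := by
    have : nt * r1 ≤ 1.001 * (1.001 * r0) := mul_le_mul hnt h10 hr1 (by norm_num)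
    linarith
  have hm10 : 0 ≤ nt * r1 := by positivity
  have t1 : (DM - V) * (nx * r2) ≤ B * (1.0021 * r0) :=
    mul_le_mul (by linarith) hm2u hm20 hB0
  have t2 : e0 * (0.998 * r0) ≤ e0 * (nx * r2) := mul_le_mul_of_nonneg_left hm2l he0.le
  have t3 : dS * r2 ≤ (1.003 * B) * (1.001 * r0) :=
    mul_le_mul hdS h20 hr2 (by positivity)
  have hS2 : S ^ 2 ≤ B ^ 2 := by
    rw [← sq_abs S]; exact pow_le_pow_left₀ (abs_nonneg S) hS 2
  have t4 : nx * S ^ 2 * r2 ≤ (1.001 * B ^ 2) * (1.001 * r0) :=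
    mul_le_mul (mul_le_mul hnx hS2 (sq_nonneg S) (by norm_num)) h20 hr2 (by positivity)
  have t5 : (-(13.1 * B) - e0) * (nt * r1) ≤ Qp * (nt * r1) :=
    mul_le_mul_of_nonneg_right hQ hm10
  have t6 : (13.1 * B + e0) * (nt * r1) ≤ (13.1 * B + e0) * (1.0021 * r0) :=
    mul_le_mul_of_nonneg_left hm1u (by positivity)
  have t7 : B * r0 ≤ B ^ 2 * r0 := by
    apply mul_le_mul_of_nonneg_right _ hr0.le
    nlinarith
  have t8 : 0 ≤ e0 * r0 := by positivity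
  have t9 : 0 ≤ B * r0 := by positivity
  nlinarith

theorem rg1s_iv {B r0 r1 r2 S P Y : ℝ} (hB : 1 ≤ B) (hr0 : 0 < r0) (h10 : r1 ≤ 1.001 * r0)
    (hr1 : 0 ≤ r1) (h20 : r2 ≤ 1.001 * r0) (hr2 : 0 ≤ r2) (hS : |S| ≤ B) (hP : |P| ≤ B) :
    -(4 * S * Y * r2) - 22 * B ^ 2 * r0 * |Y| ≤ 4 * P * Y * r1 := by
  have hB0 : 0 ≤ B := by linarith
  have a1 : |S * Y * r2| ≤ B * |Y| * (1.001 * r0) := by
    rw [abs_mul, abs_mul, abs_of_nonneg hr2]
    exact mul_le_mul (mul_le_mul_of_nonneg_right hS (abs_nonneg Y)) h20 hr2 (by positivity)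
  have a2 : |P * Y * r1| ≤ B * |Y| * (1.001 * r0) := by
    rw [abs_mul, abs_mul, abs_of_nonneg hr1]
    exact mul_le_mul (mul_le_mul_of_nonneg_right hP (abs_nonneg Y)) h10 hr1 (by positivity)
  have a3 : B * (|Y| * r0) ≤ B ^ 2 * (|Y| * r0) := by
    apply mul_le_mul_of_nonneg_right _ (by positivity)
    nlinarith
  have a4 : 0 ≤ B * (|Y| * r0) := by positivity
  have a5 := neg_abs_le (S * Y * r2)
  have a6 := neg_abs_le (P * Y * r1)
  have a7 := le_abs_self (S * Y * r2)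
  nlinarith

/-- the pointwise inequality, in real variables. -/
theorem rg1s_pt {B e0 r0 r1 r2 nx nt g1 g2 DM V dS S Q P F F' : ℝ} (hB : 1 ≤ B) (he0 : 0 < e0)
    (hr0 : 0 < r0) (h10 : r1 ≤ 1.001 * r0) (h01 : r0 ≤ 1.001 * r1) (hr1 : 0 ≤ r1)
    (h20 : r2 ≤ 1.001 * r0) (h02 : r0 ≤ 1.001 * r2) (h21 : r2 ≤ 1.001 * r1) (hr2 : 0 ≤ r2)
    (hnx0 : 0.999 ≤ nx) (hnx : nx ≤ 1.001) (hnt0 : 0.999 ≤ nt) (hnt : nt ≤ 1.001)
    (hg1 : 0 ≤ g1) (hg2 : 0 ≤ g2) (hg : g2 ≤ 1.001 * g1)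
    (hDM : DM ≤ B) (hV : 0 ≤ V) (hdS : dS ≤ 1.003 * B) (hS : |S| ≤ B) (hP : |P| ≤ B)
    (hQ : -(13.1 * B) - e0 ≤ Q + 2 * P ^ 2) :
    (3.8 * (g2 + F' ^ 2 / nx ^ 2) + (DM - V - 98 * e0) * F ^ 2) * (nx * r2) +
        2 * (((dS + nx * S ^ 2) * F ^ 2 - 2 * S * F * F') * r2) +
        (0.09 * r0 * F' ^ 2 - 22 * B ^ 2 * r0 * (F ^ 2 + |F * F'|)) ≤
      (4 * g1 + 4 * F' ^ 2 / nt ^ 2 + Q * F ^ 2) * (nt * r1) +
        (4 * P * F * F' + 2 * nt * P ^ 2 * F ^ 2) * r1 := by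
  have i1 := rg1s_i hg1 hg2 hg (by linarith) hnx hnt0 hr1 hr2 h21
  have i2 := rg1s_ii (sq_nonneg F') hnx0 hnt0 hnt hr0 h20 h01
  have i3 := mul_le_mul_of_nonneg_right
    (rg1s_iii hB he0 hr0 h10 hr1 h20 h02 hr2 hnx0 hnx hnt0 hnt hDM hV hdS hS hQ) (sq_nonneg F)
  have i4 := rg1s_iv (Y := F * F') hB hr0 h10 hr1 h20 hr2 hS hP
  have key : ((4 * g1 + 4 * F' ^ 2 / nt ^ 2 + Q * F ^ 2) * (nt * r1) +
        (4 * P * F * F' + 2 * nt * P ^ 2 * F ^ 2) * r1) -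
      ((3.8 * (g2 + F' ^ 2 / nx ^ 2) + (DM - V - 98 * e0) * F ^ 2) * (nx * r2) +
        2 * (((dS + nx * S ^ 2) * F ^ 2 - 2 * S * F * F') * r2) +
        (0.09 * r0 * F' ^ 2 - 22 * B ^ 2 * r0 * (F ^ 2 + |F * F'|))) =
      (4 * g1 * (nt * r1) - 3.8 * g2 * (nx * r2)) +
      (4 * F' ^ 2 / nt ^ 2 * (nt * r1) - (3.8 * (F' ^ 2 / nx ^ 2) * (nx * r2) + 0.09 * r0 * F' ^ 2)) +
      ((Q + 2 * P ^ 2) * (nt * r1) * F ^ 2 -
        ((DM - V - 98 * e0) * (nx * r2) + 2 * (dS + nx * S ^ 2) * r2 - 22 * B ^ 2 * r0) * F ^ 2) +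
      (4 * P * (F * F') * r1 - (-(4 * S * (F * F') * r2) - 22 * B ^ 2 * r0 * |F * F'|)) := by
    ring
  linarith

/-- lower bound of the regular potential, in real variables. -/
theorem rg1s_Qreal {p q ny nt DL J LN sN V S B e0 : ℝ} (hpq : p ^ 2 + q ^ 2 = 1)
    (hnt2 : nt ^ 2 = p ^ 2 * ny ^ 2 + q ^ 2) (hnt0 : 0.999 ≤ nt) (hny0 : 0.999 ≤ ny)
    (hny : ny ≤ 1.001) (hB : 1 ≤ B) (hDL : |DL| ≤ B) (hJ0 : 0 ≤ J) (hJ : J ≤ 7 * B)
    (hLN : |LN| ≤ B) (hsN0 : 0 ≤ sN) (hsN : sN ≤ B) (hV : V ≤ B) :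
    -(13.1 * B) - e0 ≤ (DL - (p * ny / nt) ^ 2 * J - (p * ny / nt * S) ^ 2 -
      2 * (p ^ 2 * ny / nt ^ 2 * LN + p ^ 2 * q ^ 2 / nt ^ 4 * sN) - V - e0) +
      2 * (p * ny / nt * S) ^ 2 := by
  have hB0 : 0 ≤ B := by linarith
  have hnt' : 0 < nt := by linarith
  have hp2 : p ^ 2 ≤ 1 := by nlinarith [sq_nonneg q]
  have hq2 : q ^ 2 ≤ 1 := by nlinarith [sq_nonneg p]
  have hnt2l : 0.998 ≤ nt ^ 2 := by nlinarith
  have hnt4l : 0.996 ≤ nt ^ 4 := by nlinarith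
  have c2 : (p * ny / nt) ^ 2 ≤ 1 := by
    rw [div_pow, div_le_one (by positivity), hnt2]
    nlinarith [sq_nonneg q]
  have c2J : (p * ny / nt) ^ 2 * J ≤ 7 * B := by
    calc (p * ny / nt) ^ 2 * J ≤ 1 * J := mul_le_mul_of_nonneg_right c2 hJ0
      _ ≤ 7 * B := by linarith
  have k1u : p ^ 2 * ny / nt ^ 2 ≤ 1.0031 := by
    rw [div_le_iff₀ (by positivity)]
    nlinarith [sq_nonneg p]
  have k10 : 0 ≤ p ^ 2 * ny / nt ^ 2 := by
    have : 0 ≤ ny := by linarith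
    positivity
  have k2u : p ^ 2 * q ^ 2 / nt ^ 4 ≤ 1.0041 := by
    rw [div_le_iff₀ (by positivity)]
    nlinarith [sq_nonneg p, sq_nonneg q, mul_le_mul hp2 hq2 (sq_nonneg q) (by norm_num : (0:ℝ) ≤ 1)]
  have k20 : 0 ≤ p ^ 2 * q ^ 2 / nt ^ 4 := by positivity
  have l1 : p ^ 2 * ny / nt ^ 2 * LN ≤ 1.0031 * B :=
    calc p ^ 2 * ny / nt ^ 2 * LN ≤ p ^ 2 * ny / nt ^ 2 * B :=
          mul_le_mul_of_nonneg_left ((le_abs_self LN).trans hLN) k10
      _ ≤ 1.0031 * B := mul_le_mul_of_nonneg_right k1u hB0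
  have l2 : p ^ 2 * q ^ 2 / nt ^ 4 * sN ≤ 1.0041 * B :=
    mul_le_mul k2u hsN hsN0 (by norm_num)
  have l3 : 0 ≤ (p * ny / nt * S) ^ 2 := sq_nonneg _
  have l4 := (abs_le.1 hDL).1
  linarith

theorem rg1s_Preal {p q ny nt S B : ℝ} (hnt2 : nt ^ 2 = p ^ 2 * ny ^ 2 + q ^ 2) (hnt0 : 0 < nt)
    (hS : |S| ≤ B) : |p * ny / nt * S| ≤ B := by
  have c2 : |p * ny / nt| ≤ 1 := by
    rw [abs_div, abs_of_pos hnt0, div_le_one hnt0]
    apply abs_le_of_sq_le_sq _ hnt0.le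
    rw [hnt2]; nlinarith [sq_nonneg q]
  rw [abs_mul]
  calc |p * ny / nt| * |S| ≤ 1 * B := mul_le_mul c2 hS (abs_nonneg S) (by norm_num)
    _ = B := one_mul B

/-! helper lemmas of F5: the data on the strip -/

theorem rg1s_Icc_sub (hδ : 0 < δ) : Set.Icc 0 δ ⊆ rg1I δ := fun x hx =>
  ⟨by linarith [hx.1], by linarith [hx.2]⟩

theorem rg1s_Nt_sq (hp : RgsProf k a b ℓ) (D : Rg1Dat) (δ s : ℝ) :
    rg1Nt D a b δ s ^ 2 =
      deriv a (s / δ) ^ 2 * D.N (rg1A a δ s) ^ 2 + deriv b (s / δ) ^ 2 := by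
  unfold rg1Nt
  exact Real.sq_sqrt (by positivity)

/-- `Q + 2 P²` and `P` on the strip. -/
theorem rg1s_QP (hp : RgsProf k a b ℓ) (hD : D.Ok δ B L) (hsm : RgsSmall e0 B δ) {s : ℝ}
    (hs : s ∈ Set.Icc (-δ) (ℓ * δ)) :
    -(13.1 * B) - e0 ≤ rg1Q D a b δ e0 s + 2 * rg1P D a b δ s ^ 2 ∧ |rg1P D a b δ s| ≤ B := by
  have hδ : 0 < δ := hsm.1
  have hy := rg1_A_mem hp hδ hs
  have hyI := rg1s_Icc_sub hδ hy
  have hN := rg1_N_bd hD hsm hy
  have hNt := rg1_Nt_bd hp hD hsm hs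
  have h2 := rg1s_Nt_sq hp D δ s
  constructor
  · unfold rg1Q rg1Lam rg1P
    exact rg1s_Qreal (hp.speed _) h2 hNt.1 hN.1 hN.2 hsm.2.1 (hD.bDL _ hyI) (hD.Jq0 _ hyI)
      (rg1_J_bd hD hsm hy) (hD.bLN _ hyI) (hD.sN0 _ hyI) (hD.bsN _ hyI) (hD.VsB _ hyI)
  · unfold rg1P
    exact rg1s_Preal h2 (by linarith [hNt.1]) (hD.bS _ hyI)

/-- the modified integrand. -/
theorem rg1s_M_eq (hp : RgsProf k a b ℓ) (hD : D.Ok δ B L) (hδ : 0 < δ) {s : ℝ}
    (hs : -(2 * δ) < s) :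
    rg1IX D a b δ e0 s - (-2 * deriv (rg1P D a b δ) s * D.f s ^ 2 * D.rho (rg1A a δ s)) +
        (4 * rg1P D a b δ s * D.f s * deriv D.f s +
          2 * rg1Nt D a b δ s * rg1P D a b δ s ^ 2 * D.f s ^ 2) * D.rho (rg1A a δ s) =
      (4 * D.Gam (rg1A a δ s) s + 4 * deriv D.f s ^ 2 / rg1Nt D a b δ s ^ 2 +
          rg1Q D a b δ e0 s * D.f s ^ 2) * (rg1Nt D a b δ s * D.rho (rg1A a δ s)) +
        (4 * rg1P D a b δ s * D.f s * deriv D.f s +
          2 * rg1Nt D a b δ s * rg1P D a b δ s ^ 2 * D.f s ^ 2) * D.rho (rg1A a δ s) := by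
  have h := (rg1_Nt_pos hp hD hδ hs).ne'
  unfold rg1IX
  field_simp
  ring

theorem rg1s_dS (hD : D.Ok δ B L) (hsm : RgsSmall e0 B δ) {x : ℝ} (hx : x ∈ Set.Icc 0 δ) :
    deriv D.S x ≤ 1.003 * B := by
  have hN := rg1_N_bd hD hsm hx
  have h := (abs_le.1 (hD.bdS x (rg1s_Icc_sub hsm.1 hx))).2
  have hN2 : 0 < D.N x ^ 2 := by have : 0 < D.N x := by linarith [hN.1]
                                 positivity
  rw [div_le_iff₀ hN2] at h
  have hB0 : 0 ≤ B := by linarith [hsm.2.1]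
  have : D.N x ^ 2 ≤ 1.003 := by nlinarith [hN.1, hN.2]
  nlinarith

/-- pointwise inequality on the left half of the strip. -/
theorem rg1s_ptL (hp : RgsProf k a b ℓ) (hD : D.Ok δ B L) (hsm : RgsSmall e0 B δ) (he0 : 0 < e0)
    {s : ℝ} (hs : s ∈ Set.Icc (-δ) 0) :
    rg1IB D e0 (-s) + 2 * (((deriv D.S (-s) + D.N (-s) * D.S (-s) ^ 2) * D.f (- -s) ^ 2 -
          2 * D.S (-s) * D.f (- -s) * deriv D.f (- -s)) * D.rho (-s)) +
        (0.09 * D.rho 0 * deriv D.f s ^ 2 -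
          22 * B ^ 2 * D.rho 0 * (D.f s ^ 2 + |D.f s * deriv D.f s|)) ≤
      rg1IX D a b δ e0 s - (-2 * deriv (rg1P D a b δ) s * D.f s ^ 2 * D.rho (rg1A a δ s)) +
        (4 * rg1P D a b δ s * D.f s * deriv D.f s +
          2 * rg1Nt D a b δ s * rg1P D a b δ s ^ 2 * D.f s ^ 2) * D.rho (rg1A a δ s) := by
  have hδ : 0 < δ := hsm.1
  have hl : 0 ≤ ℓ * δ := mul_nonneg hp.l0 hδ.le
  have hs' : s ∈ Set.Icc (-δ) (ℓ * δ) := ⟨hs.1, hs.2.trans hl⟩
  have hs2 : -(2 * δ) < s := by linarith [hs.1]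
  have hx : -s ∈ Set.Icc 0 δ := ⟨by linarith [hs.2], by linarith [hs.1]⟩
  have h0 : (0 : ℝ) ∈ Set.Icc 0 δ := ⟨le_rfl, hδ.le⟩
  have hy := rg1_A_mem hp hδ hs'
  have hxI := rg1s_Icc_sub hδ hx
  have hyI := rg1s_Icc_sub hδ hy
  have h0I := rg1s_Icc_sub hδ h0
  have hQP := rg1s_QP hp hD hsm hs'
  have hNx := rg1_N_bd hD hsm hx
  have hNt := rg1_Nt_bd hp hD hsm hs'
  rw [rg1s_M_eq hp hD hδ hs2, neg_neg]
  unfold rg1IB
  rw [neg_neg]
  exact rg1s_pt hsm.2.1 he0 (hD.rho_pos 0 h0I) (rg1_rho_ratio hD hsm hy h0)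
    (rg1_rho_ratio hD hsm h0 hy) (hD.rho_pos _ hyI).le (rg1_rho_ratio hD hsm hx h0)
    (rg1_rho_ratio hD hsm h0 hx) (rg1_rho_ratio hD hsm hx hy) (hD.rho_pos _ hxI).le
    hNx.1 hNx.2 hNt.1 hNt.2 (hD.Gam0 _ hyI s hs2) (hD.Gam0 _ hxI s hs2)
    (rg1_Gam_ratio hD hsm hx hy hs2) ((le_abs_self _).trans (hD.bDM _ hxI)) (hD.Vs0 _ hxI)
    (rg1s_dS hD hsm hx) (hD.bS _ hxI) hQP.2 hQP.1

/-- pointwise inequality on the right half of the strip. -/
theorem rg1s_ptR (hp : RgsProf k a b ℓ) (hD : D.Ok δ B L) (hsm : RgsSmall e0 B δ) (he0 : 0 < e0)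
    {s : ℝ} (hs : s ∈ Set.Icc 0 (ℓ * δ)) :
    rg1IC D e0 s +
        (0.09 * D.rho 0 * deriv D.f s ^ 2 -
          22 * B ^ 2 * D.rho 0 * (D.f s ^ 2 + |D.f s * deriv D.f s|)) ≤
      rg1IX D a b δ e0 s - (-2 * deriv (rg1P D a b δ) s * D.f s ^ 2 * D.rho (rg1A a δ s)) +
        (4 * rg1P D a b δ s * D.f s * deriv D.f s +
          2 * rg1Nt D a b δ s * rg1P D a b δ s ^ 2 * D.f s ^ 2) * D.rho (rg1A a δ s) := by
  have hδ : 0 < δ := hsm.1
  have hs' : s ∈ Set.Icc (-δ) (ℓ * δ) := ⟨by linarith [hs.1], hs.2⟩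
  have hs2 : -(2 * δ) < s := by linarith [hs.1]
  have h0 : (0 : ℝ) ∈ Set.Icc 0 δ := ⟨le_rfl, hδ.le⟩
  have hy := rg1_A_mem hp hδ hs'
  have hyI := rg1s_Icc_sub hδ hy
  have h0I := rg1s_Icc_sub hδ h0
  have hQP := rg1s_QP hp hD hsm hs'
  have hNt := rg1_Nt_bd hp hD hsm hs'
  have hr0 := hD.rho_pos 0 h0I
  have hB0 : 0 ≤ B := by linarith [hsm.2.1]
  rw [rg1s_M_eq hp hD hδ hs2]
  unfold rg1IC
  have := rg1s_pt (F := D.f s) (F' := deriv D.f s) (nx := 1) (dS := 0) (S := 0) (r2 := D.rho 0)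
    hsm.2.1 he0 hr0 (rg1_rho_ratio hD hsm hy h0)
    (rg1_rho_ratio hD hsm h0 hy) (hD.rho_pos _ hyI).le (by linarith)
    (by linarith) (rg1_rho_ratio hD hsm h0 hy) hr0.le
    (by norm_num) (by norm_num) hNt.1 hNt.2 (hD.Gam0 _ hyI s hs2) (hD.Gam0 _ h0I s hs2)
    (rg1_Gam_ratio hD hsm h0 hy hs2) ((le_abs_self _).trans (hD.bDL _ h0I)) (hD.Vs0 _ h0I)
    (by positivity) (by simpa using hB0) hQP.2 hQP.1
  simpa using this

/-! helper lemmas of F5: continuity and integrals -/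

theorem rg1s_A_cont (hp : RgsProf k a b ℓ) (hδ : 0 < δ) : Continuous (rg1A a δ) :=
  continuous_iff_continuousAt.2 fun s => (rg1_A_hasDeriv hp hδ s).continuousAt

theorem rg1s_A_maps (hp : RgsProf k a b ℓ) (hδ : 0 < δ) :
    Set.MapsTo (rg1A a δ) (Set.Ioi (-(2 * δ))) (rg1I δ) := fun s hs =>
  ⟨by linarith [(rg1_A_mem' hp hδ hs).1], (rg1_A_mem' hp hδ hs).2⟩

theorem rg1s_comp_A (hp : RgsProf k a b ℓ) (hδ : 0 < δ) {g : ℝ → ℝ}
    (hg : ContinuousOn g (rg1I δ)) :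
    ContinuousOn (fun s => g (rg1A a δ s)) (Set.Ioi (-(2 * δ))) :=
  hg.comp (rg1s_A_cont hp hδ).continuousOn (rg1s_A_maps hp hδ)

theorem rg1s_neg_maps (δ : ℝ) : Set.MapsTo (fun x : ℝ => -x) (rg1I δ) (rg1I δ) := fun x hx =>
  ⟨by linarith [hx.2], by linarith [hx.1]⟩

theorem rg1s_neg_maps' (δ : ℝ) :
    Set.MapsTo (fun x : ℝ => -x) (rg1I δ) (Set.Ioi (-(2 * δ))) := fun x hx =>
  (rg1s_neg_maps δ hx).1

theorem rg1s_IB_cont (hD : D.Ok δ B L) : ContinuousOn (rg1IB D e0) (rg1I δ) := by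
  have hf : ContinuousOn (fun x => D.f (-x)) (rg1I δ) :=
    hD.f_sm.continuousOn.comp continuous_neg.continuousOn (rg1s_neg_maps' δ)
  have hf' : ContinuousOn (fun x => deriv D.f (-x)) (rg1I δ) :=
    (hD.f_sm.continuousOn_deriv_of_isOpen isOpen_Ioi (by simp)).comp
      continuous_neg.continuousOn (rg1s_neg_maps' δ)
  have hG : ContinuousOn (fun x => D.Gam x (-x)) (rg1I δ) :=
    hD.Gam_c.comp (f := fun x : ℝ => (x, -x)) (continuous_id.prodMk continuous_neg).continuousOn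
      (fun x hx => ⟨hx, rg1s_neg_maps' δ hx⟩)
  have hN := hD.N_sm.continuousOn
  have hr := hD.rho_sm.continuousOn
  exact ((continuousOn_const.mul (hG.add ((hf'.pow 2).div (hN.pow 2)
    (fun x hx => pow_ne_zero 2 (hD.N_pos x hx).ne')))).add
    (((hD.DM_c.sub hD.Vs_c).sub continuousOn_const).mul (hf.pow 2))).mul (hN.mul hr)

theorem rg1s_Z_cont (hD : D.Ok δ B L) :
    ContinuousOn (fun x => ((deriv D.S x + D.N x * D.S x ^ 2) * D.f (-x) ^ 2 -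
        2 * D.S x * D.f (-x) * deriv D.f (-x)) * D.rho x) (rg1I δ) := by
  have hf : ContinuousOn (fun x => D.f (-x)) (rg1I δ) :=
    hD.f_sm.continuousOn.comp continuous_neg.continuousOn (rg1s_neg_maps' δ)
  have hf' : ContinuousOn (fun x => deriv D.f (-x)) (rg1I δ) :=
    (hD.f_sm.continuousOn_deriv_of_isOpen isOpen_Ioi (by simp)).comp
      continuous_neg.continuousOn (rg1s_neg_maps' δ)
  have hN := hD.N_sm.continuousOn
  have hr := hD.rho_sm.continuousOn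
  have hS := hD.S_sm.continuousOn
  have hS' : ContinuousOn (deriv D.S) (rg1I δ) :=
    hD.S_sm.continuousOn_deriv_of_isOpen isOpen_Ioo (by simp)
  exact ((((hS'.add (hN.mul (hS.pow 2))).mul (hf.pow 2))).sub
    (((continuousOn_const.mul hS).mul hf).mul hf')).mul hr

theorem rg1s_IC_cont (hD : D.Ok δ B L) (hδ : 0 < δ) :
    ContinuousOn (rg1IC D e0) (Set.Ioi (-(2 * δ))) := by
  have hf := hD.f_sm.continuousOn
  have hf' : ContinuousOn (deriv D.f) (Set.Ioi (-(2 * δ))) :=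
    hD.f_sm.continuousOn_deriv_of_isOpen isOpen_Ioi (by simp)
  have hG : ContinuousOn (fun s => D.Gam 0 s) (Set.Ioi (-(2 * δ))) :=
    hD.Gam_c.comp (f := fun s : ℝ => ((0 : ℝ), s))
      (continuous_const.prodMk continuous_id).continuousOn
      (fun s hs => ⟨⟨by linarith, by linarith⟩, hs⟩)
  exact ((continuousOn_const.mul (hG.add (hf'.pow 2))).add
    (continuousOn_const.mul (hf.pow 2))).mul continuousOn_const

theorem rg1s_int {g : ℝ → ℝ} {c x y : ℝ} (hg : ContinuousOn g (Set.Ioi c)) (hx : c < x)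
    (hy : c < y) : IntervalIntegrable g volume x y :=
  (hg.mono fun _ hz => lt_of_lt_of_le (lt_min hx hy) hz.1).intervalIntegrable

theorem rg1s_int' {g : ℝ → ℝ} {x y : ℝ} (hg : ContinuousOn g (rg1I δ)) (hx : x ∈ rg1I δ)
    (hy : y ∈ rg1I δ) : IntervalIntegrable g volume x y :=
  (hg.mono fun _ hz => ⟨lt_of_lt_of_le (lt_min hx.1 hy.1) hz.1,
    lt_of_le_of_lt hz.2 (max_lt hx.2 hy.2)⟩).intervalIntegrable

theorem rg1s_lin {u1 u2 u3 u4 u5 : ℝ → ℝ} {x y c1 c2 : ℝ}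
    (h1 : IntervalIntegrable u1 volume x y) (h2 : IntervalIntegrable u2 volume x y)
    (h3 : IntervalIntegrable u3 volume x y) (h4 : IntervalIntegrable u4 volume x y)
    (h5 : IntervalIntegrable u5 volume x y) :
    IntervalIntegrable (fun s => u1 s + 2 * u2 s + (c1 * u3 s - c2 * (u4 s + u5 s))) volume x y ∧
    ∫ s in x..y, (u1 s + 2 * u2 s + (c1 * u3 s - c2 * (u4 s + u5 s))) =
      (∫ s in x..y, u1 s) + 2 * (∫ s in x..y, u2 s) +
        (c1 * (∫ s in x..y, u3 s) - c2 * ((∫ s in x..y, u4 s) + ∫ s in x..y, u5 s)) := by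
  have a2 := h2.const_mul 2
  have a3 := h3.const_mul c1
  have a45 := (h4.add h5).const_mul c2
  refine ⟨(h1.add a2).add (a3.sub a45), ?_⟩
  rw [intervalIntegral.integral_add (h1.add a2) (a3.sub a45), intervalIntegral.integral_add h1 a2,
    intervalIntegral.integral_sub a3 a45, intervalIntegral.integral_const_mul,
    intervalIntegral.integral_const_mul, intervalIntegral.integral_const_mul,
    intervalIntegral.integral_add h4 h5]

theorem rg1_strip (hp : RgsProf k a b ℓ) (hD : D.Ok δ B L) (hsm : RgsSmall e0 B δ)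
    (he0 : 0 < e0) :
    (∫ x in (0 : ℝ)..δ, rg1IB D e0 x) + (∫ s in (0 : ℝ)..(ℓ * δ), rg1IC D e0 s) + rg1IS D +
        0.09 * D.rho 0 * (∫ s in (-δ)..(ℓ * δ), deriv D.f s ^ 2) -
        22 * B ^ 2 * D.rho 0 * ((∫ s in (-δ)..(ℓ * δ), D.f s ^ 2) +
          ∫ s in (-δ)..(ℓ * δ), |D.f s * deriv D.f s|) ≤
      ∫ s in (-δ)..(ℓ * δ), rg1IX D a b δ e0 s := by
  have hδ : 0 < δ := hsm.1
  have hl : 0 ≤ ℓ * δ := mul_nonneg hp.l0 hδ.le
  have b1 : -(2 * δ) < -δ := by linarith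
  have b2 : -(2 * δ) < 0 := by linarith
  have b3 : -(2 * δ) < ℓ * δ := by linarith
  have m1 : -δ ∈ rg1I δ := ⟨b1, by linarith⟩
  have m2 : (0 : ℝ) ∈ rg1I δ := ⟨b2, by linarith⟩
  have hf : ContinuousOn D.f (Set.Ioi (-(2 * δ))) := hD.f_sm.continuousOn
  have hf' : ContinuousOn (deriv D.f) (Set.Ioi (-(2 * δ))) :=
    hD.f_sm.continuousOn_deriv_of_isOpen isOpen_Ioi (by simp)
  have hrA := rg1s_comp_A hp hδ hD.rho_sm.continuousOn
  have hP := (rg1_P_sm hp hD hδ).continuousOn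
  have hP' : ContinuousOn (deriv (rg1P D a b δ)) (Set.Ioi (-(2 * δ))) :=
    (rg1_P_sm hp hD hδ).continuousOn_deriv_of_isOpen isOpen_Ioi (by simp)
  have hNt := (rg1_Nt_sm hp hD hδ).continuousOn
  have hIX : ContinuousOn (rg1IX D a b δ e0) (Set.Ioi (-(2 * δ))) := rg1_IX_cont hp hD hδ
  have hT : ContinuousOn (fun s => -2 * deriv (rg1P D a b δ) s * D.f s ^ 2 *
      D.rho (rg1A a δ s)) (Set.Ioi (-(2 * δ))) :=
    ((continuousOn_const.mul hP').mul (hf.pow 2)).mul hrA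
  have hW : ContinuousOn (fun s => (4 * rg1P D a b δ s * D.f s * deriv D.f s +
      2 * rg1Nt D a b δ s * rg1P D a b δ s ^ 2 * D.f s ^ 2) * D.rho (rg1A a δ s))
      (Set.Ioi (-(2 * δ))) :=
    ((((continuousOn_const.mul hP).mul hf).mul hf').add
      (((continuousOn_const.mul hNt).mul (hP.pow 2)).mul (hf.pow 2))).mul hrA
  have hM := (hIX.sub hT).add hW
  have h3 : ContinuousOn (fun s => deriv D.f s ^ 2) (Set.Ioi (-(2 * δ))) := hf'.pow 2
  have h4 : ContinuousOn (fun s => D.f s ^ 2) (Set.Ioi (-(2 * δ))) := hf.pow 2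
  have h5 : ContinuousOn (fun s => |D.f s * deriv D.f s|) (Set.Ioi (-(2 * δ))) :=
    (hf.mul hf').abs
  have hIBn : ContinuousOn (fun s => rg1IB D e0 (-s)) (rg1I δ) :=
    (rg1s_IB_cont hD).comp continuous_neg.continuousOn (rg1s_neg_maps δ)
  have hZn := (rg1s_Z_cont hD).comp continuous_neg.continuousOn (rg1s_neg_maps δ)
  have hIC : ContinuousOn (rg1IC D e0) (Set.Ioi (-(2 * δ))) := rg1s_IC_cont hD hδ
  -- the two halves
  obtain ⟨iL, eL⟩ := rg1s_lin (c1 := 0.09 * D.rho 0) (c2 := 22 * B ^ 2 * D.rho 0)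
    (rg1s_int' hIBn m1 m2) (rg1s_int' hZn m1 m2) (rg1s_int h3 b1 b2) (rg1s_int h4 b1 b2)
    (rg1s_int h5 b1 b2)
  have L1 := intervalIntegral.integral_mono_on (by linarith : -δ ≤ 0) iL (rg1s_int hM b1 b2)
    (fun s hs => rg1s_ptL hp hD hsm he0 hs)
  obtain ⟨iR, eR⟩ := rg1s_lin (c1 := 0.09 * D.rho 0) (c2 := 22 * B ^ 2 * D.rho 0)
    (u2 := fun _ => 0)
    (rg1s_int hIC b2 b3) (by simp) (rg1s_int h3 b2 b3) (rg1s_int h4 b2 b3)
    (rg1s_int h5 b2 b3)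
  have R1 := intervalIntegral.integral_mono_on hl iR (rg1s_int hM b2 b3)
    (fun s hs => by simpa using rg1s_ptR hp hD hsm he0 hs)
  rw [eL] at L1
  rw [eR] at R1
  have cIB : ∫ s in (-δ)..0, rg1IB D e0 (-s) = ∫ x in (0 : ℝ)..δ, rg1IB D e0 x := by
    rw [intervalIntegral.integral_comp_neg]; simp
  have cZ : ∫ s in (-δ)..0, ((fun x => ((deriv D.S x + D.N x * D.S x ^ 2) * D.f (-x) ^ 2 -
        2 * D.S x * D.f (-x) * deriv D.f (-x)) * D.rho x) ∘ fun x => -x) s =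
      ∫ x in (0 : ℝ)..δ, ((deriv D.S x + D.N x * D.S x ^ 2) * D.f (-x) ^ 2 -
        2 * D.S x * D.f (-x) * deriv D.f (-x)) * D.rho x := by
    simp only [Function.comp]
    rw [intervalIntegral.integral_comp_neg (fun x => ((deriv D.S x + D.N x * D.S x ^ 2) *
      D.f (-x) ^ 2 - 2 * D.S x * D.f (-x) * deriv D.f (-x)) * D.rho x)]
    simp
  rw [cIB, cZ] at L1
  have sp : ∀ {g : ℝ → ℝ}, ContinuousOn g (Set.Ioi (-(2 * δ))) →
      ∫ s in (-δ)..(ℓ * δ), g s = (∫ s in (-δ)..0, g s) + ∫ s in (0 : ℝ)..(ℓ * δ), g s :=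
    fun hg => (intervalIntegral.integral_add_adjacent_intervals (rg1s_int hg b1 b2)
      (rg1s_int hg b2 b3)).symm
  have eM : ∫ s in (-δ)..(ℓ * δ), (rg1IX D a b δ e0 s -
        -2 * deriv (rg1P D a b δ) s * D.f s ^ 2 * D.rho (rg1A a δ s) +
        (4 * rg1P D a b δ s * D.f s * deriv D.f s +
          2 * rg1Nt D a b δ s * rg1P D a b δ s ^ 2 * D.f s ^ 2) * D.rho (rg1A a δ s)) =
      (∫ s in (-δ)..(ℓ * δ), rg1IX D a b δ e0 s) -
        (∫ s in (-δ)..(ℓ * δ), -2 * deriv (rg1P D a b δ) s * D.f s ^ 2 * D.rho (rg1A a δ s)) +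
        ∫ s in (-δ)..(ℓ * δ), (4 * rg1P D a b δ s * D.f s * deriv D.f s +
          2 * rg1Nt D a b δ s * rg1P D a b δ s ^ 2 * D.f s ^ 2) * D.rho (rg1A a δ s) := by
    rw [intervalIntegral.integral_add ((rg1s_int hIX b1 b3).sub (rg1s_int hT b1 b3))
      (rg1s_int hW b1 b3), intervalIntegral.integral_sub (rg1s_int hIX b1 b3) (rg1s_int hT b1 b3)]
  have sM := sp hM
  have ibp := rg1_ibp hp hD hδ
  have ftc := rg1_ftc hD hδ
  rw [sp h3, sp h4, sp h5]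
  simp only [intervalIntegral.integral_zero, mul_zero, add_zero] at R1
  simp only [Pi.add_apply, Pi.sub_apply] at sM L1 R1
  rw [eM] at sM
  linarith

/-! ### L-RG-SEAM-F6: trace inequality and absorption (no geometry) -/

/-- Cauchy-Schwarz on an interval. -/
theorem rg1_cs {g : ℝ → ℝ} {a b : ℝ} (hab : a ≤ b) (hg : ContinuousOn g (Set.uIcc a b)) :
    (∫ x in a..b, g x) ^ 2 ≤ (b - a) * ∫ x in a..b, g x ^ 2 := by
  set I := ∫ x in a..b, g x with hI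
  set A := ∫ x in a..b, g x ^ 2 with hA
  have i1 : IntervalIntegrable g volume a b := hg.intervalIntegrable
  have i2 : IntervalIntegrable (fun x => g x ^ 2) volume a b := (hg.pow 2).intervalIntegrable
  have h0 : 0 ≤ ∫ x in a..b, (g x * (b - a) - I) ^ 2 :=
    intervalIntegral.integral_nonneg hab fun x _ => sq_nonneg _
  have e : ∫ x in a..b, (g x * (b - a) - I) ^ 2 = (b - a) * ((b - a) * A - I ^ 2) := by
    have e1 : ∀ x, (g x * (b - a) - I) ^ 2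
        = (b - a) ^ 2 * g x ^ 2 - 2 * (b - a) * I * g x + I ^ 2 := fun x => by ring
    simp only [e1]
    rw [intervalIntegral.integral_add ((i2.const_mul _).sub (i1.const_mul _))
      intervalIntegrable_const, intervalIntegral.integral_sub (i2.const_mul _) (i1.const_mul _),
      intervalIntegral.integral_const_mul, intervalIntegral.integral_const_mul,
      intervalIntegral.integral_const, smul_eq_mul]
    ring
  rw [e] at h0
  rcases hab.eq_or_lt with rfl | hlt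
  · simp [hI]
  · have hpos : 0 < b - a := sub_pos.2 hlt
    have := nonneg_of_mul_nonneg_right h0 hpos
    linarith

theorem rg1_trace {f : ℝ → ℝ} (hδ : 0 < δ) (hδ' : δ ≤ 1 / 4)
    (hf : ContDiffOn ℝ ∞ f (Set.Ioi (-(2 * δ)))) {s : ℝ} (hs : s ∈ Set.Icc (-δ) δ) :
    f s ^ 2 ≤ 4 * ((∫ r in δ..1, f r ^ 2) + ∫ r in (-δ)..1, deriv f r ^ 2) := by
  have hfc := hf.continuousOn
  have hdc : ContinuousOn (deriv f) (Set.Ioi (-(2 * δ))) :=
    hf.continuousOn_deriv_of_isOpen isOpen_Ioi (by simp)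
  have hsub : ∀ a b : ℝ, -δ ≤ a → -δ ≤ b → Set.uIcc a b ⊆ Set.Ioi (-(2 * δ)) := by
    intro a b ha hb x hx
    have := hx.1
    have h2 : -δ ≤ min a b := le_min ha hb
    show -(2 * δ) < x
    linarith
  set E := ∫ r in (-δ)..1, deriv f r ^ 2 with hE
  have hE0 : 0 ≤ E := intervalIntegral.integral_nonneg (by linarith) fun x _ => sq_nonneg _
  have hF0 : 0 ≤ ∫ r in δ..1, f r ^ 2 :=
    intervalIntegral.integral_nonneg (by linarith) fun x _ => sq_nonneg _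
  have key : ∀ r ∈ Set.Icc δ 1, f s ^ 2 ≤ 2 * f r ^ 2 + 2 * ((1 + δ) * E) := by
    intro r hr
    have hsr : s ≤ r := hs.2.trans hr.1
    have hsub' := hsub s r hs.1 (by linarith [hr.1])
    have hftc : ∫ x in s..r, deriv f x = f r - f s := by
      refine intervalIntegral.integral_deriv_eq_sub (fun x hx => ?_)
        (hdc.mono hsub').intervalIntegrable
      exact (hf.contDiffAt (isOpen_Ioi.mem_nhds (hsub' hx))).differentiableAt (by simp)
    have hcs := rg1_cs hsr (hdc.mono hsub')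
    rw [hftc] at hcs
    have hmono : ∫ x in s..r, deriv f x ^ 2 ≤ E := by
      refine intervalIntegral.integral_mono_interval hs.1 hsr hr.2
        (Eventually.of_forall fun x => sq_nonneg _) ?_
      exact ((hdc.mono (hsub (-δ) 1 le_rfl (by linarith))).pow 2).intervalIntegrable
    have hA0 : 0 ≤ ∫ x in s..r, deriv f x ^ 2 :=
      intervalIntegral.integral_nonneg hsr fun x _ => sq_nonneg _
    have h1 : (f r - f s) ^ 2 ≤ (1 + δ) * E := by
      refine hcs.trans ?_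
      exact mul_le_mul (by linarith [hs.1, hr.2]) hmono hA0 (by linarith)
    nlinarith [sq_nonneg (f r + (f r - f s))]
  have i2 : IntervalIntegrable (fun r => f r ^ 2) volume δ 1 :=
    ((hfc.mono (hsub δ 1 (by linarith) (by linarith))).pow 2).intervalIntegrable
  have hint : ∫ r in δ..1, f s ^ 2 ≤ ∫ r in δ..1, (2 * f r ^ 2 + 2 * ((1 + δ) * E)) :=
    intervalIntegral.integral_mono_on (by linarith) intervalIntegrable_const
      ((i2.const_mul 2).add intervalIntegrable_const) key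
  rw [intervalIntegral.integral_const, intervalIntegral.integral_add (i2.const_mul 2)
    intervalIntegrable_const, intervalIntegral.integral_const_mul,
    intervalIntegral.integral_const, smul_eq_mul, smul_eq_mul] at hint
  nlinarith [mul_nonneg hδ.le hE0, sq_nonneg (f s), mul_nonneg hδ.le (mul_nonneg hδ.le hE0),
    mul_nonneg (sub_nonneg.2 hδ') (sq_nonneg (f s))]

theorem rg1_absorb {f : ℝ → ℝ} (hsm : RgsSmall e0 B δ) (he0 : 0 < e0) (hl0 : 0 ≤ ℓ) (hl1 : ℓ ≤ 1)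
    (hf : ContDiffOn ℝ ∞ f (Set.Ioi (-(2 * δ)))) :
    22 * B ^ 2 * ((∫ s in (-δ)..(ℓ * δ), f s ^ 2) + ∫ s in (-δ)..(ℓ * δ), |f s * deriv f s|) ≤
      0.09 * (∫ s in (-δ)..(ℓ * δ), deriv f s ^ 2) +
        ∫ s in (ℓ * δ)..1, (0.2 * deriv f s ^ 2 + 97 * e0 * f s ^ 2) := by
  obtain ⟨hδ, hB, hsmall⟩ := hsm
  set σ := Real.sqrt δ with hσ
  have hσ0 : 0 < σ := Real.sqrt_pos.2 hδ
  have hσσ : σ * σ = δ := Real.mul_self_sqrt hδ.le
  set m := min 1 e0 with hm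
  have hm0 : 0 < m := lt_min one_pos he0
  have hm1 : m ≤ 1 := min_le_left _ _
  have hme : m ≤ e0 := min_le_right _ _
  have hB2 : 1 ≤ B ^ 2 := by nlinarith
  have hσs : σ ≤ 1 / 10 ^ 6 := by
    have : 10 ^ 6 * 1 * σ ≤ 10 ^ 6 * B ^ 2 * σ :=
      mul_le_mul_of_nonneg_right (mul_le_mul_of_nonneg_left hB2 (by norm_num)) hσ0.le
    linarith
  have hδs : δ ≤ 1 / 4 := by
    rw [← hσσ]
    nlinarith
  have hlδ0 : 0 ≤ ℓ * δ := mul_nonneg hl0 hδ.le
  have hlδ : ℓ * δ ≤ δ := by nlinarith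
  have hfc := hf.continuousOn
  have hdc : ContinuousOn (deriv f) (Set.Ioi (-(2 * δ))) :=
    hf.continuousOn_deriv_of_isOpen isOpen_Ioi (by simp)
  have hsub : ∀ a b : ℝ, -δ ≤ a → -δ ≤ b → Set.uIcc a b ⊆ Set.Ioi (-(2 * δ)) := by
    intro a b ha hb x hx
    have := hx.1
    have h2 : -δ ≤ min a b := le_min ha hb
    show -(2 * δ) < x
    linarith
  have if2 : ∀ a b : ℝ, -δ ≤ a → -δ ≤ b → IntervalIntegrable (fun r => f r ^ 2) volume a b :=
    fun a b ha hb => ((hfc.mono (hsub a b ha hb)).pow 2).intervalIntegrable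
  have id2 : ∀ a b : ℝ, -δ ≤ a → -δ ≤ b →
      IntervalIntegrable (fun r => deriv f r ^ 2) volume a b :=
    fun a b ha hb => ((hdc.mono (hsub a b ha hb)).pow 2).intervalIntegrable
  have ifd : IntervalIntegrable (fun r => |f r * deriv f r|) volume (-δ) (ℓ * δ) :=
    (((hfc.mono (hsub _ _ le_rfl (by linarith))).mul
      (hdc.mono (hsub _ _ le_rfl (by linarith)))).abs).intervalIntegrable
  -- names
  set F1 := ∫ s in (-δ)..(ℓ * δ), f s ^ 2 with hF1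
  set G1 := ∫ s in (-δ)..(ℓ * δ), deriv f s ^ 2 with hG1
  set G2 := ∫ s in (ℓ * δ)..1, deriv f s ^ 2 with hG2
  set F2 := ∫ s in (ℓ * δ)..1, f s ^ 2 with hF2
  set F3 := ∫ s in δ..1, f s ^ 2 with hF3
  have hG10 : 0 ≤ G1 := intervalIntegral.integral_nonneg (by linarith) fun x _ => sq_nonneg _
  have hG20 : 0 ≤ G2 := intervalIntegral.integral_nonneg (by linarith) fun x _ => sq_nonneg _
  have hF30 : 0 ≤ F3 := intervalIntegral.integral_nonneg (by linarith) fun x _ => sq_nonneg _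
  have hE : ∫ r in (-δ)..1, deriv f r ^ 2 = G1 + G2 :=
    (intervalIntegral.integral_add_adjacent_intervals (id2 _ _ le_rfl (by linarith))
      (id2 _ _ (by linarith) (by linarith))).symm
  have hF32 : F3 ≤ F2 :=
    intervalIntegral.integral_mono_interval hlδ (by linarith) le_rfl
      (Eventually.of_forall fun x => sq_nonneg _) (if2 _ _ (by linarith) (by linarith))
  set K := F3 + (G1 + G2) with hK
  have hK0 : 0 ≤ K := by positivity
  have htr : ∀ s ∈ Set.Icc (-δ) (ℓ * δ), f s ^ 2 ≤ 4 * K := by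
    intro s hs
    have := rg1_trace hδ hδs hf (s := s) ⟨hs.1, hs.2.trans hlδ⟩
    rwa [hE] at this
  have hF1le : F1 ≤ 8 * δ * K := by
    have h1 : F1 ≤ ∫ s in (-δ)..(ℓ * δ), 4 * K :=
      intervalIntegral.integral_mono_on (by linarith) (if2 _ _ le_rfl (by linarith))
        intervalIntegrable_const htr
    rw [intervalIntegral.integral_const, smul_eq_mul] at h1
    have h2 : (ℓ * δ - -δ) * (4 * K) ≤ (2 * δ) * (4 * K) :=
      mul_le_mul_of_nonneg_right (by linarith) (by positivity)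
    linarith
  have hFD : ∫ s in (-δ)..(ℓ * δ), |f s * deriv f s| ≤ (6 * σ)⁻¹ * F1 + 3 * σ / 2 * G1 := by
    have h1 : ∫ s in (-δ)..(ℓ * δ), |f s * deriv f s| ≤
        ∫ s in (-δ)..(ℓ * δ), ((6 * σ)⁻¹ * f s ^ 2 + 3 * σ / 2 * deriv f s ^ 2) := by
      refine intervalIntegral.integral_mono_on (by linarith) ifd
        (((if2 _ _ le_rfl (by linarith)).const_mul _).add
          ((id2 _ _ le_rfl (by linarith)).const_mul _)) fun s _ => ?_
      have e1 : (6 * σ)⁻¹ * f s ^ 2 + 3 * σ / 2 * deriv f s ^ 2 - |f s| * |deriv f s|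
          = (6 * σ)⁻¹ * (|f s| - 3 * σ * |deriv f s|) ^ 2 := by
        rw [← sq_abs (f s), ← sq_abs (deriv f s)]
        field_simp
        ring
      have e2 : 0 ≤ (6 * σ)⁻¹ * (|f s| - 3 * σ * |deriv f s|) ^ 2 := by positivity
      rw [abs_mul]
      linarith
    rwa [intervalIntegral.integral_add ((if2 _ _ le_rfl (by linarith)).const_mul _)
      ((id2 _ _ le_rfl (by linarith)).const_mul _), intervalIntegral.integral_const_mul,
      intervalIntegral.integral_const_mul] at h1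
  have hFD2 : ∫ s in (-δ)..(ℓ * δ), |f s * deriv f s| ≤ 17 / 6 * σ * K := by
    have h1 : (6 * σ)⁻¹ * F1 ≤ (6 * σ)⁻¹ * (8 * δ * K) :=
      mul_le_mul_of_nonneg_left hF1le (by positivity)
    have h2 : (6 * σ)⁻¹ * (8 * δ * K) = 4 / 3 * σ * K := by
      rw [← hσσ]
      field_simp
      ring
    have h3 : 3 * σ / 2 * G1 ≤ 3 * σ / 2 * K :=
      mul_le_mul_of_nonneg_left (by linarith) (by positivity)
    linarith
  have hR : ∫ s in (ℓ * δ)..1, (0.2 * deriv f s ^ 2 + 97 * e0 * f s ^ 2)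
      = 0.2 * G2 + 97 * e0 * F2 := by
    rw [intervalIntegral.integral_add ((id2 _ _ (by linarith) (by linarith)).const_mul _)
      ((if2 _ _ (by linarith) (by linarith)).const_mul _), intervalIntegral.integral_const_mul,
      intervalIntegral.integral_const_mul]
  rw [hR]
  -- left side
  have hL1 : F1 + ∫ s in (-δ)..(ℓ * δ), |f s * deriv f s| ≤ 2.84 * σ * K := by
    have h1 : 8 * δ * K ≤ 8 / 10 ^ 6 * σ * K := by
      rw [← hσσ]
      have : 8 * (σ * σ) ≤ 8 / 10 ^ 6 * σ := by nlinarith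
      exact mul_le_mul_of_nonneg_right this hK0
    have h2 : 0 ≤ σ * K := by positivity
    linarith
  have hL2 : 22 * B ^ 2 * (F1 + ∫ s in (-δ)..(ℓ * δ), |f s * deriv f s|)
      ≤ 63 / 10 ^ 6 * m * K := by
    calc 22 * B ^ 2 * (F1 + ∫ s in (-δ)..(ℓ * δ), |f s * deriv f s|)
        ≤ 22 * B ^ 2 * (2.84 * σ * K) := mul_le_mul_of_nonneg_left hL1 (by positivity)
      _ = 62.48 / 10 ^ 6 * (10 ^ 6 * B ^ 2 * σ) * K := by ring
      _ ≤ 62.48 / 10 ^ 6 * m * K :=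
          mul_le_mul_of_nonneg_right (mul_le_mul_of_nonneg_left hsmall (by norm_num)) hK0
      _ ≤ 63 / 10 ^ 6 * m * K := by
          have : 0 ≤ m * K := by positivity
          linarith
  refine hL2.trans ?_
  have hF20 : 0 ≤ F2 := hF30.trans hF32
  have h1 : m * F3 ≤ e0 * F2 := mul_le_mul hme hF32 hF30 he0.le
  have h2 : m * G1 ≤ G1 := mul_le_of_le_one_left hG10 hm1
  have h3 : m * G2 ≤ G2 := mul_le_of_le_one_left hG20 hm1
  have h4 : m * K = m * F3 + m * G1 + m * G2 := by rw [hK]; ring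
  have h5 : 0 ≤ m * K := by positivity
  have h6 : 0 ≤ e0 * F2 := by positivity
  have h7 : 63 / 10 ^ 6 * m * K = 63 / 10 ^ 6 * (m * K) := by ring
  have h8 : 97 * e0 * F2 = 97 * (e0 * F2) := by ring
  rw [h7, h8, h4]
  linarith

/-! ## 3. L-RG-SEAM-F7: the 1-D theorem (assembly: split `Ioi (-(3δ/2))` at `-δ`, `ℓδ`; `Ioo 0 (3δ/2)` at `δ`; `Ioi 0` at `ℓδ`; all integrands are continuous and vanish for `s ≥ max L (ℓδ)`) -/

/-! helpers of F7 (prefix `rg1m_`) -/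

theorem rg1m_delta (hsm : RgsSmall e0 B δ) : 0 < δ ∧ δ ≤ 1 / 4 := by
  obtain ⟨h1, h2, h3⟩ := hsm
  refine ⟨h1, ?_⟩
  have h4 : 10 ^ 6 * B ^ 2 * Real.sqrt δ ≤ 1 := h3.trans (min_le_left _ _)
  have h5 : 0 ≤ Real.sqrt δ := Real.sqrt_nonneg _
  have h6 : (1 : ℝ) ≤ 10 ^ 6 * B ^ 2 := by nlinarith
  have h7 : Real.sqrt δ ≤ 1 := (le_mul_of_one_le_left h5 h6).trans h4
  have h8 : 2 * Real.sqrt δ ≤ 10 ^ 6 * B ^ 2 * Real.sqrt δ :=
    mul_le_mul_of_nonneg_right (by nlinarith) h5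
  have h9 : δ = Real.sqrt δ ^ 2 := (Real.sq_sqrt h1.le).symm
  rw [h9]
  nlinarith

theorem rg1m_zero_mem (hδ : 0 < δ) : (0 : ℝ) ∈ rg1I δ := ⟨by linarith, by linarith⟩

theorem rg1m_ii {g : ℝ → ℝ} {c p q : ℝ} (hg : ContinuousOn g (Set.Ioi c)) (hp : c < p)
    (hq : c < q) : IntervalIntegrable g volume p q :=
  (hg.mono fun _ hx => lt_of_lt_of_le (lt_min hp hq) hx.1).intervalIntegrable

theorem rg1m_ii' {g : ℝ → ℝ} {c c' p q : ℝ} (hg : ContinuousOn g (Set.Ioo c c'))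
    (hp : p ∈ Set.Ioo c c') (hq : q ∈ Set.Ioo c c') : IntervalIntegrable g volume p q :=
  (hg.mono fun _ hx => ⟨lt_of_lt_of_le (lt_min hp.1 hq.1) hx.1,
    lt_of_le_of_lt hx.2 (max_lt hp.2 hq.2)⟩).intervalIntegrable

theorem rg1m_df_cont (hD : D.Ok δ B L) : ContinuousOn (deriv D.f) (Set.Ioi (-(2 * δ))) :=
  hD.f_sm.continuousOn_deriv_of_isOpen isOpen_Ioi (by simp)

theorem rg1m_Gam0_cont (hD : D.Ok δ B L) (hδ : 0 < δ) :
    ContinuousOn (fun s => D.Gam 0 s) (Set.Ioi (-(2 * δ))) :=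
  hD.Gam_c.comp (f := fun s : ℝ => ((0 : ℝ), s)) (by fun_prop)
    (fun _ hs => ⟨rg1m_zero_mem hδ, hs⟩)

theorem rg1m_IC_cont (hD : D.Ok δ B L) (hδ : 0 < δ) :
    ContinuousOn (rg1IC D e0) (Set.Ioi (-(2 * δ))) := by
  have h1 := rg1m_Gam0_cont hD hδ
  have h2 := rg1m_df_cont hD
  have h3 := hD.f_sm.continuousOn
  exact ((continuousOn_const.mul (h1.add (h2.pow 2))).add
    (continuousOn_const.mul (h3.pow 2))).mul continuousOn_const

/-- the reserve on the right. -/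
noncomputable def rg1mE (D : Rg1Dat) (e0 s : ℝ) : ℝ :=
  (0.2 * (D.Gam 0 s + deriv D.f s ^ 2) + 97 * e0 * D.f s ^ 2) * D.rho 0

theorem rg1m_E_cont (hD : D.Ok δ B L) (hδ : 0 < δ) :
    ContinuousOn (rg1mE D e0) (Set.Ioi (-(2 * δ))) := by
  have h1 := rg1m_Gam0_cont hD hδ
  have h2 := rg1m_df_cont hD
  have h3 := hD.f_sm.continuousOn
  exact ((continuousOn_const.mul (h1.add (h2.pow 2))).add
    (continuousOn_const.mul (h3.pow 2))).mul continuousOn_const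

theorem rg1m_IB_cont (hD : D.Ok δ B L) : ContinuousOn (rg1IB D e0) (rg1I δ) := by
  have hneg : Set.MapsTo (fun x : ℝ => -x) (rg1I δ) (Set.Ioi (-(2 * δ))) := fun x hx => by
    have h1 := hx.2
    show -(2 * δ) < -x
    linarith
  have h1 : ContinuousOn (fun x => D.Gam x (-x)) (rg1I δ) :=
    hD.Gam_c.comp (f := fun x : ℝ => (x, -x)) (by fun_prop) (fun x hx => ⟨hx, hneg hx⟩)
  have h2 : ContinuousOn (fun x => deriv D.f (-x)) (rg1I δ) :=
    (rg1m_df_cont hD).comp continuous_neg.continuousOn hneg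
  have h3 : ContinuousOn (fun x => D.f (-x)) (rg1I δ) :=
    hD.f_sm.continuousOn.comp continuous_neg.continuousOn hneg
  have hN := hD.N_sm.continuousOn
  have hρ := hD.rho_sm.continuousOn
  exact ((continuousOn_const.mul (h1.add ((h2.pow 2).div (hN.pow 2)
    (fun x hx => pow_ne_zero 2 (hD.N_pos x hx).ne')))).add
      (((hD.DM_c.sub hD.Vs_c).sub continuousOn_const).mul (h3.pow 2))).mul (hN.mul hρ)

theorem rg1m_df_zero (hD : D.Ok δ B L) {s : ℝ} (hs : -(2 * δ) < s) (hL : L < s) :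
    deriv D.f s = 0 := by
  have h1 : D.f =ᶠ[𝓝 s] fun _ => 0 := by
    filter_upwards [Ioi_mem_nhds hs, Ioi_mem_nhds hL] with r h1 h2
    exact hD.f_L r h1 (le_of_lt h2)
  rw [h1.deriv_eq, deriv_const]

theorem rg1_main (hp : RgsProf k a b ℓ) (hD : D.Ok δ B L) (hsm : RgsSmall e0 B δ) (he0 : 0 < e0) :
    (∫ x in Set.Ioo (0 : ℝ) (3 * δ / 2), rg1IB D e0 x) + (∫ s in Set.Ioi (0 : ℝ), rg1IC D e0 s) +
        rg1IS D ≤
      ∫ s in Set.Ioi (-(3 * δ / 2)), rg1IX D a b δ e0 s := by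
  obtain ⟨hδ, hδ4⟩ := rg1m_delta hsm
  have hl0 := hp.l0
  have hl1 := hp.l1
  set R : ℝ := max L 1 with hR
  have hR1 : 1 ≤ R := le_max_right _ _
  have hRL : L ≤ R := le_max_left _ _
  have hlδ0 : 0 ≤ ℓ * δ := mul_nonneg hl0 hδ.le
  have hlδ : ℓ * δ ≤ 1 / 4 := by nlinarith
  have h0m := rg1m_zero_mem hδ
  have hρ0 : 0 < D.rho 0 := hD.rho_pos 0 h0m
  have cX := rg1_IX_cont (e0 := e0) hp hD hδ
  have cC := rg1m_IC_cont (e0 := e0) hD hδ
  have cB := rg1m_IB_cont (e0 := e0) hD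
  have cE := rg1m_E_cont (e0 := e0) hD hδ
  -- vanishing far out
  have zC : ∀ s, R < s → rg1IC D e0 s = 0 := by
    intro s hs
    have h1 : -(2 * δ) < s := by linarith
    unfold rg1IC
    rw [hD.Gam_L 0 h0m s h1 (by linarith), rg1m_df_zero hD h1 (by linarith),
      hD.f_L s h1 (by linarith)]
    ring
  have zX : ∀ s, R < s → rg1IX D a b δ e0 s = 0 := by
    intro s hs
    have h1 : -(2 * δ) < s := by linarith
    rw [rg1_right hp hD hδ (by linarith : ℓ * δ < s), zC s hs, hD.Gam_L 0 h0m s h1 (by linarith),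
      rg1m_df_zero hD h1 (by linarith), hD.f_L s h1 (by linarith)]
    ring
  -- the three integrals as interval integrals
  have eX : ∫ s in Set.Ioi (-(3 * δ / 2)), rg1IX D a b δ e0 s =
      ∫ s in (-(3 * δ / 2))..R, rg1IX D a b δ e0 s := by
    rw [intervalIntegral.integral_of_le (by linarith)]
    refine setIntegral_eq_of_subset_of_forall_sdiff_eq_zero measurableSet_Ioi
      Set.Ioc_subset_Ioi_self (fun s hs => zX s ?_)
    by_contra hn
    exact hs.2 ⟨hs.1, not_lt.1 hn⟩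
  have eC : ∫ s in Set.Ioi (0 : ℝ), rg1IC D e0 s = ∫ s in (0 : ℝ)..R, rg1IC D e0 s := by
    rw [intervalIntegral.integral_of_le (by linarith)]
    refine setIntegral_eq_of_subset_of_forall_sdiff_eq_zero measurableSet_Ioi
      Set.Ioc_subset_Ioi_self (fun s hs => zC s ?_)
    by_contra hn
    exact hs.2 ⟨hs.1, not_lt.1 hn⟩
  have eB : ∫ x in Set.Ioo (0 : ℝ) (3 * δ / 2), rg1IB D e0 x =
      ∫ x in (0 : ℝ)..(3 * δ / 2), rg1IB D e0 x := by
    rw [intervalIntegral.integral_of_le (by linarith), integral_Ioc_eq_integral_Ioo]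
  -- splitting
  have sX : ∫ s in (-(3 * δ / 2))..R, rg1IX D a b δ e0 s =
      (∫ s in (-(3 * δ / 2))..(-δ), rg1IX D a b δ e0 s) +
        (∫ s in (-δ)..(ℓ * δ), rg1IX D a b δ e0 s) + ∫ s in (ℓ * δ)..R, rg1IX D a b δ e0 s := by
    rw [intervalIntegral.integral_add_adjacent_intervals
        (rg1m_ii cX (by linarith) (by linarith)) (rg1m_ii cX (by linarith) (by linarith)),
      intervalIntegral.integral_add_adjacent_intervals
        (rg1m_ii cX (by linarith) (by linarith)) (rg1m_ii cX (by linarith) (by linarith))]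
  have sC : ∫ s in (0 : ℝ)..R, rg1IC D e0 s =
      (∫ s in (0 : ℝ)..(ℓ * δ), rg1IC D e0 s) + ∫ s in (ℓ * δ)..R, rg1IC D e0 s := by
    rw [intervalIntegral.integral_add_adjacent_intervals
        (rg1m_ii cC (by linarith) (by linarith)) (rg1m_ii cC (by linarith) (by linarith))]
  have sB : ∫ x in (0 : ℝ)..(3 * δ / 2), rg1IB D e0 x =
      (∫ x in (0 : ℝ)..δ, rg1IB D e0 x) + ∫ x in δ..(3 * δ / 2), rg1IB D e0 x := by
    rw [intervalIntegral.integral_add_adjacent_intervals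
        (rg1m_ii' cB h0m ⟨by linarith, by linarith⟩)
        (rg1m_ii' cB ⟨by linarith, by linarith⟩ ⟨by linarith, by linarith⟩)]
  -- the left range
  have l1 : ∫ x in δ..(3 * δ / 2), rg1IB D e0 x ≤
      ∫ s in (-(3 * δ / 2))..(-δ), rg1IX D a b δ e0 s := by
    have e : ∫ s in (-(3 * δ / 2))..(-δ), rg1IB D e0 (-s) =
        ∫ x in δ..(3 * δ / 2), rg1IB D e0 x := by
      rw [intervalIntegral.integral_comp_neg, neg_neg, neg_neg]
    rw [← e]
    refine intervalIntegral.integral_mono_on_of_le_Ioo (by linarith) ?_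
      (rg1m_ii cX (by linarith) (by linarith))
      (fun s hs => rg1_left hp hD hδ he0 ⟨by linarith [hs.1], hs.2⟩)
    refine ContinuousOn.intervalIntegrable (cB.comp continuous_neg.continuousOn fun s hs => ?_)
    rw [Set.uIcc_of_le (by linarith)] at hs
    exact ⟨by linarith [hs.2], by linarith [hs.1]⟩
  -- the right range
  have hle : ℓ * δ ≤ R := by linarith
  have r1 : ∫ s in (ℓ * δ)..R, rg1IX D a b δ e0 s =
      (∫ s in (ℓ * δ)..R, rg1IC D e0 s) + ∫ s in (ℓ * δ)..R, rg1mE D e0 s := by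
    rw [← intervalIntegral.integral_add (rg1m_ii cC (by linarith) (by linarith))
      (rg1m_ii cE (by linarith) (by linarith)), intervalIntegral.integral_of_le hle,
      intervalIntegral.integral_of_le hle]
    exact setIntegral_congr_fun measurableSet_Ioc fun s hs => rg1_right hp hD hδ hs.1
  have nE : ∀ s, -(2 * δ) < s → 0 ≤ rg1mE D e0 s := by
    intro s hs
    have h1 := hD.Gam0 0 h0m s hs
    unfold rg1mE
    positivity
  have cW : ContinuousOn (fun s => 0.2 * deriv D.f s ^ 2 + 97 * e0 * D.f s ^ 2)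
      (Set.Ioi (-(2 * δ))) :=
    (continuousOn_const.mul ((rg1m_df_cont hD).pow 2)).add
      (continuousOn_const.mul (hD.f_sm.continuousOn.pow 2))
  have r2 : D.rho 0 * (∫ s in (ℓ * δ)..1, (0.2 * deriv D.f s ^ 2 + 97 * e0 * D.f s ^ 2)) ≤
      ∫ s in (ℓ * δ)..R, rg1mE D e0 s := by
    rw [← intervalIntegral.integral_add_adjacent_intervals
      (rg1m_ii cE (by linarith) (by linarith) : IntervalIntegrable _ volume (ℓ * δ) 1)
      (rg1m_ii cE (by linarith) (by linarith)), ← intervalIntegral.integral_const_mul]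
    have h1 : 0 ≤ ∫ s in (1 : ℝ)..R, rg1mE D e0 s :=
      intervalIntegral.integral_nonneg hR1 fun s hs => nE s (by linarith [hs.1])
    have h2 : ∫ s in (ℓ * δ)..1, D.rho 0 * (0.2 * deriv D.f s ^ 2 + 97 * e0 * D.f s ^ 2) ≤
        ∫ s in (ℓ * δ)..1, rg1mE D e0 s := by
      refine intervalIntegral.integral_mono_on (by linarith)
        (rg1m_ii (continuousOn_const.mul cW) (by linarith) (by linarith))
        (rg1m_ii cE (by linarith) (by linarith)) fun s hs => ?_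
      have h3 := hD.Gam0 0 h0m s (by linarith [hs.1])
      unfold rg1mE
      nlinarith
    linarith
  have hst := rg1_strip hp hD hsm he0
  have hab := rg1_absorb hsm he0 hl0 hl1 hD.f_sm
  have hab' := mul_le_mul_of_nonneg_left hab hρ0.le
  rw [eX, eC, eB, sX, sC, sB, r1]
  nlinarith

end one

/-! ## 4. from the chart to the fibre -/

section chart

variable {d : ℕ}

/-- the data of the fibre over `u`. -/
noncomputable def rgsDat (G : rm_MF (d + 1)) (t Vs F : E (d + 1) → ℝ) (u : E d) : Rg1Dat where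
  N := fun x => rm_lps G (rm_J x u)
  rho := fun x => Real.exp (-t (rm_J x u)) * Real.sqrt (rm_tan G (rm_J x u)).det
  S := fun x => rm_S G t (rm_J x u)
  DM := fun x => rm_DscC G t (rm_J x u)
  DL := fun x => rm_DscS G t (rm_J x u)
  Jq := fun x => rm_Jsq G (rm_J x u)
  LN := fun x => rm_lapS G (rm_lps G) (rm_J x u) - rm_ipS G t (rm_lps G) (rm_J x u)
  sN := fun x => rm_ipS G (rm_lps G) (rm_lps G) (rm_J x u)
  Vs := fun x => Vs (rm_J x u)
  Gam := fun x s => gradSqC (rm_sl G x) (rm_fs F s) u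
  f := fun s => F (rm_J s u)

variable {G : rm_MF (d + 1)} {c0 δ B e0 ℓ L : ℝ} {t Vs F : E (d + 1) → ℝ} {k a b : ℝ → ℝ} {u : E d}

/-! ### L-RG-SEAM-F8: the metric `rgsGX` -/

theorem rgs_K_mem (hp : RgsProf k a b ℓ) (hδ : 0 < δ) (hc0 : |c0| ≤ δ) {v : E (d + 1)}
    (hv : v ∈ rgsDom d δ) : rgsK a δ v ∈ rm_box d c0 (3 * δ) := by
  obtain ⟨h1, h2⟩ := rg1_A_mem' hp hδ hv.1
  have h3 := abs_le.1 hc0
  refine ⟨?_, ?_⟩
  · rw [rgsK, rm_J_zero, abs_lt]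
    unfold rg1A at h1 h2
    constructor <;> linarith [h3.1, h3.2]
  · rw [rgsK, rm_tl_J]
    exact hv.2

theorem rgs_dom_open (d : ℕ) (δ : ℝ) : IsOpen (rgsDom d δ) := by
  have h1 : Continuous fun w : E (d + 1) => w 0 :=
    (EuclideanSpace.proj (0 : Fin (d + 1)) : E (d + 1) →L[ℝ] ℝ).continuous
  have h2 : Continuous fun w : E (d + 1) => ‖rm_tl d w‖ := (rm_tl d).continuous.norm
  exact (isOpen_lt continuous_const h1).inter (isOpen_lt h2 continuous_const)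

theorem rgs_coord0_contDiff (d : ℕ) : ContDiff ℝ ∞ fun w : E (d + 1) => w 0 :=
  (EuclideanSpace.proj (0 : Fin (d + 1)) : E (d + 1) →L[ℝ] ℝ).contDiff

theorem rgs_K_contDiff (ha : ContDiff ℝ ∞ a) (δ : ℝ) : ContDiff ℝ ∞ (rgsK (d := d) a δ) := by
  unfold rgsK rm_J
  exact ((contDiff_const.mul (ha.comp ((rgs_coord0_contDiff d).div_const δ))).smul
    contDiff_const).add ((rm_in d).contDiff.comp (rm_tl d).contDiff)

theorem rgs_deriv_contDiff {a : ℝ → ℝ} (ha : ContDiff ℝ ∞ a) (d : ℕ) (δ : ℝ) :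
    ContDiff ℝ ∞ fun w : E (d + 1) => deriv a (w 0 / δ) :=
  ((contDiff_infty_iff_deriv.1 ha).2).comp ((rgs_coord0_contDiff d).div_const δ)

theorem rgs_K_hasFDerivAt (ha : ContDiff ℝ ∞ a) (hδ : 0 < δ) (v : E (d + 1)) :
    HasFDerivAt (rgsK (d := d) a δ)
      ((deriv a (v 0 / δ) • (EuclideanSpace.proj (0 : Fin (d + 1)) : E (d + 1) →L[ℝ] ℝ)).smulRight
        (eb 0) + (rm_in d).comp (rm_tl d)) v := by
  have h0 : HasFDerivAt (fun w : E (d + 1) => w 0)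
      (EuclideanSpace.proj (0 : Fin (d + 1)) : E (d + 1) →L[ℝ] ℝ) v :=
    (EuclideanSpace.proj (0 : Fin (d + 1)) : E (d + 1) →L[ℝ] ℝ).hasFDerivAt
  have h1 : HasFDerivAt (fun w : E (d + 1) => w 0 / δ)
      (δ⁻¹ • (EuclideanSpace.proj (0 : Fin (d + 1)) : E (d + 1) →L[ℝ] ℝ)) v := by
    have := h0.const_mul δ⁻¹
    refine this.congr_of_eventuallyEq (Filter.Eventually.of_forall fun w => ?_)
    simp [div_eq_inv_mul]
  have h2 : HasDerivAt a (deriv a (v 0 / δ)) (v 0 / δ) :=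
    ((ha.differentiable (by simp)) _).hasDerivAt
  have h3 := (h2.comp_hasFDerivAt v h1).const_mul δ
  have h4 : HasFDerivAt (fun w : E (d + 1) => δ * a (w 0 / δ))
      (deriv a (v 0 / δ) • (EuclideanSpace.proj (0 : Fin (d + 1)) : E (d + 1) →L[ℝ] ℝ)) v := by
    refine h3.congr_fderiv ?_
    ext X
    simp only [smul_apply, smul_eq_mul]
    field_simp
  have h5 := (h4.smul_const (eb (0 : Fin (d + 1)))).add
    (((rm_in d).comp (rm_tl d)).hasFDerivAt (x := v))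
  exact h5

/-- the `s`-derivative of a function of `(δ a (s/δ), u)`. -/
theorem rgs_pdiff_K (ha : ContDiff ℝ ∞ a) (hδ : 0 < δ) {g : E (d + 1) → ℝ} {v : E (d + 1)}
    (hg : DifferentiableAt ℝ g (rgsK a δ v)) :
    pdiff (fun w => g (rgsK a δ w)) 0 v = deriv a (v 0 / δ) * pdiff g 0 (rgsK a δ v) := by
  unfold pdiff
  have h := (hg.hasFDerivAt.comp v (rgs_K_hasFDerivAt ha hδ v)).fderiv
  have h' : fderiv ℝ (fun w => g (rgsK a δ w)) v = _ := h
  rw [h']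
  have e : ((deriv a (v 0 / δ) •
      (EuclideanSpace.proj (0 : Fin (d + 1)) : E (d + 1) →L[ℝ] ℝ)).smulRight (eb 0) +
      (rm_in d).comp (rm_tl d) : E (d + 1) →L[ℝ] E (d + 1)) (EuclideanSpace.single 0 1) =
      deriv a (v 0 / δ) • eb 0 := by
    have := rm_tl_eb0 (d := d)
    simp only [add_apply, ContinuousLinearMap.smulRight_apply,
      smul_apply, ContinuousLinearMap.comp_apply, this, map_zero, add_zero]
    simp
  rw [ContinuousLinearMap.comp_apply, e, map_smul, smul_eq_mul]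

theorem rgs_GX_quad (G : rm_MF (d + 1)) (a b : ℝ → ℝ) (δ : ℝ) (v : E (d + 1))
    (x : Fin (d + 1) → ℝ) :
    x ⬝ᵥ (rgsGX G a b δ v).mulVec x =
      (fun i => (if i = 0 then deriv a (v 0 / δ) else 1) * x i) ⬝ᵥ
        (G (rgsK a δ v)).mulVec (fun i => (if i = 0 then deriv a (v 0 / δ) else 1) * x i) +
      deriv b (v 0 / δ) ^ 2 * x 0 ^ 2 := by
  simp only [dotProduct, Matrix.mulVec, rgsGX, Matrix.of_apply, add_mul, Finset.sum_add_distrib,
    mul_add]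
  congr 1
  · refine Finset.sum_congr rfl fun i _ => ?_
    rw [Finset.mul_sum, Finset.mul_sum]
    refine Finset.sum_congr rfl fun j _ => ?_
    ring
  · rw [Finset.sum_eq_single 0]
    · rw [Finset.sum_eq_single 0]
      · simp
        ring
      · intro j _ hj
        simp [hj]
      · simp
    · intro i _ hi
      simp [hi]
    · simp

theorem rgs_GX_met (hp : RgsProf k a b ℓ) (hδ : 0 < δ) (hc0 : |c0| ≤ δ)
    (hG : rm_Met G (rm_box d c0 (3 * δ))) (ho : rm_Orth G (rm_box d c0 (3 * δ))) :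
    rm_Met (rgsGX G a b δ) (rgsDom d δ) ∧ rm_Orth (rgsGX G a b δ) (rgsDom d δ) := by
  refine ⟨⟨rgs_dom_open d δ, fun i j => ?_, fun v hv => ?_⟩, fun v hv c => ?_⟩
  · have hA := (rgs_deriv_contDiff hp.a_smooth d δ).contDiffOn (s := rgsDom d δ)
    have hB := (rgs_deriv_contDiff hp.b_smooth d δ).contDiffOn (s := rgsDom d δ)
    have hGK : ContDiffOn ℝ ∞ (fun v => G (rgsK a δ v) i j) (rgsDom d δ) :=
      (hG.smooth i j).comp (rgs_K_contDiff hp.a_smooth δ).contDiffOn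
        fun v hv => rgs_K_mem hp hδ hc0 hv
    have h1 : ∀ i : Fin (d + 1), ContDiffOn ℝ ∞
        (fun v : E (d + 1) => if i = 0 then deriv a (v 0 / δ) else 1) (rgsDom d δ) := by
      intro i
      by_cases hi : i = 0
      · simpa [hi] using hA
      · simpa [hi] using contDiffOn_const
    have h2 : ContDiffOn ℝ ∞
        (fun v : E (d + 1) => if i = 0 ∧ j = 0 then deriv b (v 0 / δ) ^ 2 else 0) (rgsDom d δ) := by
      by_cases hij : i = 0 ∧ j = 0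
      · simpa [hij] using hB.pow 2
      · simpa [hij] using contDiffOn_const
    simp only [rgsGX, Matrix.of_apply]
    exact (((h1 i).mul (h1 j)).mul hGK).add h2
  · have hK := rgs_K_mem hp hδ hc0 hv
    have hpos := hG.pos _ hK
    refine Matrix.PosDef.of_dotProduct_mulVec_pos ?_ fun x hx => ?_
    · have hs : ∀ i j, G (rgsK a δ v) i j = G (rgsK a δ v) j i := fun i j => by
        have := hpos.isHermitian.apply j i
        simpa using this
      ext i j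
      simp only [Matrix.conjTranspose_apply, rgsGX, Matrix.of_apply, star_trivial]
      rw [hs j i, mul_comm (if j = 0 then deriv a (v 0 / δ) else 1)]
      simp only [and_comm]
    · rw [star_trivial, rgs_GX_quad]
      set y : Fin (d + 1) → ℝ := fun i => (if i = 0 then deriv a (v 0 / δ) else 1) * x i with hy
      have hnn : 0 ≤ deriv b (v 0 / δ) ^ 2 * x 0 ^ 2 := by positivity
      by_cases hy0 : y = 0
      · have hxs : ∀ i : Fin (d + 1), i ≠ 0 → x i = 0 := by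
          intro i hi
          have := congrFun hy0 i
          simpa [hy, hi] using this
        have hx0 : x 0 ≠ 0 := by
          intro h0
          apply hx
          funext i
          by_cases hi : i = 0
          · rw [hi, h0]; rfl
          · exact hxs i hi
        have ha0 : deriv a (v 0 / δ) = 0 := by
          have := congrFun hy0 0
          simp only [hy, if_true, Pi.zero_apply, mul_eq_zero] at this
          exact this.resolve_right hx0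
        have hb1 : deriv b (v 0 / δ) ^ 2 = 1 := by
          have := hp.speed (v 0 / δ)
          rw [ha0] at this
          simpa using this
        rw [hy0, hb1]
        simp only [Matrix.mulVec_zero, dotProduct_zero, zero_add, one_mul]
        positivity
      · have := hpos.dotProduct_mulVec_pos hy0
        rw [star_trivial] at this
        linarith
  · simp only [rgsGX, Matrix.of_apply, Fin.succ_ne_zero, if_true, if_false, and_false]
    rw [ho _ (rgs_K_mem hp hδ hc0 hv) c]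
    simp

theorem rgs_GX_lps (G : rm_MF (d + 1)) (a b : ℝ → ℝ) (δ : ℝ) (v : E (d + 1)) :
    rm_lps (rgsGX G a b δ) v =
      Real.sqrt (deriv a (v 0 / δ) ^ 2 * G (rgsK a δ v) 0 0 + deriv b (v 0 / δ) ^ 2) := by
  simp only [rm_lps, rgsGX, Matrix.of_apply, if_true, and_self]
  congr 1
  ring

theorem rgs_GX_tan (G : rm_MF (d + 1)) (a b : ℝ → ℝ) (δ : ℝ) (v : E (d + 1)) :
    rm_tan (rgsGX G a b δ) v = rm_tan G (rgsK a δ v) := by
  ext i j
  simp [rm_tan, rgsGX, Fin.succ_ne_zero]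

theorem rgs_GX_sl (G : rm_MF (d + 1)) (a b : ℝ → ℝ) (δ s : ℝ) :
    rm_sl (rgsGX G a b δ) s = rm_sl G (rg1A a δ s) := by
  funext y
  simp only [rm_sl, rgs_GX_tan, rgsK, rm_J_zero, rm_tl_J, rg1A]

theorem rgs_lps_pos {U : Set (E (d + 1))} (hG : rm_Met G U) {w : E (d + 1)} (hw : w ∈ U) :
    0 < rm_lps G w := by
  have := (hG.pos w hw).diag_pos (i := 0)
  exact Real.sqrt_pos.2 this

/-- `J_X = c J`. -/
theorem rgs_GX_sff (hp : RgsProf k a b ℓ) (hδ : 0 < δ) (hc0 : |c0| ≤ δ)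
    (hG : rm_Met G (rm_box d c0 (3 * δ))) {v : E (d + 1)} (hv : v ∈ rgsDom d δ) :
    rm_sff (rgsGX G a b δ) v =
      (deriv a (v 0 / δ) * rm_lps G (rgsK a δ v) / rm_lps (rgsGX G a b δ) v) •
        rm_sff G (rgsK a δ v) := by
  have hK := rgs_K_mem hp hδ hc0 hv
  have hn : rm_lps G (rgsK a δ v) ≠ 0 := (rgs_lps_pos hG hK).ne'
  ext i j
  simp only [rm_sff, Matrix.of_apply, Matrix.smul_apply, smul_eq_mul]
  have e1 : (fun w => rgsGX G a b δ w i.succ j.succ) = fun w => G (rgsK a δ w) i.succ j.succ := by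
    funext w
    simp [rgsGX, Fin.succ_ne_zero]
  have hd : DifferentiableAt ℝ (fun w => G w i.succ j.succ) (rgsK a δ v) :=
    ((hG.smooth i.succ j.succ).contDiffAt (hG.opn.mem_nhds hK)).differentiableAt (by simp)
  rw [e1, rgs_pdiff_K (g := fun w => G w i.succ j.succ) hp.a_smooth hδ hd]
  rw [mul_inv, mul_inv]
  have h1 : rm_lps G (rgsK a δ v) * (rm_lps G (rgsK a δ v))⁻¹ = 1 := mul_inv_cancel₀ hn
  linear_combination (-(deriv a (v 0 / δ) * (rm_lps (rgsGX G a b δ) v)⁻¹ * 2⁻¹ *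
    pdiff (fun w => G w i.succ j.succ) 0 (rgsK a δ v))) * h1

/-- `S_X = c S`. -/
theorem rgs_GX_S (hp : RgsProf k a b ℓ) (hδ : 0 < δ) (hc0 : |c0| ≤ δ)
    (hG : rm_Met G (rm_box d c0 (3 * δ))) (ht : ContDiffOn ℝ ∞ t (rm_box d c0 (3 * δ)))
    {v : E (d + 1)} (hv : v ∈ rgsDom d δ) :
    rm_S (rgsGX G a b δ) (fun v' => t (rgsK a δ v')) v =
      deriv a (v 0 / δ) * rm_lps G (rgsK a δ v) / rm_lps (rgsGX G a b δ) v *
        rm_S G t (rgsK a δ v) := by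
  have hK := rgs_K_mem hp hδ hc0 hv
  have hn : rm_lps G (rgsK a δ v) ≠ 0 := (rgs_lps_pos hG hK).ne'
  have hd : DifferentiableAt ℝ t (rgsK a δ v) :=
    (ht.contDiffAt (hG.opn.mem_nhds hK)).differentiableAt (by simp)
  simp only [rm_S, rm_H, rm_e]
  rw [rgs_GX_sff hp hδ hc0 hG hv, rgs_GX_tan, Matrix.mul_smul, Matrix.trace_smul, smul_eq_mul,
    rgs_pdiff_K hp.a_smooth hδ hd]
  have h1 : rm_lps G (rgsK a δ v) * (rm_lps G (rgsK a δ v))⁻¹ = 1 := mul_inv_cancel₀ hn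
  linear_combination ((rm_lps (rgsGX G a b δ) v)⁻¹ * deriv a (v 0 / δ) *
    pdiff t 0 (rgsK a δ v)) * h1

/-! ### helpers of F9, F10 -/

theorem rgs_fx_K_J (a : ℝ → ℝ) (δ s : ℝ) (u : E d) : rgsK a δ (rm_J s u) = rm_J (rg1A a δ s) u := by
  unfold rgsK rg1A
  rw [rm_J_zero, rm_tl_J]

theorem rgs_fx_mem_dom (hu : ‖u‖ < 3 * δ) {s : ℝ} (hs : -(2 * δ) < s) : rm_J s u ∈ rgsDom d δ := by
  refine ⟨?_, ?_⟩
  · rw [rm_J_zero]; exact hs
  · rw [rm_tl_J]; exact hu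

theorem rgs_fx_mem_box (hu : ‖u‖ < 3 * δ) {x : ℝ} (hx : |x - c0| < 3 * δ) : rm_J x u ∈ rm_box d c0 (3 * δ) := by
  refine ⟨?_, ?_⟩
  · rw [rm_J_zero]; exact hx
  · rw [rm_tl_J]; exact hu

theorem rgs_fx_dom_open (d : ℕ) (δ : ℝ) : IsOpen (rgsDom d δ) := by
  have h1 : Continuous fun v : E (d + 1) => v 0 := (EuclideanSpace.proj (0 : Fin (d + 1)) : E (d + 1) →L[ℝ] ℝ).continuous
  exact (isOpen_lt continuous_const h1).inter (isOpen_lt (rm_tl d).continuous.norm continuous_const)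

theorem rgs_fx_J_hasDerivAt (s : ℝ) (u : E d) : HasDerivAt (fun s' : ℝ => rm_J s' u) (eb 0) s := by
  unfold rm_J
  have := ((hasDerivAt_id s).smul_const (eb (0 : Fin (d + 1)))).add_const (rm_in d u)
  simpa using this

/-- the partial derivative in the direction `0` is the derivative along the fibre. -/
theorem rgs_fx_pdiff0 {f : E (d + 1) → ℝ} {s : ℝ} (hf : DifferentiableAt ℝ f (rm_J s u)) :
    pdiff f 0 (rm_J s u) = deriv (fun s' => f (rm_J s' u)) s := by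
  have := hf.hasFDerivAt.comp_hasDerivAt s (rgs_fx_J_hasDerivAt s u)
  exact this.deriv.symm

/-! ### F9 -/

theorem rgs_f9_pos {p q : ℝ} (hpq : p ^ 2 + q ^ 2 = 1) {n : ℝ} (hn : 0 < n) : 0 < p ^ 2 * n ^ 2 + q ^ 2 := by
  rcases eq_or_ne p 0 with rfl | hp
  · have : q ^ 2 = 1 := by simpa using hpq
    rw [this]; norm_num
  · have h1 : 0 < p ^ 2 * n ^ 2 := by positivity
    have h2 : 0 ≤ q ^ 2 := sq_nonneg q
    linarith

theorem rgs_f9_hasDeriv {p q : ℝ} (hpq : p ^ 2 + q ^ 2 = 1) {n : ℝ} (hn : 0 < n) :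
    HasDerivAt (fun n : ℝ => Real.sqrt (p ^ 2 * n ^ 2 + q ^ 2)) (p ^ 2 * n / Real.sqrt (p ^ 2 * n ^ 2 + q ^ 2)) n := by
  have h0 := rgs_f9_pos hpq hn
  have h1 : HasDerivAt (fun n : ℝ => p ^ 2 * n ^ 2 + q ^ 2) (p ^ 2 * (2 * n)) n := by
    have := (((hasDerivAt_id n).pow 2).const_mul (p ^ 2)).add_const (q ^ 2)
    simpa using this
  have h2 := h1.sqrt h0.ne'
  convert h2 using 1
  ring

theorem rgs_f9_smooth {p q : ℝ} (hpq : p ^ 2 + q ^ 2 = 1) :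
    ContDiffOn ℝ ∞ (fun n : ℝ => Real.sqrt (p ^ 2 * n ^ 2 + q ^ 2)) (Set.Ioi 0) := by
  have h1 : ContDiffOn ℝ ∞ (fun n : ℝ => p ^ 2 * n ^ 2 + q ^ 2) (Set.Ioi 0) := by fun_prop
  exact h1.sqrt fun n hn => (rgs_f9_pos hpq hn).ne'

theorem rgs_f9_deriv2 {p q : ℝ} (hpq : p ^ 2 + q ^ 2 = 1) {n : ℝ} (hn : 0 < n) :
    deriv (deriv fun n : ℝ => Real.sqrt (p ^ 2 * n ^ 2 + q ^ 2)) n =
      p ^ 2 * q ^ 2 / Real.sqrt (p ^ 2 * n ^ 2 + q ^ 2) ^ 3 := by
  have h0 := rgs_f9_pos hpq hn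
  have hs : 0 < Real.sqrt (p ^ 2 * n ^ 2 + q ^ 2) := Real.sqrt_pos.2 h0
  have hev : deriv (fun n : ℝ => Real.sqrt (p ^ 2 * n ^ 2 + q ^ 2)) =ᶠ[𝓝 n]
      fun n => p ^ 2 * n / Real.sqrt (p ^ 2 * n ^ 2 + q ^ 2) := by
    filter_upwards [Ioi_mem_nhds hn] with m hm
    exact (rgs_f9_hasDeriv hpq hm).deriv
  rw [hev.deriv_eq]
  have h1 : HasDerivAt (fun n : ℝ => p ^ 2 * n) (p ^ 2) n := by
    simpa using (hasDerivAt_id n).const_mul (p ^ 2)
  have h2 := h1.fun_div (rgs_f9_hasDeriv hpq hn) hs.ne'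
  rw [h2.deriv]
  have hsq : Real.sqrt (p ^ 2 * n ^ 2 + q ^ 2) ^ 2 = p ^ 2 * n ^ 2 + q ^ 2 := Real.sq_sqrt h0.le
  generalize Real.sqrt (p ^ 2 * n ^ 2 + q ^ 2) = φ at hs hsq ⊢
  field_simp
  rw [hsq]
  ring

theorem rgs_fx_level_box (hp : RgsProf k a b ℓ) (hδ : 0 < δ) (hc0 : |c0| ≤ δ) (hu : ‖u‖ < 3 * δ) {s : ℝ}
    (hs : -(2 * δ) < s) : rm_J (rg1A a δ s) u ∈ rm_box d c0 (3 * δ) := by
  obtain ⟨h1, h2⟩ := rg1_A_mem' hp hδ hs
  refine rgs_fx_mem_box hu ?_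
  rw [abs_lt]
  obtain ⟨h3, h4⟩ := abs_le.1 hc0
  constructor <;> linarith

/-! ### L-RG-SEAM-F9: the lapse term of `rgsGX` (`rm_lap_comp` for `φ(N) = √(p² N² + q²)` on the slice) -/

theorem rgs_GX_lapN (hp : RgsProf k a b ℓ) (hδ : 0 < δ) (hc0 : |c0| ≤ δ)
    (hG : rm_Met G (rm_box d c0 (3 * δ))) (ho : rm_Orth G (rm_box d c0 (3 * δ)))
    (ht : ContDiffOn ℝ ∞ t (rm_box d c0 (3 * δ))) (hu : ‖u‖ < 3 * δ) {s : ℝ} (hs : -(2 * δ) < s) :
    (rm_lapS (rgsGX G a b δ) (rm_lps (rgsGX G a b δ)) (rm_J s u) -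
        rm_ipS (rgsGX G a b δ) (rm_lps (rgsGX G a b δ)) (fun v' => t (rgsK a δ v')) (rm_J s u)) /
        rm_lps (rgsGX G a b δ) (rm_J s u) =
      rg1Lam (rgsDat G t Vs F u) a b δ s := by
  have hbox := rgs_fx_level_box (c0 := c0) hp hδ hc0 hu hs
  obtain ⟨x, hx⟩ : ∃ x, x = rg1A a δ s := ⟨_, rfl⟩
  obtain ⟨p, hpd⟩ : ∃ p, p = deriv a (s / δ) := ⟨_, rfl⟩
  obtain ⟨q, hqd⟩ : ∃ q, q = deriv b (s / δ) := ⟨_, rfl⟩
  have hpq : p ^ 2 + q ^ 2 = 1 := by rw [hpd, hqd]; exact hp.speed _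
  rw [← hx] at hbox
  have hγ := rm_sl_met hG x
  have huU : u ∈ rm_Us (rm_box d c0 (3 * δ)) x := hbox
  have hN : ContDiffOn ℝ ∞ (rm_fs (rm_lps G) x) (rm_Us (rm_box d c0 (3 * δ)) x) := rm_fs_smooth (rm_lps_smooth hG) x
  have hNpos : ∀ w ∈ rm_Us (rm_box d c0 (3 * δ)) x, rm_fs (rm_lps G) x w ∈ Set.Ioi (0 : ℝ) := fun w hw => rm_lps_pos hG hw
  have hn : 0 < rm_fs (rm_lps G) x u := hNpos u huU
  -- the new lapse on the slice
  have hev : rm_fs (rm_lps (rgsGX G a b δ)) s =ᶠ[𝓝 u]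
      fun w => (fun n : ℝ => Real.sqrt (p ^ 2 * n ^ 2 + q ^ 2)) (rm_fs (rm_lps G) x w) := by
    filter_upwards [hγ.opn.mem_nhds huU] with w hw
    show rm_lps (rgsGX G a b δ) (rm_J s w) = Real.sqrt (p ^ 2 * rm_lps G (rm_J x w) ^ 2 + q ^ 2)
    rw [rgs_GX_lps, rm_J_zero, rgs_fx_K_J, ← hx, rm_lps_sq hG hw, hpd, hqd]
  have hτ : rm_fs (fun v' => t (rgsK a δ v')) s = rm_fs t x := by
    funext w
    show t (rgsK a δ (rm_J s w)) = t (rm_J x w)
    rw [rgs_fx_K_J, hx]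
  have hlap : rm_lapS (rgsGX G a b δ) (rm_lps (rgsGX G a b δ)) (rm_J s u) =
      p ^ 2 * rm_fs (rm_lps G) x u / Real.sqrt (p ^ 2 * rm_fs (rm_lps G) x u ^ 2 + q ^ 2) *
          lapC (rm_sl G x) (rm_fs (rm_lps G) x) u +
        p ^ 2 * q ^ 2 / Real.sqrt (p ^ 2 * rm_fs (rm_lps G) x u ^ 2 + q ^ 2) ^ 3 *
          gradSqC (rm_sl G x) (rm_fs (rm_lps G) x) u := by
    unfold rm_lapS
    rw [rm_J_zero, rm_tl_J, rgs_GX_sl, ← hx, rm_lap_congr hev,
      rm_lap_comp hγ huU hN isOpen_Ioi (rgs_f9_smooth hpq) hNpos, (rgs_f9_hasDeriv hpq hn).deriv, rgs_f9_deriv2 hpq hn]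
  have hip : rm_ipS (rgsGX G a b δ) (rm_lps (rgsGX G a b δ)) (fun v' => t (rgsK a δ v')) (rm_J s u) =
      p ^ 2 * rm_fs (rm_lps G) x u / Real.sqrt (p ^ 2 * rm_fs (rm_lps G) x u ^ 2 + q ^ 2) *
          gradIpC (rm_sl G x) (rm_fs t x) (rm_fs (rm_lps G) x) u := by
    unfold rm_ipS
    rw [rm_J_zero, rm_tl_J, rgs_GX_sl, ← hx, hτ, rm_ip_congr hev (Filter.EventuallyEq.refl _ _),
      rm_ip_comp_left (rgs_f9_hasDeriv hpq hn).differentiableAt (rm_da hγ.opn hN huU), (rgs_f9_hasDeriv hpq hn).deriv,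
      rm_ip_comm hγ huU]
  have hl : rm_lps (rgsGX G a b δ) (rm_J s u) = Real.sqrt (p ^ 2 * rm_fs (rm_lps G) x u ^ 2 + q ^ 2) := hev.eq_of_nhds
  have hNt : rg1Nt (rgsDat G t Vs F u) a b δ s = Real.sqrt (p ^ 2 * rm_fs (rm_lps G) x u ^ 2 + q ^ 2) := by
    unfold rg1Nt
    rw [← hx, ← hpd, ← hqd]
    rfl
  have hLN : (rgsDat G t Vs F u).LN x = lapC (rm_sl G x) (rm_fs (rm_lps G) x) u -
      gradIpC (rm_sl G x) (rm_fs t x) (rm_fs (rm_lps G) x) u := by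
    show rm_lapS G (rm_lps G) (rm_J x u) - rm_ipS G t (rm_lps G) (rm_J x u) = _
    unfold rm_lapS rm_ipS
    rw [rm_J_zero, rm_tl_J]
  have hsN : (rgsDat G t Vs F u).sN x = gradSqC (rm_sl G x) (rm_fs (rm_lps G) x) u := by
    show rm_ipS G (rm_lps G) (rm_lps G) (rm_J x u) = _
    unfold rm_ipS
    rw [rm_J_zero, rm_tl_J, if_gradSqC_eq]
  have hNx : (rgsDat G t Vs F u).N x = rm_fs (rm_lps G) x u := rfl
  unfold rg1Lam
  rw [hlap, hip, hl, hNt, ← hx, ← hpd, ← hqd, hLN, hsN, hNx]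
  have hφ : 0 < Real.sqrt (p ^ 2 * rm_fs (rm_lps G) x u ^ 2 + q ^ 2) := Real.sqrt_pos.2 (rgs_f9_pos hpq hn)
  generalize Real.sqrt (p ^ 2 * rm_fs (rm_lps G) x u ^ 2 + q ^ 2) = φ at hφ ⊢
  field_simp
  ring

/-! ### L-RG-SEAM-F10: the integrands -/

theorem rgs_K_J (a : ℝ → ℝ) (δ s : ℝ) (y : E d) : rgsK a δ (rm_J s y) = rm_J (rg1A a δ s) y := by
  unfold rgsK rg1A
  rw [rm_J_zero, rm_tl_J]

theorem rgs_IX_eq (hp : RgsProf k a b ℓ) (hδ : 0 < δ) (hc0 : |c0| ≤ δ)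
    (hG : rm_Met G (rm_box d c0 (3 * δ))) (ho : rm_Orth G (rm_box d c0 (3 * δ)))
    (ht : ContDiffOn ℝ ∞ t (rm_box d c0 (3 * δ))) (hF : ContDiffOn ℝ ∞ F (rgsDom d δ))
    (hu : ‖u‖ < 3 * δ) {s : ℝ} (hs : -(2 * δ) < s) :
    rgsIX G a b δ t Vs e0 F (rm_J s u) = rg1IX (rgsDat G t Vs F u) a b δ e0 s := by
  obtain ⟨hGX, hoX⟩ := rgs_GX_met hp hδ hc0 hG ho
  have hdom : ∀ s', -(2 * δ) < s' → rm_J s' u ∈ rgsDom d δ := fun s' hs' =>
    ⟨by rw [rm_J_zero]; exact hs', by rw [rm_tl_J]; exact hu⟩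
  have hbox : ∀ s', -(2 * δ) < s' → rm_J (rg1A a δ s') u ∈ rm_box d c0 (3 * δ) := fun s' hs' => by
    rw [← rgs_K_J]
    exact rgs_K_mem hp hδ hc0 (hdom s' hs')
  have hv := hdom s hs
  have ht' : ContDiffOn ℝ ∞ (fun v' => t (rgsK a δ v')) (rgsDom d δ) :=
    ht.comp (rgs_K_contDiff hp.a_smooth δ).contDiffOn (fun v hv => rgs_K_mem hp hδ hc0 hv)
  -- the lapse
  have hNt : ∀ s', -(2 * δ) < s' →
      rm_lps (rgsGX G a b δ) (rm_J s' u) = rg1Nt (rgsDat G t Vs F u) a b δ s' := by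
    intro s' hs'
    rw [rgs_GX_lps, rm_J_zero, rgs_K_J, ← rm_lps_sq hG (hbox s' hs')]
    rfl
  have hNpos : 0 < rg1Nt (rgsDat G t Vs F u) a b δ s := by
    rw [← hNt s hs]
    exact rm_lps_pos hGX hv
  -- the weighted mean curvature
  have hP : ∀ s', -(2 * δ) < s' → rm_S (rgsGX G a b δ) (fun v' => t (rgsK a δ v')) (rm_J s' u) =
      rg1P (rgsDat G t Vs F u) a b δ s' := by
    intro s' hs'
    rw [rgs_GX_S hp hδ hc0 hG ht (hdom s' hs'), hNt s' hs', rm_J_zero, rgs_K_J]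
    rfl
  have hdP : pdiff (rm_S (rgsGX G a b δ) (fun v' => t (rgsK a δ v'))) 0 (rm_J s u) =
      deriv (rg1P (rgsDat G t Vs F u) a b δ) s := by
    rw [← rgsd_deriv (rm_da hGX.opn (rm_S_smooth hGX ht') hv)]
    apply Filter.EventuallyEq.deriv_eq
    filter_upwards [Ioi_mem_nhds hs] with s' hs' using hP s' hs'
  -- the second fundamental form
  have hJ : rm_Jsq (rgsGX G a b δ) (rm_J s u) =
      (deriv a (s / δ) * rm_lps G (rm_J (rg1A a δ s) u) / rg1Nt (rgsDat G t Vs F u) a b δ s) ^ 2 *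
        rm_Jsq G (rm_J (rg1A a δ s) u) := by
    unfold rm_Jsq
    rw [rgs_GX_tan, rgs_GX_sff hp hδ hc0 hG hv, hNt s hs, rm_J_zero, rgs_K_J]
    simp only [Matrix.mul_smul, Matrix.smul_mul, Matrix.trace_smul, smul_eq_mul]
    ring
  -- the slice
  have hfs : rm_fs (fun v' => t (rgsK a δ v')) s = rm_fs t (rg1A a δ s) := by
    funext y
    show t (rgsK a δ (rm_J s y)) = t (rm_J (rg1A a δ s) y)
    rw [rgs_K_J]
  have hDL : rm_DscS (rgsGX G a b δ) (fun v' => t (rgsK a δ v')) (rm_J s u) =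
      rm_DscS G t (rm_J (rg1A a δ s) u) := by
    unfold rm_DscS
    rw [rm_J_zero, rm_tl_J, rm_J_zero, rm_tl_J, rgs_GX_sl, hfs]
  have hLam := rgs_GX_lapN (Vs := Vs) (F := F) hp hδ hc0 hG ho ht hu hs
  rw [hNt s hs] at hLam
  -- the drift scalar curvature
  have hD : rm_DscC (rgsGX G a b δ) (fun v' => t (rgsK a δ v')) (rm_J s u) =
      rm_DscS G t (rm_J (rg1A a δ s) u) -
      (deriv a (s / δ) * rm_lps G (rm_J (rg1A a δ s) u) / rg1Nt (rgsDat G t Vs F u) a b δ s) ^ 2 *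
        rm_Jsq G (rm_J (rg1A a δ s) u) - rg1P (rgsDat G t Vs F u) a b δ s ^ 2 -
      2 / rg1Nt (rgsDat G t Vs F u) a b δ s * deriv (rg1P (rgsDat G t Vs F u) a b δ) s -
      2 * rg1Lam (rgsDat G t Vs F u) a b δ s := by
    rw [rm_adm_Dsc hGX hoX hv ht', hDL, hJ, hP s hs, ← hLam]
    unfold rm_e
    rw [hdP, hNt s hs]
    field_simp
    ring
  -- the gradient
  have hgr : gradSqC (rgsGX G a b δ) F (rm_J s u) =
      gradSqC (rm_sl G (rg1A a δ s)) (rm_fs F s) u +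
        deriv (fun s => F (rm_J s u)) s ^ 2 / rg1Nt (rgsDat G t Vs F u) a b δ s ^ 2 := by
    rw [rm_adm_sq hGX hoX hv hF]
    unfold rm_ipS rm_e
    rw [rm_J_zero, rm_tl_J, rgs_GX_sl, hNt s hs, ← rgsd_deriv (rm_da hGX.opn hF hv),
      if_gradSqC_eq]
    field_simp
  -- the density
  have hdet : Real.sqrt (rgsGX G a b δ (rm_J s u)).det =
      rg1Nt (rgsDat G t Vs F u) a b δ s * Real.sqrt (rm_tan G (rm_J (rg1A a δ s) u)).det := by
    rw [rm_blk_det hGX hoX hv, Real.sqrt_mul (rm_G00_pos hGX hv).le, rgs_GX_tan, rgs_K_J,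
      ← hNt s hs]
    rfl
  unfold rgsIX
  rw [hD, hgr, hdet, rgs_K_J]
  unfold rg1IX rg1Q
  simp only [rgsDat]
  ring

theorem rgs_J_mem_dom (hu : ‖u‖ < 3 * δ) {s : ℝ} (hs : -(2 * δ) < s) : rm_J s u ∈ rgsDom d δ := by
  refine ⟨?_, ?_⟩
  · rw [rm_J_zero]; exact hs
  · rw [rm_tl_J]; exact hu

/-- pointwise version of `rm_adm_sq`. -/
theorem rgs_adm_sq_at {U : Set (E (d + 1))} {v : E (d + 1)} (h : rm_Met G U) (ho : rm_Orth G U)
    (hv : v ∈ U) {f : E (d + 1) → ℝ} (hf : DifferentiableAt ℝ f v) :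
    gradSqC G f v = rm_ipS G f f v + rm_e G f v ^ 2 := by
  have hl := rm_lps_pos h hv
  rw [rm_ipS_eq hf hf]
  unfold gradSqC rm_e
  simp only [mul_assoc]
  rw [rm_blk_sum h ho hv (fun i j => pdiff f i v * pdiff f j v)]
  field_simp
  ring

theorem rgs_Rf_J (x : ℝ) (y : E d) : rgsRf (rm_J x y) = rm_J (-x) y := by
  unfold rgsRf
  rw [rm_J_zero, rm_tl_J]

theorem rgs_Rf_contDiff (d : ℕ) : ContDiff ℝ ∞ (rgsRf (d := d)) := by
  unfold rgsRf rm_J
  exact ((rgs_coord0_contDiff d).neg.smul contDiff_const).add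
    ((rm_in d).contDiff.comp (rm_tl d).contDiff)

theorem rgs_IB_eq (hδ : 0 < δ) (hc0 : |c0| ≤ δ)
    (hG : rm_Met G (rm_box d c0 (3 * δ))) (ho : rm_Orth G (rm_box d c0 (3 * δ)))
    (hF : ContDiffOn ℝ ∞ F (rgsDom d δ)) (hu : ‖u‖ < 3 * δ) {x : ℝ}
    (hx : x ∈ Set.Ioo 0 (2 * δ)) :
    rgsIB G t Vs e0 F (rm_J x u) = rg1IB (rgsDat G t Vs F u) e0 x := by
  have hv : rm_J x u ∈ rm_box d c0 (3 * δ) := by
    have h3 := abs_le.1 hc0
    refine ⟨?_, ?_⟩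
    · rw [rm_J_zero, abs_lt]
      constructor <;> linarith [h3.1, h3.2, hx.1, hx.2]
    · rw [rm_tl_J]; exact hu
  have hm : rm_J (-x) u ∈ rgsDom d δ := rgs_J_mem_dom hu (by linarith [hx.2])
  have hFd : DifferentiableAt ℝ F (rm_J (-x) u) := rm_da (rgs_dom_open d δ) hF hm
  have hfd : DifferentiableAt ℝ (fun v' => F (rgsRf v')) (rm_J x u) := by
    have h1 : DifferentiableAt ℝ F (rgsRf (rm_J x u)) := by rw [rgs_Rf_J]; exact hFd
    exact h1.comp _ ((rgs_Rf_contDiff d).differentiable (by simp) _)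
  have hl := rm_lps_pos hG hv
  -- tangential part
  have e1 : rm_ipS G (fun v' => F (rgsRf v')) (fun v' => F (rgsRf v')) (rm_J x u)
      = gradSqC (rm_sl G x) (rm_fs F (-x)) u := by
    unfold rm_ipS
    rw [rm_J_zero, rm_tl_J, if_gradSqC_eq]
    have : rm_fs (fun v' => F (rgsRf v')) x = rm_fs F (-x) := by
      funext y
      show F (rgsRf (rm_J x y)) = F (rm_J (-x) y)
      rw [rgs_Rf_J]
    rw [this]
  -- normal part
  have e2 : pdiff (fun v' => F (rgsRf v')) 0 (rm_J x u) = -deriv (fun s => F (rm_J s u)) (-x) := by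
    rw [← rgsd_deriv hfd]
    have : (fun x' => (fun v' => F (rgsRf v')) (rm_J x' u)) = fun x' => (fun s => F (rm_J s u)) (-x') := by
      funext x'
      simp only [rgs_Rf_J]
    rw [this]
    exact deriv_comp_neg (fun s => F (rm_J s u)) x
  have e3 : Real.sqrt (G (rm_J x u)).det
      = rm_lps G (rm_J x u) * Real.sqrt (rm_tan G (rm_J x u)).det := by
    rw [rm_blk_det hG ho hv, Real.sqrt_mul (rm_G00_pos hG hv).le]
    rfl
  unfold rgsIB rg1IB rgsDat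
  simp only []
  rw [rgs_adm_sq_at hG ho hv hfd, e1, rgs_Rf_J, e3]
  unfold rm_e
  rw [e2]
  field_simp

theorem rgs_IC_eq (hδ : 0 < δ) (hF : ContDiffOn ℝ ∞ F (rgsDom d δ)) (hu : ‖u‖ < 3 * δ) {s : ℝ}
    (hs : 0 < s) : rgsIC G t Vs e0 F (rm_J s u) = rg1IC (rgsDat G t Vs F u) e0 s := by
  have hm : rm_J s u ∈ rgsDom d δ := rgs_J_mem_dom hu (by linarith)
  have hd : deriv (fun s => F (rm_J s u)) s = pdiff F 0 (rm_J s u) :=
    rgsd_deriv (rm_da (rgs_dom_open d δ) hF hm)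
  unfold rgsIC rg1IC rgsDat
  simp only [rm_J_zero, rm_tl_J, hd, rm_DscS]
  rfl

theorem rgs_IS_eq : rgsIS G t F u = rg1IS (rgsDat G t Vs F u) := rfl

/-! ### L-RG-SEAM-F11: a matrix inequality -/

/-- `|ξᵀ P K P ξ| ≤ √(tr (P K P K)) ξᵀ P ξ` (`P = Rᵀ R`: `rm_exists_factor`; `η = R ξ`, `C = R K Rᵀ` symmetric, `|ηᵀ C η| ≤ ‖C‖_F |η|²`). -/
theorem rgs_mat_cs {n : ℕ} {P K : Matrix (Fin n) (Fin n) ℝ} (hP : P.PosSemidef) (hK : K.IsSymm)
    (ξ : Fin n → ℝ) :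
    |dotProduct ξ ((P * K * P).mulVec ξ)| ≤
      Real.sqrt ((P * K * (P * K)).trace) * dotProduct ξ (P.mulVec ξ) := by
  obtain ⟨R, rfl⟩ := rm_exists_factor hP
  have hC : (R * K * R.transpose).transpose = R * K * R.transpose := by
    rw [Matrix.transpose_mul, Matrix.transpose_mul, Matrix.transpose_transpose, hK.eq,
      Matrix.mul_assoc]
  have h1 : dotProduct ξ ((R.transpose * R * K * (R.transpose * R)).mulVec ξ) =
      dotProduct (R.mulVec ξ) ((R * K * R.transpose).mulVec (R.mulVec ξ)) := by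
    have e : R.transpose * R * K * (R.transpose * R) = R.transpose * ((R * K * R.transpose) * R) := by
      simp only [Matrix.mul_assoc]
    rw [e, ← Matrix.mulVec_mulVec, ← Matrix.mulVec_mulVec, Matrix.dotProduct_mulVec,
      Matrix.vecMul_transpose]
  have h2 : (R.transpose * R * K * (R.transpose * R * K)).trace = ((R * K * R.transpose) * (R * K * R.transpose)).trace := by
    have e : R.transpose * R * K * (R.transpose * R * K) = R.transpose * (R * K * R.transpose * R * K) := by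
      simp only [Matrix.mul_assoc]
    rw [e, Matrix.trace_mul_comm]
    simp only [Matrix.mul_assoc]
  have h3 : ((R * K * R.transpose) * (R * K * R.transpose)).trace = ∑ p : Fin n × Fin n, ((R * K * R.transpose) p.1 p.2) ^ 2 := by
    rw [Fintype.sum_prod_type]
    simp only [Matrix.trace, Matrix.diag, Matrix.mul_apply (M := R * K * R.transpose) (N := R * K * R.transpose)]
    refine Finset.sum_congr rfl fun i _ => Finset.sum_congr rfl fun j _ => ?_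
    have : (R * K * R.transpose) j i = (R * K * R.transpose) i j := by
      conv_lhs => rw [← hC]
      rfl
    rw [this, sq]
  have h4 : dotProduct ξ ((R.transpose * R).mulVec ξ) = dotProduct (R.mulVec ξ) (R.mulVec ξ) := by
    rw [← Matrix.mulVec_mulVec, Matrix.dotProduct_mulVec, Matrix.vecMul_transpose]
  rw [h1, h2, h3, h4]
  generalize R * K * R.transpose = C
  generalize R.mulVec ξ = η
  have h5 : dotProduct η (C.mulVec η) = ∑ p : Fin n × Fin n, C p.1 p.2 * (η p.1 * η p.2) := by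
    rw [Fintype.sum_prod_type]
    simp only [dotProduct, Matrix.mulVec, Finset.mul_sum]
    refine Finset.sum_congr rfl fun i _ => Finset.sum_congr rfl fun j _ => ?_
    ring
  have h6 : ∑ p : Fin n × Fin n, (η p.1 * η p.2) ^ 2 = (dotProduct η η) ^ 2 := by
    rw [Fintype.sum_prod_type, sq (dotProduct η η)]
    simp only [dotProduct, Finset.sum_mul_sum]
    refine Finset.sum_congr rfl fun i _ => Finset.sum_congr rfl fun j _ => ?_
    ring
  have h7 : 0 ≤ dotProduct η η := by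
    simp only [dotProduct]
    exact Finset.sum_nonneg fun i _ => mul_self_nonneg _
  have h8 := Finset.sum_mul_sq_le_sq_mul_sq (Finset.univ : Finset (Fin n × Fin n))
    (fun p => C p.1 p.2) (fun p => η p.1 * η p.2)
  rw [h5]
  rw [h6] at h8
  calc |∑ p : Fin n × Fin n, C p.1 p.2 * (η p.1 * η p.2)|
      ≤ Real.sqrt ((∑ p : Fin n × Fin n, C p.1 p.2 ^ 2) * dotProduct η η ^ 2) :=
        Real.abs_le_sqrt h8
    _ = Real.sqrt (∑ p : Fin n × Fin n, C p.1 p.2 ^ 2) * dotProduct η η := by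
        rw [Real.sqrt_mul (Finset.sum_nonneg fun p _ => sq_nonneg _), Real.sqrt_sq h7]

/-! ### L-RG-SEAM-F12: the data are admissible -/

theorem rgs_dat_ok (hδ : 0 < δ) (hc0 : |c0| ≤ δ)
    (hG : rm_Met G (rm_box d c0 (3 * δ))) (ho : rm_Orth G (rm_box d c0 (3 * δ)))
    (ht : ContDiffOn ℝ ∞ t (rm_box d c0 (3 * δ))) (hVs : ContinuousOn Vs (rm_box d c0 (3 * δ)))
    (hbd : ∀ v ∈ rm_box d c0 (3 * δ), RgsBdC G t Vs B v)
    (hunit : ∀ v ∈ rm_box d c0 (3 * δ), v 0 = 0 → G v 0 0 = 1)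
    (hF : ContDiffOn ℝ ∞ F (rgsDom d δ)) (hL : ∀ v ∈ rgsDom d δ, L ≤ v 0 → F v = 0)
    (hu : ‖u‖ < 3 * δ) : (rgsDat G t Vs F u).Ok δ B L := by
  have hI : ∀ x ∈ rg1I δ, rm_J x u ∈ rm_box d c0 (3 * δ) := by
    intro x hx
    refine ⟨?_, by rw [rm_tl_J]; exact hu⟩
    rw [rm_J_zero]
    have h1 : |x| < 2 * δ := abs_lt.2 ⟨hx.1, hx.2⟩
    calc |x - c0| ≤ |x| + |c0| := abs_sub _ _
      _ < 3 * δ := by linarith
  have hK : ∀ s ∈ Set.Ioi (-(2 * δ)), rm_J s u ∈ rgsDom d δ := fun s hs =>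
    ⟨by rw [rm_J_zero]; exact hs, by rw [rm_tl_J]; exact hu⟩
  have hW : IsOpen (rgsDom d δ) := by
    have h1 : Continuous fun w : E (d + 1) => w 0 :=
      (EuclideanSpace.proj (0 : Fin (d + 1)) : E (d + 1) →L[ℝ] ℝ).continuous
    have h2 : Continuous fun w : E (d + 1) => ‖rm_tl d w‖ := (rm_tl d).continuous.norm
    exact (isOpen_lt continuous_const h1).inter (isOpen_lt h2 continuous_const)
  have hN := rm_lps_smooth hG
  have h0I : (0 : ℝ) ∈ rg1I δ := ⟨by linarith, by linarith⟩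
  exact
  { N_sm := rgsd_comp_smooth hI hN
    rho_sm := rgsd_comp_smooth hI (rgsdRho_smooth hG ht)
    S_sm := rgsd_comp_smooth hI (rm_S_smooth hG ht)
    DM_c := rgsd_comp_cont hI (rm_Dsc_smooth hG ht).continuousOn
    DL_c := rgsd_comp_cont hI (rm_DscS_smooth hG ho ht).continuousOn
    Jq_c := rgsd_comp_cont hI (rm_Jsq_smooth hG).continuousOn
    LN_c := rgsd_comp_cont hI
      ((rm_lapS_smooth hG ho hN).sub (rm_ipS_smooth hG ht hN)).continuousOn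
    sN_c := rgsd_comp_cont hI (rm_ipS_smooth hG hN hN).continuousOn
    Vs_c := rgsd_comp_cont hI hVs
    Gam_c := rgsd_Gam_cont hG hW hF hI hK
    f_sm := rgsd_comp_smooth hK hF
    N_pos := fun x hx => rm_lps_pos hG (hI x hx)
    rho_pos := fun x hx => rgsdRho_pos hG t (hI x hx)
    unit := by
      show rm_lps G (rm_J 0 u) = 1
      unfold rm_lps
      rw [hunit _ (hI 0 h0I) (rm_J_zero 0 u), Real.sqrt_one]
    drho := fun x hx => rgsd_drho hG ht (hI x hx)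
    adm := fun x hx => rgsd_adm hG ho ht (hI x hx)
    bN := fun x hx => by
      have := rgsd_e_div (u := u) (x := x) G (rm_da hG.opn hN (hI x hx))
      show |deriv (fun x => rm_lps G (rm_J x u)) x / rm_lps G (rm_J x u) ^ 2| ≤ B
      rw [this]
      exact (hbd _ (hI x hx)).dN
    bS := fun x hx => (hbd _ (hI x hx)).S
    bdS := fun x hx => by
      have := rgsd_e_div (u := u) (x := x) G (rm_da hG.opn (rm_S_smooth hG ht) (hI x hx))
      show |deriv (fun x => rm_S G t (rm_J x u)) x / rm_lps G (rm_J x u) ^ 2| ≤ B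
      rw [this]
      exact (hbd _ (hI x hx)).dS
    bDM := fun x hx => (hbd _ (hI x hx)).DM
    bDL := fun x hx => (hbd _ (hI x hx)).DL
    bLN := fun x hx => (hbd _ (hI x hx)).lapN
    sN0 := fun x hx => rm_ipS_self_nonneg hG (hI x hx) _
    bsN := fun x hx => (hbd _ (hI x hx)).sqN
    Jq0 := fun x hx => rm_Jsq_nonneg hG (hI x hx)
    Vs0 := fun x hx => (hbd _ (hI x hx)).Vs0
    VsB := fun x hx => (hbd _ (hI x hx)).VsB
    Gam0 := fun x hx s _ => rgsd_Gam_nonneg hG (hI x hx) F s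
    Gam_d := fun x hx s _ => rgsd_Gam_d hG (hI x hx) F s fun ξ =>
      rgs_mat_cs (rm_tan_pos hG (hI x hx)).inv.posSemidef (rm_sff_isSymm hG (hI x hx)) ξ
    Gam_L := fun x _ s hs hLs => rgsd_Gam_zero hW (hK s hs)
      (fun v hv hvs => hL v hv (by rw [hvs]; exact hLs)) _
    f_L := fun s hs hLs => hL _ (hK s hs) (by rw [rm_J_zero]; exact hLs) }

/-! ## 5. the fibre inequality (GLUE) -/

theorem rgs_fibre_pf (hp : RgsProf k a b ℓ) (hc0 : |c0| ≤ δ)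
    (hG : rm_Met G (rm_box d c0 (3 * δ))) (ho : rm_Orth G (rm_box d c0 (3 * δ)))
    (ht : ContDiffOn ℝ ∞ t (rm_box d c0 (3 * δ))) (hVs : ContinuousOn Vs (rm_box d c0 (3 * δ)))
    (hbd : ∀ v ∈ rm_box d c0 (3 * δ), RgsBdC G t Vs B v)
    (hunit : ∀ v ∈ rm_box d c0 (3 * δ), v 0 = 0 → G v 0 0 = 1)
    (hsm : RgsSmall e0 B δ) (he0 : 0 < e0)
    (hF : ContDiffOn ℝ ∞ F (rgsDom d δ)) (hL : ∀ v ∈ rgsDom d δ, L ≤ v 0 → F v = 0)
    (hu : ‖u‖ < 3 * δ) :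
    (∫ x in Set.Ioo (0 : ℝ) (3 * δ / 2), rgsIB G t Vs e0 F (rm_J x u)) +
        (∫ s in Set.Ioi (0 : ℝ), rgsIC G t Vs e0 F (rm_J s u)) + rgsIS G t F u ≤
      ∫ s in Set.Ioi (-(3 * δ / 2)), rgsIX G a b δ t Vs e0 F (rm_J s u) := by
  have hδ : 0 < δ := hsm.1
  have hD := rgs_dat_ok hδ hc0 hG ho ht hVs hbd hunit hF hL hu
  have h1 : ∫ x in Set.Ioo (0 : ℝ) (3 * δ / 2), rgsIB G t Vs e0 F (rm_J x u) =
      ∫ x in Set.Ioo (0 : ℝ) (3 * δ / 2), rg1IB (rgsDat G t Vs F u) e0 x :=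
    setIntegral_congr_fun measurableSet_Ioo fun x hx =>
      rgs_IB_eq hδ hc0 hG ho hF hu ⟨hx.1, by linarith [hx.2]⟩
  have h2 : ∫ s in Set.Ioi (0 : ℝ), rgsIC G t Vs e0 F (rm_J s u) =
      ∫ s in Set.Ioi (0 : ℝ), rg1IC (rgsDat G t Vs F u) e0 s :=
    setIntegral_congr_fun measurableSet_Ioi fun s hs => rgs_IC_eq hδ hF hu hs
  have h3 : ∫ s in Set.Ioi (-(3 * δ / 2)), rgsIX G a b δ t Vs e0 F (rm_J s u) =
      ∫ s in Set.Ioi (-(3 * δ / 2)), rg1IX (rgsDat G t Vs F u) a b δ e0 s :=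
    setIntegral_congr_fun measurableSet_Ioi fun s hs =>
      rgs_IX_eq hp hδ hc0 hG ho ht hF hu (by have : -(3 * δ / 2) < s := hs; linarith)
  rw [h1, h2, h3, rgs_IS_eq (Vs := Vs)]
  exact rg1_main hp hD hsm he0

end chart

end Claimed.Agent.R315
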