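import Claimed.Agent.R315.Rg.SeamDefs
import Claimed.Agent.R315.Rg.SeamGa

/-!
# Row 315, package Rg, unit SEAM-G (`rgs_side_gap` from `rgs_fibre`), file 1 of 4: DATA, FIBRES, PARAMETRISATIONS   (architect: helper190; prefix `rgsg_`, namespace `RgsgDat`)

GOAL of the unit: `rgsg_side_gap` (`Rg/SeamG4.lean`) = `rgs_side_gap` of `Rg/SeamTop.lean`, with the fibre inequality (`RgsgFib d`) and a profile `RgsProf k a b ℓ` as hypotheses.

## The data
`S : RgsgDat d V` bundles `(M, h, t, U, w, Vs, P, k, a, b, l, e, e0)`, `S.Ok` the standing hypotheses.  `g : RgsgCh d V` bundles a chart `(x0, ψ, B)`;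
`S.Good g` : `RgsChart ... g.x0 g.ψ g.B` and `|U x0| ≤ w x0`.   `δ = S.dl g = w x0`,  `S.bx g = rm_box d (U x0) (3 δ) ⊇ {|v 0| < 2 δ, |tl v| < 3 δ}`,  `S.Ps g = rgsPsi g.ψ a b δ e` on `rgsDom d δ`.
* `S.T`  = tube  = union of the `g.ψ '' {v ∈ bx | |v 0| < 2 δ}`, `g` good;
* `S.F`  = flat region = `{x ∈ M | w x < U x, M ⊆ P near x}`;
* `S.O`  = `{z | z.1 ∈ Q for some open Q with M ∩ Q ⊆ T ∪ F}`, `S.Y = S.X ∩ S.O = {z ∈ X | z.1 ∈ T ∪ F}` (`mem_Y`): THE manifold of the unit.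

## The plan of the unit
(G1, this file) **fibre consistency** `RgsgDat.fc`: two good charts which meet have the same `δ` and the same fibres `c ↦ ψ (c, u)`, `|c| < 2 δ` (the transition map preserves `v 0` and both matrices have no shift);
  consequence `RgsgDat.cons` for the parametrisations `S.Ps g` of `Y`.  `S.Ps g` and `u ↦ (ψ u, 0)` are parametrisations of `Y`; `Y_geo`.
(G2) the raw pair `(vb, vc)` of a test function `φ` on `Y`: `S.Spec φ vb vc`; existence by a partition of unity (the pair depends LINEARLY on `φ`) and an explicit formula in ONE chart.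
(G3) a countable family of CELLS `(g i, C i)`, `C i ⊆ E d` measurable, such that the `ψ_i ({0} × C i)` are a partition of `S ∩ T`; by `fc` the tubes over the cells are partitions of the tube parts of `Y`, of `{U > 0}`;
  on every cell: integrals in the chart + Fubini + `RgsgFib`.
(G4) the flat rest (`x ↦ (x, 0)` is an isometry; `.2 |dvb|² + 97 e0 vb² ≥ 0`), the sum, `RgsChart.neg`.
-/

set_option autoImplicit false
set_option linter.unusedSectionVars false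
set_option linter.unusedVariables false
open scoped ContDiff ENNReal Topology
open MeasureTheory Claims.C0499 Set Filter

namespace Claimed.Agent.R315

/-! ## 0. the data -/

/-- the data of one rounded side. -/
structure RgsgDat (d : ℕ) (V : Type) [NormedAddCommGroup V] [NormedSpace ℝ V] where
  /-- the manifold (dimension `d + 1`) -/
  M : Set V
  /-- the metric -/
  h : Ten V
  /-- the drift -/
  t : V → ℝ
  /-- the defining function -/
  U : V → ℝ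
  /-- the width -/
  w : V → ℝ
  /-- the potential -/
  Vs : V → ℝ
  /-- the region of the raw inequality -/
  P : Set V
  /-- the corner -/
  k : ℝ → ℝ
  /-- first component of the profile -/
  a : ℝ → ℝ
  /-- second component of the profile -/
  b : ℝ → ℝ
  /-- length parameter of the profile -/
  l : ℝ
  /-- orientation -/
  e : ℝ
  /-- the gap -/
  e0 : ℝ

/-- a chart `(x0, ψ, B)`. -/
structure RgsgCh (d : ℕ) (V : Type) where
  /-- centre -/
  x0 : V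
  /-- the lapse parametrisation -/
  ψ : E (d + 1) → V
  /-- bound of the invariants -/
  B : ℝ

/-- **the fibre inequality** (`rgs_fibre` of `Rg/SeamTop.lean`) as a hypothesis. -/
def RgsgFib (d : ℕ) : Prop :=
  ∀ (G : rm_MF (d + 1)) (c0 δ B e0 ℓ L : ℝ) (t Vs F : E (d + 1) → ℝ) (k a b : ℝ → ℝ),
    RgsProf k a b ℓ → |c0| ≤ δ →
    rm_Met G (rm_box d c0 (3 * δ)) → rm_Orth G (rm_box d c0 (3 * δ)) →
    ContDiffOn ℝ ∞ t (rm_box d c0 (3 * δ)) → ContinuousOn Vs (rm_box d c0 (3 * δ)) →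
    (∀ v ∈ rm_box d c0 (3 * δ), RgsBdC G t Vs B v) →
    (∀ v ∈ rm_box d c0 (3 * δ), v 0 = 0 → G v 0 0 = 1) →
    RgsSmall e0 B δ → 0 < e0 →
    ContDiffOn ℝ ∞ F (rgsDom d δ) → (∀ v ∈ rgsDom d δ, L ≤ v 0 → F v = 0) →
    ∀ u : E d, ‖u‖ < 3 * δ →
    (∫ x in Set.Ioo (0 : ℝ) (3 * δ / 2), rgsIB G t Vs e0 F (rm_J x u)) +
        (∫ s in Set.Ioi (0 : ℝ), rgsIC G t Vs e0 F (rm_J s u)) + rgsIS G t F u ≤
      ∫ s in Set.Ioi (-(3 * δ / 2)), rgsIX G a b δ t Vs e0 F (rm_J s u)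

variable {d : ℕ} {V : Type} [NormedAddCommGroup V] [NormedSpace ℝ V]

namespace RgsgDat

variable (S : RgsgDat d V)

/-- the standing hypotheses. -/
structure Ok : Prop where
  geo : CtGeo (d + 1) S.M S.h S.t
  U_sm : SmoothAlong (d + 1) S.M S.U
  unit : ∀ x ∈ S.M, S.U x = 0 → gradSq (d + 1) S.M S.h S.U x = 1
  w_cont : ContinuousOn S.w S.M
  w_pos : ∀ x ∈ S.M, 0 < S.w x
  Vs_cont : ContinuousOn S.Vs S.M
  corner : IsCorner S.k
  prof : RgsProf S.k S.a S.b S.l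
  e_pm : S.e = 1 ∨ S.e = -1
  e0_pos : 0 < S.e0

/-- the rounded side. -/
def X : Set (V × ℝ) := rgsX S.M S.U S.w S.k S.e

/-- the width `δ` of a chart. -/
abbrev dl (g : RgsgCh d V) : ℝ := S.w g.x0

/-- the domain of a chart. -/
abbrev bx (g : RgsgCh d V) : Set (E (d + 1)) := rm_box d (S.U g.x0) (3 * S.w g.x0)

/-- good charts. -/
def Good (g : RgsgCh d V) : Prop :=
  RgsChart d S.M S.h S.t S.U S.w S.Vs S.P S.e0 g.x0 g.ψ g.B ∧ |S.U g.x0| ≤ S.w g.x0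

/-- the parametrisation of the rounded side over a chart. -/
noncomputable abbrev Ps (g : RgsgCh d V) : E (d + 1) → V × ℝ :=
  rgsPsi g.ψ S.a S.b (S.w g.x0) S.e

/-- the tube. -/
def T : Set V := {x | ∃ g, S.Good g ∧ ∃ v ∈ S.bx g, |v 0| < 2 * S.dl g ∧ g.ψ v = x}

/-- the flat region. -/
def F : Set V := {x | x ∈ S.M ∧ S.w x < S.U x ∧ ∃ N ∈ 𝓝 x, N ∩ S.M ⊆ S.P}

/-- the open set of `rgs_side_gap`. -/
def O : Set (V × ℝ) := {z | ∃ Q : Set V, IsOpen Q ∧ z.1 ∈ Q ∧ S.M ∩ Q ⊆ S.T ∪ S.F}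

/-- the manifold of the unit. -/
def Y : Set (V × ℝ) := S.X ∩ S.O

/-- the part of `T ∪ F` over which `Y` is flat. -/
def Nf : Set V := {x | x ∈ S.T ∪ S.F ∧ S.w x < S.U x}

variable {S}

theorem mem_X {z : V × ℝ} :
    z ∈ S.X ↔ z.1 ∈ S.M ∧ S.k (S.U z.1 / S.w z.1) + S.k (S.e * z.2 / S.w z.1) = 1 := Iff.rfl

theorem mem_T {x : V} :
    x ∈ S.T ↔ ∃ g, S.Good g ∧ ∃ v ∈ S.bx g, |v 0| < 2 * S.dl g ∧ g.ψ v = x := Iff.rfl

theorem mem_F {x : V} : x ∈ S.F ↔ x ∈ S.M ∧ S.w x < S.U x ∧ ∃ N ∈ 𝓝 x, N ∩ S.M ⊆ S.P := Iff.rfl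

theorem mem_O {z : V × ℝ} :
    z ∈ S.O ↔ ∃ Q : Set V, IsOpen Q ∧ z.1 ∈ Q ∧ S.M ∩ Q ⊆ S.T ∪ S.F := Iff.rfl

theorem mem_Nf {x : V} : x ∈ S.Nf ↔ x ∈ S.T ∪ S.F ∧ S.w x < S.U x := Iff.rfl

theorem Y_eq : S.Y = S.X ∩ S.O := rfl

theorem Ps_apply (g : RgsgCh d V) (v : E (d + 1)) :
    S.Ps g v = (g.ψ (rgsK S.a (S.dl g) v), S.e * (S.dl g * S.b (v 0 / S.dl g))) := rfl

end RgsgDat

/-! ## 1. the profile   (package L-RG-SEAMG-PROF) -/

section prof

variable {k a b : ℝ → ℝ} {ℓ : ℝ}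

theorem rgsg_prof_anti (hp : RgsProf k a b ℓ) : Antitone a :=
  antitone_of_deriv_nonpos (hp.a_smooth.differentiable (by simp)) hp.a_anti

theorem rgsg_prof_mono (hp : RgsProf k a b ℓ) : Monotone b :=
  monotone_of_deriv_nonneg (hp.b_smooth.differentiable (by simp)) hp.b_mono

/-- `b - a` is strictly increasing. -/
theorem rgsg_prof_strict (hp : RgsProf k a b ℓ) : StrictMono fun s => b s - a s := by
  have hda : Differentiable ℝ a := hp.a_smooth.differentiable (by simp)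
  have hdb : Differentiable ℝ b := hp.b_smooth.differentiable (by simp)
  refine strictMono_of_deriv_pos fun s => ?_
  have h1 : deriv (fun s => b s - a s) s = deriv b s - deriv a s := deriv_fun_sub (hdb s) (hda s)
  rw [h1]
  have h2 := hp.speed s
  have h3 := hp.a_anti s
  have h4 := hp.b_mono s
  by_contra hcon
  have h5 : deriv b s = 0 := by linarith
  have h6 : deriv a s = 0 := by linarith
  rw [h5, h6] at h2
  norm_num at h2

/-- `b - a` is strictly increasing with derivative `|a'| + |b'| ≥ 1`. -/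
theorem rgsg_prof_inj (hp : RgsProf k a b ℓ) {s s' : ℝ} (ha : a s = a s') (hb : b s = b s') :
    s = s' :=
  (rgsg_prof_strict hp).injective (by show b s - a s = b s' - a s'; rw [ha, hb])

theorem rgsg_prof_a_nonneg (hp : RgsProf k a b ℓ) (s : ℝ) : 0 ≤ a s := by
  have h1 := rgsg_prof_anti hp (le_max_left s ℓ)
  rwa [(hp.right _ (le_max_right s ℓ)).1] at h1

theorem rgsg_prof_b_nonneg (hp : RgsProf k a b ℓ) (s : ℝ) : 0 ≤ b s := by
  have h1 := rgsg_prof_mono hp (min_le_left s (-1))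
  rwa [(hp.left _ (min_le_right s (-1))).2] at h1

theorem rgsg_prof_a_le_one (hp : RgsProf k a b ℓ) {s : ℝ} (hs : -1 ≤ s) : a s ≤ 1 := by
  have h1 := rgsg_prof_anti hp hs
  rw [(hp.left _ le_rfl).1] at h1
  linarith

theorem rgsg_prof_a_lt (hp : RgsProf k a b ℓ) {c : ℝ} (hc : 1 < c) {s : ℝ} : a s < c ↔ -c < s := by
  rcases le_total s (-1) with hs | hs
  · rw [(hp.left s hs).1]
    constructor <;> intro h <;> linarith
  · have h1 := rgsg_prof_a_le_one hp hs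
    constructor <;> intro _ <;> linarith

theorem rgsg_prof_of_one_lt (hp : RgsProf k a b ℓ) {s : ℝ} (h : 1 < a s) : s < -1 := by
  by_contra hcon
  have := rgsg_prof_a_le_one hp (not_lt.1 hcon)
  linarith

/-- a continuous left inverse of `s ↦ (a s, b s)`, as a function of `b - a`.
PLAN: `m = b - a` is smooth, `m' ≥ 1` (`|a'| + |b'| ≥ √(a'² + b'²) = 1`), `m s = s` for `s ≤ -1`, `m s = s - ℓ + 1` for `s ≥ ℓ`: strictly monotone, continuous, surjective: an order isomorphism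
(`StrictMono.orderIsoOfSurjective`), whose inverse is continuous (`OrderIso.continuous`). -/
theorem rgsg_prof_inv (hp : RgsProf k a b ℓ) :
    ∃ σ : ℝ → ℝ, Continuous σ ∧ ∀ s, σ (b s - a s) = s := by
  have hsm := rgsg_prof_strict hp
  have hc : Continuous fun s => b s - a s := hp.b_smooth.continuous.sub hp.a_smooth.continuous
  have hsurj : Function.Surjective fun s => b s - a s := by
    intro y
    have h1 : (fun s => b s - a s) (min y (-1)) ≤ y := by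
      show b _ - a _ ≤ y
      rw [(hp.left _ (min_le_right y (-1))).1, (hp.left _ (min_le_right y (-1))).2]
      have := min_le_left y (-1)
      linarith
    have h2 : y ≤ (fun s => b s - a s) (max (y + ℓ) ℓ) := by
      show y ≤ b _ - a _
      rw [(hp.right _ (le_max_right (y + ℓ) ℓ)).1, (hp.right _ (le_max_right (y + ℓ) ℓ)).2]
      have := le_max_left (y + ℓ) ℓ
      linarith
    have h3 : min y (-1) ≤ max (y + ℓ) ℓ := by
      have h4 := min_le_right y (-1)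
      have h5 := le_max_right (y + ℓ) ℓ
      have h6 := hp.l0
      linarith
    obtain ⟨s, _, hs⟩ := intermediate_value_Icc h3 hc.continuousOn ⟨h1, h2⟩
    exact ⟨s, hs⟩
  let e := hsm.orderIsoOfSurjective _ hsurj
  refine ⟨e.symm, e.symm.continuous, fun s => ?_⟩
  exact e.symm_apply_apply s

end prof

/-! ## 2. fibres of lapse parametrisations   (package L-RG-SEAMG-FIB) -/

section fib

variable [FiniteDimensional ℝ V] {M : Set V} {h : Ten V} {q : V → ℝ} {x0 x0' : V}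
  {ψ ψ' : E (d + 1) → V} {r r' : ℝ} {v v' : E (d + 1)}

/-- **the transition map between two lapse parametrisations does not move the fibres**, local form.
PLAN.  `θ = if_tr ψ' (box') ψ` (`= ψ'⁻¹ ∘ ψ`) is smooth on the open set `if_trDom ψ box ψ' box' ∋ v` (`if_isOpen_trDom`, `if_tr_contDiffAt`, `if_tr_spec : ψ' (θ w) = ψ w`, `if_tr_mem`), `θ v = v'`.
(1) `(θ w) 0 = w 0` (`lvl` twice).  (2) `cm h ψ w = rm_pull θ (cm h ψ') w` (`rm_cm_comp`, `ψ = ψ' ∘ θ` near `w`), i.e. `G w i j = G' (θ w) (dθ e_i) (dθ e_j)` (`if_bil`).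
(3) `X = dθ_w e_0` has `X 0 = 1`, `Y_j = dθ_w e_{j+1}` has `Y_j 0 = 0` by (1); `dθ_w` is injective (`G w` is positive definite, or `if_imm` for `ψ = ψ' ∘ θ`), so the `Y_j` are a basis of `{ξ | ξ 0 = 0}` (dimension `d`);
`G' (X, Y_j) = G w 0 (j+1) = 0` and `G' (e_0, ξ) = 0` for `ξ 0 = 0` (`orth` twice): `X - e_0` lies in `{ξ 0 = 0}` and is `G'`-orthogonal to it, hence `X = e_0`.
(4) `c ↦ θ (rm_J c (tl v))` has derivative `e_0` as long as `rm_J c (tl v)` stays in the open set: on a small interval around `v 0` it equals `rm_J c (tl v')`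
(`is_const_of_deriv_eq_zero`-type argument on an interval for `c ↦ θ (rm_J c (tl v)) - rm_J c (tl v')`: `Convex.is_const_of_fderivWithin_eq_zero` / `IsOpen.is_const_of_deriv_eq_zero` on a ball).
ALTERNATIVE for (3): `rm_glob_ip` on the open piece `M ∩ O'` for the coordinate functions of `ψ'⁻¹`. -/
theorem rgsg_lapse_fibre_loc (hh : IsMetricOn (d + 1) M h) (hL : rm_LapseP M h q x0 ψ r)
    (hL' : rm_LapseP M h q x0' ψ' r') (hv : v ∈ rm_box d (q x0) r)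
    (hv' : v' ∈ rm_box d (q x0') r') (he : ψ v = ψ' v') :
    ∀ᶠ c in 𝓝 (v 0), ψ (rm_J c (rm_tl d v)) = ψ' (rm_J c (rm_tl d v')) := by
  have h0 : v' 0 = v 0 := by rw [← hL'.lvl v' hv', ← he, hL.lvl v hv]
  refine hL.fibre_loc hh hL' (by rw [rm_J_tl]; exact hv) (by rw [← h0, rm_J_tl]; exact hv') ?_
  rw [rm_J_tl, ← h0, rm_J_tl]; exact he

/-- **fibre consistency for lapse parametrisations.**
PLAN: `I = {c | |c - q x0| < r ∧ |c - q x0'| < r'}` is an open interval (preconnected: intersection of two `Ioo`), `v 0 = v' 0 ∈ I` (`lvl`).  `A = {c ∈ I | ψ (c, tl v) = ψ' (c, tl v')}` is relatively closed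
(continuity of `ψ`, `ψ'` on the boxes), relatively open (`rgsg_lapse_fibre_loc` at the points `rm_J c (tl v)`, `rm_J c (tl v')`), nonempty: `IsPreconnected.subset_of_closure_inter_subset` or `IsPreconnected.induction`-type lemma
(`isPreconnected_Ioo`, `IsClopen`/`IsPreconnected.subset_clopen` in the subtype). -/
theorem rgsg_lapse_fibre (hh : IsMetricOn (d + 1) M h) (hL : rm_LapseP M h q x0 ψ r)
    (hL' : rm_LapseP M h q x0' ψ' r') (hv : v ∈ rm_box d (q x0) r)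
    (hv' : v' ∈ rm_box d (q x0') r') (he : ψ v = ψ' v') {c : ℝ} (hc : |c - q x0| < r)
    (hc' : |c - q x0'| < r') :
    ψ (rm_J c (rm_tl d v)) = ψ' (rm_J c (rm_tl d v')) := by
  have h0 : v' 0 = v 0 := by rw [← hL'.lvl v' hv', ← he, hL.lvl v hv]
  refine hL.fibre_eq hh hL' (a := v 0) (by rw [rm_J_tl]; exact hv)
    (by rw [← h0, rm_J_tl]; exact hv') (by rw [rm_J_tl, ← h0, rm_J_tl]; exact he)
    ⟨by rw [rm_J_zero]; exact hc, by rw [rm_tl_J]; exact hv.2⟩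
    ⟨by rw [rm_J_zero]; exact hc', by rw [rm_tl_J]; exact hv'.2⟩

end fib

/-! ## 2b. calculus of `rgsK` (tools for `Ps_param`, `Ps_cm`; helper266) -/

theorem rgsg_dom_open (d : ℕ) (δ : ℝ) : IsOpen (rgsDom d δ) := by
  have h1 : Continuous fun w : E (d + 1) => w 0 :=
    (EuclideanSpace.proj (0 : Fin (d + 1)) : E (d + 1) →L[ℝ] ℝ).continuous
  have h2 : Continuous fun w : E (d + 1) => ‖rm_tl d w‖ := (rm_tl d).continuous.norm
  exact (isOpen_lt continuous_const h1).inter (isOpen_lt h2 continuous_const)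

theorem rgsg_coord0_contDiff (d : ℕ) : ContDiff ℝ ∞ fun w : E (d + 1) => w 0 :=
  (EuclideanSpace.proj (0 : Fin (d + 1)) : E (d + 1) →L[ℝ] ℝ).contDiff

theorem rgsg_K_contDiff {a : ℝ → ℝ} (ha : ContDiff ℝ ∞ a) (δ : ℝ) :
    ContDiff ℝ ∞ (rgsK (d := d) a δ) := by
  unfold rgsK rm_J
  exact ((contDiff_const.mul (ha.comp ((rgsg_coord0_contDiff d).div_const δ))).smul
    contDiff_const).add ((rm_in d).contDiff.comp (rm_tl d).contDiff)

/-- derivative of `w ↦ δ f (w 0 / δ)`. -/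
theorem rgsg_scaled_hasFDerivAt {f : ℝ → ℝ} (hf : ContDiff ℝ ∞ f) {δ : ℝ} (hδ : 0 < δ)
    (v : E (d + 1)) :
    HasFDerivAt (fun w : E (d + 1) => δ * f (w 0 / δ))
      (deriv f (v 0 / δ) • (EuclideanSpace.proj (0 : Fin (d + 1)) : E (d + 1) →L[ℝ] ℝ)) v := by
  have h0 : HasFDerivAt (fun w : E (d + 1) => w 0)
      (EuclideanSpace.proj (0 : Fin (d + 1)) : E (d + 1) →L[ℝ] ℝ) v :=
    (EuclideanSpace.proj (0 : Fin (d + 1)) : E (d + 1) →L[ℝ] ℝ).hasFDerivAt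
  have h1 : HasFDerivAt (fun w : E (d + 1) => w 0 / δ)
      (δ⁻¹ • (EuclideanSpace.proj (0 : Fin (d + 1)) : E (d + 1) →L[ℝ] ℝ)) v := by
    have := h0.const_mul δ⁻¹
    refine this.congr_of_eventuallyEq (Filter.Eventually.of_forall fun w => ?_)
    simp [div_eq_inv_mul]
  have h2 : HasDerivAt f (deriv f (v 0 / δ)) (v 0 / δ) :=
    ((hf.differentiable (by simp)) _).hasDerivAt
  have h3 := (h2.comp_hasFDerivAt v h1).const_mul δ
  refine h3.congr_fderiv ?_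
  ext X
  simp only [smul_apply, smul_eq_mul]
  field_simp

theorem rgsg_K_hasFDerivAt {a : ℝ → ℝ} (ha : ContDiff ℝ ∞ a) {δ : ℝ} (hδ : 0 < δ)
    (v : E (d + 1)) :
    HasFDerivAt (rgsK (d := d) a δ)
      ((deriv a (v 0 / δ) • (EuclideanSpace.proj (0 : Fin (d + 1)) : E (d + 1) →L[ℝ] ℝ)).smulRight
        (eb 0) + (rm_in d).comp (rm_tl d)) v :=
  ((rgsg_scaled_hasFDerivAt ha hδ v).smul_const (eb (0 : Fin (d + 1)))).add
    (((rm_in d).comp (rm_tl d)).hasFDerivAt (x := v))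

/-- the derivative of `rgsK` on the basis. -/
theorem rgsg_K_deriv_eb (c : ℝ) (i : Fin (d + 1)) :
    ((c • (EuclideanSpace.proj (0 : Fin (d + 1)) : E (d + 1) →L[ℝ] ℝ)).smulRight
        (eb 0) + (rm_in d).comp (rm_tl d) : E (d + 1) →L[ℝ] E (d + 1)) (eb i) =
      (if i = 0 then c else 1) • eb i := by
  refine Fin.cases ?_ (fun j => ?_) i
  · have := rm_tl_eb0 (d := d)
    simp only [add_apply, ContinuousLinearMap.smulRight_apply,
      smul_apply, ContinuousLinearMap.comp_apply, this, map_zero, add_zero]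
    simp
  · have h1 : rm_tl d (eb j.succ) = eb j := by
      rw [← rm_in_eb]
      have := rm_tl_J (0 : ℝ) (eb j : E d)
      simpa [rm_J] using this
    simp only [add_apply, ContinuousLinearMap.smulRight_apply,
      smul_apply, ContinuousLinearMap.comp_apply, h1, rm_in_eb]
    simp [Fin.succ_ne_zero]

namespace RgsgDat

variable {S : RgsgDat d V} {g g' : RgsgCh d V}

/-! ## 3. good charts   (package L-RG-SEAMG-GOOD) -/

theorem Good.dl_pos (hg : S.Good g) : 0 < S.dl g := hg.1.small.1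

theorem Good.lapse (hg : S.Good g) : rm_LapseP S.M S.h S.U g.x0 g.ψ (3 * S.dl g) := hg.1.lapse

theorem Good.par (hg : S.Good g) : IsParam S.M g.ψ (S.bx g) := hg.1.lapse.par

theorem Good.lvl (hg : S.Good g) {v : E (d + 1)} (hv : v ∈ S.bx g) : S.U (g.ψ v) = v 0 :=
  hg.1.lapse.lvl v hv

theorem Good.flat (hg : S.Good g) {v : E (d + 1)} (hv : v ∈ S.bx g) : S.w (g.ψ v) = S.dl g :=
  hg.1.flat v hv

theorem Good.mem_M (hg : S.Good g) {v : E (d + 1)} (hv : v ∈ S.bx g) : g.ψ v ∈ S.M :=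
  if_mem hg.par hv

theorem Good.mem_P (hg : S.Good g) {v : E (d + 1)} (hv : v ∈ S.bx g) : g.ψ v ∈ S.P :=
  hg.1.mem v hv

/-- `{|c| < 2 δ} × {|u| < 3 δ} ⊆ bx`. -/
theorem Good.J_mem (hg : S.Good g) {c : ℝ} {u : E d} (hc : |c| < 2 * S.dl g)
    (hu : ‖u‖ < 3 * S.dl g) : rm_J c u ∈ S.bx g := by
  refine ⟨?_, by rw [rm_tl_J]; exact hu⟩
  rw [rm_J_zero]
  have h1 := abs_sub (c) (S.U g.x0)
  have h2 := hg.2
  linarith

theorem Good.mem_bx (hg : S.Good g) {v : E (d + 1)} (hc : |v 0| < 2 * S.dl g)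
    (hu : ‖rm_tl d v‖ < 3 * S.dl g) : v ∈ S.bx g := by
  have := hg.J_mem hc hu
  rwa [rm_J_tl] at this

/-- `rgsK` maps `rgsDom` into the part `0 ≤ v 0 < 2 δ` of the box. -/
theorem Good.K_mem (hS : S.Ok) (hg : S.Good g) {v : E (d + 1)} (hv : v ∈ rgsDom d (S.dl g)) :
    rgsK S.a (S.dl g) v ∈ S.bx g ∧ 0 ≤ rgsK S.a (S.dl g) v 0 ∧
      rgsK S.a (S.dl g) v 0 < 2 * S.dl g := by
  have hδ := hg.dl_pos
  have h0 : rgsK S.a (S.dl g) v 0 = S.dl g * S.a (v 0 / S.dl g) := rm_J_zero _ _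
  have h1 : 0 ≤ S.a (v 0 / S.dl g) := rgsg_prof_a_nonneg hS.prof _
  have h2 : S.a (v 0 / S.dl g) < 2 := by
    rw [rgsg_prof_a_lt hS.prof (by norm_num : (1 : ℝ) < 2), lt_div_iff₀ hδ]
    linarith [hv.1]
  have h3 : 0 ≤ S.dl g * S.a (v 0 / S.dl g) := mul_nonneg hδ.le h1
  have h4 : S.dl g * S.a (v 0 / S.dl g) < 2 * S.dl g := by
    rw [mul_comm 2]
    exact mul_lt_mul_of_pos_left h2 hδ
  refine ⟨hg.J_mem (by rw [abs_of_nonneg h3]; exact h4) hv.2, ?_, ?_⟩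
  · rw [h0]; exact h3
  · rw [h0]; exact h4

/-- `rgsRf` maps the part `- ... < v 0 < 2 δ` of the box into `rgsDom`. -/
theorem Good.Rf_mem (hg : S.Good g) {v : E (d + 1)} (hv : v ∈ S.bx g) (h2 : v 0 < 2 * S.dl g) :
    rgsRf v ∈ rgsDom d (S.dl g) := by
  refine ⟨?_, ?_⟩
  · show -(2 * S.dl g) < rm_J (-(v 0)) (rm_tl d v) 0
    rw [rm_J_zero]
    linarith
  · show ‖rm_tl d (rm_J (-(v 0)) (rm_tl d v))‖ < 3 * S.dl g
    rw [rm_tl_J]
    exact hv.2

/-- on the flat part of the chart `Ps ∘ rgsRf = (ψ, 0)`. -/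
theorem Good.Ps_Rf_flat (hS : S.Ok) (hg : S.Good g) {v : E (d + 1)} (h1 : S.dl g ≤ v 0) :
    S.Ps g (rgsRf v) = (g.ψ v, 0) := by
  have hδ := hg.dl_pos
  have h0 : rgsRf v 0 = -(v 0) := rm_J_zero _ _
  have ht : rm_tl d (rgsRf v) = rm_tl d v := rm_tl_J _ _
  have h2 : -(v 0) / S.dl g ≤ -1 := by
    rw [div_le_iff₀ hδ]
    linarith
  obtain ⟨ha, hb⟩ := hS.prof.left _ h2
  rw [Ps_apply, h0, hb, mul_zero, mul_zero]
  congr 2
  unfold rgsK
  rw [h0, ht, ha]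
  have h3 : S.dl g * -(-(v 0) / S.dl g) = v 0 := by
    field_simp
  rw [h3, rm_J_tl]

/-- **fibre consistency for good charts** (`rgsg_lapse_fibre`, `Good.flat`, `Good.lvl`). -/
theorem fc [FiniteDimensional ℝ V] (hS : S.Ok) (hg : S.Good g) (hg' : S.Good g')
    {v v' : E (d + 1)} (hv : v ∈ S.bx g) (hv' : v' ∈ S.bx g') (he : g.ψ v = g'.ψ v') :
    S.dl g = S.dl g' ∧ v 0 = v' 0 ∧
      ∀ c, |c| < 2 * S.dl g → g.ψ (rm_J c (rm_tl d v)) = g'.ψ (rm_J c (rm_tl d v')) := by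
  have h1 : S.dl g = S.dl g' := by rw [← hg.flat hv, he, hg'.flat hv']
  have h2 : v 0 = v' 0 := by rw [← hg.lvl hv, he, hg'.lvl hv']
  refine ⟨h1, h2, fun c hc => ?_⟩
  refine rgsg_lapse_fibre hS.geo.met hg.lapse hg'.lapse hv hv' he ?_ ?_
  · have h3 := abs_sub c (S.U g.x0)
    have h4 := hg.2
    linarith
  · have h3 := abs_sub c (S.U g'.x0)
    have h4 := hg'.2
    rw [h1] at hc
    linarith

/-- **consistency of the parametrisations of the rounded side.**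
PLAN: first components: `g.ψ (rgsK q) = g'.ψ (rgsK q')`, `fc`: `δ = δ'`, `δ a (q 0 / δ) = δ a (q' 0 / δ)`, and the fibres through `tl q`, `tl q'` agree (`rm_tl_J`);
second components: `e δ b (q 0 / δ) = e δ b (q' 0 / δ)`, `e ≠ 0`, `δ ≠ 0`; `rgsg_prof_inj`. -/
theorem cons [FiniteDimensional ℝ V] (hS : S.Ok) (hg : S.Good g) (hg' : S.Good g')
    {q q' : E (d + 1)} (hq : q ∈ rgsDom d (S.dl g)) (hq' : q' ∈ rgsDom d (S.dl g'))
    (he : S.Ps g q = S.Ps g' q') :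
    S.dl g = S.dl g' ∧ q 0 = q' 0 ∧
      ∀ c, |c| < 2 * S.dl g → g.ψ (rm_J c (rm_tl d q)) = g'.ψ (rm_J c (rm_tl d q')) := by
  have hδ := hg.dl_pos
  rw [Ps_apply, Ps_apply] at he
  have he1 := congrArg Prod.fst he
  have he2 := congrArg Prod.snd he
  dsimp only at he1 he2
  obtain ⟨h1, h2, h3⟩ := fc hS hg hg' (hg.K_mem hS hq).1 (hg'.K_mem hS hq').1 he1
  have k0 : rgsK S.a (S.dl g) q 0 = S.dl g * S.a (q 0 / S.dl g) := rm_J_zero _ _
  have k0' : rgsK S.a (S.dl g') q' 0 = S.dl g' * S.a (q' 0 / S.dl g') := rm_J_zero _ _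
  have kt : rm_tl d (rgsK S.a (S.dl g) q) = rm_tl d q := rm_tl_J _ _
  have kt' : rm_tl d (rgsK S.a (S.dl g') q') = rm_tl d q' := rm_tl_J _ _
  rw [kt, kt'] at h3
  rw [k0, k0', ← h1] at h2
  rw [← h1] at he2
  have he0 : S.e ≠ 0 := by
    rcases hS.e_pm with h | h <;> rw [h] <;> norm_num
  have ha : S.a (q 0 / S.dl g) = S.a (q' 0 / S.dl g) := mul_left_cancel₀ hδ.ne' h2
  have hb : S.b (q 0 / S.dl g) = S.b (q' 0 / S.dl g) := mul_left_cancel₀ hδ.ne' (mul_left_cancel₀ he0 he2)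
  have h4 := rgsg_prof_inj hS.prof ha hb
  refine ⟨h1, ?_, h3⟩
  exact (div_left_inj' hδ.ne').1 h4

/-- if the fibres agree, so do the parametrisations of the rounded side. -/
theorem Ps_congr (hS : S.Ok) (hg : S.Good g) (hg' : S.Good g') (hd : S.dl g = S.dl g')
    {u u' : E d} (hf : ∀ c, |c| < 2 * S.dl g → g.ψ (rm_J c u) = g'.ψ (rm_J c u')) {s : ℝ}
    (hs : -(2 * S.dl g) < s) : S.Ps g (rm_J s u) = S.Ps g' (rm_J s u') := by
  have hδ := hg.dl_pos
  rw [Ps_apply, Ps_apply, ← hd]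
  unfold rgsK
  rw [rm_J_zero, rm_J_zero, rm_tl_J, rm_tl_J]
  have h1 : 0 ≤ S.a (s / S.dl g) := rgsg_prof_a_nonneg hS.prof _
  have h2 : S.a (s / S.dl g) < 2 := by
    rw [rgsg_prof_a_lt hS.prof (by norm_num : (1 : ℝ) < 2), lt_div_iff₀ hδ]
    linarith
  have h3 : 0 ≤ S.dl g * S.a (s / S.dl g) := mul_nonneg hδ.le h1
  have h4 : S.dl g * S.a (s / S.dl g) < 2 * S.dl g := by
    rw [mul_comm 2]
    exact mul_lt_mul_of_pos_left h2 hδ
  rw [hf _ (by rw [abs_of_nonneg h3]; exact h4)]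

/-! ## 4. the sets `T`, `F`, `O`, `Y`   (package L-RG-SEAMG-SETS) -/

theorem isOpen_O : IsOpen S.O := by
  rw [isOpen_iff_mem_nhds]
  rintro z ⟨Q, hQ, hz, hsub⟩
  exact Filter.mem_of_superset ((hQ.preimage continuous_fst).mem_nhds hz)
    fun y hy => ⟨Q, hQ, hy, hsub⟩

theorem T_sub (hS : S.Ok) : S.T ⊆ S.M ∩ S.P := by
  rintro x ⟨g, hg, v, hv, -, rfl⟩
  exact ⟨hg.mem_M hv, hg.mem_P hv⟩

theorem F_sub : S.F ⊆ S.M ∩ S.P := by
  rintro x ⟨hx, -, N, hN, hNP⟩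
  exact ⟨hx, hNP ⟨mem_of_mem_nhds hN, hx⟩⟩

/-- a subset of `M` which is locally relatively open is relatively open. -/
theorem relopen_of_local {M A : Set V} (hA : A ⊆ M)
    (h : ∀ x ∈ A, ∃ Q, IsOpen Q ∧ x ∈ Q ∧ M ∩ Q ⊆ A) : ∃ Q, IsOpen Q ∧ M ∩ Q = A := by
  choose! Q hQ hx hsub using h
  refine ⟨⋃ x ∈ A, Q x, isOpen_biUnion hQ, ?_⟩
  ext y
  constructor
  · rintro ⟨hyM, hy⟩
    obtain ⟨x, hxA, hyQ⟩ := mem_iUnion₂.1 hy
    exact hsub x hxA ⟨hyM, hyQ⟩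
  · intro hy
    exact ⟨hA hy, mem_iUnion₂.2 ⟨y, hy, hx y hy⟩⟩

/-- `{w < U}` is relatively open in `M`. -/
theorem exists_open_lt [FiniteDimensional ℝ V] (hS : S.Ok) :
    ∃ Q : Set V, IsOpen Q ∧ S.M ∩ Q = {x | x ∈ S.M ∧ S.w x < S.U x} := by
  have hc : ContinuousOn (fun x => S.U x - S.w x) S.M :=
    (if_smoothAlong_continuousOn hS.geo.mfd hS.U_sm).sub hS.w_cont
  obtain ⟨Q, hQ, he⟩ := (continuousOn_iff'.1 hc) (Ioi 0) isOpen_Ioi
  refine ⟨Q, hQ, ?_⟩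
  ext x
  constructor
  · rintro ⟨hx, hxQ⟩
    have h1 : x ∈ (fun x => S.U x - S.w x) ⁻¹' Ioi 0 ∩ S.M := by
      rw [he]
      exact ⟨hxQ, hx⟩
    exact ⟨hx, sub_pos.1 h1.1⟩
  · rintro ⟨hx, hlt⟩
    have h1 : x ∈ Q ∩ S.M := by
      rw [← he]
      exact ⟨sub_pos.2 hlt, hx⟩
    exact ⟨hx, h1.1⟩

/-- `T ∪ F` is relatively open in `M`.
PLAN: `T`: `if_image_open hg.par` for the open subset `{v ∈ bx | |v 0| < 2 δ}`; `F`: `U - w` is continuous on `M` (`if_smoothAlong_continuousOn`), and `{x | ∃ N ∈ 𝓝 x, N ∩ M ⊆ P}` is open (`interior`); union over all points. -/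
theorem exists_open_TF [FiniteDimensional ℝ V] (hS : S.Ok) :
    ∃ Q : Set V, IsOpen Q ∧ S.M ∩ Q = S.T ∪ S.F := by
  refine relopen_of_local (union_subset ((T_sub hS).trans inter_subset_left)
    (F_sub.trans inter_subset_left)) ?_
  rintro x (hx | hx)
  · obtain ⟨g, hg, v, hv, hv0, rfl⟩ := hx
    have hW : IsOpen (S.bx g ∩ {v : E (d + 1) | |v 0| < 2 * S.dl g}) := by
      refine (rm_box_open _ _).inter (isOpen_lt ?_ continuous_const)
      exact ((EuclideanSpace.proj (0 : Fin (d + 1)) : E (d + 1) →L[ℝ] ℝ).continuous).abs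
    obtain ⟨Q, hQ, he⟩ := if_image_open hg.par hW inter_subset_left
    have hmem : g.ψ v ∈ S.M ∩ Q := by
      rw [← he]
      exact ⟨v, ⟨hv, hv0⟩, rfl⟩
    refine ⟨Q, hQ, hmem.2, ?_⟩
    rw [← he]
    rintro _ ⟨v', ⟨h1, h2⟩, rfl⟩
    exact Or.inl ⟨g, hg, v', h1, h2, rfl⟩
  · obtain ⟨hxM, hlt, N, hN, hNP⟩ := hx
    obtain ⟨Q, hQ, he⟩ := exists_open_lt hS
    have hxQ : x ∈ S.M ∩ Q := by
      rw [he]
      exact ⟨hxM, hlt⟩
    refine ⟨Q ∩ interior N, hQ.inter isOpen_interior, ⟨hxQ.2, mem_interior_iff_mem_nhds.2 hN⟩, ?_⟩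
    rintro y ⟨hyM, hyQ, hyN⟩
    have h1 : y ∈ {x | x ∈ S.M ∧ S.w x < S.U x} := by
      rw [← he]
      exact ⟨hyM, hyQ⟩
    exact Or.inr ⟨hyM, h1.2, N, mem_interior_iff_mem_nhds.1 hyN, hNP⟩

/-- `Nf` is relatively open in `M`. -/
theorem exists_open_Nf [FiniteDimensional ℝ V] (hS : S.Ok) :
    ∃ Q : Set V, IsOpen Q ∧ S.M ∩ Q = S.Nf := by
  obtain ⟨Q1, hQ1, he1⟩ := exists_open_TF hS
  obtain ⟨Q2, hQ2, he2⟩ := exists_open_lt hS
  refine ⟨Q1 ∩ Q2, hQ1.inter hQ2, ?_⟩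
  ext x
  constructor
  · rintro ⟨hx, h1, h2⟩
    have a1 : x ∈ S.T ∪ S.F := by
      rw [← he1]
      exact ⟨hx, h1⟩
    have a2 : x ∈ {x | x ∈ S.M ∧ S.w x < S.U x} := by
      rw [← he2]
      exact ⟨hx, h2⟩
    exact ⟨a1, a2.2⟩
  · rintro ⟨h1, h2⟩
    have a1 : x ∈ S.M ∩ Q1 := by
      rw [he1]
      exact h1
    have a2 : x ∈ S.M ∩ Q2 := by
      rw [he2]
      exact ⟨a1.1, h2⟩
    exact ⟨a1.1, a1.2, a2.2⟩

theorem mem_Y [FiniteDimensional ℝ V] (hS : S.Ok) {z : V × ℝ} :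
    z ∈ S.Y ↔ z ∈ S.X ∧ z.1 ∈ S.T ∪ S.F := by
  constructor
  · rintro ⟨hX, Q, hQ, hz, hsub⟩
    exact ⟨hX, hsub ⟨hX.1, hz⟩⟩
  · rintro ⟨hX, hz⟩
    obtain ⟨Q, hQ, he⟩ := exists_open_TF hS
    have h1 : z.1 ∈ S.M ∩ Q := by
      rw [he]
      exact hz
    exact ⟨hX, Q, hQ, h1.2, he.le⟩

theorem Y_sub : S.Y ⊆ Prod.fst ⁻¹' S.M := fun _ hz => hz.1.1

/-- on `X`: `0 ≤ U`, and `τ = 0` where `w ≤ U`. -/
theorem X_nonneg (hS : S.Ok) {z : V × ℝ} (hz : z ∈ S.X) : 0 ≤ S.U z.1 := by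
  have h1 := (hS.corner.nonneg_of_add hz.2).1
  have hw := hS.w_pos _ hz.1
  rwa [le_div_iff₀ hw, zero_mul] at h1

theorem e_ne (hS : S.Ok) : S.e ≠ 0 := by
  rcases hS.e_pm with h | h <;> rw [h] <;> norm_num

theorem e_sq (hS : S.Ok) : S.e * S.e = 1 := by
  rcases hS.e_pm with h | h <;> rw [h] <;> norm_num

theorem X_flat (hS : S.Ok) {z : V × ℝ} (hz : z ∈ S.X) (hU : S.w z.1 ≤ S.U z.1) : z.2 = 0 := by
  have hw := hS.w_pos _ hz.1
  have h1 : S.k (S.U z.1 / S.w z.1) = 0 := hS.corner.far _ ((one_le_div₀ hw).2 hU)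
  have h2 := hz.2
  rw [h1, zero_add, hS.corner.eq_one_iff, div_eq_zero_iff] at h2
  rcases h2 with h2 | h2
  · exact (mul_eq_zero.1 h2).resolve_left (e_ne hS)
  · exact absurd h2 hw.ne'

theorem flat_mem_X (hS : S.Ok) {x : V} (hx : x ∈ S.M) (hU : S.w x ≤ S.U x) :
    (x, (0 : ℝ)) ∈ S.X := by
  have hw := hS.w_pos _ hx
  refine ⟨hx, ?_⟩
  show S.k (S.U x / S.w x) + S.k (S.e * 0 / S.w x) = 1
  rw [hS.corner.far _ ((one_le_div₀ hw).2 hU), mul_zero, zero_div, hS.corner.zero, zero_add]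

theorem K_zero (g : RgsgCh d V) (v : E (d + 1)) :
    rgsK S.a (S.dl g) v 0 = S.dl g * S.a (v 0 / S.dl g) := by
  unfold rgsK
  rw [rm_J_zero]

theorem Ps_mem_X (hS : S.Ok) (hg : S.Good g) {v : E (d + 1)} (hv : v ∈ rgsDom d (S.dl g)) :
    S.Ps g v ∈ S.X := by
  obtain ⟨hK, -, -⟩ := hg.K_mem hS hv
  have hδ := hg.dl_pos
  refine ⟨hg.mem_M hK, ?_⟩
  show S.k (S.U (g.ψ (rgsK S.a (S.dl g) v)) / S.w (g.ψ (rgsK S.a (S.dl g) v))) +
    S.k (S.e * (S.e * (S.dl g * S.b (v 0 / S.dl g))) / S.w (g.ψ (rgsK S.a (S.dl g) v))) = 1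
  rw [hg.lvl hK, hg.flat hK, K_zero, mul_div_cancel_left₀ _ hδ.ne', ← mul_assoc, e_sq hS, one_mul,
    mul_div_cancel_left₀ _ hδ.ne']
  exact hS.prof.on _

theorem Ps_mem_Y [FiniteDimensional ℝ V] (hS : S.Ok) (hg : S.Good g) {v : E (d + 1)}
    (hv : v ∈ rgsDom d (S.dl g)) : S.Ps g v ∈ S.Y := by
  obtain ⟨hK, h0, h2⟩ := hg.K_mem hS hv
  exact (mem_Y hS).2 ⟨Ps_mem_X hS hg hv,
    Or.inl ⟨g, hg, _, hK, by rw [abs_of_nonneg h0]; exact h2, rfl⟩⟩

theorem flat_mem_Y [FiniteDimensional ℝ V] (hS : S.Ok) {x : V} (hx : x ∈ S.Nf) :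
    (x, (0 : ℝ)) ∈ S.Y := by
  have hxM : x ∈ S.M := by
    rcases hx.1 with h | h
    · exact (T_sub hS h).1
    · exact (F_sub h).1
  exact (mem_Y hS).2 ⟨flat_mem_X hS hxM hx.2.le, hx.1⟩

/-- the image of `S.Ps g`.
PLAN `⊇`: `z.1 = g.ψ v`, `U z.1 = v 0`, `w z.1 = δ`; `RgsProf.onto` gives `σ` with `a σ = v 0 / δ`, `b σ = e z.2 / δ`; `s = δ σ`; `-2 < σ` by `rgsg_prof_a_lt`; `e * e = 1`. -/
theorem Ps_image (hS : S.Ok) (hg : S.Good g) :
    S.Ps g '' rgsDom d (S.dl g) =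
      {z | z ∈ S.X ∧ ∃ v ∈ S.bx g, |v 0| < 2 * S.dl g ∧ g.ψ v = z.1} := by
  have hδ := hg.dl_pos
  ext z
  constructor
  · rintro ⟨v, hv, rfl⟩
    obtain ⟨hK, h0, h2⟩ := hg.K_mem hS hv
    exact ⟨Ps_mem_X hS hg hv, _, hK, by rw [abs_of_nonneg h0]; exact h2, rfl⟩
  · rintro ⟨hX, v, hv, hv0, he⟩
    have h1 := hX.2
    rw [← he, hg.lvl hv, hg.flat hv] at h1
    obtain ⟨σ, ha, hb⟩ := hS.prof.onto _ _ h1
    have hσ : -2 < σ := by
      rw [← rgsg_prof_a_lt hS.prof (by norm_num : (1 : ℝ) < 2), ha, div_lt_iff₀ hδ]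
      exact (le_abs_self _).trans_lt hv0
    refine ⟨rm_J (S.dl g * σ) (rm_tl d v), ⟨?_, ?_⟩, ?_⟩
    · rw [rm_J_zero]
      nlinarith
    · rw [rm_tl_J]
      exact hv.2
    · rw [Ps_apply]
      unfold rgsK
      rw [rm_J_zero, rm_tl_J, mul_div_cancel_left₀ _ hδ.ne', ha, hb, mul_div_cancel₀ _ hδ.ne',
        rm_J_tl, mul_div_cancel₀ _ hδ.ne', ← mul_assoc, e_sq hS, one_mul]
      exact Prod.ext he rfl

/-- every point of `Y` lies in a chart of the tube or in the flat region. -/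
theorem Y_cases [FiniteDimensional ℝ V] (hS : S.Ok) {z : V × ℝ} (hz : z ∈ S.Y) :
    (∃ g, S.Good g ∧ z ∈ S.Ps g '' rgsDom d (S.dl g)) ∨ (z.1 ∈ S.F ∧ z.2 = 0) := by
  obtain ⟨hX, hTF⟩ := (mem_Y hS).1 hz
  rcases hTF with hT | hF
  · obtain ⟨g, hg, v, hv, hv0, he⟩ := hT
    refine Or.inl ⟨g, hg, ?_⟩
    rw [Ps_image hS hg]
    exact ⟨hX, v, hv, hv0, he⟩
  · exact Or.inr ⟨hF, X_flat hS hX hF.2.1.le⟩

/-! ## 5. parametrisations of `Y`   (package L-RG-SEAMG-PAR) -/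

section par

variable [FiniteDimensional ℝ V]

/-- the derivative of `S.Ps g`. -/
theorem Ps_hasFDerivAt (hS : S.Ok) (hg : S.Good g) {v : E (d + 1)} (hv : v ∈ rgsDom d (S.dl g)) :
    HasFDerivAt (S.Ps g)
      (((fderiv ℝ g.ψ (rgsK S.a (S.dl g) v)).comp
        ((deriv S.a (v 0 / S.dl g) •
          (EuclideanSpace.proj (0 : Fin (d + 1)) : E (d + 1) →L[ℝ] ℝ)).smulRight (eb 0) +
          (rm_in d).comp (rm_tl d))).prod
        (S.e • (deriv S.b (v 0 / S.dl g) •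
          (EuclideanSpace.proj (0 : Fin (d + 1)) : E (d + 1) →L[ℝ] ℝ)))) v := by
  have hK := (hg.K_mem hS hv).1
  have h1 := (if_differentiableAt hg.par hK).hasFDerivAt.comp v
    (rgsg_K_hasFDerivAt hS.prof.a_smooth hg.dl_pos v)
  have h2 := (rgsg_scaled_hasFDerivAt hS.prof.b_smooth hg.dl_pos v).const_mul S.e
  exact h1.prodMk h2

/-- **`S.Ps g` is a parametrisation of `Y`.**
PLAN: `pk_param_mk`.  Domain open; smooth: `g.ψ` smooth on `bx`, `rgsK` smooth (`rm_J`, `rm_tl`, `a` smooth), `Good.K_mem`.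
Derivative at `v`: `ξ ↦ (dψ (a'(v 0/δ) ξ 0 • e_0 + rm_in (tl ξ)), e b'(v 0/δ) ξ 0)`; injective: if `b' ≠ 0` the second component gives `ξ 0 = 0`, then `dψ` injective gives `tl ξ = 0`; if `b' = 0` then `a' ≠ 0` (`speed`) and `dψ` injective.
Image: `Ps_image` + `if_image_open hg.par` (`O = Prod.fst ⁻¹' O'`, intersect with `S.O`; `mem_Y`).
Left inverse: `z ↦ rm_J (δ σ ((e z.2 - U z.1) / δ)) (tl (invFunOn g.ψ bx z.1))`, `σ` of `rgsg_prof_inv`; continuous on the image (`if_contInv`, `U` continuous on `M`). -/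
theorem Ps_param (hS : S.Ok) (hg : S.Good g) : IsParam S.Y (S.Ps g) (rgsDom d (S.dl g)) := by
  have hδ := hg.dl_pos
  have he2 : S.e * S.e = 1 := by rcases hS.e_pm with h | h <;> rw [h] <;> norm_num
  obtain ⟨σ, hσc, hσ⟩ := rgsg_prof_inv hS.prof
  have hWo : IsOpen {v : E (d + 1) | v ∈ S.bx g ∧ |v 0| < 2 * S.dl g} :=
    (rm_box_open _ _).inter (isOpen_lt ((EuclideanSpace.proj (0 : Fin (d + 1)) :
      E (d + 1) →L[ℝ] ℝ).continuous.abs) continuous_const)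
  obtain ⟨O₁, hO₁, hO₁e⟩ := if_image_open hg.par hWo (fun v hv => hv.1)
  refine pk_param_mk (O := Prod.fst ⁻¹' O₁)
    (g := fun z => rm_J (S.dl g * σ ((S.e * z.2 - S.U z.1) / S.dl g))
      (rm_tl d (Function.invFunOn g.ψ (S.bx g) z.1))) (rgsg_dom_open d _) ?_ ?_
    (hO₁.preimage continuous_fst) ?_ ?_ ?_
  · -- smooth
    have h1 : ContDiffOn ℝ ∞ (fun v => g.ψ (rgsK S.a (S.dl g) v)) (rgsDom d (S.dl g)) :=
      (if_smooth hg.par).comp (rgsg_K_contDiff hS.prof.a_smooth _).contDiffOn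
        fun v hv => (hg.K_mem hS hv).1
    have h2 : ContDiff ℝ ∞ fun v : E (d + 1) => S.e * (S.dl g * S.b (v 0 / S.dl g)) :=
      contDiff_const.mul (contDiff_const.mul
        (hS.prof.b_smooth.comp ((rgsg_coord0_contDiff d).div_const _)))
    exact h1.prodMk h2.contDiffOn
  · -- immersion
    intro v hv
    rw [(Ps_hasFDerivAt hS hg hv).fderiv]
    have hK := (hg.K_mem hS hv).1
    have hinj := if_imm hg.par hK
    rw [injective_iff_map_eq_zero]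
    intro ξ hξ
    simp only [ContinuousLinearMap.prod_apply, Prod.mk_eq_zero, ContinuousLinearMap.comp_apply]
      at hξ
    obtain ⟨h1, h2⟩ := hξ
    have h3 := (injective_iff_map_eq_zero _).1 hinj _ h1
    simp only [add_apply, ContinuousLinearMap.smulRight_apply,
      smul_apply, ContinuousLinearMap.comp_apply, smul_eq_mul] at h2 h3
    have h4 : deriv S.a (v 0 / S.dl g) * ξ 0 = 0 := by
      have := congrArg (fun w : E (d + 1) => w 0) h3
      simpa [rm_in_zero] using this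
    have h5 : rm_tl d ξ = 0 := by
      have := congrArg (rm_tl d) h3
      have e1 := rm_tl_J (deriv S.a (v 0 / S.dl g) * ξ 0) (rm_tl d ξ)
      unfold rm_J at e1
      simpa [e1] using this
    have h6 : deriv S.b (v 0 / S.dl g) * ξ 0 = 0 := by
      have he0 : S.e ≠ 0 := fun h => by rw [h] at he2; norm_num at he2
      rcases mul_eq_zero.1 h2 with h | h
      · exact absurd h he0
      · simpa using h
    have h7 : ξ 0 = 0 := by
      have := hS.prof.speed (v 0 / S.dl g)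
      by_contra hne
      have a0 := (mul_eq_zero.1 h4).resolve_right hne
      have b0 := (mul_eq_zero.1 h6).resolve_right hne
      rw [a0, b0] at this
      norm_num at this
    rw [← rm_J_tl ξ, h7, h5]
    simp [rm_J]
  · -- image
    rw [Ps_image hS hg]
    ext z
    constructor
    · rintro ⟨hzX, v, hv, hv2, hvz⟩
      refine ⟨(mem_Y hS).2 ⟨hzX, Or.inl ⟨g, hg, v, hv, hv2, hvz⟩⟩, ?_⟩
      have : z.1 ∈ S.M ∩ O₁ := hO₁e ▸ ⟨v, ⟨hv, hv2⟩, hvz⟩
      exact this.2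
    · rintro ⟨hzY, hzO⟩
      have hzX := ((mem_Y hS).1 hzY).1
      have : z.1 ∈ g.ψ '' {v : E (d + 1) | v ∈ S.bx g ∧ |v 0| < 2 * S.dl g} :=
        hO₁e ▸ ⟨hzX.1, hzO⟩
      obtain ⟨v, ⟨hv, hv2⟩, hvz⟩ := this
      exact ⟨hzX, v, hv, hv2, hvz⟩
  · -- continuity of the left inverse
    have hsubM : MapsTo Prod.fst (S.Ps g '' rgsDom d (S.dl g)) (g.ψ '' S.bx g) := by
      rintro _ ⟨v, hv, rfl⟩
      exact ⟨_, (hg.K_mem hS hv).1, rfl⟩
    have hsubM' : MapsTo Prod.fst (S.Ps g '' rgsDom d (S.dl g)) S.M := by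
      rintro _ ⟨v, hv, rfl⟩
      exact hg.mem_M (hg.K_mem hS hv).1
    have hU : ContinuousOn (fun z : V × ℝ => S.U z.1) (S.Ps g '' rgsDom d (S.dl g)) :=
      (if_smoothAlong_continuousOn hS.geo.mfd hS.U_sm).comp continuous_fst.continuousOn hsubM'
    have hI : ContinuousOn (fun z : V × ℝ => Function.invFunOn g.ψ (S.bx g) z.1)
        (S.Ps g '' rgsDom d (S.dl g)) :=
      (if_contInv hg.par).comp continuous_fst.continuousOn hsubM
    have h1 : ContinuousOn (fun z : V × ℝ => S.dl g * σ ((S.e * z.2 - S.U z.1) / S.dl g))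
        (S.Ps g '' rgsDom d (S.dl g)) :=
      continuousOn_const.mul (hσc.comp_continuousOn
        (((continuousOn_const.mul continuous_snd.continuousOn).sub hU).div_const _))
    unfold rm_J
    exact (h1.smul continuousOn_const).add
      ((rm_in d).continuous.comp_continuousOn ((rm_tl d).continuous.comp_continuousOn hI))
  · -- left inverse
    intro v hv
    have hK := (hg.K_mem hS hv).1
    have e1 : Function.invFunOn g.ψ (S.bx g) (g.ψ (rgsK S.a (S.dl g) v)) = rgsK S.a (S.dl g) v :=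
      (if_injOn hg.par).leftInvOn_invFunOn hK
    have e2 : S.U (g.ψ (rgsK S.a (S.dl g) v)) = S.dl g * S.a (v 0 / S.dl g) := by
      rw [hg.lvl hK, rgsK, rm_J_zero]
    have e3 : (S.e * (S.e * (S.dl g * S.b (v 0 / S.dl g))) - S.dl g * S.a (v 0 / S.dl g)) / S.dl g
        = S.b (v 0 / S.dl g) - S.a (v 0 / S.dl g) := by
      rw [← mul_assoc, he2]
      field_simp
    show rm_J (S.dl g * σ ((S.e * (S.e * (S.dl g * S.b (v 0 / S.dl g))) -
      S.U (g.ψ (rgsK S.a (S.dl g) v))) / S.dl g))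
      (rm_tl d (Function.invFunOn g.ψ (S.bx g) (g.ψ (rgsK S.a (S.dl g) v)))) = v
    rw [e1, e2, e3, hσ, rgsK, rm_tl_J, mul_div_cancel₀ _ hδ.ne', rm_J_tl]

/-- the coordinate matrix of `S.Ps g`. -/
theorem Ps_cm (hS : S.Ok) (hg : S.Good g) {v : E (d + 1)} (hv : v ∈ rgsDom d (S.dl g)) :
    cm (extTen S.h) (S.Ps g) v = rgsGX (cm S.h g.ψ) S.a S.b (S.dl g) v := by
  have he2 : S.e * S.e = 1 := by rcases hS.e_pm with h | h <;> rw [h] <;> norm_num
  ext i j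
  unfold cm rgsGX
  simp only [Matrix.of_apply]
  rw [(Ps_hasFDerivAt hS hg hv).fderiv, extTen_apply]
  simp only [ContinuousLinearMap.prod_apply, ContinuousLinearMap.comp_apply, rgsg_K_deriv_eb,
    map_smul, smul_apply, smul_eq_mul]
  congr 1
  · show _ * (_ * S.h (g.ψ (rgsK S.a (S.dl g) v)) _ _) = _
    ring
  · by_cases hi : i = 0
    · by_cases hj : j = 0
      · subst hi hj
        simp
        linear_combination (deriv S.b (v 0 / S.w g.x0)) ^ 2 * he2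
      · simp [hi, hj, Ne.symm hj]
    · simp [hi, Ne.symm hi]

/-- flat parametrisations.
PLAN: as in `pk_mfd_slice` (`pk_param_mk`); image: `ψ '' W = M ∩ O₁`; `(fun u => (ψ u, 0)) '' W = Y ∩ Prod.fst ⁻¹' O₁` by `X_flat`, `flat_mem_Y`. -/
theorem flat_param (hS : S.Ok) {ψ : E (d + 1) → V} {W : Set (E (d + 1))} (hp : IsParam S.M ψ W)
    (hW : ∀ u ∈ W, ψ u ∈ S.Nf) : IsParam S.Y (fun u => (ψ u, (0 : ℝ))) W := by
  obtain ⟨O, hO, hOe⟩ := if_image hp
  have hder : ∀ b ∈ W, HasFDerivAt (fun b : E (d + 1) => (ψ b, (0 : ℝ)))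
      ((fderiv ℝ ψ b).prod (0 : E (d + 1) →L[ℝ] ℝ)) b := fun b hb =>
    (if_differentiableAt hp hb).hasFDerivAt.prodMk (hasFDerivAt_const (0 : ℝ) b)
  refine pk_param_mk (O := Prod.fst ⁻¹' O)
    (g := fun z : V × ℝ => Function.invFunOn ψ W z.1) (if_open hp) ?_ ?_
    (hO.preimage continuous_fst) ?_ ?_ ?_
  · exact (if_smooth hp).prodMk contDiffOn_const
  · intro b hb v w hvw
    rw [(hder b hb).fderiv] at hvw
    exact if_imm hp hb (congrArg Prod.fst hvw)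
  · ext z
    constructor
    · rintro ⟨b, hb, rfl⟩
      have : ψ b ∈ S.M ∩ O := hOe ▸ Set.mem_image_of_mem ψ hb
      exact ⟨flat_mem_Y hS (hW b hb), this.2⟩
    · rintro ⟨h1, h2⟩
      have : z.1 ∈ ψ '' W := hOe ▸ (⟨Y_sub h1, h2⟩ : z.1 ∈ S.M ∩ O)
      obtain ⟨u, hu, hue⟩ := this
      have h3 : z.2 = 0 := X_flat hS h1.1 (by rw [← hue]; exact (hW u hu).2.le)
      exact ⟨u, hu, Prod.ext hue h3.symm⟩
  · refine (if_contInv hp).comp continuous_fst.continuousOn ?_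
    rintro _ ⟨b, hb, rfl⟩
    exact Set.mem_image_of_mem ψ hb
  · intro b hb
    exact if_leftInv hp hb

theorem flat_cm {ψ : E (d + 1) → V} {W : Set (E (d + 1))} (hp : IsParam S.M ψ W)
    {u : E (d + 1)} (hu : u ∈ W) :
    cm (extTen S.h) (fun u => (ψ u, (0 : ℝ))) u = cm S.h ψ u := by
  have hder : HasFDerivAt (fun b : E (d + 1) => (ψ b, (0 : ℝ)))
      ((fderiv ℝ ψ u).prod (0 : E (d + 1) →L[ℝ] ℝ)) u :=
    (if_differentiableAt hp hu).hasFDerivAt.prodMk (hasFDerivAt_const (0 : ℝ) u)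
  ext i j
  simp only [cm, Matrix.of_apply, extTen_apply, hder.fderiv, ContinuousLinearMap.prod_apply,
    zero_apply, mul_zero, add_zero]

/-- `Y` is a manifold (`Y_cases`, `Ps_param`, `flat_param` + `if_param_restrict` for `exists_open_Nf`). -/
theorem Y_mfd (hS : S.Ok) : IsMfd (d + 1) S.Y := by
  intro z hz
  rcases Y_cases hS hz with ⟨g, hg, hmem⟩ | ⟨hF, h0⟩
  · exact ⟨S.Ps g, rgsDom d (S.dl g), Ps_param hS hg, hmem⟩
  · obtain ⟨Q, hQ, he⟩ := exists_open_Nf hS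
    have hN : z.1 ∈ S.Nf := ⟨Or.inr hF, hF.2.1⟩
    have hzQ : z.1 ∈ S.M ∩ Q := by
      rw [he]
      exact hN
    obtain ⟨ψ, U, hψ, u, hu, hue⟩ := hS.geo.mfd z.1 hzQ.1
    have h1 := if_param_restrict hQ hψ
    have h2 : IsParam S.M ψ (U ∩ ψ ⁻¹' Q) := if_mono hψ (if_open h1) inter_subset_left
    refine ⟨fun u => (ψ u, 0), U ∩ ψ ⁻¹' Q, flat_param hS h2 fun w hw => ?_, u, ⟨hu, ?_⟩, ?_⟩
    · rw [← he]
      exact ⟨if_mem hψ hw.1, hw.2⟩
    · rw [mem_preimage, hue]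
      exact hzQ.2
    · exact Prod.ext hue h0.symm

/-- the geometry of `Y` (`pk_isMetricOn_ext`, `pk_smoothAlong_fst`, `Y_sub`). -/
theorem Y_geo (hS : S.Ok) : CtGeo (d + 1) S.Y (extTen S.h) (fun z => S.t z.1) :=
  ⟨Y_mfd hS, pk_isMetricOn_ext hS.geo.mfd Y_sub hS.geo.met,
    pk_smoothAlong_fst hS.geo.mfd Y_sub hS.geo.drift⟩

/-- the level set `S = {U = 0}` (`rm_level_mfd` on the open piece of `M` where `dU ≠ 0`, or the slices of lapse parametrisations `rm_orth_param`, `rm_LapseP.slice`; `rm_sub_metric`, `rm_sub_smooth`). -/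
theorem S_geo (hS : S.Ok) : CtGeo d (rm_Lv S.M S.U 0) S.h S.t :=
  ⟨rm_level_mfd hS.geo.mfd hS.geo.met hS.U_sm fun x hx h0 => by
      rw [hS.unit x hx h0]
      exact one_pos,
    rm_sub_metric (rm_Lv_sub _ _ _) hS.geo.mfd hS.geo.met,
    rm_sub_smooth (rm_Lv_sub _ _ _) hS.geo.mfd hS.geo.drift⟩

/-- the slice parametrisation of `{U = 0}` in a good chart. -/
theorem Good.slice (hg : S.Good g) :
    IsParam (rm_Lv S.M S.U 0) (fun u => g.ψ (rm_J 0 u)) (Metric.ball 0 (3 * S.dl g)) := by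
  refine hg.lapse.slice ?_
  rw [zero_sub, abs_neg]
  have := hg.2
  have := hg.dl_pos
  linarith

end par

end RgsgDat

end Claimed.Agent.R315
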