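import Claimed.Agent.R315.Rg.SeamG1
import Claimed.Agent.R315.Sh.ImsY

/-!
# Row 315, package Rg, unit SEAM-G, file 2 of 4: THE RAW PAIR OF A TEST FUNCTION   (architect: helper190)

Notation and the plan of the unit: header of `Rg/SeamG1.lean`.

`φ` = a test function on `Y = S.Y`.  The raw pair `(vb, vc)` is THE SAME FUNCTION read on the raw side:
* bulk `{U > 0}`:     `vb (g.ψ v) = φ (S.Ps g (rgsRf v))` for `0 ≤ v 0 < 2 δ` in every good chart `g`,   `vb x = φ (x, 0)` on the flat region `F`;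
* cylinder `{U = 0} × (0, ∞)`:   `vc (g.ψ (0, u)) s = φ (S.Ps g (s, u))`;
* `(vb, vc)` is an `RgPair` supported in `T ∪ F` (so it vanishes elsewhere).
This is `S.Spec φ vb vc`.  The values of `vb` on `{U < 0}` and of `vc` off `{U = 0} × [0, ∞)` are irrelevant (any smooth extension with compact support in `T ∪ F`).

EXISTENCE (`spec_exists`).  `Spec` is LINEAR in `(φ, vb, vc)` (`Spec.zero`, `Spec.add`, `Spec.congr`), so by a partition of unity (`rgsg_loc_principle`) we may assume that the support of `φ` lies in ONE chart of `Y`: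
* `spec_tube` (image of `S.Ps g`): `Ft = φ ∘ S.Ps g` extended by `0` (`rgsg_pull`: smooth on `E (d+1)`, compact support `Q ⊆ rgsDom`);
  `vb = gsPush g.ψ bx (v ↦ χ (v 0 / δ) Ft (rgsRf v))`, `vc (·, s) = gsPush g.ψ bx (v ↦ χ₂ (v 0 / δ) Ft (s, tl v))` (`tube_vb`, `tube_vc`, `tube_pair`);
  the formulas in ANOTHER good chart `g'` follow from fibre consistency (`fc`, `cons`, `Ps_congr`);
* `spec_flat` (support in `F × {0}`): `vb x = φ (x, 0)` on `F`, `0` elsewhere, `vc = 0`.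
-/

set_option autoImplicit false
set_option linter.unusedSectionVars false
set_option linter.unusedVariables false
open scoped ContDiff ENNReal Topology
open MeasureTheory Claims.C0499 Set Filter

namespace Claimed.Agent.R315

variable {d : ℕ} {V : Type} [NormedAddCommGroup V] [NormedSpace ℝ V]

/-! ## 1. algebra of matching pairs   (package L-RG-SEAMG-ALG) -/

section pair

variable {M P P' : Set V} {U : V → ℝ} {vb vb' : V → ℝ} {vc vc' : V → ℝ → ℝ}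

theorem rgsg_pair_zero : RgPair d M U P (fun _ => 0) (fun _ _ => 0) := by
  exact ⟨gs_sm_const 0, gs_sm_const 0, ⟨∅, 0, isCompact_empty, empty_subset _, fun _ _ _ => ⟨rfl, fun _ => rfl⟩,
    fun _ _ _ => rfl⟩, fun _ _ _ => rfl⟩

theorem rgsg_pair_add (h : RgPair d M U P vb vc) (h' : RgPair d M U P vb' vc') :
    RgPair d M U P (fun x => vb x + vb' x) (fun x s => vc x s + vc' x s) := by
  obtain ⟨K, L, hK, hKP, hK0, hL⟩ := h.cs
  obtain ⟨K', L', hK', hKP', hK0', hL'⟩ := h'.cs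
  refine ⟨gs_sm_add h.b_smooth h'.b_smooth, gs_sm_add h.c_smooth h'.c_smooth,
    ⟨K ∪ K', max L L', hK.union hK', union_subset hKP hKP', fun x hx hxK => ?_, fun x s hs => ?_⟩, fun x hx hU => ?_⟩
  · obtain ⟨a1, a2⟩ := hK0 x hx fun h => hxK (Or.inl h)
    obtain ⟨b1, b2⟩ := hK0' x hx fun h => hxK (Or.inr h)
    refine ⟨?_, fun s => ?_⟩
    · show vb x + vb' x = 0
      rw [a1, b1, add_zero]
    · show vc x s + vc' x s = 0
      rw [a2 s, b2 s, add_zero]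
  · show vc x s + vc' x s = 0
    rw [hL x s ((le_max_left _ _).trans_lt hs), hL' x s ((le_max_right _ _).trans_lt hs), add_zero]
  · show vc x 0 + vc' x 0 = vb x + vb' x
    rw [h.seam x hx hU, h'.seam x hx hU]

theorem rgsg_pair_mono (h : RgPair d M U P vb vc) (hP : M ∩ P ⊆ P') : RgPair d M U P' vb vc := by
  obtain ⟨K, L, hK, hKP, hK0, hL⟩ := h.cs
  exact ⟨h.b_smooth, h.c_smooth, ⟨K, L, hK, fun x hx => ⟨(hKP hx).1, hP (hKP hx)⟩, hK0, hL⟩, h.seam⟩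

end pair

namespace RgsgDat

/-- **the raw pair of `φ`.** -/
structure Spec (S : RgsgDat d V) (φ : V × ℝ → ℝ) (vb : V → ℝ) (vc : V → ℝ → ℝ) : Prop where
  pair : RgPair d S.M S.U (S.T ∪ S.F) vb vc
  bulk : ∀ g, S.Good g → ∀ v ∈ S.bx g, 0 ≤ v 0 → v 0 < 2 * S.dl g →
    vb (g.ψ v) = φ (S.Ps g (rgsRf v))
  cyl : ∀ g, S.Good g → ∀ u : E d, ‖u‖ < 3 * S.dl g → ∀ s, 0 < s →
    vc (g.ψ (rm_J 0 u)) s = φ (S.Ps g (rm_J s u))
  flat : ∀ x ∈ S.F, vb x = φ (x, 0)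

variable {S : RgsgDat d V} {g g' : RgsgCh d V} {φ φ' : V × ℝ → ℝ} {vb vb' : V → ℝ}
  {vc vc' : V → ℝ → ℝ}

theorem Spec.zero : S.Spec (fun _ => 0) (fun _ => 0) (fun _ _ => 0) :=
  ⟨rgsg_pair_zero, fun _ _ _ _ _ _ => rfl, fun _ _ _ _ _ _ => rfl, fun _ _ => rfl⟩

theorem Spec.add (h : S.Spec φ vb vc) (h' : S.Spec φ' vb' vc') :
    S.Spec (fun z => φ z + φ' z) (fun x => vb x + vb' x) (fun x s => vc x s + vc' x s) :=
  ⟨rgsg_pair_add h.pair h'.pair,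
    fun g hg v hv h0 h2 => by
      show vb (g.ψ v) + vb' (g.ψ v) = _
      rw [h.bulk g hg v hv h0 h2, h'.bulk g hg v hv h0 h2],
    fun g hg u hu s hs => by
      show vc (g.ψ (rm_J 0 u)) s + vc' (g.ψ (rm_J 0 u)) s = _
      rw [h.cyl g hg u hu s hs, h'.cyl g hg u hu s hs],
    fun x hx => by
      show vb x + vb' x = _
      rw [h.flat x hx, h'.flat x hx]⟩

/-- only the values of `φ` on `Y` matter (`Ps_mem_Y`, `Good.Rf_mem`, `flat_mem_Y`). -/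
theorem Spec.congr [FiniteDimensional ℝ V] (hS : S.Ok) (h : S.Spec φ vb vc)
    (he : ∀ z ∈ S.Y, φ' z = φ z) : S.Spec φ' vb vc := by
  refine ⟨h.pair, fun g hg v hv h0 h2 => ?_, fun g hg u hu s hs => ?_, fun x hx => ?_⟩
  · rw [h.bulk g hg v hv h0 h2, he _ (Ps_mem_Y hS hg (hg.Rf_mem hv h2))]
  · have hm : rm_J s u ∈ rgsDom d (S.dl g) := by
      refine ⟨?_, ?_⟩
      · rw [rm_J_zero]
        have := hg.dl_pos
        linarith
      · rw [rm_tl_J]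
        exact hu
    rw [h.cyl g hg u hu s hs, he _ (Ps_mem_Y hS hg hm)]
  · rw [h.flat x hx, he _ (flat_mem_Y hS ⟨Or.inr hx, hx.2.1⟩)]

/-- on the whole part `Nf` of `T ∪ F` where `w < U`: `vb = φ (·, 0)` (`bulk` + `Good.Ps_Rf_flat`, `flat`). -/
theorem Spec.flat' (hS : S.Ok) (h : S.Spec φ vb vc) {x : V} (hx : x ∈ S.Nf) : vb x = φ (x, 0) := by
  obtain ⟨hx1 | hx1, hx2⟩ := hx
  · obtain ⟨g, hg, v, hv, hv2, rfl⟩ := hx1
    rw [hg.lvl hv, hg.flat hv] at hx2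
    have hδ := hg.dl_pos
    rw [h.bulk g hg v hv (hδ.le.trans hx2.le) (lt_of_abs_lt hv2), hg.Ps_Rf_flat hS hx2.le]
  · exact h.flat x hx1

/-- the pair for the raw inequality. -/
theorem Spec.pairP (hS : S.Ok) (h : S.Spec φ vb vc) : RgPair d S.M S.U S.P vb vc :=
  rgsg_pair_mono h.pair (by
    rintro x ⟨-, hx | hx⟩
    · exact (T_sub hS hx).2
    · exact (F_sub hx).2)

end RgsgDat

/-! ## 2. generic tools   (package L-RG-SEAMG-LOC) -/

section tools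

variable {W : Type} [NormedAddCommGroup W] [NormedSpace ℝ W] [FiniteDimensional ℝ W]

/-- **localisation principle**: a property of functions on `Y` which is additive, depends only on the values on `Y`, and holds for the functions which are smooth along `Y` with compact support in one of the open sets `O i`, holds for all test functions.
PLAN: `K` = the compact set of `hφ.2`; finitely many `O i`, `i ∈ t`, cover `K` (`IsCompact.elim_finite_subcover`); `if_exists_pou_closed` for the family `fun i : t => O i` (`K` closed): `χ i` smooth, `tsupport (χ i) ⊆ O i`, `∑ᶠ = ∑` (`finsum_eq_sum_of_fintype`) `= 1` on `K`.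
`φ i = χ i * φ` is smooth along `Y` (`if_smoothAlong_of_contDiff`, `gs_sm_mul`), vanishes on `Y` off the compact set `K ∩ tsupport (χ i) ⊆ Y ∩ O i`.  `Pr (∑ i ∈ s, φ i)` by `Finset.induction_on`; `φ = ∑ φ i` on `Y` (on `K`: `∑ χ i = 1`; off `K`: both sides vanish). -/
theorem rgsg_loc_principle {n : ℕ} {Y : Set W} {ι : Type} (O : ι → Set W) (hO : ∀ i, IsOpen (O i))
    (hcov : Y ⊆ ⋃ i, O i) (Pr : (W → ℝ) → Prop) (h0 : Pr fun _ => 0)
    (hadd : ∀ f f', Pr f → Pr f' → Pr fun z => f z + f' z)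
    (hcongr : ∀ f f', (∀ z ∈ Y, f' z = f z) → Pr f → Pr f')
    (hloc : ∀ (i : ι) (φ : W → ℝ) (K : Set W), SmoothAlong n Y φ → IsCompact K → K ⊆ Y ∩ O i →
      (∀ z ∈ Y, z ∉ K → φ z = 0) → Pr φ)
    {φ : W → ℝ} (hφ : IsTestOn n Y φ) : Pr φ := by
  classical
  obtain ⟨hsm, K, hK, hKY, hK0⟩ := hφ
  obtain ⟨t, ht⟩ := hK.elim_finite_subcover O hO (hKY.trans hcov)
  have hcov' : K ⊆ ⋃ i : t, O i.1 := by
    intro z hz
    obtain ⟨i, hi, hzi⟩ := mem_iUnion₂.1 (ht hz)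
    exact mem_iUnion.2 ⟨⟨i, hi⟩, hzi⟩
  obtain ⟨χ, hχs, -, hχt, -, hχ1, -⟩ := if_exists_pou_closed hK.isClosed (fun i : t => O i.1) (fun i => hO i.1) hcov'
  have hone : ∀ i : t, Pr fun z => χ i z * φ z := by
    intro i
    refine hloc i.1 _ (K ∩ tsupport (χ i)) (gs_sm_mul (if_smoothAlong_of_contDiff (hχs i)) hsm)
      (hK.inter_right (isClosed_tsupport _)) (fun z hz => ⟨hKY hz.1, hχt i hz.2⟩) fun z hz hzK => ?_
    by_cases hzK' : z ∈ K
    · have : χ i z = 0 := image_eq_zero_of_notMem_tsupport fun h => hzK ⟨hzK', h⟩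
      rw [this, zero_mul]
    · rw [hK0 z hz hzK', mul_zero]
  have hsum : ∀ s : Finset t, Pr fun z => ∑ i ∈ s, χ i z * φ z := by
    intro s
    induction s using Finset.induction_on with
    | empty => simpa using h0
    | insert a s ha ih =>
      have := hadd _ _ (hone a) ih
      simpa [Finset.sum_insert ha] using this
  refine hcongr _ φ (fun z hz => ?_) (hsum Finset.univ)
  by_cases hzK : z ∈ K
  · rw [← Finset.sum_mul, ← finsum_eq_sum_of_fintype, hχ1 z hzK, one_mul]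
  · rw [hK0 z hz hzK]
    simp

/-- pull-back by a parametrisation of a function with compact support in its image, extended by zero.
PLAN: `Q = invFunOn Ψ D '' K` is compact (`if_contInv`), `Q ⊆ D`, `Ψ '' Q = K`.  `Ft = D.indicator (φ ∘ Ψ)`.  Smooth at `v ∈ D`: `hφ Ψ D hp`, `D` open.  At `v ∉ D`: `v ∉ Q`, `Qᶜ` is open and `Ft = 0` on it
(for `v' ∈ D \ Q`: `Ψ v' ∈ Z`, `Ψ v' ∉ K` by injectivity). -/
theorem rgsg_pull {n : ℕ} {Z : Set W} {Ψ : E n → W} {D : Set (E n)} (hp : IsParam Z Ψ D)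
    {φ : W → ℝ} (hφ : SmoothAlong n Z φ) {K : Set W} (hK : IsCompact K) (hKD : K ⊆ Ψ '' D)
    (h0 : ∀ z ∈ Z, z ∉ K → φ z = 0) :
    ∃ (Ft : E n → ℝ) (Q : Set (E n)), ContDiff ℝ ∞ Ft ∧ IsCompact Q ∧ Q ⊆ D ∧
      (∀ v, v ∉ Q → Ft v = 0) ∧ ∀ v ∈ D, Ft v = φ (Ψ v) := by
  classical
  have hQ : IsCompact (Function.invFunOn Ψ D '' K) := hK.image_of_continuousOn ((if_contInv hp).mono hKD)
  have hQD : Function.invFunOn Ψ D '' K ⊆ D := by
    rintro _ ⟨z, hz, rfl⟩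
    obtain ⟨v, hv, hvz⟩ := hKD hz
    exact Function.invFunOn_mem ⟨v, hv, hvz⟩
  have hzero : ∀ v, v ∉ Function.invFunOn Ψ D '' K → D.indicator (φ ∘ Ψ) v = 0 := by
    intro v hv
    by_cases hvD : v ∈ D
    · rw [indicator_of_mem hvD]
      refine h0 _ (if_mem hp hvD) fun hK' => hv ⟨Ψ v, hK', ?_⟩
      exact hp.2.2.2.1.leftInvOn_invFunOn hvD
    · exact indicator_of_notMem hvD _
  refine ⟨D.indicator (φ ∘ Ψ), Function.invFunOn Ψ D '' K, ?_, hQ, hQD, hzero, fun v hv => indicator_of_mem hv _⟩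
  rw [contDiff_iff_contDiffAt]
  intro v
  by_cases hvD : v ∈ D
  · have h1 : D.indicator (φ ∘ Ψ) =ᶠ[𝓝 v] φ ∘ Ψ := by
      filter_upwards [(if_open hp).mem_nhds hvD] with y hy using indicator_of_mem hy _
    exact ((hφ Ψ D hp).contDiffAt ((if_open hp).mem_nhds hvD)).congr_of_eventuallyEq h1
  · have h1 : D.indicator (φ ∘ Ψ) =ᶠ[𝓝 v] fun _ => 0 := by
      filter_upwards [hQ.isClosed.isOpen_compl.mem_nhds fun h => hvD (hQD h)] with y hy using hzero y hy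
    exact contDiffAt_const.congr_of_eventuallyEq h1

/-- cutoff on the line: `1` on `[-1/4, ∞)`, `0` on `(-∞, -1/2]` (`Real.smoothTransition (4 x + 2)`). -/
theorem rgsg_cut : ∃ χ : ℝ → ℝ, ContDiff ℝ ∞ χ ∧ (∀ x, -(1 / 4) ≤ x → χ x = 1) ∧
    ∀ x, x ≤ -(1 / 2) → χ x = 0 := by
  refine ⟨fun x => Real.smoothTransition (4 * x + 2),
    Real.smoothTransition.contDiff.comp ((contDiff_const.mul contDiff_id).add contDiff_const), fun x hx => ?_, fun x hx => ?_⟩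
  · exact Real.smoothTransition.one_of_one_le (by linarith)
  · exact Real.smoothTransition.zero_of_nonpos (by linarith)

/-- cutoff on the line: `1` at `0`, `0` for `1 ≤ |x|` (`Real.smoothTransition (2 - 2 x ^ 2)`...). -/
theorem rgsg_cut2 : ∃ χ : ℝ → ℝ, ContDiff ℝ ∞ χ ∧ χ 0 = 1 ∧ ∀ x, 1 ≤ |x| → χ x = 0 := by
  refine ⟨fun x => Real.smoothTransition (2 - 2 * x ^ 2),
    Real.smoothTransition.contDiff.comp (contDiff_const.sub (contDiff_const.mul (contDiff_id.pow 2))), ?_, fun x hx => ?_⟩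
  · exact Real.smoothTransition.one_of_one_le (by norm_num)
  · refine Real.smoothTransition.zero_of_nonpos ?_
    have : 1 ≤ x ^ 2 := by
      rw [← sq_abs]
      nlinarith
    linarith

end tools

namespace RgsgDat

variable [FiniteDimensional ℝ V]
variable {S : RgsgDat d V} {g g' : RgsgCh d V} {φ φ' : V × ℝ → ℝ} {vb vb' : V → ℝ}
  {vc vc' : V → ℝ → ℝ}

/-! ## 3. the pair in one chart of the tube   (packages L-RG-SEAMG-TUBE1, L-RG-SEAMG-TUBE2) -/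

/-- the bulk function in the chart `g`.
PLAN: `vb = gsPush g.ψ (S.bx g) b`, `b v = χ (v 0 / δ) * Ft (rgsRf v)` (smooth: `rgsRf` is linear continuous: `rm_J`, `rm_tl`).  `rgsRf` is an involution.  `Qb = rgsRf '' Q ∩ {v | -(δ/2) ≤ v 0}` is compact,
`Qb ⊆ bx` and `|v 0| < 2 δ` on it (`v = rgsRf q`, `q ∈ rgsDom`: `v 0 = - q 0 < 2 δ`, `‖tl v‖ = ‖tl q‖ < 3 δ`; `Good.mem_bx`), `b = 0` off `Qb`.  `gs_push_test hg.par`, `gsPush_apply`; `K = g.ψ '' Qb`. -/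
theorem tube_vb (hS : S.Ok) (hg : S.Good g) {Ft : E (d + 1) → ℝ} (hF : ContDiff ℝ ∞ Ft)
    {Q : Set (E (d + 1))} (hQ : IsCompact Q) (hQd : Q ⊆ rgsDom d (S.dl g))
    (hF0 : ∀ v, v ∉ Q → Ft v = 0) {χ : ℝ → ℝ} (hχ : ContDiff ℝ ∞ χ)
    (hχ0 : ∀ x, x ≤ -(1 / 2) → χ x = 0) :
    ∃ (vb : V → ℝ) (K : Set V), SmoothAlong (d + 1) S.M vb ∧ IsCompact K ∧ K ⊆ S.T ∧
      (∀ x, x ∉ K → vb x = 0) ∧ (∀ x, x ∉ g.ψ '' S.bx g → vb x = 0) ∧
      ∀ v ∈ S.bx g, vb (g.ψ v) = χ (v 0 / S.dl g) * Ft (rgsRf v) := by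
  have hδ := hg.dl_pos
  have hc0 : ContDiff ℝ ∞ fun w : E (d + 1) => w 0 :=
    (EuclideanSpace.proj (0 : Fin (d + 1)) : E (d + 1) →L[ℝ] ℝ).contDiff
  have hRf : ContDiff ℝ ∞ (rgsRf : E (d + 1) → E (d + 1)) := by
    unfold rgsRf rm_J
    exact (hc0.neg.smul contDiff_const).add ((rm_in d).contDiff.comp (rm_tl d).contDiff)
  have hRR : ∀ v : E (d + 1), rgsRf (rgsRf v) = v := by
    intro v
    unfold rgsRf
    rw [rm_J_zero, rm_tl_J, neg_neg, rm_J_tl]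
  set b : E (d + 1) → ℝ := fun v => χ (v 0 / S.dl g) * Ft (rgsRf v) with hb
  have hbs : ContDiff ℝ ∞ b := (hχ.comp (hc0.div_const _)).mul (hF.comp hRf)
  set Qb : Set (E (d + 1)) := rgsRf '' Q ∩ {v | -(S.dl g / 2) ≤ v 0} with hQb
  have hQbc : IsCompact Qb :=
    (hQ.image hRf.continuous).inter_right (isClosed_le continuous_const hc0.continuous)
  have hQb2 : ∀ v ∈ Qb, v ∈ S.bx g ∧ |v 0| < 2 * S.dl g := by
    rintro _ ⟨⟨q, hq, rfl⟩, h2⟩
    have hq' := hQd hq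
    have e0 : rgsRf q 0 = -(q 0) := rm_J_zero _ _
    have et : rm_tl d (rgsRf q) = rm_tl d q := rm_tl_J _ _
    have h2' : -(S.dl g / 2) ≤ rgsRf q 0 := h2
    have h3 : |rgsRf q 0| < 2 * S.dl g := by
      rw [abs_lt]
      constructor
      · linarith
      · rw [e0]; linarith [hq'.1]
    exact ⟨hg.mem_bx h3 (by rw [et]; exact hq'.2), h3⟩
  have hb0 : ∀ u ∈ S.bx g, u ∉ Qb → b u = 0 := by
    intro u _ hu
    by_cases h1 : -(S.dl g / 2) ≤ u 0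
    · have h2 : rgsRf u ∉ Q := fun h => hu ⟨⟨rgsRf u, h, hRR u⟩, h1⟩
      show χ _ * Ft _ = 0
      rw [hF0 _ h2, mul_zero]
    · show χ _ * Ft _ = 0
      rw [hχ0 _ ?_, zero_mul]
      rw [div_le_iff₀ hδ]
      linarith [not_le.1 h1]
  obtain ⟨h1, h2⟩ := gs_push_test hg.par hbs.contDiffOn hQbc (fun v hv => (hQb2 v hv).1) hb0
  refine ⟨gsPush g.ψ (S.bx g) b, g.ψ '' Qb, h1.1,
    hQbc.image_of_continuousOn ((if_continuousOn hg.par).mono fun v hv => (hQb2 v hv).1), ?_, h2,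
    fun x hx => gsPush_of_not_mem b hx, fun v hv => gsPush_apply hg.par b hv⟩
  rintro _ ⟨v, hv, rfl⟩
  exact ⟨g, hg, v, (hQb2 v hv).1, (hQb2 v hv).2, rfl⟩

/-- the cylinder function in the chart `g`.
PLAN: product parametrisation `Ψ b = (g.ψ (rm_tl (d+1) b), b 0)` of `Prod.fst ⁻¹' M = M ×ˢ univ` (`pk_param_prod hg.par`, `Set.prod_univ`) on `{b | rm_tl (d+1) b ∈ bx}`;
`c b = χ₂ ((rm_tl (d+1) b) 0 / δ) * Ft (rm_J (b 0) (rm_tl d (rm_tl (d+1) b)))` smooth; `vc x s = gsPush Ψ _ c (x, s)`; `c = 0` off the compact set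
`{b | |b 0| ≤ L, |(tl b) 0| ≤ δ, tl (tl b) ∈ rm_tl d '' Q}` (`L` = a bound of `|q 0|` on `Q`; image of a product of compact sets under the continuous map `(s, c, u) ↦ rm_J s (rm_J c u)`), which lies in the domain (`Good.J_mem`).
`gs_push_test`, `gsPush_apply`, `gsPush_of_not_mem`.  `K = g.ψ '' {v | |v 0| ≤ δ ∧ tl v ∈ rm_tl d '' Q}`. -/
theorem tube_vc (hS : S.Ok) (hg : S.Good g) {Ft : E (d + 1) → ℝ} (hF : ContDiff ℝ ∞ Ft)
    {Q : Set (E (d + 1))} (hQ : IsCompact Q) (hQd : Q ⊆ rgsDom d (S.dl g))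
    (hF0 : ∀ v, v ∉ Q → Ft v = 0) {χ₂ : ℝ → ℝ} (hχ : ContDiff ℝ ∞ χ₂)
    (hχ0 : ∀ x, 1 ≤ |x| → χ₂ x = 0) :
    ∃ (vc : V → ℝ → ℝ) (K : Set V) (L : ℝ),
      SmoothAlong (d + 2) (S.M ×ˢ (Set.univ : Set ℝ)) (fun z : V × ℝ => vc z.1 z.2) ∧
      IsCompact K ∧ K ⊆ S.T ∧ (∀ x, x ∉ K → ∀ s, vc x s = 0) ∧ (∀ x s, L < |s| → vc x s = 0) ∧
      (∀ x, x ∉ g.ψ '' S.bx g → ∀ s, vc x s = 0) ∧
      ∀ v ∈ S.bx g, ∀ s, vc (g.ψ v) s = χ₂ (v 0 / S.dl g) * Ft (rm_J s (rm_tl d v)) := by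
  have hδ := hg.dl_pos
  have hc0 : ∀ n : ℕ, ContDiff ℝ ∞ fun w : E (n + 1) => w 0 := fun n =>
    (EuclideanSpace.proj (0 : Fin (n + 1)) : E (n + 1) →L[ℝ] ℝ).contDiff
  have hJc : ∀ n : ℕ, Continuous fun p : ℝ × E n => rm_J p.1 p.2 := by
    intro n
    unfold rm_J
    exact (continuous_fst.smul continuous_const).add ((rm_in n).continuous.comp continuous_snd)
  obtain ⟨L, hL⟩ := hQ.bddAbove_image (f := fun q : E (d + 1) => |q 0|)
    (hc0 d).continuous.abs.continuousOn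
  have hL' : ∀ q ∈ Q, |q 0| ≤ L := fun q hq => hL ⟨q, hq, rfl⟩
  set Ψ : E (d + 1 + 1) → V × ℝ := fun b => (g.ψ (rm_tl (d + 1) b), b 0) with hΨ
  set D : Set (E (d + 1 + 1)) := {b | rm_tl (d + 1) b ∈ S.bx g} with hD
  have hp : IsParam (Prod.fst ⁻¹' S.M : Set (V × ℝ)) Ψ D := pk_param_prod hg.par
  set c : E (d + 1 + 1) → ℝ := fun b => χ₂ ((rm_tl (d + 1) b) 0 / S.dl g) *
    Ft (rm_J (b 0) (rm_tl d (rm_tl (d + 1) b))) with hc
  have hcs : ContDiff ℝ ∞ c := by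
    refine (hχ.comp (((hc0 d).comp (rm_tl (d + 1)).contDiff).div_const _)).mul (hF.comp ?_)
    unfold rm_J
    exact ((hc0 (d + 1)).smul contDiff_const).add
      ((rm_in d).contDiff.comp ((rm_tl d).contDiff.comp (rm_tl (d + 1)).contDiff))
  -- the compact sets
  set Q₁ : Set (E d) := rm_tl d '' Q with hQ₁
  have hQ₁c : IsCompact Q₁ := hQ.image (rm_tl d).continuous
  have hQ₁b : ∀ u ∈ Q₁, ‖u‖ < 3 * S.dl g := by
    rintro _ ⟨q, hq, rfl⟩
    exact (hQd hq).2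
  set K₁ : Set (E (d + 1)) := (fun p : ℝ × E d => rm_J p.1 p.2) '' (Icc (-S.dl g) (S.dl g) ×ˢ Q₁)
    with hK₁
  have hK₁c : IsCompact K₁ := (isCompact_Icc.prod hQ₁c).image (hJc d)
  have hK₁b : ∀ v ∈ K₁, v ∈ S.bx g ∧ |v 0| < 2 * S.dl g := by
    rintro _ ⟨⟨a, u⟩, ⟨ha, hu⟩, rfl⟩
    have ha' : |a| < 2 * S.dl g := by
      rw [abs_lt]
      constructor <;> linarith [ha.1, ha.2]
    refine ⟨hg.J_mem ha' (hQ₁b u hu), ?_⟩
    show |rm_J a u 0| < _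
    rw [rm_J_zero]
    exact ha'
  set Kc : Set (E (d + 1 + 1)) :=
    (fun p : ℝ × E (d + 1) => rm_J p.1 p.2) '' (Icc (-L) L ×ˢ K₁) with hKc
  have hKcc : IsCompact Kc := (isCompact_Icc.prod hK₁c).image (hJc (d + 1))
  have hKcD : Kc ⊆ D := by
    rintro _ ⟨⟨s, v⟩, ⟨-, hv⟩, rfl⟩
    show rm_tl (d + 1) (rm_J s v) ∈ S.bx g
    rw [rm_tl_J]
    exact (hK₁b v hv).1
  have hc0' : ∀ b ∈ D, b ∉ Kc → c b = 0 := by
    intro b _ hb
    by_contra hne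
    apply hb
    have h1 : χ₂ ((rm_tl (d + 1) b) 0 / S.dl g) ≠ 0 := left_ne_zero_of_mul hne
    have h2 : Ft (rm_J (b 0) (rm_tl d (rm_tl (d + 1) b))) ≠ 0 := right_ne_zero_of_mul hne
    have h3 : |(rm_tl (d + 1) b) 0 / S.dl g| < 1 := by
      by_contra h
      exact h1 (hχ0 _ (not_lt.1 h))
    have h4 : rm_J (b 0) (rm_tl d (rm_tl (d + 1) b)) ∈ Q := by
      by_contra h
      exact h2 (hF0 _ h)
    have h5 : |b 0| ≤ L := by
      have := hL' _ h4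
      rwa [rm_J_zero] at this
    have h6 : rm_tl d (rm_tl (d + 1) b) ∈ Q₁ := ⟨_, h4, rm_tl_J _ _⟩
    have h7 : |(rm_tl (d + 1) b) 0| < S.dl g := by
      rw [abs_div, abs_of_pos hδ, div_lt_one hδ] at h3
      exact h3
    refine ⟨(b 0, rm_tl (d + 1) b), ⟨abs_le.1 h5, ?_⟩, rm_J_tl b⟩
    exact ⟨((rm_tl (d + 1) b) 0, rm_tl d (rm_tl (d + 1) b)), ⟨abs_le.1 h7.le, h6⟩, rm_J_tl _⟩
  obtain ⟨h1, h2⟩ := gs_push_test hp hcs.contDiffOn hKcc hKcD hc0'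
  refine ⟨fun x s => gsPush Ψ D c (x, s), g.ψ '' K₁, L, ?_,
    hK₁c.image_of_continuousOn ((if_continuousOn hg.par).mono fun v hv => (hK₁b v hv).1), ?_, ?_,
    ?_, ?_, ?_⟩
  · rw [Set.prod_univ]
    exact h1.1
  · rintro _ ⟨v, hv, rfl⟩
    exact ⟨g, hg, v, (hK₁b v hv).1, (hK₁b v hv).2, rfl⟩
  · intro x hx s
    refine h2 _ ?_
    rintro ⟨_, ⟨⟨s', v⟩, ⟨-, hv⟩, rfl⟩, he⟩
    apply hx
    have : g.ψ (rm_tl (d + 1) (rm_J s' v)) = x := congrArg Prod.fst he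
    rw [rm_tl_J] at this
    exact ⟨v, hv, this⟩
  · intro x s hs
    refine h2 _ ?_
    rintro ⟨_, ⟨⟨s', v⟩, ⟨hs', -⟩, rfl⟩, he⟩
    have : rm_J s' v 0 = s := congrArg Prod.snd he
    rw [rm_J_zero] at this
    subst this
    exact absurd (abs_le.2 hs') (not_le.2 hs)
  · intro x hx s
    refine gsPush_of_not_mem c ?_
    rintro ⟨b, hb, he⟩
    exact hx ⟨_, hb, congrArg Prod.fst he⟩
  · intro v hv s
    have hm : rm_J s v ∈ D := by
      show rm_tl (d + 1) (rm_J s v) ∈ S.bx g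
      rw [rm_tl_J]; exact hv
    have e : (g.ψ v, s) = Ψ (rm_J s v) := by
      show _ = (g.ψ (rm_tl (d + 1) (rm_J s v)), rm_J s v 0)
      rw [rm_tl_J, rm_J_zero]
    show gsPush Ψ D c (g.ψ v, s) = _
    rw [e, gsPush_apply hp c hm]
    show χ₂ ((rm_tl (d + 1) (rm_J s v)) 0 / S.dl g) *
      Ft (rm_J (rm_J s v 0) (rm_tl d (rm_tl (d + 1) (rm_J s v)))) = _
    rw [rm_tl_J, rm_J_zero]

/-- the pair in its own chart. -/
theorem tube_pair (hS : S.Ok) (hg : S.Good g) {Ft : E (d + 1) → ℝ} (hF : ContDiff ℝ ∞ Ft)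
    {Q : Set (E (d + 1))} (hQ : IsCompact Q) (hQd : Q ⊆ rgsDom d (S.dl g))
    (hF0 : ∀ v, v ∉ Q → Ft v = 0) :
    ∃ (vb : V → ℝ) (vc : V → ℝ → ℝ), RgPair d S.M S.U (S.T ∪ S.F) vb vc ∧
      (∀ v ∈ S.bx g, 0 ≤ v 0 → vb (g.ψ v) = Ft (rgsRf v)) ∧
      (∀ x, x ∉ g.ψ '' S.bx g → vb x = 0) ∧
      (∀ v ∈ S.bx g, v 0 = 0 → ∀ s, vc (g.ψ v) s = Ft (rm_J s (rm_tl d v))) ∧
      (∀ x, x ∉ g.ψ '' S.bx g → ∀ s, vc x s = 0) := by
  obtain ⟨χ, hχ, hχ1, hχ0⟩ := rgsg_cut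
  obtain ⟨χ₂, hχ₂, hχ₂1, hχ₂0⟩ := rgsg_cut2
  obtain ⟨vb, K, hvb, hK, hKT, hvb0, hvbo, hvbe⟩ := tube_vb hS hg hF hQ hQd hF0 hχ hχ0
  obtain ⟨vc, K', L, hvc, hK', hKT', hvc0, hvcL, hvco, hvce⟩ := tube_vc hS hg hF hQ hQd hF0 hχ₂ hχ₂0
  have hδ := hg.dl_pos
  refine ⟨vb, vc, ⟨hvb, hvc, ⟨K ∪ K', L, hK.union hK', ?_, ?_, hvcL⟩, ?_⟩, ?_, hvbo, ?_, hvco⟩
  · rintro x (hx | hx)
    · exact ⟨(T_sub hS (hKT hx)).1, Or.inl (hKT hx)⟩
    · exact ⟨(T_sub hS (hKT' hx)).1, Or.inl (hKT' hx)⟩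
  · intro x _ hx
    exact ⟨hvb0 x fun h => hx (Or.inl h), hvc0 x fun h => hx (Or.inr h)⟩
  · intro x _ hU
    by_cases hx : x ∈ g.ψ '' S.bx g
    · obtain ⟨v, hv, rfl⟩ := hx
      have h0 : v 0 = 0 := by rw [← hg.lvl hv]; exact hU
      rw [hvbe v hv, hvce v hv, h0, zero_div, hχ₂1, hχ1 0 (by norm_num), one_mul, one_mul]
      unfold rgsRf
      rw [h0, neg_zero]
    · rw [hvbo x hx, hvco x hx]
  · intro v hv h0
    rw [hvbe v hv, hχ1 _ (by have := div_nonneg h0 hδ.le; linarith), one_mul]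
  · intro v hv h0 s
    rw [hvce v hv, h0, zero_div, hχ₂1, one_mul]

/-- **the pair of a function supported in one chart of the tube.**
PLAN.  `rgsg_pull (Ps_param hS hg) hφ hK hKg h0` gives `Ft`, `Q`; `tube_pair` gives `(vb, vc)`.  Let `δ = S.dl g`.
`bulk` in a good chart `g'`, `x = g'.ψ v'`, `0 ≤ v' 0 < 2 δ'`.
 (a) `x = g.ψ v`, `v ∈ bx g`: `fc`: `δ = δ'`, `v 0 = v' 0`, same fibres.  `vb x = Ft (rgsRf v) = φ (S.Ps g (rgsRf v))` (`Good.Rf_mem`) and `S.Ps g (rgsRf v) = S.Ps g' (rgsRf v')` (`Ps_congr`, `rgsRf v = rm_J (-(v 0)) (tl v)`).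
 (b) `x ∉ g.ψ '' bx g`: `vb x = 0`.  `z = S.Ps g' (rgsRf v') ∈ Y`; if `z ∈ K` then `z = S.Ps g q`, `cons`: `q 0 = - v' 0` and `g.ψ (rm_J c (tl q)) = g'.ψ (rm_J c (tl v'))` for `|c| < 2 δ`; `c = v' 0`: `x ∈ g.ψ '' bx g` (`Good.J_mem`, `rm_J_tl`), contradiction.  So `φ z = 0`.
`cyl`: the same with `x = g'.ψ (rm_J 0 u')`, `z = S.Ps g' (rm_J s u')`, `c = 0`.
`flat`, `x ∈ F` (`w x < U x`): (a) `x = g.ψ v`: `δ < v 0`.  If `v 0 < 2 δ`: `vb x = Ft (rgsRf v) = φ (S.Ps g (rgsRf v)) = φ (x, 0)` (`Good.Ps_Rf_flat`).  If `2 δ ≤ v 0`: `rgsRf v ∉ rgsDom ⊇ Q`, `vb x = 0`; and `(x, 0) ∉ K`: otherwise `x = g.ψ (rgsK q)`, `v = rgsK q` (`if_injOn`), `v 0 < 2 δ` (`Good.K_mem`).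
 (b) `x ∉ g.ψ '' bx g`: `vb x = 0`, `(x, 0) ∉ K` (else `x = g.ψ (rgsK q)`); `(x, 0) ∈ Y` (`flat_mem_Y`). -/
theorem spec_tube (hS : S.Ok) (hg : S.Good g) (hφ : SmoothAlong (d + 1) S.Y φ) {K : Set (V × ℝ)}
    (hK : IsCompact K) (hKg : K ⊆ S.Ps g '' rgsDom d (S.dl g)) (h0 : ∀ z ∈ S.Y, z ∉ K → φ z = 0) :
    ∃ (vb : V → ℝ) (vc : V → ℝ → ℝ), S.Spec φ vb vc := by
  obtain ⟨Ft, Q, hF, hQ, hQd, hF0, hFe⟩ := rgsg_pull (Ps_param hS hg) hφ hK hKg h0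
  obtain ⟨vb, vc, hpair, hb, hbo, hc, hco⟩ := tube_pair hS hg hF hQ hQd hF0
  have hδ := hg.dl_pos
  refine ⟨vb, vc, hpair, ?_, ?_, ?_⟩
  · -- bulk
    intro g' hg' v' hv' h0' h2'
    have hRf' := hg'.Rf_mem hv' h2'
    by_cases hx : g'.ψ v' ∈ g.ψ '' S.bx g
    · obtain ⟨v, hv, he⟩ := hx
      obtain ⟨hd, h00, hf⟩ := fc hS hg hg' hv hv' he
      have h2 : v 0 < 2 * S.dl g := by rw [h00, hd]; exact h2'
      rw [← he, hb v hv (by rw [h00]; exact h0'), hFe _ (hg.Rf_mem hv h2)]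
      have h3 := Ps_congr hS hg hg' hd hf (s := -(v 0)) (by linarith)
      unfold rgsRf
      rw [h3, h00]
    · rw [hbo _ hx]
      symm
      refine h0 _ (Ps_mem_Y hS hg' hRf') fun hzK => hx ?_
      obtain ⟨q, hq, he⟩ := hKg hzK
      obtain ⟨hd, -, hf⟩ := cons hS hg hg' hq hRf' he
      have hc' : |v' 0| < 2 * S.dl g := by
        rw [abs_of_nonneg h0', hd]
        exact h2'
      refine ⟨rm_J (v' 0) (rm_tl d q), hg.J_mem hc' hq.2, ?_⟩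
      rw [hf (v' 0) hc']
      unfold rgsRf
      rw [rm_tl_J, rm_J_tl]
  · -- cyl
    intro g' hg' u' hu' s hs
    have hδ' := hg'.dl_pos
    have m' : rm_J 0 u' ∈ S.bx g' := hg'.J_mem (by rw [abs_zero]; linarith) hu'
    have md' : rm_J s u' ∈ rgsDom d (S.dl g') :=
      ⟨by rw [rm_J_zero]; linarith, by rw [rm_tl_J]; exact hu'⟩
    by_cases hx : g'.ψ (rm_J 0 u') ∈ g.ψ '' S.bx g
    · obtain ⟨v, hv, he⟩ := hx
      obtain ⟨hd, h00, hf⟩ := fc hS hg hg' hv m' he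
      rw [rm_J_zero] at h00
      rw [rm_tl_J] at hf
      have md : rm_J s (rm_tl d v) ∈ rgsDom d (S.dl g) :=
        ⟨by rw [rm_J_zero]; linarith, by rw [rm_tl_J]; exact hv.2⟩
      rw [← he, hc v hv h00 s, hFe _ md, Ps_congr hS hg hg' hd hf (s := s) (by linarith)]
    · rw [hco _ hx]
      symm
      refine h0 _ (Ps_mem_Y hS hg' md') fun hzK => hx ?_
      obtain ⟨q, hq, he⟩ := hKg hzK
      obtain ⟨hd, -, hf⟩ := cons hS hg hg' hq md' he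
      have hc' : |(0 : ℝ)| < 2 * S.dl g := by rw [abs_zero]; linarith
      refine ⟨rm_J 0 (rm_tl d q), hg.J_mem hc' hq.2, ?_⟩
      rw [hf 0 hc', rm_tl_J]
  · -- flat
    intro x hxF
    have hY : ((x, 0) : V × ℝ) ∈ S.Y := flat_mem_Y hS ⟨Or.inr hxF, hxF.2.1⟩
    by_cases hx : x ∈ g.ψ '' S.bx g
    · obtain ⟨v, hv, rfl⟩ := hx
      have hlt : S.dl g < v 0 := by
        have := hxF.2.1
        rwa [hg.lvl hv, hg.flat hv] at this
      by_cases h2 : v 0 < 2 * S.dl g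
      · rw [hb v hv (by linarith), hFe _ (hg.Rf_mem hv h2), hg.Ps_Rf_flat hS hlt.le]
      · have hnQ : rgsRf v ∉ Q := fun hq => by
          have h3 := (hQd hq).1
          unfold rgsRf at h3
          rw [rm_J_zero] at h3
          exact h2 (by linarith)
        rw [hb v hv (by linarith), hF0 _ hnQ]
        symm
        refine h0 _ hY fun hzK => h2 ?_
        obtain ⟨q, hq, he⟩ := hKg hzK
        obtain ⟨k1, -, k3⟩ := hg.K_mem hS hq
        have he1 : g.ψ (rgsK S.a (S.dl g) q) = g.ψ v := congrArg Prod.fst he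
        rw [← if_injOn hg.par k1 hv he1]
        exact k3
    · rw [hbo _ hx]
      symm
      refine h0 _ hY fun hzK => hx ?_
      obtain ⟨q, hq, he⟩ := hKg hzK
      exact ⟨rgsK S.a (S.dl g) q, (hg.K_mem hS hq).1, congrArg Prod.fst he⟩

/-! ## 4. the pair of a function supported in the flat region   (package L-RG-SEAMG-FLATP) -/

/-- `F` is relatively open in `M`. -/
theorem exists_open_F (hS : S.Ok) : ∃ Q : Set V, IsOpen Q ∧ S.M ∩ Q = S.F := by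
  refine relopen_of_local (F_sub.trans inter_subset_left) ?_
  rintro x ⟨hxM, hlt, N, hN, hNP⟩
  obtain ⟨Q, hQ, he⟩ := exists_open_lt hS
  have hxQ : x ∈ S.M ∩ Q := by
    rw [he]
    exact ⟨hxM, hlt⟩
  refine ⟨Q ∩ interior N, hQ.inter isOpen_interior, ⟨hxQ.2, mem_interior_iff_mem_nhds.2 hN⟩, ?_⟩
  rintro y ⟨hyM, hyQ, hyN⟩
  have h1 : y ∈ {x | x ∈ S.M ∧ S.w x < S.U x} := by
    rw [← he]
    exact ⟨hyM, hyQ⟩
  exact ⟨hyM, h1.2, N, mem_interior_iff_mem_nhds.1 hyN, hNP⟩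

theorem F_sub_Nf : S.F ⊆ S.Nf := fun x hx => ⟨Or.inr hx, hx.2.1⟩

/-- a point of the rounded side over the flat region comes from the flat part of the profile. -/
theorem Ps_fst_F (hS : S.Ok) (hg : S.Good g) {q : E (d + 1)} (hq : q ∈ rgsDom d (S.dl g))
    (hF : (S.Ps g q).1 ∈ S.F) : q 0 / S.dl g < -1 := by
  obtain ⟨hK, -, -⟩ := hg.K_mem hS hq
  have hδ := hg.dl_pos
  have h1 : S.w (g.ψ (rgsK S.a (S.dl g) q)) < S.U (g.ψ (rgsK S.a (S.dl g) q)) := hF.2.1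
  rw [hg.lvl hK, hg.flat hK, K_zero] at h1
  refine rgsg_prof_of_one_lt hS.prof ?_
  by_contra hc
  push Not at hc
  nlinarith

/-- **the pair of a function supported in the flat region.**
PLAN.  `K₁ = Prod.fst '' K` compact, `K₁ ⊆ F = M ∩ Q`.  `vb x = if x ∈ F then φ (x, 0) else 0` (classical), `vc = 0`.
Smooth along `M ∩ Q`: for a parametrisation `ψ` of `M ∩ Q` (`if_param_of_inter`), `u ↦ (ψ u, 0)` is a parametrisation of `Y` (`flat_param`; `F ⊆ Nf`), so `φ ∘ (ψ ·, 0)` is smooth.  `vb = 0` on `M \ K₁` (`(x, 0) ∈ Y \ K`): `if_smoothAlong_of_zero_off`.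
`RgPair`: compact set `K₁`, `L = 0`; `seam`: `U x = 0` implies `x ∉ F` (`w_pos`).
`bulk` in a good chart `g`, `x = g.ψ v`, `0 ≤ v 0 < 2 δ`: if `δ < v 0`: `S.Ps g (rgsRf v) = (x, 0)` (`Good.Ps_Rf_flat`); if `x ∈ F` done, if not `(x, 0) ∈ Y \ K`.
 If `v 0 ≤ δ`: `x ∉ F`; `z = S.Ps g (rgsRf v) ∈ Y`, `U z.1 = δ a (- v 0 / δ) ≤ δ = w z.1` (`rgsg_prof_a_le_one`), so `z.1 ∉ F`, `z ∉ K`, `φ z = 0`.
`cyl`: `z = S.Ps g (rm_J s u)`, `s > 0`: `U z.1 = δ a (s / δ) ≤ δ`, the same. -/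
theorem spec_flat (hS : S.Ok) (hφ : SmoothAlong (d + 1) S.Y φ) {K : Set (V × ℝ)}
    (hK : IsCompact K) (hKF : K ⊆ (fun x : V => (x, (0 : ℝ))) '' S.F)
    (h0 : ∀ z ∈ S.Y, z ∉ K → φ z = 0) :
    ∃ (vb : V → ℝ) (vc : V → ℝ → ℝ), S.Spec φ vb vc := by
  classical
  obtain ⟨Q, hQ, hMQ⟩ := exists_open_F hS
  have hK₁ : IsCompact (Prod.fst '' K) := hK.image continuous_fst
  have hK₁F : Prod.fst '' K ⊆ S.F := by
    rintro _ ⟨z, hz, rfl⟩
    obtain ⟨x, hx, rfl⟩ := hKF hz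
    exact hx
  have hKfst : ∀ z ∈ K, z.1 ∈ S.F := fun z hz => hK₁F ⟨z, hz, rfl⟩
  set vb : V → ℝ := fun x => if x ∈ S.F then φ (x, 0) else 0 with hvb
  have hvbF : ∀ x ∈ S.F, vb x = φ (x, 0) := fun x hx => if_pos hx
  have hvbN : ∀ x, x ∉ S.F → vb x = 0 := fun x hx => if_neg hx
  have hz0 : ∀ x ∈ S.M, x ∉ Prod.fst '' K → vb x = 0 := by
    intro x _ hxK
    by_cases hxF : x ∈ S.F
    · rw [hvbF x hxF]
      exact h0 _ (flat_mem_Y hS (F_sub_Nf hxF)) fun h => hxK ⟨_, h, rfl⟩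
    · exact hvbN x hxF
  have hsm1 : SmoothAlong (d + 1) (S.M ∩ Q) vb := by
    intro ψ W hp
    have hpM : IsParam S.M ψ W := if_param_of_inter hQ hp
    have hWF : ∀ u ∈ W, ψ u ∈ S.F := fun u hu => hMQ ▸ if_mem hp hu
    have hpY := flat_param hS hpM fun u hu => F_sub_Nf (hWF u hu)
    exact (hφ _ W hpY).congr fun u hu => hvbF _ (hWF u hu)
  have hsm : SmoothAlong (d + 1) S.M vb :=
    if_smoothAlong_of_zero_off hQ hK₁.isClosed
      (fun x hx => (hMQ.symm ▸ hK₁F hx : x ∈ S.M ∩ Q).2) hsm1 hz0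
  refine ⟨vb, fun _ _ => 0, ⟨hsm, if_smoothAlong_const 0, ⟨Prod.fst '' K, 0, hK₁, ?_, ?_, ?_⟩, ?_⟩,
    ?_, ?_, hvbF⟩
  · exact fun x hx => ⟨(F_sub (hK₁F hx)).1, Or.inr (hK₁F hx)⟩
  · exact fun x hx hxK => ⟨hz0 x hx hxK, fun _ => rfl⟩
  · exact fun _ _ _ => rfl
  · intro x hx hU
    refine (hvbN x fun hF => ?_).symm
    have := hF.2.1
    rw [hU] at this
    exact absurd (hS.w_pos x hx) (not_lt.2 this.le)
  · intro g hg v hv hv0 hv2
    have hRf := hg.Rf_mem hv hv2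
    have hδ := hg.dl_pos
    by_cases hxF : g.ψ v ∈ S.F
    · have h1 : S.w (g.ψ v) < S.U (g.ψ v) := hxF.2.1
      rw [hg.lvl hv, hg.flat hv] at h1
      rw [hg.Ps_Rf_flat hS h1.le, hvbF _ hxF]
    · rw [hvbN _ hxF]
      refine (h0 _ (Ps_mem_Y hS hg hRf) fun hzK => hxF ?_).symm
      have h2 := Ps_fst_F hS hg hRf (hKfst _ hzK)
      have h3 : (rgsRf v) 0 = -(v 0) := by unfold rgsRf; rw [rm_J_zero]
      rw [h3, div_lt_iff₀ hδ] at h2
      have h4 := hKfst _ hzK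
      rw [hg.Ps_Rf_flat hS (by linarith)] at h4
      exact h4
  · intro g hg u hu s hs
    have hδ := hg.dl_pos
    have hq : rm_J s u ∈ rgsDom d (S.dl g) :=
      ⟨by rw [rm_J_zero]; linarith, by rw [rm_tl_J]; exact hu⟩
    refine (h0 _ (Ps_mem_Y hS hg hq) fun hzK => ?_).symm
    have h2 := Ps_fst_F hS hg hq (hKfst _ hzK)
    rw [rm_J_zero, div_lt_iff₀ hδ] at h2
    linarith

/-! ## 5. existence -/

/-- open sets of `V × ℝ` which cut the charts out of `Y` (`if_image (Ps_param hS hg)`; `exists_open_F`, `X_flat`, `flat_mem_Y`). -/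
theorem exists_cover (hS : S.Ok) :
    ∃ (ι : Type) (O : ι → Set (V × ℝ)), (∀ i, IsOpen (O i)) ∧ S.Y ⊆ ⋃ i, O i ∧
      ∀ i, (∃ g, S.Good g ∧ S.Y ∩ O i ⊆ S.Ps g '' rgsDom d (S.dl g)) ∨
        S.Y ∩ O i ⊆ (fun x : V => (x, (0 : ℝ))) '' S.F := by
  obtain ⟨Q, hQ, hMQ⟩ := exists_open_F hS
  have key : ∀ g : {g : RgsgCh d V // S.Good g}, ∃ O : Set (V × ℝ), IsOpen O ∧
      S.Ps g.1 '' rgsDom d (S.dl g.1) = S.Y ∩ O := fun g => if_image (Ps_param hS g.2)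
  choose O hO hOe using key
  refine ⟨Option {g : RgsgCh d V // S.Good g}, fun i => i.elim (Prod.fst ⁻¹' Q) O, ?_, ?_, ?_⟩
  · rintro (_ | g)
    · exact hQ.preimage continuous_fst
    · exact hO g
  · intro z hz
    rcases Y_cases hS hz with ⟨g, hg, hzg⟩ | ⟨hF, -⟩
    · refine mem_iUnion.2 ⟨some ⟨g, hg⟩, ?_⟩
      have : z ∈ S.Y ∩ O ⟨g, hg⟩ := by rw [← hOe]; exact hzg
      exact this.2
    · refine mem_iUnion.2 ⟨none, ?_⟩
      have : z.1 ∈ S.M ∩ Q := by rw [hMQ]; exact hF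
      exact this.2
  · rintro (_ | g)
    · refine Or.inr ?_
      rintro z ⟨hzY, hzQ⟩
      have hF : z.1 ∈ S.F := by rw [← hMQ]; exact ⟨Y_sub hzY, hzQ⟩
      exact ⟨z.1, hF, Prod.ext rfl (X_flat hS hzY.1 hF.2.1.le).symm⟩
    · exact Or.inl ⟨g.1, g.2, (hOe g).ge⟩

/-- **every test function on `Y` has a raw pair.** -/
theorem spec_exists (hS : S.Ok) (hφ : IsTestOn (d + 1) S.Y φ) :
    ∃ (vb : V → ℝ) (vc : V → ℝ → ℝ), S.Spec φ vb vc := by
  obtain ⟨ι, O, hO, hcov, hch⟩ := exists_cover hS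
  refine rgsg_loc_principle (n := d + 1) O hO hcov
    (fun φ => ∃ (vb : V → ℝ) (vc : V → ℝ → ℝ), S.Spec φ vb vc) ⟨_, _, Spec.zero⟩ ?_ ?_ ?_ hφ
  · rintro f f' ⟨vb, vc, h⟩ ⟨vb', vc', h'⟩
    exact ⟨_, _, h.add h'⟩
  · rintro f f' he ⟨vb, vc, h⟩
    exact ⟨vb, vc, h.congr hS he⟩
  · intro i φ K hφ hK hKO h0
    rcases hch i with ⟨g, hg, hsub⟩ | hsub
    · exact spec_tube hS hg hφ hK (hKO.trans hsub) h0
    · exact spec_flat hS hφ hK (hKO.trans hsub) h0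

/-! ## 6. the integrands   (packages L-RG-SEAMG-INT1, L-RG-SEAMG-INT2) -/

section integrands

variable [MeasurableSpace V] [BorelSpace V]

/-- the weighted volume of `Y`. -/
noncomputable abbrev μY (S : RgsgDat d V) : Measure (V × ℝ) :=
  wvol (d + 1) S.Y (extTen S.h) (fun z => S.t z.1)

/-- the weighted volume of `M`. -/
noncomputable abbrev μM (S : RgsgDat d V) : Measure V := wvol (d + 1) S.M S.h S.t

/-- the weighted volume of `{U = 0}`. -/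
noncomputable abbrev μS (S : RgsgDat d V) : Measure V := wvol d (rm_Lv S.M S.U 0) S.h S.t

/-- integrand of `∫_Y (4 |dφ|² + (D_Y - V* - e0) φ²)`. -/
noncomputable def fX (S : RgsgDat d V) (φ : V × ℝ → ℝ) (z : V × ℝ) : ℝ :=
  4 * gradSq (d + 1) S.Y (extTen S.h) φ z +
    (Dsc (d + 1) S.Y (extTen S.h) (fun z => S.t z.1) z - S.Vs z.1 - S.e0) * φ z ^ 2

/-- integrand of `rgRawB`. -/
noncomputable def fB (S : RgsgDat d V) (vb : V → ℝ) (x : V) : ℝ :=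
  3.8 * gradSq (d + 1) S.M S.h vb x +
    (Dsc (d + 1) S.M S.h S.t x - S.Vs x - 98 * S.e0) * vb x ^ 2

/-- integrand of `rgRawC`. -/
noncomputable def fC (S : RgsgDat d V) (vc : V → ℝ → ℝ) (x : V) (s : ℝ) : ℝ :=
  3.8 * (gradSq d (rm_Lv S.M S.U 0) S.h (fun y => vc y s) x + deriv (fun σ => vc x σ) s ^ 2) +
    (Dsc d (rm_Lv S.M S.U 0) S.h S.t x - S.Vs x - 98 * S.e0) * vc x s ^ 2

/-- integrand of `rgRawS`. -/
noncomputable def fS (S : RgsgDat d V) (vb : V → ℝ) (x : V) : ℝ :=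
  wmc (d + 1) S.M S.h S.t S.U x * vb x ^ 2

theorem fX_apply (φ : V × ℝ → ℝ) (z : V × ℝ) : S.fX φ z =
    4 * gradSq (d + 1) S.Y (extTen S.h) φ z +
      (Dsc (d + 1) S.Y (extTen S.h) (fun z => S.t z.1) z - S.Vs z.1 - S.e0) * φ z ^ 2 := rfl

theorem fB_apply (vb : V → ℝ) (x : V) : S.fB vb x =
    3.8 * gradSq (d + 1) S.M S.h vb x +
      (Dsc (d + 1) S.M S.h S.t x - S.Vs x - 98 * S.e0) * vb x ^ 2 := rfl

theorem fC_apply (vc : V → ℝ → ℝ) (x : V) (s : ℝ) : S.fC vc x s =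
    3.8 * (gradSq d (rm_Lv S.M S.U 0) S.h (fun y => vc y s) x + deriv (fun σ => vc x σ) s ^ 2) +
      (Dsc d (rm_Lv S.M S.U 0) S.h S.t x - S.Vs x - 98 * S.e0) * vc x s ^ 2 := rfl

theorem fS_apply (vb : V → ℝ) (x : V) :
    S.fS vb x = wmc (d + 1) S.M S.h S.t S.U x * vb x ^ 2 := rfl

theorem rawB_eq (vb : V → ℝ) : rgRawB d S.M S.h S.t S.U S.Vs 3.8 (98 * S.e0) vb =
    ∫ x in {x | 0 < S.U x}, S.fB vb x ∂S.μM := rfl

theorem rawS_eq (vb : V → ℝ) : rgRawS d S.M S.h S.t S.U vb = ∫ x, S.fS vb x ∂S.μS := rfl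

/-- `fX φ` is continuous on `Y` (`if_gradSq_smoothAlong`, `gs_Dsc_sm`, `if_smoothAlong_continuousOn`, `Vs_cont`, `Y_sub`) and vanishes on `Y` off the compact support (`gs_sq_congr_near`, `gs_sq_const`): `gs_integrable (Y_geo hS).gs`. -/
theorem fX_integrable (hS : S.Ok) (hφ : IsTestOn (d + 1) S.Y φ) : Integrable (S.fX φ) S.μY := by
  have hY := Y_geo hS
  obtain ⟨hsm, K, hK, hKY, h0⟩ := hφ
  have hc1 : ContinuousOn (gradSq (d + 1) S.Y (extTen S.h) φ) S.Y :=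
    if_smoothAlong_continuousOn hY.mfd (if_gradSq_smoothAlong hY.met hsm)
  have hc2 : ContinuousOn (Dsc (d + 1) S.Y (extTen S.h) (fun z => S.t z.1)) S.Y :=
    if_smoothAlong_continuousOn hY.mfd (if_Dsc_smoothAlong hY.met hY.drift)
  have hc3 : ContinuousOn (fun z : V × ℝ => S.Vs z.1) S.Y :=
    hS.Vs_cont.comp continuous_fst.continuousOn Y_sub
  have hc4 : ContinuousOn φ S.Y := if_smoothAlong_continuousOn hY.mfd hsm
  refine gs_integrable hY.gs ((continuousOn_const.mul hc1).add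
    (((hc2.sub hc3).sub continuousOn_const).mul (hc4.pow 2))) ⟨K, hK, hKY, fun z hz hzK => ?_⟩
  show 4 * gradSq (d + 1) S.Y (extTen S.h) φ z + _ * φ z ^ 2 = 0
  rw [h0 z hz hzK, if_gradSq_eq_gradIp, gs_ip_off hY.gs hsm hK h0 hz hzK]
  ring

/-- the form of `GsGap` is `∫ fX`.
PLAN: a.e. point lies in `Y` (`gs_ae_mem`); there `gradIp φ φ = gradSq φ` (`if_gradSq_eq_gradIp`), `Dsc (d+1) S.X .. z = Dsc (d+1) S.Y .. z` (`if_Dsc_inter'`, `isOpen_O`, `Y_eq`);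
`φ²` is integrable (`gs_integrable`), `integral_sub`, `integral_const_mul`, `integral_congr_ae`. -/
theorem fX_integral (hS : S.Ok) (hφ : IsTestOn (d + 1) S.Y φ) :
    gsB (d + 1) S.Y (extTen S.h) (fun z => S.t z.1) 4
        (fun z => Dsc (d + 1) S.X (extTen S.h) (fun z => S.t z.1) z - S.Vs z.1) φ φ -
      S.e0 * gsN (d + 1) S.Y (extTen S.h) (fun z => S.t z.1) φ φ = ∫ z, S.fX φ z ∂S.μY := by
  have hY := Y_geo hS
  have hi := fX_integrable hS hφ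
  obtain ⟨hsm, K, hK, hKY, h0⟩ := hφ
  have hc4 : ContinuousOn φ S.Y := if_smoothAlong_continuousOn hY.mfd hsm
  have hi2 : Integrable (fun z => φ z * φ z) S.μY :=
    gs_integrable hY.gs (hc4.mul hc4) ⟨K, hK, hKY, fun z hz hzK => by
      show φ z * φ z = 0
      rw [h0 z hz hzK, mul_zero]⟩
  unfold gsB gsN
  have e : ∫ z, (4 * gradIp (d + 1) S.Y (extTen S.h) φ φ z +
      (Dsc (d + 1) S.X (extTen S.h) (fun z => S.t z.1) z - S.Vs z.1) * (φ z * φ z)) ∂S.μY =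
      ∫ z, (S.fX φ z + S.e0 * (φ z * φ z)) ∂S.μY := by
    refine integral_congr_ae ?_
    filter_upwards [gs_ae_mem hY.gs] with z hz
    rw [fX_apply, if_gradSq_eq_gradIp, Y_eq, if_Dsc_inter' (extTen S.h) (fun z => S.t z.1) isOpen_O hz.2]
    ring
  rw [e, integral_add hi (hi2.const_mul _), integral_const_mul]
  ring

variable {P' : Set V}

theorem fB_integrable (hS : S.Ok) (hv : RgPair d S.M S.U P' vb vc) :
    Integrable (S.fB vb) S.μM := by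
  have hG := hS.geo
  obtain ⟨K, L, hK, hKM, h0, -⟩ := hv.cs
  have hKM' : K ⊆ S.M := fun x hx => (hKM hx).1
  have h0' : ∀ x ∈ S.M, x ∉ K → vb x = 0 := fun x hx hxK => (h0 x hx hxK).1
  have hc1 : ContinuousOn (gradSq (d + 1) S.M S.h vb) S.M :=
    if_smoothAlong_continuousOn hG.mfd (if_gradSq_smoothAlong hG.met hv.b_smooth)
  have hc2 : ContinuousOn (Dsc (d + 1) S.M S.h S.t) S.M :=
    if_smoothAlong_continuousOn hG.mfd (if_Dsc_smoothAlong hG.met hG.drift)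
  have hc4 : ContinuousOn vb S.M := if_smoothAlong_continuousOn hG.mfd hv.b_smooth
  refine gs_integrable hG.gs ((continuousOn_const.mul hc1).add
    (((hc2.sub hS.Vs_cont).sub continuousOn_const).mul (hc4.pow 2))) ⟨K, hK, hKM', fun z hz hzK => ?_⟩
  show 3.8 * gradSq (d + 1) S.M S.h vb z + _ * vb z ^ 2 = 0
  rw [h0' z hz hzK, if_gradSq_eq_gradIp, gs_ip_off hG.gs hv.b_smooth hK h0' hz hzK]
  ring

/-- the compact support on the wall. -/
theorem wall_compact (hS : S.Ok) {K : Set V} (hK : IsCompact K) (hKM : K ⊆ S.M) :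
    IsCompact (K ∩ rm_Lv S.M S.U 0) := by
  have hc : ContinuousOn S.U K := (if_smoothAlong_continuousOn hS.geo.mfd hS.U_sm).mono hKM
  have h1 : IsClosed (K ∩ S.U ⁻¹' {0}) := hc.preimage_isClosed_of_isClosed hK.isClosed isClosed_singleton
  have e : K ∩ rm_Lv S.M S.U 0 = K ∩ S.U ⁻¹' {0} := by
    ext x
    constructor
    · rintro ⟨h1, h2⟩; exact ⟨h1, h2.2⟩
    · rintro ⟨h1, h2⟩; exact ⟨h1, hKM h1, h2⟩
  rw [e]
  exact hK.of_isClosed_subset h1 inter_subset_left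

/-- `wmc` is continuous on the wall. -/
theorem wmc_cont (hS : S.Ok) :
    ContinuousOn (wmc (d + 1) S.M S.h S.t S.U) (rm_Lv S.M S.U 0) := by
  have hG := hS.geo
  have hc : ContinuousOn (gradSq (d + 1) S.M S.h S.U) S.M :=
    if_smoothAlong_continuousOn hG.mfd (if_gradSq_smoothAlong hG.met hS.U_sm)
  obtain ⟨Q, hQ, he⟩ := (continuousOn_iff'.1 hc) (Ioi 0) isOpen_Ioi
  have hpos : ∀ y ∈ S.M ∩ Q, 0 < gradSq (d + 1) S.M S.h S.U y := by
    intro y hy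
    have : y ∈ gradSq (d + 1) S.M S.h S.U ⁻¹' Ioi 0 ∩ S.M := by
      rw [he]; exact ⟨hy.2, hy.1⟩
    exact this.1
  have hG' := hG.inter hQ
  have hsm : SmoothAlong (d + 1) (S.M ∩ Q) (wmc (d + 1) (S.M ∩ Q) S.h S.t S.U) :=
    rm_wmc_sm hG'.met hG'.drift (if_smoothAlong_inter hS.U_sm hQ) fun y hy => by
      rw [if_gradSq_inter' S.h S.U hQ hy.2]
      exact hpos y hy
  have hc2 : ContinuousOn (wmc (d + 1) S.M S.h S.t S.U) (S.M ∩ Q) :=
    (if_smoothAlong_continuousOn hG'.mfd hsm).congr fun y hy => (rgsg_wmc_inter hQ hy.2 S.U).symm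
  refine hc2.mono fun x hx => ⟨hx.1, ?_⟩
  have : x ∈ Q ∩ S.M := by
    rw [← he]
    refine ⟨?_, hx.1⟩
    show 0 < gradSq (d + 1) S.M S.h S.U x
    rw [hS.unit x hx.1 hx.2]
    exact one_pos
  exact this.1

/-- PLAN: `wmc` is continuous on `{U = 0}`: on the open piece `M ∩ O₁ = {x ∈ M | 0 < gradSq U x}` use `rm_wmc_sm` and locality (`wmc` is built from `wlap`, `gradN`, `gradIp`: `if_lap_inter'`, `if_gradIp_inter'`, `if_gradSq_inter'`);
`K ∩ {U = 0}` is compact; `gs_integrable (S_geo hS).gs`. -/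
theorem fS_integrable (hS : S.Ok) (hv : RgPair d S.M S.U P' vb vc) :
    Integrable (S.fS vb) S.μS := by
  obtain ⟨K, L, hK, hKM, h0, -⟩ := hv.cs
  have hKM' : K ⊆ S.M := fun x hx => (hKM hx).1
  have hc4 : ContinuousOn vb (rm_Lv S.M S.U 0) :=
    (if_smoothAlong_continuousOn hS.geo.mfd hv.b_smooth).mono (rm_Lv_sub _ _ _)
  refine gs_integrable (S_geo hS).gs ((wmc_cont hS).mul (hc4.pow 2))
    ⟨K ∩ rm_Lv S.M S.U 0, wall_compact hS hK hKM', inter_subset_right, fun x hx hxK => ?_⟩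
  show wmc (d + 1) S.M S.h S.t S.U x * vb x ^ 2 = 0
  rw [(h0 x hx.1 fun h => hxK ⟨h, hx⟩).1]
  ring

/-- Fubini for continuous compactly supported integrands on a cylinder. -/
theorem ci_swap {k : ℕ} {X K : Set V} {h : Ten V} {t : V → ℝ} {L : ℝ} {Φ : V → ℝ → ℝ}
    (hΦ : ShCI X K L Φ) (hG : CtGeo k X h t) (hK : IsCompact K) (hKX : K ⊆ X) (I : Set ℝ) :
    Integrable (fun x => ∫ s in I, Φ x s) (wvol k X h t) ∧
      ∫ s in I, ∫ x, Φ x s ∂(wvol k X h t) = ∫ x, (∫ s in I, Φ x s) ∂(wvol k X h t) := by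
  classical
  have := sh_wvol_sfinite hG
  set μ := wvol k X h t with hμ
  set F : V × ℝ → ℝ := (X ×ˢ (univ : Set ℝ)).indicator fun z : V × ℝ => Φ z.1 z.2 with hF
  have hFm : Measurable F := hΦ.measurable_ind hG.mfd
  obtain ⟨C, hC0, hC⟩ := hΦ.bound hK hKX
  have hfin : μ K < ⊤ := lt_top_iff_ne_top.2 (ct_wvol_compact hG hK hKX)
  have hbd : ∀ z : V × ℝ, ‖F z‖ ≤ (K ×ˢ Icc (-L) L).indicator (fun _ => C) z := by
    intro z
    by_cases hz : z ∈ X ×ˢ (univ : Set ℝ)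
    · rw [hF, indicator_of_mem hz]
      by_cases hzK : z ∈ K ×ˢ Icc (-L) L
      · rw [indicator_of_mem hzK]
        exact hC z.1 hz.1 z.2
      · rw [indicator_of_notMem hzK]
        have : Φ z.1 z.2 = 0 := by
          by_cases h1 : z.1 ∈ K
          · have h2 : L < |z.2| := by
              by_contra hcon
              exact hzK ⟨h1, abs_le.1 (not_lt.1 hcon)⟩
            exact hΦ.zs z.1 hz.1 z.2 h2
          · exact hΦ.zx z.1 hz.1 h1 z.2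
        rw [this, norm_zero]
    · rw [hF, indicator_of_notMem hz, norm_zero]
      exact indicator_nonneg (fun _ _ => hC0) _
  have hdom : Integrable ((K ×ˢ Icc (-L) L).indicator fun _ => C)
      (μ.prod (volume.restrict I)) := by
    refine (integrable_indicator_iff (hK.measurableSet.prod measurableSet_Icc)).2
      (integrableOn_const ?_)
    rw [Measure.prod_prod]
    refine (ENNReal.mul_lt_top hfin (lt_of_le_of_lt (Measure.restrict_apply_le _ _) ?_)).ne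
    exact isCompact_Icc.measure_lt_top
  have hint : Integrable F (μ.prod (volume.restrict I)) :=
    hdom.mono' hFm.aestronglyMeasurable (Eventually.of_forall hbd)
  have hae : ∀ᵐ x ∂μ, x ∈ X := sh_ae_mem hG
  have e1 : ∀ x ∈ X, ∀ s, F (x, s) = Φ x s := fun x hx s =>
    indicator_of_mem (show (x, s) ∈ X ×ˢ (univ : Set ℝ) from ⟨hx, mem_univ _⟩) _
  constructor
  · refine hint.integral_prod_left.congr ?_
    filter_upwards [hae] with x hx
    exact integral_congr_ae (Eventually.of_forall fun s => e1 x hx s)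
  · have h1 : ∫ s in I, ∫ x, Φ x s ∂μ = ∫ s in I, ∫ x, F (x, s) ∂μ := by
      refine integral_congr_ae (Eventually.of_forall fun s => ?_)
      refine integral_congr_ae ?_
      filter_upwards [hae] with x hx
      exact (e1 x hx s).symm
    have h2 : ∫ x, (∫ s in I, Φ x s) ∂μ = ∫ x, (∫ s in I, F (x, s)) ∂μ := by
      refine integral_congr_ae ?_
      filter_upwards [hae] with x hx
      exact integral_congr_ae (Eventually.of_forall fun s => (e1 x hx s).symm)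
    rw [h1, h2]
    exact (integral_integral_swap (f := fun x s => F (x, s)) hint).symm

/-- `fC` is a continuous compactly supported integrand on the cylinder over the wall. -/
theorem fC_ci (hS : S.Ok) (hv : RgPair d S.M S.U P' vb vc) :
    ∃ (K : Set V) (L : ℝ), IsCompact K ∧ K ⊆ rm_Lv S.M S.U 0 ∧
      ShCI (rm_Lv S.M S.U 0) K L (S.fC vc) := by
  obtain ⟨K, L, hK, hKM, h0, hL⟩ := hv.cs
  have hKM' : K ⊆ S.M := fun x hx => (hKM hx).1
  have hG := S_geo hS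
  have hw : SmoothAlong (d + 1) (rm_Lv S.M S.U 0 ×ˢ (univ : Set ℝ))
      (fun z : V × ℝ => vc z.1 z.2) := sh_cyl_sub hS.geo.mfd (rm_Lv_sub _ _ _) hv.c_smooth
  have hKc := wall_compact hS hK hKM'
  have zx : ∀ x ∈ rm_Lv S.M S.U 0, x ∉ K ∩ rm_Lv S.M S.U 0 → ∀ s, vc x s = 0 :=
    fun x hx hxK s => (h0 x hx.1 fun h => hxK ⟨h, hx⟩).2 s
  have c1 := sh_ci_phi hG hw hKc.isClosed zx hL
  have c2 := (sh_ci_self hG.mfd hw zx hL).sq
  have hcont : ContinuousOn (fun x => Dsc d (rm_Lv S.M S.U 0) S.h S.t x - S.Vs x - 98 * S.e0)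
      (rm_Lv S.M S.U 0) :=
    ((if_smoothAlong_continuousOn hG.mfd (if_Dsc_smoothAlong hG.met hG.drift)).sub
      (hS.Vs_cont.mono (rm_Lv_sub _ _ _))).sub continuousOn_const
  exact ⟨K ∩ rm_Lv S.M S.U 0, L, hKc, inter_subset_right,
    (c1.mul_left (g := fun _ => (3.8 : ℝ)) continuousOn_const).add (c2.mul_left hcont)⟩

/-- Fubini for the cylinder part.
PLAN: `(x, s) ↦ fC vc x s` is continuous on `{U = 0} ×ˢ univ` and vanishes off `(K ∩ {U = 0}) ×ˢ Icc (-L) L`: toolbox `Sh/ImsY.lean` (`sh_cyl_sub`, `sh_cyl_grad_cont`, `sh_cyl_deriv_cont`, `ShCI`, `ShCI.measurable_ind`, `ShCI.bound`, `sh_wvol_sfinite`) or `rgb_cont_slice_gradSq`, `rgb_vert_smooth` of `Rg/BudA.lean`;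
integrable for `μS.prod (volume.restrict (Ioi 0))`; `integral_integral_swap`, `Integrable.integral_prod_left`. -/
theorem fC_swap (hS : S.Ok) (hv : RgPair d S.M S.U P' vb vc) :
    Integrable (fun x => ∫ s in Ioi (0 : ℝ), S.fC vc x s) S.μS ∧
      rgRawC d S.M S.h S.t S.U S.Vs 3.8 (98 * S.e0) vc =
        ∫ x, (∫ s in Ioi (0 : ℝ), S.fC vc x s) ∂S.μS := by
  obtain ⟨K, L, hK, hKL, hci⟩ := fC_ci hS hv
  exact ci_swap hci (S_geo hS) hK hKL (Ioi 0)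

/-- the integrands vanish off `T ∪ F` (the compact set `K` of `RgPair.cs` is closed, `vb = 0` on `M \ K`: `gs_sq_congr_near`, `gs_sq_const`). -/
theorem fB_zero (hS : S.Ok) (hv : RgPair d S.M S.U (S.T ∪ S.F) vb vc) {x : V} (hx : x ∈ S.M)
    (hxn : x ∉ S.T ∪ S.F) : S.fB vb x = 0 := by
  obtain ⟨K, L, hK, hKM, h0, -⟩ := hv.cs
  have h0' : ∀ x ∈ S.M, x ∉ K → vb x = 0 := fun x hx hxK => (h0 x hx hxK).1
  have hxK : x ∉ K := fun h => hxn (hKM h).2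
  rw [fB_apply, h0' x hx hxK, if_gradSq_eq_gradIp, gs_ip_off hS.geo.gs hv.b_smooth hK h0' hx hxK]
  ring

theorem fC_zero (hS : S.Ok) (hv : RgPair d S.M S.U (S.T ∪ S.F) vb vc) {x : V}
    (hx : x ∈ rm_Lv S.M S.U 0) (hxn : x ∉ S.T ∪ S.F) (s : ℝ) : S.fC vc x s = 0 := by
  obtain ⟨K, L, hK, hKM, h0, hL⟩ := hv.cs
  have hxK : x ∉ K := fun h => hxn (hKM h).2
  have hG := S_geo hS
  have hw : SmoothAlong (d + 1) (rm_Lv S.M S.U 0 ×ˢ (univ : Set ℝ))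
      (fun z : V × ℝ => vc z.1 z.2) := sh_cyl_sub hS.geo.mfd (rm_Lv_sub _ _ _) hv.c_smooth
  have zx : ∀ x ∈ rm_Lv S.M S.U 0, x ∉ K → ∀ s, vc x s = 0 :=
    fun x hx hxK s => (h0 x hx.1 hxK).2 s
  have c1 := (sh_ci_phi hG hw hK.isClosed zx hL).zx x hx hxK s
  rw [fC_apply, c1, zx x hx hxK s]
  ring

theorem fS_zero (hS : S.Ok) (hv : RgPair d S.M S.U (S.T ∪ S.F) vb vc) {x : V} (hx : x ∈ S.M)
    (hxn : x ∉ S.T ∪ S.F) : S.fS vb x = 0 := by
  obtain ⟨K, L, hK, hKM, h0, -⟩ := hv.cs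
  have hxK : x ∉ K := fun h => hxn (hKM h).2
  rw [fS_apply, (h0 x hx hxK).1]
  ring

end integrands

end RgsgDat

end Claimed.Agent.R315
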