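import Claimed.Agent.R315.Rg.SeamG2
import Claimed.Agent.R315.Rg.SeamG5
import Claimed.Agent.R315.Sh.ImsY
import Claimed.Agent.R315.Ct.ProdB

/-!
# Row 315, package Rg, unit SEAM-G, file 3 of 4: CELLS, INTEGRALS IN THE CHARTS, THE INEQUALITY ON A CELL   (architect: helper190)

Notation and the plan of the unit: header of `Rg/SeamG1.lean`; the pair `S.Spec φ vb vc` and the integrands `fX, fB, fC, fS`: `Rg/SeamG2.lean`.

A CELL is a pair `(g, C)`: a good chart and a measurable set `C ⊆ ball 0 (3 δ) ⊆ E d`.  Over a cell: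
* `SC g C  = {g.ψ (0, u) | u ∈ C}`                                   (piece of `{U = 0}`),
* `S.MC g C = {g.ψ (c, u) | 0 < c < 3 δ / 2, u ∈ C}`                  (piece of the bulk `{U > 0}`),
* `S.XC g C = {S.Ps g (s, u) | - 3 δ / 2 < s, u ∈ C}`                 (piece of `Y`).
THE FAMILY OF CELLS (`S.Cells`, `exists_cells`, partitions, `hasSum_*`) IS IN `Rg/SeamG5.lean` (helper59); bridges `SC_eq`, `MC_eq`, `XC_eq`; `cell_le'` = `cell_le` in the notation of `Rg/SeamG5.lean`.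

On a cell all integrals are computed in the chart (`gs_integral_chart` + Fubini `rgsg_chart_fubini`), the integrands are the chart integrands `rgsIX, rgsIB, rgsIC, rgsIS` of `Rg/SeamDefs.lean` (`pt_X, pt_B, pt_C, pt_S`)
for `F = φ ∘ S.Ps g`, and `RgsgFib` (= `rgs_fibre`) is integrated over `u ∈ C`: `cell_le`.
-/

set_option autoImplicit false
set_option linter.unusedSectionVars false
set_option linter.unusedVariables false
open scoped ContDiff ENNReal Topology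
open MeasureTheory Claims.C0499 Set Filter

namespace Claimed.Agent.R315

variable {d : ℕ} {V : Type} [NormedAddCommGroup V] [NormedSpace ℝ V]

/-! ## 1. Fubini in a chart   (package L-RG-SEAMG-FUB) -/

section fub

variable {W : Type} [NormedAddCommGroup W] [NormedSpace ℝ W] [FiniteDimensional ℝ W]
  [MeasurableSpace W] [BorelSpace W]

/-- Fubini on `E (d + 1) = ℝ × E d`.
PLAN: `ct_J_measurePreserving d` (`Ct/ProdB.lean`); `(u, s) ↦ rm_J s u` is a homeomorphism (inverse `v ↦ (rm_tl d v, v 0)`: `rm_J_tl`, `rm_tl_J`, `rm_J_zero`), hence a `MeasurableEmbedding`; the preimage of the set is `C ×ˢ I`;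
`MeasurePreserving.setIntegral_preimage_emb`, `MeasurePreserving.integrableOn_comp_preimage`, `Measure.prod_restrict`, `integral_prod`, `Integrable.integral_prod_left`. -/
theorem rgsg_fubini {I : Set ℝ} (hI : MeasurableSet I) {C : Set (E d)} (hC : MeasurableSet C)
    {H : E (d + 1) → ℝ} (hH : IntegrableOn H {v | v 0 ∈ I ∧ rm_tl d v ∈ C}) :
    (∫ v in {v | v 0 ∈ I ∧ rm_tl d v ∈ C}, H v = ∫ u in C, ∫ s in I, H (rm_J s u)) ∧
      IntegrableOn (fun u => ∫ s in I, H (rm_J s u)) C := by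
  have hmp := ct_J_measurePreserving d
  have h1 : Continuous fun w : E (d + 1) => w 0 :=
    (EuclideanSpace.proj (0 : Fin (d + 1)) : E (d + 1) →L[ℝ] ℝ).continuous
  have hcJ : Continuous fun p : E d × ℝ => rm_J p.2 p.1 := by
    unfold rm_J
    exact (continuous_snd.smul continuous_const).add ((rm_in d).continuous.comp continuous_fst)
  let e : E d × ℝ ≃ₜ E (d + 1) :=
    { toFun := fun p => rm_J p.2 p.1
      invFun := fun v => (rm_tl d v, v 0)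
      left_inv := fun p => by
        show (rm_tl d (rm_J p.2 p.1), rm_J p.2 p.1 0) = p
        rw [rm_tl_J, rm_J_zero]
      right_inv := fun v => rm_J_tl v
      continuous_toFun := hcJ
      continuous_invFun := (rm_tl d).continuous.prodMk h1 }
  have hemb : MeasurableEmbedding (fun p : E d × ℝ => rm_J p.2 p.1) := e.measurableEmbedding
  have hpre : (fun p : E d × ℝ => rm_J p.2 p.1) ⁻¹' {v | v 0 ∈ I ∧ rm_tl d v ∈ C} = C ×ˢ I := by
    ext p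
    simp only [mem_preimage, mem_ofPred_eq, rm_J_zero, rm_tl_J, mem_prod]
    exact and_comm
  have h2 := hmp.setIntegral_preimage_emb hemb H {v | v 0 ∈ I ∧ rm_tl d v ∈ C}
  have h3 := (hmp.integrableOn_comp_preimage hemb).2 hH
  rw [hpre] at h2 h3
  have h4 : Integrable (fun p : E d × ℝ => H (rm_J p.2 p.1))
      ((volume.restrict C).prod (volume.restrict I)) := by
    rw [Measure.prod_restrict]
    exact h3
  refine ⟨?_, h4.integral_prod_left⟩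
  rw [← h2, ← Measure.prod_restrict, integral_prod _ h4]

theorem rgsg_meas_box {I : Set ℝ} (hI : MeasurableSet I) {C : Set (E d)} (hC : MeasurableSet C) :
    MeasurableSet {v : E (d + 1) | v 0 ∈ I ∧ rm_tl d v ∈ C} := by
  have h1 : Measurable fun w : E (d + 1) => w 0 :=
    (EuclideanSpace.proj (0 : Fin (d + 1)) : E (d + 1) →L[ℝ] ℝ).continuous.measurable
  have h2 : Measurable fun w : E (d + 1) => rm_tl d w := (rm_tl d).continuous.measurable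
  exact (h1 hI).inter (h2 hC)

/-- integrals over the image of a product set in a parametrisation (`gs_integral_chart`, `gs_integrableOn_chart`, `rgsg_fubini`). -/
theorem rgsg_chart_fubini {Z : Set W} {hh : Ten W} {tt : W → ℝ} (hG : CtGeo (d + 1) Z hh tt)
    {Ψ : E (d + 1) → W} {D : Set (E (d + 1))} (hp : IsParam Z Ψ D) {I : Set ℝ}
    (hI : MeasurableSet I) {C : Set (E d)} (hC : MeasurableSet C)
    (hsub : {v | v 0 ∈ I ∧ rm_tl d v ∈ C} ⊆ D) {f : W → ℝ}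
    (hf : IntegrableOn f (Ψ '' {v | v 0 ∈ I ∧ rm_tl d v ∈ C}) (wvol (d + 1) Z hh tt)) :
    (∫ z in Ψ '' {v | v 0 ∈ I ∧ rm_tl d v ∈ C}, f z ∂(wvol (d + 1) Z hh tt) =
        ∫ u in C, ∫ s in I, f (Ψ (rm_J s u)) * ctRho hh tt Ψ (rm_J s u)) ∧
      IntegrableOn (fun u => ∫ s in I, f (Ψ (rm_J s u)) * ctRho hh tt Ψ (rm_J s u)) C := by
  have hm := rgsg_meas_box (d := d) hI hC
  have h1 := gs_integral_chart hG.gs hp hm hsub f
  have h2 := (gs_integrableOn_chart hG.gs hp hm hsub f).1 hf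
  obtain ⟨h3, h4⟩ := rgsg_fubini hI hC h2
  exact ⟨h1.trans h3, h4⟩

end fub

namespace RgsgDat

variable {S : RgsgDat d V} {g g' : RgsgCh d V} {φ : V × ℝ → ℝ} {vb : V → ℝ} {vc : V → ℝ → ℝ}
  {C C' : Set (E d)}

/-! ## 2. cells -/

/-- piece of `{U = 0}` over a cell. -/
def SC (g : RgsgCh d V) (C : Set (E d)) : Set V := (fun u => g.ψ (rm_J 0 u)) '' C

/-- piece of the bulk over a cell. -/
def MC (S : RgsgDat d V) (g : RgsgCh d V) (C : Set (E d)) : Set V :=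
  g.ψ '' {v | v 0 ∈ Ioo (0 : ℝ) (3 * S.dl g / 2) ∧ rm_tl d v ∈ C}

/-- piece of `Y` over a cell. -/
def XC (S : RgsgDat d V) (g : RgsgCh d V) (C : Set (E d)) : Set (V × ℝ) :=
  S.Ps g '' {v | v 0 ∈ Ioi (-(3 * S.dl g / 2)) ∧ rm_tl d v ∈ C}

theorem mem_SC {x : V} : x ∈ SC g C ↔ ∃ u ∈ C, g.ψ (rm_J 0 u) = x := Iff.rfl

theorem mem_MC {x : V} : x ∈ S.MC g C ↔
    ∃ v : E (d + 1), (v 0 ∈ Ioo (0 : ℝ) (3 * S.dl g / 2) ∧ rm_tl d v ∈ C) ∧ g.ψ v = x := Iff.rfl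

theorem mem_XC {z : V × ℝ} : z ∈ S.XC g C ↔
    ∃ v : E (d + 1), (v 0 ∈ Ioi (-(3 * S.dl g / 2)) ∧ rm_tl d v ∈ C) ∧ S.Ps g v = z := Iff.rfl

section fd

variable [FiniteDimensional ℝ V]

theorem box_sub_M (hg : S.Good g) (hC : C ⊆ Metric.ball 0 (3 * S.dl g)) :
    {v : E (d + 1) | v 0 ∈ Ioo (0 : ℝ) (3 * S.dl g / 2) ∧ rm_tl d v ∈ C} ⊆ S.bx g := by
  rintro v ⟨⟨h0, h1⟩, hv⟩
  have hδ := hg.dl_pos
  exact hg.mem_bx (by rw [abs_of_pos h0]; linarith) (mem_ball_zero_iff.1 (hC hv))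

theorem box_sub_X (hg : S.Good g) (hC : C ⊆ Metric.ball 0 (3 * S.dl g)) :
    {v : E (d + 1) | v 0 ∈ Ioi (-(3 * S.dl g / 2)) ∧ rm_tl d v ∈ C} ⊆ rgsDom d (S.dl g) := by
  rintro v ⟨h0, hv⟩
  have hδ := hg.dl_pos
  have h0' : -(3 * S.dl g / 2) < v 0 := h0
  exact ⟨by linarith, mem_ball_zero_iff.1 (hC hv)⟩

/-- bridges to the cells of `Rg/SeamG5.lean`. -/
theorem SC_eq (g : RgsgCh d V) (C : Set (E d)) : SC g C = g.cS C := rfl

theorem MC_eq (S : RgsgDat d V) (g : RgsgCh d V) (C : Set (E d)) : S.MC g C = S.cB g C := by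
  unfold MC cB dB
  congr 1
  ext v
  simp only [mem_setOf_eq, mem_Ioo, and_assoc]

theorem XC_eq (S : RgsgDat d V) (g : RgsgCh d V) (C : Set (E d)) : S.XC g C = S.cY g C := rfl

variable [MeasurableSpace V] [BorelSpace V]

theorem meas_SC (hg : S.Good g) (hCm : MeasurableSet C) (hC : C ⊆ Metric.ball 0 (3 * S.dl g)) :
    MeasurableSet (SC g C) :=
  if_measurableSet_image hg.slice hCm hC

theorem meas_MC (hg : S.Good g) (hCm : MeasurableSet C) (hC : C ⊆ Metric.ball 0 (3 * S.dl g)) :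
    MeasurableSet (S.MC g C) :=
  if_measurableSet_image hg.par (rgsg_meas_box measurableSet_Ioo hCm) (box_sub_M hg hC)

theorem meas_XC (hS : S.Ok) (hg : S.Good g) (hCm : MeasurableSet C)
    (hC : C ⊆ Metric.ball 0 (3 * S.dl g)) : MeasurableSet (S.XC g C) :=
  if_measurableSet_image (Ps_param hS hg) (rgsg_meas_box measurableSet_Ioi hCm) (box_sub_X hg hC)

end fd

/-! ## 3. the integrands in a chart   (packages L-RG-SEAMG-PT1, L-RG-SEAMG-PT2) -/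

/-- `rgsIX` for the chart `g` and `F = φ ∘ S.Ps g`. -/
noncomputable abbrev IX (S : RgsgDat d V) (g : RgsgCh d V) (φ : V × ℝ → ℝ) : E (d + 1) → ℝ :=
  rgsIX (cm S.h g.ψ) S.a S.b (S.dl g) (fun v => S.t (g.ψ v)) (fun v => S.Vs (g.ψ v)) S.e0
    (fun v => φ (S.Ps g v))

/-- `rgsIB` for the chart `g` and `F = φ ∘ S.Ps g`. -/
noncomputable abbrev IB (S : RgsgDat d V) (g : RgsgCh d V) (φ : V × ℝ → ℝ) : E (d + 1) → ℝ :=
  rgsIB (cm S.h g.ψ) (fun v => S.t (g.ψ v)) (fun v => S.Vs (g.ψ v)) S.e0 (fun v => φ (S.Ps g v))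

/-- `rgsIC` for the chart `g` and `F = φ ∘ S.Ps g`. -/
noncomputable abbrev IC (S : RgsgDat d V) (g : RgsgCh d V) (φ : V × ℝ → ℝ) : E (d + 1) → ℝ :=
  rgsIC (cm S.h g.ψ) (fun v => S.t (g.ψ v)) (fun v => S.Vs (g.ψ v)) S.e0 (fun v => φ (S.Ps g v))

/-- `rgsIS` for the chart `g` and `F = φ ∘ S.Ps g`. -/
noncomputable abbrev IS (S : RgsgDat d V) (g : RgsgCh d V) (φ : V × ℝ → ℝ) : E d → ℝ :=
  rgsIS (cm S.h g.ψ) (fun v => S.t (g.ψ v)) (fun v => φ (S.Ps g v))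

section pt

variable [FiniteDimensional ℝ V] [MeasurableSpace V] [BorelSpace V]

/-- PLAN: `gs_sq_eq`, `gs_Dsc_eq` for `(Y_geo hS).met`, `.drift`, `Ps_param`; `Ps_cm` on the open set `rgsDom` (`rm_sq_congr_met`, `rm_Dsc_congr_met`); `ctRho` and `rgsIX` unfold to the same expression (`Ps_apply`). -/
theorem pt_X (hS : S.Ok) (hg : S.Good g) (hφ : SmoothAlong (d + 1) S.Y φ) {v : E (d + 1)}
    (hv : v ∈ rgsDom d (S.dl g)) :
    S.fX φ (S.Ps g v) * ctRho (extTen S.h) (fun z => S.t z.1) (S.Ps g) v = S.IX g φ v := by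
  have hY := Y_geo hS
  have hp := Ps_param hS hg
  have hev : cm (extTen S.h) (S.Ps g) =ᶠ[𝓝 v] rgsGX (cm S.h g.ψ) S.a S.b (S.dl g) :=
    Filter.eventuallyEq_of_mem ((rgsg_dom_open d _).mem_nhds hv) fun w hw => Ps_cm hS hg hw
  rw [fX_apply, gs_sq_eq hY.met hφ hp hv, gs_Dsc_eq hY.met hY.drift hp hv,
    rm_sq_congr_met hev.self_of_nhds, rm_Dsc_congr_met hev]
  unfold ctRho IX rgsIX
  rw [Ps_cm hS hg hv]
  rfl

/-- PLAN: `gs_sq_eq`, `gs_Dsc_eq` for `hS.geo`, `hg.par`, `hv.pair.b_smooth`; `vb ∘ g.ψ = F ∘ rgsRf` on the open set `{v ∈ bx | 0 < v 0 < 2 δ}` (`Spec.bulk`): `if_gradSqC_eq`, `rm_ip_congr`. -/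
theorem pt_B (hS : S.Ok) (hg : S.Good g) (hv : S.Spec φ vb vc) {v : E (d + 1)} (hvb : v ∈ S.bx g)
    (h0 : 0 < v 0) (h2 : v 0 < 2 * S.dl g) :
    S.fB vb (g.ψ v) * ctRho S.h S.t g.ψ v = S.IB g φ v := by
  have hc0 : Continuous fun w : E (d + 1) => w 0 :=
    (EuclideanSpace.proj (0 : Fin (d + 1)) : E (d + 1) →L[ℝ] ℝ).continuous
  have hW : IsOpen (S.bx g ∩ {w : E (d + 1) | 0 < w 0 ∧ w 0 < 2 * S.dl g}) :=
    (rm_box_open _ _).inter ((isOpen_lt continuous_const hc0).inter (isOpen_lt hc0 continuous_const))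
  have hev : (fun w => vb (g.ψ w)) =ᶠ[𝓝 v] fun w => φ (S.Ps g (rgsRf w)) :=
    Filter.eventuallyEq_of_mem (hW.mem_nhds ⟨hvb, h0, h2⟩)
      fun w hw => hv.bulk g hg w hw.1 hw.2.1.le hw.2.2
  rw [fB_apply, gs_sq_eq hS.geo.met hv.pair.b_smooth hg.par hvb,
    gs_Dsc_eq hS.geo.met hS.geo.drift hg.par hvb, if_gradSqC_eq, rm_ip_congr hev hev,
    ← if_gradSqC_eq, hv.bulk g hg v hvb h0.le h2]
  rfl

theorem Good.zero_lt (hg : S.Good g) : |0 - S.U g.x0| < 3 * S.dl g := by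
  rw [zero_sub, abs_neg]
  have := hg.2
  have := hg.dl_pos
  linarith

theorem Good.J0_mem (hg : S.Good g) {u : E d} (hu : ‖u‖ < 3 * S.dl g) : rm_J 0 u ∈ S.bx g :=
  hg.J_mem (by rw [abs_zero]; have := hg.dl_pos; linarith) hu

theorem Good.Js_mem (hg : S.Good g) {u : E d} (hu : ‖u‖ < 3 * S.dl g) {s : ℝ}
    (hs : -(2 * S.dl g) < s) : rm_J s u ∈ rgsDom d (S.dl g) :=
  ⟨by rw [rm_J_zero]; exact hs, by rw [rm_tl_J]; exact hu⟩

/-- the density of the wall in the slice parametrisation. -/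
theorem sl_rho (hg : S.Good g) {u : E d} (hu : ‖u‖ < 3 * S.dl g) :
    ctRho S.h S.t (fun y => g.ψ (rm_J 0 y)) u =
      Real.exp (-S.t (g.ψ (rm_J 0 u))) * Real.sqrt (rm_sl (cm S.h g.ψ) 0 u).det := by
  unfold ctRho
  rw [hg.lapse.slice_cm hg.zero_lt (mem_ball_zero_iff.2 hu)]

/-- PLAN: slice parametrisation `σ = fun u => g.ψ (rm_J 0 u)` of `L = rm_Lv M U 0` (`Good.slice`), `cm h σ = rm_sl (cm h g.ψ) 0` on the ball (`rm_LapseP.slice_cm`);
`y ↦ vc y s` is smooth along `L` (`sh_cyl_slice`/`rgb_slice_smooth` + `rm_sub_smooth`), `gs_sq_eq`, `(vc · s) ∘ σ = rm_fs F s` on the ball (`Spec.cyl`); `gs_Dsc_eq` (or `rm_slice_Dsc`);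
`σ' ↦ vc x σ'` equals `σ' ↦ F (rm_J σ' u)` on `Ioi 0`, `F = φ ∘ S.Ps g` is differentiable at `rm_J s u ∈ rgsDom` (`hφ`, `Ps_param`), `rm_J σ' u = σ' • eb 0 + rm_in d u`: `deriv = fderiv F (rm_J s u) (eb 0) = pdiff F 0 (rm_J s u)`. -/
theorem pt_C (hS : S.Ok) (hg : S.Good g) (hφ : SmoothAlong (d + 1) S.Y φ) (hv : S.Spec φ vb vc)
    {u : E d} (hu : ‖u‖ < 3 * S.dl g) {s : ℝ} (hs : 0 < s) :
    S.fC vc (g.ψ (rm_J 0 u)) s * ctRho S.h S.t (fun u => g.ψ (rm_J 0 u)) u =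
      S.IC g φ (rm_J s u) := by
  have hm := hg.J0_mem hu
  have hδ := hg.dl_pos
  have hub : u ∈ Metric.ball (0 : E d) (3 * S.dl g) := mem_ball_zero_iff.2 hu
  have hSg := S_geo hS
  have hsm : SmoothAlong d (rm_Lv S.M S.U 0) (fun y => vc y s) :=
    sh_cyl_slice hSg.mfd (sh_cyl_sub hS.geo.mfd (rm_Lv_sub _ _ _) hv.pair.c_smooth) s
  have hev : (fun w => vc (g.ψ (rm_J 0 w)) s) =ᶠ[𝓝 u] rm_fs (fun v => φ (S.Ps g v)) s := by
    filter_upwards [Metric.isOpen_ball.mem_nhds hub] with w hw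
    exact hv.cyl g hg w (mem_ball_zero_iff.1 hw) s hs
  have e1 : gradSq d (rm_Lv S.M S.U 0) S.h (fun y => vc y s) (g.ψ (rm_J 0 u)) =
      gradSqC (rm_sl (cm S.h g.ψ) 0) (rm_fs (fun v => φ (S.Ps g v)) s) u := by
    rw [gs_sq_eq hSg.met hsm hg.slice hub, rm_sq_congr_met (hg.lapse.slice_cm hg.zero_lt hub),
      if_gradSqC_eq, if_gradSqC_eq]
    exact rm_ip_congr hev hev
  have e2 : deriv (fun σ => vc (g.ψ (rm_J 0 u)) σ) s =
      pdiff (fun v => φ (S.Ps g v)) 0 (rm_J s u) := by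
    have hev2 : (fun σ => vc (g.ψ (rm_J 0 u)) σ) =ᶠ[𝓝 s] fun σ => φ (S.Ps g (rm_J σ u)) := by
      filter_upwards [Ioi_mem_nhds hs] with σ hσ
      exact hv.cyl g hg u hu σ hσ
    rw [hev2.deriv_eq]
    have hd : DifferentiableAt ℝ (fun v => φ (S.Ps g v)) (rm_J s u) :=
      ((hφ _ _ (Ps_param hS hg)).contDiffAt ((rgsg_dom_open d _).mem_nhds
        (hg.Js_mem hu (by linarith)))).differentiableAt (by simp)
    exact (hd.hasFDerivAt.comp_hasDerivAt s (rgsd_line_hasDerivAt u s)).deriv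
  have e3 : Dsc d (rm_Lv S.M S.U 0) S.h S.t (g.ψ (rm_J 0 u)) =
      rm_DscC (rm_sl (cm S.h g.ψ) 0) (rm_fs (fun v => S.t (g.ψ v)) 0) u := by
    have := rm_slice_Dsc hS.geo.mfd hS.geo.met hS.geo.drift hg.lapse hm
    rw [rm_J_zero] at this
    rw [this]
    unfold rm_DscS
    rw [rm_J_zero, rm_tl_J]
  rw [sl_rho hg hu, fC_apply, e1, e2, e3, hv.cyl g hg u hu s hs]
  unfold IC rgsIC
  rw [rm_J_zero, rm_tl_J]

/-- PLAN: `rm_glob_wmc`, `Spec.bulk` at `v = rm_J 0 u` (`rgsRf (rm_J 0 u) = rm_J 0 u`), `rm_LapseP.slice_cm`. -/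
theorem pt_S (hS : S.Ok) (hg : S.Good g) (hv : S.Spec φ vb vc) {u : E d}
    (hu : ‖u‖ < 3 * S.dl g) :
    -2 * S.fS vb (g.ψ (rm_J 0 u)) * ctRho S.h S.t (fun u => g.ψ (rm_J 0 u)) u = S.IS g φ u := by
  have hm := hg.J0_mem hu
  have hδ := hg.dl_pos
  have h1 : vb (g.ψ (rm_J 0 u)) = φ (S.Ps g (rm_J 0 u)) := by
    have := hv.bulk g hg _ hm (by rw [rm_J_zero]) (by rw [rm_J_zero]; linarith)
    rw [this]
    unfold rgsRf
    rw [rm_J_zero, rm_tl_J, neg_zero]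
  rw [sl_rho hg hu, fS_apply,
    rm_glob_wmc hS.geo.mfd hS.geo.met hS.geo.drift hS.U_sm hg.lapse hm, h1]
  unfold IS rgsIS
  ring

/-! ## 4. the hypotheses of the fibre inequality   (packages L-RG-SEAMG-BDC, L-RG-SEAMG-HYP) -/

/-- **the invariants in the chart.**
PLAN.  `x = g.ψ v`, `G = cm h g.ψ`, `L = hg.lapse`.  `S`: `rm_glob_wmc`.  `DM`: `gs_Dsc_eq`.  `DL`: `rm_slice_Dsc` (`U x = v 0`).  `Vs0`, `VsB`: the same.
`dN`, `dS`, `lapN`, `sqN` involve `N = rgsN d M h U = (gradN U)⁻¹` resp. `wmc`, which are smooth only where `dU ≠ 0`: work on the open piece `M' = M ∩ O'`, `g.ψ '' bx = M ∩ O'` (`if_image`): `L' : rm_LapseP M' h U x0 g.ψ _` (`if_param_inter`), `0 < gradSq U` on `M'` (`rm_glob_sq`),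
all operators are local (`if_gradIp_inter'`, `if_gradSq_inter'`, `if_lap_inter'`; `rm_Lv M' U c = rm_Lv M U c ∩ O'`), `N` and `wmc` are smooth along `M'` (`gs_sm_inv`, `gs_sm_sqrt`, `rm_wmc_sm` + `gs_sm_congr`);
`rm_glob_ip`, `rm_slice_wlap`, `rm_slice_ip` with `F = rm_lps G` (`rm_glob_gradN`: `N (g.ψ w) = rm_lps G w`), resp. `rm_S G t` (`rm_glob_wmc`; `rm_e` only depends on the germ: `rm_pdiff_congr_on`), exactly as in the proof of `rm_level_Dsc_le` (`Rm/Glob.lean`). -/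
theorem Good.bdC (hS : S.Ok) (hg : S.Good g) {v : E (d + 1)} (hv : v ∈ S.bx g) :
    RgsBdC (cm S.h g.ψ) (fun v => S.t (g.ψ v)) (fun v => S.Vs (g.ψ v)) g.B v :=
  (hg.1.bd v hv).chart hS.geo hS.U_sm hg.lapse hv

/-- `N = 1` on `{U = 0}` (`rm_glob_sq`, `hS.unit`, `rm_lps`). -/
theorem Good.unitC (hS : S.Ok) (hg : S.Good g) {v : E (d + 1)} (hv : v ∈ S.bx g) (h0 : v 0 = 0) :
    cm S.h g.ψ v 0 0 = 1 := by
  have h1 := rm_glob_sq hS.geo.met hS.U_sm hg.lapse hv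
  have h2 : S.U (g.ψ v) = 0 := by rw [hg.lvl hv, h0]
  rw [hS.unit _ (hg.mem_M hv) h2, rm_lps_sq (hg.lapse.met hS.geo.met) hv] at h1
  exact (inv_eq_one.1 h1.symm)

/-- a test function vanishes far out on the cylinder.
PLAN: the compact support `K` is bounded: `|z.2| ≤ R` on `K`.  For `ℓ δ ≤ v 0`: `(S.Ps g v).2 = e (v 0 - ℓ δ + δ)` (`RgsProf.right`), `|e| = 1`.  `L = R + ℓ δ + 1`; `Ps_mem_Y`. -/
theorem test_far (hS : S.Ok) (hg : S.Good g) (hφ : IsTestOn (d + 1) S.Y φ) :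
    ∃ L : ℝ, ∀ v ∈ rgsDom d (S.dl g), L ≤ v 0 → φ (S.Ps g v) = 0 := by
  obtain ⟨K, hK, -, hφ0⟩ := hφ.2
  have hδ := hg.dl_pos
  obtain ⟨R, hR⟩ := (hK.image continuous_snd).isBounded.subset_closedBall (0 : ℝ)
  refine ⟨|R| + S.l * S.dl g + 1, fun v hv hL => ?_⟩
  refine hφ0 _ (Ps_mem_Y hS hg hv) fun hmem => ?_
  have h1 : (S.Ps g v).2 ∈ Metric.closedBall (0 : ℝ) R := hR ⟨_, hmem, rfl⟩
  rw [mem_closedBall_zero_iff, Real.norm_eq_abs, Ps_apply] at h1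
  dsimp only at h1
  have h2 : S.l ≤ v 0 / S.dl g := by
    rw [le_div_iff₀ hδ]
    linarith [abs_nonneg R]
  rw [(hS.prof.right _ h2).2, abs_mul] at h1
  have he : |S.e| = 1 := by
    rcases hS.e_pm with h | h <;> rw [h] <;> simp
  have h3 : S.dl g * (v 0 / S.dl g - S.l + 1) = v 0 - S.l * S.dl g + S.dl g := by
    field_simp
  rw [he, one_mul, h3] at h1
  have h4 := le_abs_self (v 0 - S.l * S.dl g + S.dl g)
  have h5 := le_abs_self R
  linarith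

/-- the fibre inequality in a good chart. -/
theorem fibre_le (hfib : RgsgFib d) (hS : S.Ok) (hg : S.Good g) (hφ : IsTestOn (d + 1) S.Y φ)
    {u : E d} (hu : ‖u‖ < 3 * S.dl g) :
    (∫ x in Ioo (0 : ℝ) (3 * S.dl g / 2), S.IB g φ (rm_J x u)) +
        (∫ s in Ioi (0 : ℝ), S.IC g φ (rm_J s u)) + S.IS g φ u ≤
      ∫ s in Ioi (-(3 * S.dl g / 2)), S.IX g φ (rm_J s u) := by
  obtain ⟨L, hL⟩ := test_far hS hg hφ
  exact hfib (cm S.h g.ψ) (S.U g.x0) (S.dl g) g.B S.e0 S.l L (fun v => S.t (g.ψ v))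
    (fun v => S.Vs (g.ψ v)) (fun v => φ (S.Ps g v)) S.k S.a S.b hS.prof hg.2
    (hg.lapse.met hS.geo.met) hg.lapse.orth (hS.geo.drift _ _ hg.par)
    (hS.Vs_cont.comp (if_continuousOn hg.par) fun v hv => hg.mem_M hv)
    (fun v hv => hg.bdC hS hv) (fun v hv h0 => hg.unitC hS hv h0) hg.1.small hS.e0_pos
    (hφ.1 _ _ (Ps_param hS hg)) hL u hu

/-! ## 5. the integrals over a cell -/

theorem cell_X (hS : S.Ok) (hg : S.Good g) (hφ : IsTestOn (d + 1) S.Y φ) (hCm : MeasurableSet C)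
    (hC : C ⊆ Metric.ball 0 (3 * S.dl g)) :
    (∫ z in S.XC g C, S.fX φ z ∂S.μY =
        ∫ u in C, ∫ s in Ioi (-(3 * S.dl g / 2)), S.IX g φ (rm_J s u)) ∧
      IntegrableOn (fun u => ∫ s in Ioi (-(3 * S.dl g / 2)), S.IX g φ (rm_J s u)) C := by
  obtain ⟨h1, h2⟩ := rgsg_chart_fubini (Y_geo hS) (Ps_param hS hg) measurableSet_Ioi hCm
    (box_sub_X hg hC) (f := S.fX φ) (fX_integrable hS hφ).integrableOn
  have e : ∀ u ∈ C, (∫ s in Ioi (-(3 * S.dl g / 2)), S.fX φ (S.Ps g (rm_J s u)) *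
      ctRho (extTen S.h) (fun z => S.t z.1) (S.Ps g) (rm_J s u)) =
      ∫ s in Ioi (-(3 * S.dl g / 2)), S.IX g φ (rm_J s u) := fun u hu =>
    setIntegral_congr_fun measurableSet_Ioi fun s hs =>
      pt_X hS hg hφ.1 (box_sub_X hg hC ⟨by rw [rm_J_zero]; exact hs, by rw [rm_tl_J]; exact hu⟩)
  exact ⟨h1.trans (setIntegral_congr_fun hCm e), h2.congr_fun e hCm⟩

theorem cell_B (hS : S.Ok) (hg : S.Good g) (hv : S.Spec φ vb vc) (hCm : MeasurableSet C)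
    (hC : C ⊆ Metric.ball 0 (3 * S.dl g)) :
    (∫ x in S.MC g C, S.fB vb x ∂S.μM =
        ∫ u in C, ∫ s in Ioo (0 : ℝ) (3 * S.dl g / 2), S.IB g φ (rm_J s u)) ∧
      IntegrableOn (fun u => ∫ s in Ioo (0 : ℝ) (3 * S.dl g / 2), S.IB g φ (rm_J s u)) C := by
  obtain ⟨h1, h2⟩ := rgsg_chart_fubini hS.geo hg.par measurableSet_Ioo hCm
    (box_sub_M hg hC) (f := S.fB vb) (fB_integrable hS hv.pair).integrableOn
  have hδ := hg.dl_pos
  have e : ∀ u ∈ C, (∫ s in Ioo (0 : ℝ) (3 * S.dl g / 2), S.fB vb (g.ψ (rm_J s u)) *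
      ctRho S.h S.t g.ψ (rm_J s u)) =
      ∫ s in Ioo (0 : ℝ) (3 * S.dl g / 2), S.IB g φ (rm_J s u) := fun u hu =>
    setIntegral_congr_fun measurableSet_Ioo fun s hs =>
      pt_B hS hg hv (box_sub_M hg hC ⟨by rw [rm_J_zero]; exact hs, by rw [rm_tl_J]; exact hu⟩)
        (by rw [rm_J_zero]; exact hs.1) (by rw [rm_J_zero]; have := hs.2; linarith)
  exact ⟨h1.trans (setIntegral_congr_fun hCm e), h2.congr_fun e hCm⟩

theorem cell_C (hS : S.Ok) (hg : S.Good g) (hφ : SmoothAlong (d + 1) S.Y φ)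
    (hv : S.Spec φ vb vc) (hCm : MeasurableSet C) (hC : C ⊆ Metric.ball 0 (3 * S.dl g)) :
    (∫ x in SC g C, (∫ s in Ioi (0 : ℝ), S.fC vc x s) ∂S.μS =
        ∫ u in C, ∫ s in Ioi (0 : ℝ), S.IC g φ (rm_J s u)) ∧
      IntegrableOn (fun u => ∫ s in Ioi (0 : ℝ), S.IC g φ (rm_J s u)) C := by
  have h1 := gs_integral_chart (S_geo hS).gs hg.slice hCm hC
    (fun x => ∫ s in Ioi (0 : ℝ), S.fC vc x s)
  have h2 := (gs_integrableOn_chart (S_geo hS).gs hg.slice hCm hC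
    (fun x => ∫ s in Ioi (0 : ℝ), S.fC vc x s)).1 (fC_swap hS hv.pair).1.integrableOn
  have e : ∀ u ∈ C, (∫ s in Ioi (0 : ℝ), S.fC vc (g.ψ (rm_J 0 u)) s) *
      ctRho S.h S.t (fun u => g.ψ (rm_J 0 u)) u = ∫ s in Ioi (0 : ℝ), S.IC g φ (rm_J s u) := by
    intro u hu
    rw [← integral_mul_const]
    exact setIntegral_congr_fun measurableSet_Ioi fun s hs =>
      pt_C hS hg hφ hv (mem_ball_zero_iff.1 (hC hu)) hs
  exact ⟨h1.trans (setIntegral_congr_fun hCm e), h2.congr_fun e hCm⟩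

theorem cell_S (hS : S.Ok) (hg : S.Good g) (hv : S.Spec φ vb vc) (hCm : MeasurableSet C)
    (hC : C ⊆ Metric.ball 0 (3 * S.dl g)) :
    (-2 * ∫ x in SC g C, S.fS vb x ∂S.μS = ∫ u in C, S.IS g φ u) ∧
      IntegrableOn (S.IS g φ) C := by
  have h1 := gs_integral_chart (S_geo hS).gs hg.slice hCm hC (S.fS vb)
  have h2 := (gs_integrableOn_chart (S_geo hS).gs hg.slice hCm hC (S.fS vb)).1
    (fS_integrable hS hv.pair).integrableOn
  have e : ∀ u ∈ C, -2 * (S.fS vb (g.ψ (rm_J 0 u)) * ctRho S.h S.t (fun u => g.ψ (rm_J 0 u)) u) =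
      S.IS g φ u := by
    intro u hu
    rw [← mul_assoc]
    exact pt_S hS hg hv (mem_ball_zero_iff.1 (hC hu))
  have h3 : IntegrableOn (fun u => -2 * (S.fS vb (g.ψ (rm_J 0 u)) *
      ctRho S.h S.t (fun u => g.ψ (rm_J 0 u)) u)) C := h2.const_mul (-2)
  refine ⟨?_, h3.congr_fun e hCm⟩
  show -2 * ∫ x in (fun u => g.ψ (rm_J 0 u)) '' C, S.fS vb x ∂S.μS = _
  rw [h1, ← integral_const_mul]
  exact setIntegral_congr_fun hCm e

/-- **the inequality on a cell.** -/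
theorem cell_le (hfib : RgsgFib d) (hS : S.Ok) (hg : S.Good g) (hφ : IsTestOn (d + 1) S.Y φ)
    (hv : S.Spec φ vb vc) (hCm : MeasurableSet C) (hC : C ⊆ Metric.ball 0 (3 * S.dl g)) :
    (∫ x in S.MC g C, S.fB vb x ∂S.μM) + (∫ x in SC g C, (∫ s in Ioi (0 : ℝ), S.fC vc x s) ∂S.μS) -
        2 * (∫ x in SC g C, S.fS vb x ∂S.μS) ≤ ∫ z in S.XC g C, S.fX φ z ∂S.μY := by
  obtain ⟨hX, hXi⟩ := cell_X hS hg hφ hCm hC
  obtain ⟨hB, hBi⟩ := cell_B hS hg hv hCm hC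
  obtain ⟨hCc, hCi⟩ := cell_C hS hg hφ.1 hv hCm hC
  obtain ⟨hSs, hSi⟩ := cell_S hS hg hv hCm hC
  have h1 : (∫ x in S.MC g C, S.fB vb x ∂S.μM) +
      (∫ x in SC g C, (∫ s in Ioi (0 : ℝ), S.fC vc x s) ∂S.μS) -
        2 * (∫ x in SC g C, S.fS vb x ∂S.μS) =
      ∫ u in C, ((∫ s in Ioo (0 : ℝ) (3 * S.dl g / 2), S.IB g φ (rm_J s u)) +
        (∫ s in Ioi (0 : ℝ), S.IC g φ (rm_J s u)) + S.IS g φ u) := by
    have e1 := integral_add (μ := volume.restrict C) hBi hCi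
    have e2 := integral_add (μ := volume.restrict C) (hBi.add hCi) hSi
    simp only [Pi.add_apply] at e2
    rw [e2, e1, ← hB, ← hCc, ← hSs]
    ring
  rw [h1, hX]
  exact setIntegral_mono_on ((hBi.add hCi).add hSi) hXi hCm fun u hu =>
    fibre_le hfib hS hg hφ (mem_ball_zero_iff.1 (hC hu))

/-- **the inequality on a cell**, in the notation of `Rg/SeamG5.lean`. -/
theorem cell_le' (hfib : RgsgFib d) (hS : S.Ok) (hg : S.Good g) (hφ : IsTestOn (d + 1) S.Y φ)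
    (hv : S.Spec φ vb vc) (hCm : MeasurableSet C) (hC : C ⊆ Metric.ball 0 (3 * S.dl g)) :
    (∫ x in S.cB g C, S.fB vb x ∂S.μM) + (∫ x in g.cS C, (∫ s in Ioi (0 : ℝ), S.fC vc x s) ∂S.μS) -
        2 * (∫ x in g.cS C, S.fS vb x ∂S.μS) ≤ ∫ z in S.cY g C, S.fX φ z ∂S.μY := by
  rw [← SC_eq, ← MC_eq, ← XC_eq]
  exact cell_le hfib hS hg hφ hv hCm hC

end pt

end RgsgDat

end Claimed.Agent.R315
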