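import Claimed.Agent.R315.Rg.Smc

/-!
# Row 315, package Rg-SMC (architect helper83): the coordinate operators are continuous for `C^∞` convergence near a point

`RgsMat u₀ A A'` = entrywise `RgsAt`.   Determinant, inverse matrix, `gradIpC`, `gradSqC`, `lapC`, `christoffel`, `riemannCoord`, `ricciCoord`, `scalarCoord`
of convergent data converge (`RgsAt`).   Everything here is PROVED from the closure lemmas of `Rg/Smc.lean`.
-/

set_option autoImplicit false
open scoped ContDiff Topology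
open Filter Metric Set Claims.C0499

namespace Claimed.Agent.R315

variable {d : ℕ} {u₀ : E d} {A : ℕ → E d → Matrix (Fin d) (Fin d) ℝ}
  {A' : E d → Matrix (Fin d) (Fin d) ℝ} {f g : ℕ → E d → ℝ} {f' g' : E d → ℝ}

/-- entrywise `C^∞` convergence of matrix fields near `u₀`. -/
def RgsMat (u₀ : E d) (A : ℕ → E d → Matrix (Fin d) (Fin d) ℝ)
    (A' : E d → Matrix (Fin d) (Fin d) ℝ) : Prop :=
  ∀ i j, RgsAt u₀ (fun k x => A k x i j) (fun x => A' x i j)

theorem RgsMat_eqns_cite : True := by have := @RgsMat.eq_1; trivial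

theorem rgs_const (c : ℝ) : RgsAt u₀ (fun _ _ => c) (fun _ => c) :=
  RgsAt.fixed (a' := fun _ : E d => c) univ_mem contDiffOn_const

theorem RgsMat.det (h : RgsMat u₀ A A') :
    RgsAt u₀ (fun k x => (A k x).det) (fun x => (A' x).det) := by
  simp only [Matrix.det_apply, Units.smul_def, zsmul_eq_mul]
  refine RgsAt.sum _ fun σ _ => ?_
  exact (rgs_const _).mul (RgsAt.prod _ fun i _ => h (σ i) i)

theorem RgsMat.adjugate (h : RgsMat u₀ A A') :
    RgsMat u₀ (fun k x => (A k x).adjugate) (fun x => (A' x).adjugate) := by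
  intro i j
  simp only [Matrix.adjugate_apply]
  refine RgsMat.det (A := fun k x => (A k x).updateRow j (Pi.single i 1))
    (A' := fun x => (A' x).updateRow j (Pi.single i 1)) fun p q => ?_
  by_cases hp : p = j
  · subst hp
    simp only [Matrix.updateRow_self]
    exact rgs_const _
  · simp only [Matrix.updateRow_ne hp]
    exact h p q

theorem RgsMat.inv (h : RgsMat u₀ A A') (h0 : (A' u₀).det ≠ 0) :
    RgsMat u₀ (fun k x => (A k x)⁻¹) (fun x => (A' x)⁻¹) := by
  intro i j
  simp only [Matrix.inv_def, Ring.inverse_eq_inv', Matrix.smul_apply, smul_eq_mul]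
  exact (h.det.inv h0).mul (h.adjugate i j)

theorem rgs_gradIpC (hA : RgsMat u₀ A A') (h0 : (A' u₀).det ≠ 0) (hf : RgsAt u₀ f f')
    (hg : RgsAt u₀ g g') :
    RgsAt u₀ (fun k x => gradIpC (A k) (f k) (g k) x) (fun x => gradIpC A' f' g' x) := by
  unfold gradIpC
  exact RgsAt.sum _ fun i _ => RgsAt.sum _ fun j _ => ((hA.inv h0 i j).mul (hf.pdiff i)).mul (hg.pdiff j)

theorem rgs_gradSqC (hA : RgsMat u₀ A A') (h0 : (A' u₀).det ≠ 0) (hf : RgsAt u₀ f f') :
    RgsAt u₀ (fun k x => gradSqC (A k) (f k) x) (fun x => gradSqC A' f' x) :=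
  rgs_gradIpC hA h0 hf hf

theorem rgs_lapC (hA : RgsMat u₀ A A') (h0 : 0 < (A' u₀).det) (hf : RgsAt u₀ f f') :
    RgsAt u₀ (fun k x => lapC (A k) (f k) x) (fun x => lapC A' f' x) := by
  unfold lapC
  have hs := hA.det.sqrt h0
  refine (hs.inv (Real.sqrt_pos.2 h0).ne').mul (RgsAt.sum _ fun i _ => ?_)
  refine RgsAt.pdiff (f := fun k w => Real.sqrt (A k w).det * ∑ j : Fin d, (A k w)⁻¹ i j * pdiff (f k) j w)
    (f' := fun w => Real.sqrt (A' w).det * ∑ j : Fin d, (A' w)⁻¹ i j * pdiff f' j w) ?_ i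
  exact hs.mul (RgsAt.sum _ fun j _ => (hA.inv h0.ne' i j).mul (hf.pdiff j))

theorem rgs_christoffel (hA : RgsMat u₀ A A') (h0 : (A' u₀).det ≠ 0) (k i j : Fin d) :
    RgsAt u₀ (fun n x => christoffel (A n) x k i j) (fun x => christoffel A' x k i j) := by
  unfold christoffel
  refine (rgs_const _).mul (RgsAt.sum _ fun l _ => (hA.inv h0 k l).mul ?_)
  exact (((hA j l).pdiff i).add ((hA i l).pdiff j)).sub ((hA i j).pdiff l)

theorem rgs_riemann (hA : RgsMat u₀ A A') (h0 : (A' u₀).det ≠ 0) (l i j k : Fin d) :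
    RgsAt u₀ (fun n x => riemannCoord (A n) x l i j k) (fun x => riemannCoord A' x l i j k) := by
  unfold riemannCoord
  have hc := rgs_christoffel hA h0
  refine (((hc l j k).pdiff i).sub ((hc l i k).pdiff j)).add (RgsAt.sum _ fun p _ => ?_)
  exact ((hc l i p).mul (hc p j k)).sub ((hc l j p).mul (hc p i k))

theorem rgs_ricci (hA : RgsMat u₀ A A') (h0 : (A' u₀).det ≠ 0) (j k : Fin d) :
    RgsAt u₀ (fun n x => ricciCoord (A n) x j k) (fun x => ricciCoord A' x j k) := by
  unfold ricciCoord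
  exact RgsAt.sum _ fun i _ => rgs_riemann hA h0 i i j k

theorem rgs_scalar (hA : RgsMat u₀ A A') (h0 : (A' u₀).det ≠ 0) :
    RgsAt u₀ (fun n x => scalarCoord (A n) x) (fun x => scalarCoord A' x) := by
  unfold scalarCoord
  exact RgsAt.sum _ fun j _ => RgsAt.sum _ fun k _ => (hA.inv h0 j k).mul (rgs_ricci hA h0 j k)

end Claimed.Agent.R315
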