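import Claimed.Agent.R315.Rg.Tail

/-!
# Row 315, package Rg, part 4: compatible positive supersolutions (REPLACES P Lemmas E.5, E.6, E.7)

INPUT (`RgSys`): a confined diagram `(E, h, θ)` with a compatible potential `Vs`, closed "required sets" `D α ⊆ E α` which are carried into the required sets of the faces
far out in the tails, and for every status an OPEN set `O ⊇ D α` (no uniform width, no compatibility) such that the form of
`L_α = -C Δ_θ + (Dsc_α - Vs)` has a gap `e₀ > 0` on `E α ∩ O`.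
OUTPUT (`rg_super`): a compatible smooth `v > 0` with `L_α v ≥ 0` on `D α` for all `α`.

PROOF: induction on the number `rgLv α` of entries which are not hit (from the deepest faces upwards).  `RgLow k v δ`: `v` is smooth and positive on all status spaces, and on the
statuses of level `< k` it is compatible and a strict supersolution `L v ≥ δ v` on an open neighbourhood of `D α`.
* `rg_piece` (leaf RG-PIECE): one relatively clopen piece `A` of `E α` over a compact set of `V`: `rg_glue_super` with `ψ` = blend of `1` and of the face functions, constant threshold.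
* `rg_status` (leaf RG-STATUS): all components of `E α`.
* `rg_level_step`, `rg_super`: PROVED here.
Owner: helper209.
-/

set_option autoImplicit false
set_option linter.unusedSectionVars false
open scoped ContDiff Topology
open Claims.C0499 Set MeasureTheory Filter

namespace Claimed.Agent.R315

variable {V W : Type} [NormedAddCommGroup V] [NormedSpace ℝ V] [NormedAddCommGroup W]
  [NormedSpace ℝ W] {ι : Type}

/-- number of entries which are not hit. -/
def rgLv [Fintype ι] (α : Stat ι) : ℕ := ∑ i, if α i = 0 then 0 else 1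

/-- the potential `Dsc_α - Vs`. -/
noncomputable def rgW [Fintype ι] (n : ℕ) (E : Stat ι → Set W) (h : Ten W) (θ Vs : W → ℝ)
    (α : Stat ι) (z : W) : ℝ :=
  Dsc (n - hits α) (E α) h θ z - Vs z

/-- the input. -/
structure RgSys [Fintype ι] [MeasurableSpace W] [BorelSpace W] (n : ℕ) (M : Set V)
    (F : Frame V W ι) (E : Stat ι → Set W) (h : Ten W) (θ Vs : W → ℝ) (D : Stat ι → Set W)
    (C e₀ : ℝ) : Prop where
  diag : IsDiag n M F E
  met : IsPMetric n F E h
  conf : Conf F E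
  dim : ∀ α, (E α).Nonempty → hits α + 1 ≤ n
  dr : SC n F E θ
  pot : SC n F E Vs
  D_sub : ∀ α, D α ⊆ E α
  D_closed : ∀ α, IsClosed (D α)
  D_tail : ∀ i, ∀ K : Set V, IsCompact K → ∃ R : ℝ, ∀ α, ∀ z ∈ D α, F.q z ∈ K → R < |F.t i z| →
    F.drop i z ∈ D (α.face i)
  gap : ∀ α, ∃ O : Set W, IsOpen O ∧ D α ⊆ O ∧
    GsGap (n - hits α) (E α ∩ O) h θ C (rgW n E h θ Vs α) e₀
  C_pos : 0 < C
  e_pos : 0 < e₀

/-- the induction hypothesis: everything is done on the statuses of level `< k`. -/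
structure RgLow [Fintype ι] (n : ℕ) (F : Frame V W ι) (E : Stat ι → Set W) (h : Ten W)
    (θ Vs : W → ℝ) (D : Stat ι → Set W) (C : ℝ) (k : ℕ) (v : W → ℝ) (δ : ℝ) : Prop where
  sm : ∀ α, SmoothAlong (n - hits α) (E α) v
  pos : ∀ z ∈ tot E, 0 < v z
  compat : ∀ i, ∀ K : Set V, IsCompact K → ∃ R : ℝ, ∀ α, rgLv α < k → ∀ z ∈ E α, F.q z ∈ K →
    R < |F.t i z| → v (F.drop i z) = v z
  sup : ∀ α, rgLv α < k → ∃ O : Set W, IsOpen O ∧ D α ⊆ O ∧ ∀ z ∈ E α ∩ O,
    δ * v z ≤ rgL (n - hits α) (E α) h θ C (rgW n E h θ Vs α) v z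

theorem rgLv_face_lt [Fintype ι] (α : Stat ι) {i : ι} (h : α i ≠ 0) :
    rgLv (α.face i) < rgLv α := by
  classical
  unfold rgLv
  refine Finset.sum_lt_sum (fun j _ => ?_) ⟨i, Finset.mem_univ i, ?_⟩
  · by_cases hj : j = i
    · subst hj; simp [Stat.face]
    · simp [Stat.face, Function.update_of_ne hj]
  · simp [Stat.face, h]

theorem rgLv_le_card [Fintype ι] (α : Stat ι) : rgLv α ≤ Fintype.card ι := by
  classical
  unfold rgLv
  calc ∑ i, (if α i = 0 then 0 else 1) ≤ ∑ _i : ι, 1 :=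
        Finset.sum_le_sum fun i _ => by split_ifs <;> simp
    _ = Fintype.card ι := by simp

variable [FiniteDimensional ℝ V] [FiniteDimensional ℝ W] [Fintype ι] [MeasurableSpace W]
  [BorelSpace W] {n : ℕ} {M : Set V} {F : Frame V W ι} {E : Stat ι → Set W} {h : Ten W}
  {θ Vs : W → ℝ} {D : Stat ι → Set W} {C e₀ : ℝ}

/-- **leaf RG-PIECE**: one relatively clopen piece over a compact subset of `V`.
PLAN.  `d = n - hits α`.  `A` is a manifold: `CtGeo d A h θ` (`CtGeo.inter`).  Let `K' = cthickening 1 K`.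
1. THRESHOLD `T ≥ 0`: larger than the thresholds over `K'` of: `rg_tail`; `IsDiag.exists_tail`; `hv.compat` (all `i`); `H.D_tail` (all `i`); `Compat` of `Vs`.
2. `u z = v z` if `z ∈ E β` for some `β` of level `< k`, `u z = 1` otherwise (smooth along every status space); `ψ = pkBlend F (fun _ => T) u` (`Pk/Blend.lean`, `Pk/Thr.lean`):
   smooth along `E α` (`pkBlend_sc` wants a global `DThr`: let `T₁` be a global smooth threshold function (`IsDiag.exists_thr`), `χ` a bump, `= 1` on `K'`, and choose `T ≥ sup T₁` on `supp χ`; use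
   `T' = (1 - χ) T₁ + χ T ≥ T₁`, which is `≡ T` on `K'`, instead of the constant),
   positive (`pkBlend_mem_convex` for `Ioi 0`), and for `z ∈ A`, `T + 2 ≤ |t i z|`: `ψ z = ψ (drop i z)` (`pkBlend_drop`) `= v (drop i z)` (`pkBlend_eq_of_forall`: on the face `v` has
   threshold `T`, all iterated faces have level `< k`: `rgLv_face_lt`).
3. `κ x = ∫ y in 0..x, Real.smoothTransition y` (smooth, convex, `0` on `(-∞,0]`, `0 ≤ κ' ≤ 1`, `0 ≤ κ'' ≤ c_f`, `κ x ≥ x - 1`);
   `ρ z = ∑ i, κ ((α i) * t i z - T - 2)`.  Where `κ' ≠ 0` the point lies in the `i`-th tail: `RgTailAt`.  By the chain rules of `Gs/Calc.lean`: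
   `|dρ|² = ∑ κ'²  ≤ card ι` (`⟨dt_i, dt_j⟩ = 0`: `pull` for `φ = t j`), `Δ_θ ρ = ∑ κ'' ∈ [0, c_f card ι]`, `⟨dψ, dρ⟩ = ∑ κ' ⟨dψ, dt_i⟩ = 0` (`pull` for `φ = v`).
4. `O = O_gap ∩ OA ∩ ⋂ i, ({z | (α i) * t i z < T + 1} ∪ drop i ⁻¹' O_i)`, `O_i` = the open set of `hv.sup (α.face i)` (`univ` if `α i = 0`).  `D α ∩ A ⊆ O` by `D_tail`.
   If `z ∈ A ∩ O`, `0 < ρ z`, pick `i` with `(α i) t i z > T + 2`: `ψ = v ∘ drop i` near `z`, `L_α ψ (z) = (L_β v)(drop i z) ≥ δ v (drop i z) = δ ψ z` (`Dsc_eq`, `pull`, compatibility of `Vs`).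
5. `(D α ∩ A) ∩ {ρ ≤ s}` is compact: closed, over `K`, `|t i| ≤ T + 3 + s` (`Frame.isCompact_box`).
6. gap on `A ∩ O = E α ∩ (O ∩ OA)`: `gs_gap_mono`.  Operators of `A` and of `E α` agree on `A` (`rg_L_inter`, `if_Dsc_inter`).
7. `rg_glue_super` gives `vA`, `s`, `O'`; the threshold is `T + 3 + max s 0`. -/
theorem rg_piece (H : RgSys n M F E h θ Vs D C e₀) {k : ℕ} {v : W → ℝ} {δ : ℝ} (hδ : 0 < δ)
    (hv : RgLow n F E h θ Vs D C k v δ) (α : Stat ι) (hα : rgLv α = k) {A OA : Set W}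
    (hOA : IsOpen OA) (hA : E α ∩ OA = A) (hAc : IsClosed A) {K : Set V} (hK : IsCompact K)
    (hAK : ∀ z ∈ A, F.q z ∈ K) :
    ∃ (vA : W → ℝ) (T : ℝ) (O' : Set W), SmoothAlong (n - hits α) A vA ∧ (∀ z ∈ A, 0 < vA z) ∧
      (∀ i, ∀ z ∈ A, T < |F.t i z| → vA z = v (F.drop i z)) ∧ IsOpen O' ∧ D α ∩ A ⊆ O' ∧
      ∀ z ∈ A ∩ O', min (e₀ / 4) (δ / 2) * vA z ≤
        rgL (n - hits α) A h θ C (rgW n E h θ Vs α) vA z := by
  sorry

/-- **leaf RG-STATUS**: one status.
PLAN.  For `z ∈ E α` let `A z = connectedComponentIn (E α) z`: closed (`pk_comp_closed`), `= E α ∩ O_z` with `O_z` open (`rg_comp_clopen`), over a compact `K_z` (`H.conf`).  `rg_piece` gives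
`vA`, `T`, `O'` for every component (choose them as functions of the SET `A z`, e.g. by `Classical.choose` applied to the statement quantified over all sets `A` of this form).
`vα y = vA (A y) y`.  Smooth along `E α`: `if_smoothAlong_of_pieces` (`If/Loc.lean`) for the cover by the `O_z`.  Threshold over `K`: the maximum of the `T` of the finitely many components
which meet `q ⁻¹' K` (`rg_comp_finite`).  `O = ⋃ z, O_z ∩ O'_z`.  Operators: `rg_L_inter` + `rg_L_congr_near`. -/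
theorem rg_status (H : RgSys n M F E h θ Vs D C e₀) {k : ℕ} {v : W → ℝ} {δ : ℝ} (hδ : 0 < δ)
    (hv : RgLow n F E h θ Vs D C k v δ) (α : Stat ι) (hα : rgLv α = k) :
    ∃ vα : W → ℝ, SmoothAlong (n - hits α) (E α) vα ∧ (∀ z ∈ E α, 0 < vα z) ∧
      (∀ K : Set V, IsCompact K → ∃ R : ℝ, ∀ i, ∀ z ∈ E α, F.q z ∈ K → R < |F.t i z| →
        vα z = v (F.drop i z)) ∧
      ∃ O : Set W, IsOpen O ∧ D α ⊆ O ∧ ∀ z ∈ E α ∩ O, min (e₀ / 4) (δ / 2) * vα z ≤
        rgL (n - hits α) (E α) h θ C (rgW n E h θ Vs α) vα z := by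
  sorry

/-- one level. -/
theorem rg_level_step (H : RgSys n M F E h θ Vs D C e₀) {k : ℕ} {v : W → ℝ} {δ : ℝ} (hδ : 0 < δ)
    (hv : RgLow n F E h θ Vs D C k v δ) :
    ∃ v' : W → ℝ, RgLow n F E h θ Vs D C (k + 1) v' (min (e₀ / 4) (δ / 2)) := by
  classical
  have hD := H.diag
  have hex : ∀ α : Stat ι, ∃ vα : W → ℝ, rgLv α = k →
      (SmoothAlong (n - hits α) (E α) vα ∧ (∀ z ∈ E α, 0 < vα z) ∧
      (∀ K : Set V, IsCompact K → ∃ R : ℝ, ∀ i, ∀ z ∈ E α, F.q z ∈ K → R < |F.t i z| →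
        vα z = v (F.drop i z)) ∧
      ∃ O : Set W, IsOpen O ∧ D α ⊆ O ∧ ∀ z ∈ E α ∩ O, min (e₀ / 4) (δ / 2) * vα z ≤
        rgL (n - hits α) (E α) h θ C (rgW n E h θ Vs α) vα z) := by
    intro α
    by_cases hα : rgLv α = k
    · obtain ⟨vα, h1⟩ := rg_status H hδ hv α hα
      exact ⟨vα, fun _ => h1⟩
    · exact ⟨v, fun h' => absurd h' hα⟩
  choose w hw using hex
  -- the new function
  let v' : W → ℝ := fun z => if hz : ∃ α, rgLv α = k ∧ z ∈ E α then w hz.choose z else v z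
  have huniq : ∀ {α β : Stat ι} {z : W}, z ∈ E α → z ∈ E β → α = β := by
    intro α β z hzα hzβ
    by_contra hne
    exact Set.disjoint_left.1 (hD.disj α β hne) hzα hzβ
  have hv'k : ∀ α, rgLv α = k → ∀ z ∈ E α, v' z = w α z := by
    intro α hα z hz
    have hex : ∃ α, rgLv α = k ∧ z ∈ E α := ⟨α, hα, hz⟩
    have : hex.choose = α := huniq hex.choose_spec.2 hz
    simp only [v', dif_pos hex, this]
  have hv'n : ∀ α, rgLv α ≠ k → ∀ z ∈ E α, v' z = v z := by
    intro α hα z hz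
    have hex : ¬ ∃ α, rgLv α = k ∧ z ∈ E α := by
      rintro ⟨β, hβ, hzβ⟩
      exact hα (huniq hz hzβ ▸ hβ)
    simp only [v', dif_neg hex]
  have hδ' : min (e₀ / 4) (δ / 2) ≤ δ := (min_le_right _ _).trans (by linarith)
  refine ⟨v', ⟨fun α => ?_, fun z hz => ?_, fun i K hK => ?_, fun α hα => ?_⟩⟩
  · by_cases hα : rgLv α = k
    · exact pk_smoothAlong_congr (hw α hα).1 fun z hz => hv'k α hα z hz
    · exact pk_smoothAlong_congr (hv.sm α) fun z hz => hv'n α hα z hz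
  · obtain ⟨α, hzα⟩ := mem_tot.1 hz
    by_cases hα : rgLv α = k
    · rw [hv'k α hα z hzα]; exact (hw α hα).2.1 z hzα
    · rw [hv'n α hα z hzα]; exact hv.pos z hz
  · obtain ⟨R1, hR1⟩ := hv.compat i K hK
    obtain ⟨R2, hR2⟩ := hD.exists_tail hK
    have hex2 : ∀ α : Stat ι, ∃ R : ℝ, rgLv α = k → ∀ i, ∀ z ∈ E α, F.q z ∈ K → R < |F.t i z| →
        w α z = v (F.drop i z) := by
      intro α
      by_cases hα : rgLv α = k
      · obtain ⟨R, hR⟩ := (hw α hα).2.2.1 K hK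
        exact ⟨R, fun _ => hR⟩
      · exact ⟨0, fun h' => absurd h' hα⟩
    choose R3 hR3 using hex2
    obtain ⟨R4, hR4⟩ := (Set.finite_range R3).bddAbove
    refine ⟨max (max R1 R2) (max R4 0), fun α hα z hz hq hlt => ?_⟩
    have h1 : R1 < |F.t i z| := lt_of_le_of_lt ((le_max_left _ _).trans (le_max_left _ _)) hlt
    have h2 : R2 < |F.t i z| := lt_of_le_of_lt ((le_max_right _ _).trans (le_max_left _ _)) hlt
    have h4 : R4 < |F.t i z| := lt_of_le_of_lt ((le_max_left _ _).trans (le_max_right _ _)) hlt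
    have h0 : 0 < |F.t i z| := lt_of_le_of_lt ((le_max_right _ _).trans (le_max_right _ _)) hlt
    have hαi : α i ≠ 0 := hD.ne_zero_of_t_ne hz (abs_pos.1 h0)
    have hmem : F.drop i z ∈ E (α.face i) :=
      (hR2 i α hαi z hq (by rw [hD.sign_mul hz i]; exact h2)).1 hz
    have hlv : rgLv (α.face i) < rgLv α := rgLv_face_lt α hαi
    have hface : v' (F.drop i z) = v (F.drop i z) :=
      hv'n (α.face i) (by omega) _ hmem
    by_cases hαk : rgLv α = k
    · rw [hface, hv'k α hαk z hz]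
      exact (hR3 α hαk i z hz hq (lt_of_le_of_lt (hR4 ⟨α, rfl⟩) h4)).symm
    · rw [hface, hv'n α hαk z hz]
      exact hR1 α (by omega) z hz hq h1
  · by_cases hαk : rgLv α = k
    · obtain ⟨O, hO, hDO, hsup⟩ := (hw α hαk).2.2.2
      refine ⟨O, hO, hDO, fun z hz => ?_⟩
      rw [hv'k α hαk z hz.1, rg_L_congr_near (f' := w α) Filter.univ_mem hz.1
        fun y hy => hv'k α hαk y hy.1]
      exact hsup z hz
    · obtain ⟨O, hO, hDO, hsup⟩ := hv.sup α (by omega)
      refine ⟨O, hO, hDO, fun z hz => ?_⟩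
      rw [hv'n α hαk z hz.1, rg_L_congr_near (f' := v) Filter.univ_mem hz.1
        fun y hy => hv'n α hαk y hy.1]
      have hpos := hv.pos z (mem_tot.2 ⟨α, hz.1⟩)
      exact (mul_le_mul_of_nonneg_right hδ' hpos.le).trans (hsup z hz)

/-- all levels. -/
theorem rg_levels (H : RgSys n M F E h θ Vs D C e₀) (k : ℕ) :
    ∃ (v : W → ℝ) (δ : ℝ), 0 < δ ∧ RgLow n F E h θ Vs D C k v δ := by
  induction k with
  | zero =>
    refine ⟨fun _ => 1, 1, one_pos, ⟨fun α ψ U _ => contDiffOn_const, fun _ _ => one_pos,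
      fun i K _ => ⟨0, fun α hα => absurd hα (Nat.not_lt_zero _)⟩,
      fun α hα => absurd hα (Nat.not_lt_zero _)⟩⟩
  | succ k ih =>
    obtain ⟨v, δ, hδ, hv⟩ := ih
    obtain ⟨v', hv'⟩ := rg_level_step H hδ hv
    exact ⟨v', _, lt_min (by have := H.e_pos; positivity) (by positivity), hv'⟩

/-- **THE COMPATIBLE SUPERSOLUTION.** -/
theorem rg_super (H : RgSys n M F E h θ Vs D C e₀) :
    ∃ v : W → ℝ, SC n F E v ∧ (∀ z ∈ tot E, 0 < v z) ∧ ∀ α, ∀ z ∈ D α,
      0 ≤ rgL (n - hits α) (E α) h θ C (rgW n E h θ Vs α) v z := by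
  obtain ⟨v, δ, hδ, hv⟩ := rg_levels H (Fintype.card ι + 1)
  have hlt : ∀ α : Stat ι, rgLv α < Fintype.card ι + 1 := fun α =>
    Nat.lt_succ_of_le (rgLv_le_card α)
  refine ⟨v, ⟨hv.sm, fun i K hK => ?_⟩, hv.pos, fun α z hz => ?_⟩
  · obtain ⟨R, hR⟩ := hv.compat i K hK
    refine ⟨R, fun z hz hq hlt' => ?_⟩
    obtain ⟨α, hα⟩ := mem_tot.1 hz
    exact hR α (hlt α) z hα hq hlt'
  · obtain ⟨O, -, hDO, hsup⟩ := hv.sup α (hlt α)
    have hzE := H.D_sub α hz
    have := hsup z ⟨hzE, hDO hz⟩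
    have hpos := hv.pos z (mem_tot.2 ⟨α, hzE⟩)
    exact (mul_pos hδ hpos).le.trans this

end Claimed.Agent.R315
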