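import Claimed.Agent.R315.Rg.Glue
import Claimed.Agent.R315.Ct.Cut
import Claimed.Agent.R315.Pack005
import Claimed.Agent.R315.Ct.ProdB

/-!
# Row 315, package Rg, part 3: calculus in the product tails of a diagram

* Section A (leaf RG-CYL): scalar calculus on a cylinder `ctCyl τ e M` (complements `Ct/ProdB.lean`): inner products and drift Laplacians of
  `f ∘ pr + c τ`.
* Section B (leaf RG-TAIL): beyond a threshold which is uniform over `q ⁻¹' K` the status space `E α` is, near the point, the cylinder over the face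
  `E (α.face i)`, with the pulled back data; `RgTailAt` collects all consequences which `Rg/Super.lean` uses.
* Section C (leaf RG-COMP): components of a status space: only finitely many meet `q ⁻¹' K`.
Owner: helper209.
-/

set_option autoImplicit false
set_option linter.unusedSectionVars false
open scoped ContDiff Topology
open Claims.C0499 Set MeasureTheory Filter

namespace Claimed.Agent.R315

/-! ## A: cylinders -/

section cyl

variable {V : Type} [NormedAddCommGroup V] [NormedSpace ℝ V] [FiniteDimensional ℝ V]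
variable {d : ℕ} {M : Set V} {h : Ten V} {t : V → ℝ} {τ : V →L[ℝ] ℝ} {e : V}

/-- **leaf RG-CYL (1)**: inner products on a cylinder.
PLAN: as `ct_cyl_gradSq` (product parametrisation `Ψ b = ψ (rm_tl d b) + b 0 • e`, block matrix `1 ⊕ cm h ψ`), or by polarisation from
`ct_cyl_gradSq` (`gs_ip_*` rules of `Gs/Calc.lean`: `4 ⟨a,b⟩ = |d(a+b)|² - |d(a-b)|²`). -/
theorem rg_cyl_ip (hG : CtGeo d M h t) (hτ : τ e = 1) (hM : ∀ x ∈ M, τ x = 0)
    (hn : CtNormal τ e M h) {f g : V → ℝ} (hf : SmoothAlong d M f) (hg : SmoothAlong d M g)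
    (a b : ℝ) {z : V} (hz : z ∈ ctCyl τ e M) :
    gradIp (d + 1) (ctCyl τ e M) (fun z => h (ctPr τ e z)) (fun z => f (ctPr τ e z) + a * τ z)
        (fun z => g (ctPr τ e z) + b * τ z) z =
      gradIp d M h f g (ctPr τ e z) + a * b := by
  exact ct_cyl_ip hG hτ hM hn hf hg a b hz

/-- **leaf RG-CYL (2)**: the drift Laplacian on a cylinder.
PLAN: value in the product parametrisation (`gs_wlap_eq`, `if_lap_eq`); the metric matrix is `1 ⊕ G(y)`, independent of `b 0`:
`lapC (1 ⊕ G) (F(y) + a b₀) = lapC G F` (`rm_adm_lap` with lapse `1`, `H = 0`, or directly from `rm_lapC_eq`). -/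
theorem rg_cyl_wlap (hG : CtGeo d M h t) (hτ : τ e = 1) (hM : ∀ x ∈ M, τ x = 0)
    (hn : CtNormal τ e M h) {f : V → ℝ} (hf : SmoothAlong d M f) (a : ℝ) {z : V}
    (hz : z ∈ ctCyl τ e M) :
    wlap (d + 1) (ctCyl τ e M) (fun z => h (ctPr τ e z)) (fun z => t (ctPr τ e z))
        (fun z => f (ctPr τ e z) + a * τ z) z =
      wlap d M h t f (ctPr τ e z) := by
  exact ct_cyl_wlap hG hτ hM hn hf a hz

end cyl

/-! ## B: tails of a diagram -/

variable {V W : Type} [NormedAddCommGroup V] [NormedSpace ℝ V] [NormedAddCommGroup W]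
  [NormedSpace ℝ W] {ι : Type}

/-- everything we know at a point `z ∈ E α` which lies far out in the `i`-th tail. -/
structure RgTailAt [Fintype ι] (n : ℕ) (F : Frame V W ι) (E : Stat ι → Set W) (h : Ten W)
    (θ : W → ℝ) (α : Stat ι) (i : ι) (z : W) : Prop where
  ne : α i ≠ 0
  mem : F.drop i z ∈ E (α.face i)
  dim : n - hits α = (n - hits (α.face i)) + 1
  Dsc_eq : Dsc (n - hits α) (E α) h θ z =
    Dsc (n - hits (α.face i)) (E (α.face i)) h θ (F.drop i z)
  t_sq : gradSq (n - hits α) (E α) h (fun y => F.t i y) z = 1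
  t_lap : wlap (n - hits α) (E α) h θ (fun y => F.t i y) z = 0
  /-- functions which are, near `z`, pulled back from the face -/
  pull : ∀ φ f : W → ℝ, SmoothAlong (n - hits (α.face i)) (E (α.face i)) φ →
    (∃ N ∈ 𝓝 z, ∀ y ∈ N ∩ E α, f y = φ (F.drop i y)) →
      gradIp (n - hits α) (E α) h f (fun y => F.t i y) z = 0 ∧
      wlap (n - hits α) (E α) h θ f z =
        wlap (n - hits (α.face i)) (E (α.face i)) h θ φ (F.drop i z) ∧
      gradSq (n - hits α) (E α) h f z =
        gradSq (n - hits (α.face i)) (E (α.face i)) h φ (F.drop i z)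

variable [FiniteDimensional ℝ V] [FiniteDimensional ℝ W] [Fintype ι] {n : ℕ} {M : Set V}
  {F : Frame V W ι} {E : Stat ι → Set W} {h : Ten W} {θ : W → ℝ}

/-- **leaf RG-TAIL**.
PLAN.  `K' = cthickening 1 K`.  `R` = max of: the threshold of `ct_tail_cyl` for `K'`, the thresholds of `Compat` (`Compat.exists_threshold`) of `h`
(`IsPMetric.compat`) and of `θ` for `K'`, and `0`.  Let `z ∈ E α`, `q z ∈ K`, `R < |t i z|`.  `α i ≠ 0`: `IsDiag.ne_zero_of_t_ne`.  `ct_tail_cyl` gives an open `O ∋ z`
with `E α ∩ O = ctCyl (t i) (e i) (E β) ∩ O`, `β = α.face i`; shrink: `O' = O ∩ {y | infDist (q y) K < 1 ∧ R < |t i y|}`.  On `E α ∩ O'`: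
`h y = h (drop i y)`, `θ y = θ (drop i y)` (note `F.drop i = ctPr (F.t i) (F.e i)`).  Hence, at `z`, every scalar operator of `(E α, h, θ)` equals
(1) the operator of the open piece `E α ∩ O'` (`if_*_inter`, `If/Sub.lean`, `If/Lap.lean`; hypothesis free versions `if_*_inter'` in `If/Loc.lean`),
(2) `= ` the operator of `ctCyl .. ∩ O'` for the data `h, θ` (same set), (3) `=` for the data `h ∘ pr`, `θ ∘ pr` (`if_*_congr` of `If/Loc.lean`: only the values along the
manifold matter), (4) `=` the operator of the full cylinder (`if_*_inter` again), which is computed by `ct_cyl_Dsc`, `rg_cyl_ip`, `rg_cyl_wlap`, `ct_cyl_gradSq`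
(`CtGeo` of the face from `IsDiag.mfd`, `IsPMetric.met`, `SC`; `τ e = 1`: `F.t_e`; `τ = 0` on `E β`: `IsDiag.t_hit`; `CtNormal`: `IsPMetric.normal`).
For `pull`: replace `f` by `φ ∘ drop i` (`gs_*_congr_near`).  `dim`: `hits (α.face i) = hits α + 1` and `hdim`. -/
theorem rg_tail (hD : IsDiag n M F E) (hh : IsPMetric n F E h) (hθ : SC n F E θ)
    (hdim : ∀ α, (E α).Nonempty → hits α + 1 ≤ n) {K : Set V} (hK : IsCompact K) :
    ∃ R : ℝ, 0 ≤ R ∧ ∀ (α : Stat ι) (i : ι), ∀ z ∈ E α, F.q z ∈ K → R < |F.t i z| →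
      RgTailAt n F E h θ α i z := by
  sorry

/-! ## C: components -/

/-- one large coordinate is pushed back to the level `c` inside the component. -/
theorem rg_comp_step (hD : IsDiag n M F E) (α : Stat ι) {K : Set V} {R : ℝ}
    (hR : ∀ (i : ι) (α : Stat ι), α i ≠ 0 → ∀ z : W, F.q z ∈ K → R < (α i : ℝ) * F.t i z →
      (z ∈ E α ↔ F.drop i z ∈ E (α.face i))) {z : W} (hz : z ∈ E α) (hq : F.q z ∈ K) {i : ι} {c : ℝ}
    (hRc : R < c) (hc : 0 ≤ c) (hi : c < |F.t i z|) :
    ∃ z' ∈ E α, F.q z' = F.q z ∧ |F.t i z'| = c ∧ (∀ j, j ≠ i → F.t j z' = F.t j z) ∧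
      connectedComponentIn (E α) z = connectedComponentIn (E α) z' := by
  have hne : F.t i z ≠ 0 := by
    intro h0
    rw [h0, abs_zero] at hi
    linarith
  have hα : α i ≠ 0 := hD.ne_zero_of_t_ne hz hne
  have hσ : (α i : ℝ) * F.t i z = |F.t i z| := hD.sign_mul hz i
  have hσ2 : (α i : ℝ) * (α i : ℝ) = 1 := by
    rcases h : α i with _ | _ | _
    · exact absurd h hα
    · simp
    · simp
  set γ : ℝ → W := fun s => z + (-(s * (α i : ℝ))) • F.e i with hγ
  have hγc : Continuous γ := by
    refine continuous_const.add (Continuous.smul ?_ continuous_const)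
    exact (continuous_id.mul continuous_const).neg
  have hγq : ∀ s, F.q (γ s) = F.q z := fun s => by simp [hγ, F.q_e]
  have hγi : ∀ s, (α i : ℝ) * F.t i (γ s) = |F.t i z| - s := fun s => by
    simp only [hγ, map_add, map_smul, F.t_e, smul_eq_mul, mul_one]
    linear_combination hσ - s * hσ2
  have hγj : ∀ s j, j ≠ i → F.t j (γ s) = F.t j z := fun s j hj => by
    simp [hγ, F.t_e_ne j i hj]
  have hγE : ∀ s ∈ Set.Icc (0 : ℝ) (|F.t i z| - c), γ s ∈ E α := by
    intro s hs
    rw [hR i α hα (γ s) (by rw [hγq]; exact hq) (by rw [hγi]; linarith [hs.2]), F.drop_add_smul]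
    exact (hR i α hα z hq (by rw [hσ]; linarith)).1 hz
  have hL : (0 : ℝ) ≤ |F.t i z| - c := by linarith
  have hpre : IsPreconnected (γ '' Set.Icc (0 : ℝ) (|F.t i z| - c)) :=
    isPreconnected_Icc.image γ hγc.continuousOn
  have hz0 : z ∈ γ '' Set.Icc (0 : ℝ) (|F.t i z| - c) := ⟨0, ⟨le_refl _, hL⟩, by simp [hγ]⟩
  have hsub : γ '' Set.Icc (0 : ℝ) (|F.t i z| - c) ⊆ E α := by
    rintro _ ⟨s, hs, rfl⟩
    exact hγE s hs
  have hz' : γ (|F.t i z| - c) ∈ E α := hγE _ ⟨hL, le_refl _⟩
  refine ⟨γ (|F.t i z| - c), hz', hγq _, ?_, fun j hj => hγj _ j hj, ?_⟩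
  · rw [← hD.sign_mul hz' i, hγi]
    ring
  · exact connectedComponentIn_eq (hpre.subset_connectedComponentIn hz0 hsub ⟨_, ⟨hL, le_refl _⟩, rfl⟩)

/-- **leaf RG-COMP (1)**: only finitely many components of `E α` meet `q ⁻¹' K`.
PLAN.  `R` from `IsDiag.exists_tail` for `K`, `R ≥ 0`.  `B = {z ∈ E α | q z ∈ K, |t i z| ≤ R + 1 ∀ i}` is compact (`IsDiag.isCompact_trunc`).  The components are relatively
open (`pk_comp_inter`) and pairwise disjoint, so finitely many of them cover `B`.  Every `z ∈ E α` with `q z ∈ K` can be joined inside `E α ∩ q ⁻¹' K` to a point of `B`: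
if `|t i z| > R + 1` the segment `s ↦ z - s (α i) • e i`, `0 ≤ s ≤ |t i z| - R - 1`, stays in `E α` (same `drop i`, `(α i) t i > R`), does not change `q` and `t j`, `j ≠ i`; induction on
the number of such `i`. -/
theorem rg_comp_finite (hD : IsDiag n M F E) (α : Stat ι) {K : Set V} (hK : IsCompact K) :
    {A : Set W | ∃ z ∈ E α, F.q z ∈ K ∧ A = connectedComponentIn (E α) z}.Finite := by
  classical
  obtain ⟨R1, hR1⟩ := hD.exists_tail hK
  set R := max R1 0 with hRdef
  have hR1R : R1 ≤ R := le_max_left _ _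
  have hR0 : 0 ≤ R := le_max_right _ _
  have hR : ∀ (i : ι) (α : Stat ι), α i ≠ 0 → ∀ z : W, F.q z ∈ K → R < (α i : ℝ) * F.t i z →
      (z ∈ E α ↔ F.drop i z ∈ E (α.face i)) :=
    fun i α hα z hz hlt => hR1 i α hα z hz (lt_of_le_of_lt hR1R hlt)
  set B : Set W := {z | z ∈ E α ∧ F.q z ∈ K ∧ ∀ i, |F.t i z| ≤ R + 1} with hB
  have hBc : IsCompact B := hD.isCompact_trunc α hK (R + 1)
  -- every point is joined to a point of `B`
  have key : ∀ N : ℕ, ∀ z ∈ E α, F.q z ∈ K →
      (Finset.univ.filter fun i => R + 1 < |F.t i z|).card = N →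
      ∃ b ∈ B, connectedComponentIn (E α) z = connectedComponentIn (E α) b := by
    intro N
    induction N with
    | zero =>
      intro z hz hq hcard
      refine ⟨z, ⟨hz, hq, fun i => ?_⟩, rfl⟩
      by_contra hcon
      have : i ∈ Finset.univ.filter fun i => R + 1 < |F.t i z| := by
        simp only [Finset.mem_filter, Finset.mem_univ, true_and]
        exact not_le.1 hcon
      rw [Finset.card_eq_zero.1 hcard] at this
      simp at this
    | succ N ih =>
      intro z hz hq hcard
      have hne : (Finset.univ.filter fun i => R + 1 < |F.t i z|).Nonempty := by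
        rw [← Finset.card_pos]; omega
      obtain ⟨i, hi⟩ := hne
      have hi' : R + 1 < |F.t i z| := (Finset.mem_filter.1 hi).2
      obtain ⟨z', hz', hq', hti, htj, hcc⟩ :=
        rg_comp_step hD α hR hz hq (c := R + 1) (by linarith) (by linarith) hi'
      obtain ⟨b, hb, hbc⟩ := ih z' hz' (hq' ▸ hq) (by
        have e : (Finset.univ.filter fun j => R + 1 < |F.t j z'|) =
            (Finset.univ.filter fun j => R + 1 < |F.t j z|).erase i := by
          ext j
          simp only [Finset.mem_filter, Finset.mem_univ, true_and, Finset.mem_erase]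
          by_cases hj : j = i
          · subst hj
            simp [hti]
          · simp [htj j hj, hj]
        rw [e, Finset.card_erase_of_mem hi, hcard]
        rfl)
      exact ⟨b, hb, hcc.trans hbc⟩
  -- finitely many components meet `B`
  choose O hO hOe using fun b : W => pk_comp_inter (hD.mfd α) b
  obtain ⟨T, hT⟩ := hBc.elim_finite_subcover O hO (fun b hb =>
    Set.mem_iUnion.2 ⟨b, ((hOe b) ▸ mem_connectedComponentIn hb.1 : b ∈ E α ∩ O b).2⟩)
  refine (T.finite_toSet.image fun b => connectedComponentIn (E α) b).subset ?_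
  rintro A ⟨z, hz, hq, rfl⟩
  obtain ⟨b, hb, hbc⟩ := key _ z hz hq rfl
  obtain ⟨b', hb', hbb'⟩ := Set.mem_iUnion₂.1 (hT hb)
  refine ⟨b', hb', ?_⟩
  have : b ∈ connectedComponentIn (E α) b' := by
    rw [hOe b']
    exact ⟨hb.1, hbb'⟩
  show connectedComponentIn (E α) b' = connectedComponentIn (E α) z
  rw [hbc, connectedComponentIn_eq this]

/-- **leaf RG-COMP (2)**: a component and its complement are open pieces.
PLAN: `pk_comp_inter` for the component; the complement is the union of the other components. -/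
theorem rg_comp_clopen (hD : IsDiag n M F E) (α : Stat ι) (z : W) :
    ∃ O O' : Set W, IsOpen O ∧ IsOpen O' ∧ E α ∩ O = connectedComponentIn (E α) z ∧
      E α ∩ O' = E α \ connectedComponentIn (E α) z := by
  obtain ⟨O, hO, hOe⟩ := pk_comp_inter (hD.mfd α) z
  refine ⟨O, (connectedComponentIn (E α) z)ᶜ, hO, (pk_comp_closed (hD.closed α) z).isOpen_compl, hOe.symm, ?_⟩
  rfl

end Claimed.Agent.R315
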