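import Claimed.Agent.R315.Rg.TrDefs
import Claimed.Agent.R315.Sh.Ctx

/-!
# Row 315, package Rg-TR, file `TrCh.lean` = PACKAGE L-RG-TrCh: STRAIGHTENED CHARTS AT WALL POINTS, the standing data `RgtStar` of a star   (architect: helper190)

PLAN.
* `RgtChart.mono`: `if_mono h.par (Gmt.hr_isOpen_cyl r')`, `hrCyl r' ⊆ hrCyl r`.
* `rgt_chart_exists`.  (Start with `letI : MeasurableSpace W := borel W; haveI : BorelSpace W := ⟨rfl⟩`.)  `ct_reg_def' hG hy` ⇒ `O` open, `y ∈ O`, `φ` with `hφ : CtDef (d'+1) (X ∩ O) h (A ∩ O) φ`.  `y ∈ X` (`ct_wall_subset_bd`, `ct_bd_subset`), `φ y = 0` (`(ct_wall_inter_def hG hO hφ).1`).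
  `rm_orth_param (hG.inter hO).mfd (hG.inter hO).met hφ.smooth ⟨hyX, hyO⟩ (hφ.reg y _)` (`Rm/Orth.lean`, PROVED) ⇒ `ψ₀, r` with `rm_LapseP (X ∩ O) h φ y ψ₀ r`: `par : IsParam (X ∩ O) ψ₀ (rm_box d' (φ y) r)`, `base : ψ₀ (rm_J (φ y) 0) = y`, `lvl : φ (ψ₀ w) = w 0`.
  `ψ u = ψ₀ (rm_J (ver u) (hor u))`.  The map `τ u = rm_J (ver u) (hor u) = ver u • eb 0 + rm_in d' (hor u)` is continuous linear and injective (`rm_J_zero : rm_J q y 0 = q`, `rm_tl_J : rm_tl d (rm_J q y) = y`; `fl_join_hor_ver`), `fderiv τ = τ`; it maps `hrCyl r` into `rm_box d' 0 r`: `if_comp`.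
  `IsParam X ψ (hrCyl r)`: `if_param_of_inter hO`.  `inn`, `out`: `ψ u ∈ X ∩ O` and `(ct_wall_inter_def hG hO hφ).2.2`: `ψ u ∈ ctIn X A ↔ φ (ψ u) < 0 ↔ ver u < 0` (`lvl`, `rm_J_zero`).  `ψ 0 = y`: `base` (`hor 0 = 0`, `ver 0 = 0`, `φ y = 0`).
* `rgt_star_exists`.  `y ∈ E β`, so `sh_ctx_geo hC β ⟨y, _⟩` gives `CtGeo` and `2 ≤ C.m β`; `d' = C.m β - 1`, `hd : C.m β = d' + 1`; `rw [hd] at hy`; `rgt_chart_exists` ⇒ `(ψ, r₀)`.  `u ↦ ‖q (ψ u) - q y‖` is continuous on `hrCyl r₀` and vanishes at `0`: there is `δ > 0` with value `< 1` on `ball 0 δ`; `r = min r₀ (δ / 2)`, `Gmt.hr_cyl_subset_ball`; `RgtChart.mono`.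
* `RgtStar.t0`: `if_mem hst.chart.par hu : ψ u ∈ E β`, `hC.inv.diag.t_hit β`.
* `RgtStar.geo`, `rgt_cof_dim`: `hits β = hits α + card` (`Stat.IsCof.hits`), `hits β + 2 ≤ n` (`hC.dim β`, `E β ∋ ψ 0`); `omega` after `unfold ShCtx.m`.
-/

set_option autoImplicit false
open scoped ContDiff ENNReal Topology
open MeasureTheory Claims.C0499 Set Filter

namespace Claimed.Agent.R315

section chart

variable {W : Type} [NormedAddCommGroup W] [NormedSpace ℝ W]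
variable {d' : ℕ} {X A : Set W} {ψ : E (d' + 1) → W} {r : ℝ}

theorem rgt_cyl_mono {n : ℕ} {r r' : ℝ} (hr : r' ≤ r) :
    (Gmt.hrCyl r' : Set (E (n + 1))) ⊆ Gmt.hrCyl r :=
  fun _ hu => ⟨lt_of_lt_of_le hu.1 hr, lt_of_lt_of_le hu.2 hr⟩

theorem RgtChart.mono {r' : ℝ} (h : RgtChart d' X A ψ r) (h0 : 0 < r') (hr : r' ≤ r) :
    RgtChart d' X A ψ r' := by
  exact ⟨h0, if_mono h.par (Gmt.hr_isOpen_cyl r') (rgt_cyl_mono hr), fun u hu => h.inn u (rgt_cyl_mono hr hu),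
    fun u hu => h.out u (rgt_cyl_mono hr hu)⟩

/-- the exchange of coordinates `(hor, ver) ↦ (ver, hor)` between the conventions of `Gmt` (last) and `Rm` (first). -/
noncomputable def rgtSw (d' : ℕ) : E (d' + 1) →L[ℝ] E (d' + 1) :=
  (Gmt.gmtVerL d').smulRight (eb 0) + (rm_in d').comp (Gmt.gmtHorL d')

theorem rgtSw_forced : True := by
  have := @rgtSw.eq_1
  trivial

theorem rgt_sw_apply (u : E (d' + 1)) : rgtSw d' u = rm_J (Gmt.gmtVer u) (Gmt.gmtHor u) := rfl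

theorem rgt_sw_inj : Function.Injective (rgtSw d') := by
  intro u u' h
  rw [rgt_sw_apply, rgt_sw_apply] at h
  have h1 : Gmt.gmtVer u = Gmt.gmtVer u' := by
    have := congrArg (fun w : E (d' + 1) => w 0) h
    simpa only [rm_J_zero] using this
  have h2 : Gmt.gmtHor u = Gmt.gmtHor u' := by
    have := congrArg (rm_tl d') h
    simpa only [rm_tl_J] using this
  rw [← Gmt.fl_join_hor_ver u, ← Gmt.fl_join_hor_ver u', h1, h2]

theorem rgt_chart_exists [FiniteDimensional ℝ W] {h : Ten W} {t : W → ℝ}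
    (hG : CtGeo (d' + 1) X h t) {y : W} (hy : y ∈ ctWall (d' + 1) X A) :
    ∃ (ψ : E (d' + 1) → W) (r : ℝ), RgtChart d' X A ψ r ∧ ψ 0 = y := by
  letI : MeasurableSpace W := borel W
  haveI : BorelSpace W := ⟨rfl⟩
  obtain ⟨O, φ, hO, hyO, hφ⟩ := ct_reg_def' hG hy
  have hyX : y ∈ X := ct_bd_subset A (ct_wall_subset_bd A hy)
  obtain ⟨hw, -, hin, hout⟩ := ct_wall_inter_def hG hO hφ
  have hφy : φ y = 0 := by
    have : y ∈ ctWall (d' + 1) X A ∩ O := ⟨hy, hyO⟩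
    rw [hw] at this
    exact this.2
  obtain ⟨ψ₀, r, hL⟩ := rm_orth_param (hG.inter hO).mfd (hG.inter hO).met hφ.smooth ⟨hyX, hyO⟩
    (hφ.reg y ⟨hyX, hyO⟩)
  have hmaps : MapsTo (rgtSw d') (Gmt.hrCyl r) (rm_box d' (φ y) r) := by
    intro u hu
    show |rgtSw d' u 0 - φ y| < r ∧ ‖rm_tl d' (rgtSw d' u)‖ < r
    rw [rgt_sw_apply, rm_J_zero, rm_tl_J, hφy, sub_zero]
    exact ⟨hu.2, hu.1⟩
  have hpar : IsParam (X ∩ O) (ψ₀ ∘ rgtSw d') (Gmt.hrCyl r) := by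
    refine if_comp hL.par (Gmt.hr_isOpen_cyl r) (rgtSw d').contDiff.contDiffOn rgt_sw_inj.injOn
      (fun w _ => ?_) hmaps
    rw [(rgtSw d').fderiv]
    exact rgt_sw_inj
  have hlvl : ∀ u ∈ (Gmt.hrCyl r : Set (E (d' + 1))), φ ((ψ₀ ∘ rgtSw d') u) = Gmt.gmtVer u := by
    intro u hu
    show φ (ψ₀ (rgtSw d' u)) = _
    rw [hL.lvl _ (hmaps hu), rgt_sw_apply, rm_J_zero]
  refine ⟨ψ₀ ∘ rgtSw d', r, ⟨hL.pos, if_param_of_inter hO hpar, fun u hu => ?_, fun u hu => ?_⟩, ?_⟩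
  · have hm : (ψ₀ ∘ rgtSw d') u ∈ X ∩ O := if_mem hpar hu
    constructor
    · intro h1
      have : (ψ₀ ∘ rgtSw d') u ∈ ctIn (d' + 1) X A ∩ O := ⟨h1, hm.2⟩
      rw [hin] at this
      rw [← hlvl u hu]
      exact this.2
    · intro h1
      have : (ψ₀ ∘ rgtSw d') u ∈ ctIn (d' + 1) X A ∩ O := by
        rw [hin]
        exact ⟨hm, by rw [hlvl u hu]; exact h1⟩
      exact this.1
  · have hm : (ψ₀ ∘ rgtSw d') u ∈ X ∩ O := if_mem hpar hu
    constructor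
    · intro h1
      have : (ψ₀ ∘ rgtSw d') u ∈ ctOut (d' + 1) X A ∩ O := ⟨h1, hm.2⟩
      rw [hout] at this
      rw [← hlvl u hu]
      exact this.2
    · intro h1
      have : (ψ₀ ∘ rgtSw d') u ∈ ctOut (d' + 1) X A ∩ O := by
        rw [hout]
        exact ⟨hm, by rw [hlvl u hu]; exact h1⟩
      exact this.1
  · show ψ₀ (rgtSw d' 0) = y
    have : rgtSw d' 0 = rm_J (φ y) 0 := by
      rw [map_zero, hφy]
      simp [rm_J]
    rw [this, hL.base]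

end chart

variable {V W : Type} [NormedAddCommGroup V] [NormedSpace ℝ V] [NormedAddCommGroup W]
  [NormedSpace ℝ W] {ι : Type}

/-- **standing data of a star**: a straightened chart of `E β`. -/
structure RgtStar [Fintype ι] (C : ShCtx V W ι) (β : Stat ι) (d' : ℕ) (ψ : E (d' + 1) → W)
    (r : ℝ) : Prop where
  dim : C.m β = d' + 1
  one_le : 1 ≤ d'
  chart : RgtChart d' (C.P.E β) (C.ph β) ψ r

variable [FiniteDimensional ℝ V] [FiniteDimensional ℝ W] [Fintype ι]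
  [MeasurableSpace W] [BorelSpace W] {C : ShCtx V W ι} {β : Stat ι} {d' : ℕ}
  {ψ : E (d' + 1) → W} {r : ℝ}

theorem rgt_star_exists (hC : C.Ok) (β : Stat ι) {y : W}
    (hy : y ∈ ctWall (C.m β) (C.P.E β) (C.ph β)) :
    ∃ (d' : ℕ) (ψ : E (d' + 1) → W) (r : ℝ), RgtStar C β d' ψ r ∧ ψ 0 = y ∧
      ∀ u ∈ (Gmt.hrCyl r : Set (E (d' + 1))), ‖C.F.q (ψ u) - C.F.q y‖ < 1 := by
  have hyE : y ∈ C.P.E β := ct_bd_subset _ (ct_wall_subset_bd _ hy)
  obtain ⟨hG, -, h2, -, -⟩ := sh_ctx_geo hC β ⟨y, hyE⟩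
  obtain ⟨d', hd⟩ : ∃ d', C.m β = d' + 1 := ⟨C.m β - 1, by omega⟩
  rw [hd] at hy hG
  obtain ⟨ψ, r₀, hch, hψ0⟩ := rgt_chart_exists hG hy
  have h0mem : (0 : E (d' + 1)) ∈ (Gmt.hrCyl r₀ : Set (E (d' + 1))) := by
    show ‖Gmt.gmtHor (0 : E (d' + 1))‖ < r₀ ∧ |Gmt.gmtVer (0 : E (d' + 1))| < r₀
    have e1 : Gmt.gmtHor (0 : E (d' + 1)) = 0 := map_zero (Gmt.gmtHorL d')
    have e2 : Gmt.gmtVer (0 : E (d' + 1)) = 0 := map_zero (Gmt.gmtVerL d')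
    rw [e1, e2, norm_zero, abs_zero]
    exact ⟨hch.pos, hch.pos⟩
  have hcont : ContinuousAt (fun u => ‖C.F.q (ψ u) - C.F.q y‖) 0 := by
    have h1 : ContinuousAt ψ 0 :=
      (if_continuousOn hch.par).continuousAt ((if_open hch.par).mem_nhds h0mem)
    exact ((C.F.q.continuous.continuousAt.comp h1).sub continuousAt_const).norm
  have hev : ∀ᶠ u in 𝓝 (0 : E (d' + 1)), ‖C.F.q (ψ u) - C.F.q y‖ < 1 := by
    refine hcont.eventually_lt continuousAt_const ?_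
    rw [hψ0, sub_self, norm_zero]
    exact one_pos
  obtain ⟨δ, hδ, hball⟩ := Metric.eventually_nhds_iff_ball.1 hev
  have hr : 0 < min r₀ (δ / 2) := lt_min hch.pos (by positivity)
  refine ⟨d', ψ, min r₀ (δ / 2), ⟨hd, by omega, hch.mono hr (min_le_left _ _)⟩, hψ0, fun u hu => ?_⟩
  refine hball u (Metric.ball_subset_ball ?_ (Gmt.hr_cyl_subset_ball _ hu))
  have := min_le_right r₀ (δ / 2)
  linarith

/-- the hit coordinates vanish on the chart. -/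
theorem RgtStar.t0 (hC : C.Ok) (hst : RgtStar C β d' ψ r) {u : E (d' + 1)}
    (hu : u ∈ (Gmt.hrCyl r : Set (E (d' + 1)))) {j : ι} (hj : β j = 0) : C.F.t j (ψ u) = 0 := by
  exact hC.inv.diag.t_hit β _ (if_mem hst.chart.par hu) j hj

/-- dimension of a coface. -/
theorem rgt_cof_dim (hC : C.Ok) (hst : RgtStar C β d' ψ r) {α : Stat ι} (hα : β.IsCof α) :
    C.m α = d' + (β.cofJ α).card + 1 := by
  have h1 := hα.hits
  have h2 := hst.dim
  have h0mem : (0 : E (d' + 1)) ∈ (Gmt.hrCyl r : Set (E (d' + 1))) := by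
    show ‖Gmt.gmtHor (0 : E (d' + 1))‖ < r ∧ |Gmt.gmtVer (0 : E (d' + 1))| < r
    have e1 : Gmt.gmtHor (0 : E (d' + 1)) = 0 := map_zero (Gmt.gmtHorL d')
    have e2 : Gmt.gmtVer (0 : E (d' + 1)) = 0 := map_zero (Gmt.gmtVerL d')
    rw [e1, e2, norm_zero, abs_zero]
    exact ⟨hst.chart.pos, hst.chart.pos⟩
  have h3 := hC.dim β ⟨ψ 0, if_mem hst.chart.par h0mem⟩
  unfold ShCtx.m at h2 ⊢
  omega

/-- dimension of the members over `E β`. -/
theorem rgt_mem_dim (hst : RgtStar C β d' ψ r) (J : Finset ι) :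
    mdim C.B.n β J = d' + J.card + 1 := by
  have h2 := hst.dim
  unfold ShCtx.m at h2
  unfold mdim
  omega

end Claimed.Agent.R315
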