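import Claimed.Agent.R315.Sh.Lift
import Claimed.Agent.R315.Rg.Csc
import Claimed.Agent.R315.Ct.Reg
import Claimed.Agent.R315.Ct.ProdE

/-!
# Row 315, package Rg-TR (RULING 9 (2),(6)): TRUE DEFINING FUNCTIONS WITH ASYMPTOTIC COMPATIBILITY.  DEFINITIONS AND CONTRACTS   (architect: helper190, prefix `rgt_`)

Context: `C : ShCtx V W ι`, `hC : C.Ok` (parent stage + true cut `(C.p, C.A)`); `C.m α = n - hits α`, `C.ph α = C.A ∩ E α`.

## EXPORT: `RgtTrue C Γ Ω u` (theorem `rgt_true`, file `Rg/TrTop.lean`)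
`Γ` = any set which is closed in every `E α`, compatible and disjoint from all singular sets (the guard).
* `u` is smooth along EVERY `E α`, `u > 0` on `ctIn`, `u < 0` on `ctOut`, `u = 0` on `ctBd`;
* `Ω` is open in `W`, compatible, contains `Γ ∩ ctBd`; the zeros of `u` in `Ω` are regular;
* `(AC) = RgtAC C Ω u`: for translations `v k = F.vec J (s k)` escaping in the tails `J` of `E α` and `x'` in the member `(α.faceS J, J)` with `dropS J x' ∈ Ω`:
  eventually `z + v k ∈ Ω` for `z` near `x'`, and `u (· + v k) → u ∘ dropS J` in `C^∞` near `x'` (`CtConvAt`, `Rg/Csc.lean`).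
Corollary `rgt_shrink`: an open `G ⊆ Ω` (not compatible) with the same properties on which `u` has no critical points at all.

## CONSTRUCTION
(A) LOCAL PIECES (`RgtPiece`, theorem `rgt_piece`, files `TrGrA, TrGrB, TrCh, TrPr, TrWin, TrLf, TrPc`).  Let `y` be a wall point of `E β`, `ψ (w, s)` a STRAIGHTENED chart (`RgtChart`: phase `= {s < 0}`).  On every coface `α` of `β`
(`J = β.cofJ α`), beyond a threshold `T`, the true phase is the subgraph `{s < g}` along the `s`-lines `s ↦ ψ (w, s) + vec J τ` (`rgtLine`); `g = rgtG` is DEFINED as a supremum along the line, `L = rgtL = g - s` is a canonical defining function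
on the star `C.liftK β (ψ '' box) T`.  Smoothness of `g` and `g (· + v k) → g ∘ dropS J'` come from ONE theorem on converging minimisers, `CtSeq.graph_conv` (graph form of `gmt_reg_conv`: `Gmt.hr_graph_conv`, + `CtSeq.in_lim/out_lim`; non flat limits: shear of the chart).
(B) GLOBALISATION (`rgt_glob`, files `TrCov, TrWt, TrU, TrAC`).  Finitely many stars over every compact `K ⊆ V` cover `Γ ∩ ctBd` (Lindelöf + `ct_escape` + `CtSeq.bd_lim`); the bumps `b` of the pieces are exactly compatible (`ShCtx.liftD`);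
`u = ∑ χ_m L_m + (1 - ∑ χ_m) σ₀`, `χ_m = b_m κ(∑ b)`; `(AC)` holds term by term, the weights are eventually constant along translations (`ct_window_compat`).
-/

set_option autoImplicit false
open scoped ContDiff ENNReal Topology
open MeasureTheory Claims.C0499 Set Filter

namespace Claimed.Agent.R315

variable {V W : Type} [NormedAddCommGroup V] [NormedSpace ℝ V] [NormedAddCommGroup W]
  [NormedSpace ℝ W] {ι : Type}

/-! ### the contracts -/

/-- the translations `F.vec J (s k)` escape in the tails `J` of `E α`. -/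
def RgtEsc (α : Stat ι) (J : Finset ι) (s : ℕ → ι → ℝ) : Prop :=
  (∀ j ∈ J, α j ≠ 0) ∧ ∀ j ∈ J, Tendsto (fun k => (α j : ℝ) * s k j) atTop atTop

/-- **(AC)**: asymptotic compatibility of the function `L` on the region `D`. -/
def RgtAC [Fintype ι] (C : ShCtx V W ι) (D : Set W) (L : W → ℝ) : Prop :=
  ∀ (α : Stat ι) (J : Finset ι) (s : ℕ → ι → ℝ), RgtEsc α J s →
    ∀ x' ∈ C.P.mE C.F (α.faceS J) J, C.F.dropS J x' ∈ D →
      (∃ N ∈ 𝓝 x', ∀ᶠ k in atTop, ∀ z ∈ N ∩ C.P.mE C.F (α.faceS J) J,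
        z + C.F.vec J (s k) ∈ D) ∧
      CtConvAt (mdim C.B.n (α.faceS J) J) (C.P.mE C.F (α.faceS J) J)
        (fun k z => L (z + C.F.vec J (s k))) (fun z => L (C.F.dropS J z)) x'

/-- **local piece**: a defining function `L` (`phase = {L > 0}`) with `(AC)` on the open set `D`, and an exactly compatible bump `b` which vanishes off `K ⊆ D` and
is `1` on the compatible open set `D'`. -/
structure RgtPiece [Fintype ι] [MeasurableSpace W] [BorelSpace W] (C : ShCtx V W ι)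
    (D K D' : Set W) (L b : W → ℝ) : Prop where
  opn : IsOpen D
  dfn : ∀ α, CtDef (C.m α) (C.P.E α ∩ D) C.P.h (C.ph α ∩ D) (fun z => -L z)
  ac : RgtAC C D L
  b_sc : SC C.B.n C.F C.P.E b
  b_mem : ∀ z, b z ∈ Icc (0 : ℝ) 1
  K_closed : ∀ α, IsClosed (K ∩ C.P.E α)
  K_sub : K ∩ tot C.P.E ⊆ D
  b_zero : ∀ z ∈ tot C.P.E, z ∉ K → b z = 0
  opn' : IsOpen D'
  compat' : Compat C.F C.P.E (fun z => z ∈ D')
  b_one : ∀ z ∈ D' ∩ tot C.P.E, b z = 1

/-- **THE EXPORT.** -/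
structure RgtTrue [Fintype ι] (C : ShCtx V W ι) (Γ Ω : Set W) (u : W → ℝ) : Prop where
  smooth : ∀ α, SmoothAlong (C.m α) (C.P.E α) u
  pos : ∀ α, ∀ z ∈ ctIn (C.m α) (C.P.E α) (C.ph α), 0 < u z
  neg : ∀ α, ∀ z ∈ ctOut (C.m α) (C.P.E α) (C.ph α), u z < 0
  zero : ∀ α, ∀ z ∈ ctBd (C.m α) (C.P.E α) (C.ph α), u z = 0
  opn : IsOpen Ω
  compat : Compat C.F C.P.E (fun z => z ∈ Ω)
  cover : ∀ α, Γ ∩ ctBd (C.m α) (C.P.E α) (C.ph α) ⊆ Ω
  reg : ∀ α, ∀ z ∈ ctBd (C.m α) (C.P.E α) (C.ph α) ∩ Ω, 0 < gradSq (C.m α) (C.P.E α) C.P.h u z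
  ac : RgtAC C Ω u

/-- hypotheses on the guard. -/
structure RgtGuard [Fintype ι] (C : ShCtx V W ι) (Γ : Set W) : Prop where
  closed : ∀ α, IsClosed (Γ ∩ C.P.E α)
  compat : Compat C.F C.P.E (fun z => z ∈ Γ)
  sing : ∀ α, Disjoint Γ (C.Sig α)

/-! ### graphs in a parametrisation -/

/-- over `B ⊆ E N` the phase `A` of `X` is, along the vertical segments `|s| ≤ r` of the map `Ψ`, the subgraph of the smooth function `γ`. -/
def RgtGr {N : ℕ} (X A : Set W) (Ψ : E (N + 1) → W) (r : ℝ) (γ : E N → ℝ) (B : Set (E N)) : Prop :=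
  ContDiffOn ℝ ∞ γ B ∧ ∀ x ∈ B, |γ x| < r ∧ ∀ s : ℝ, |s| ≤ r →
    (Ψ (Gmt.gmtJoin x s) ∈ ctIn (N + 1) X A ↔ s < γ x) ∧
    (Ψ (Gmt.gmtJoin x s) ∈ ctOut (N + 1) X A ↔ γ x < s)

/-- the shear `(x, σ) ↦ (x, σ + γ x)`. -/
noncomputable def rgtSh {N : ℕ} (γ : E N → ℝ) (b : E (N + 1)) : E (N + 1) :=
  Gmt.gmtJoin (Gmt.gmtHor b) (Gmt.gmtVer b + γ (Gmt.gmtHor b))

/-- straightened chart: the phase is `{ver < 0}`. -/
structure RgtChart (d' : ℕ) (X A : Set W) (ψ : E (d' + 1) → W) (r : ℝ) : Prop where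
  pos : 0 < r
  par : IsParam X ψ (Gmt.hrCyl r)
  inn : ∀ u ∈ (Gmt.hrCyl r : Set (E (d' + 1))), ψ u ∈ ctIn (d' + 1) X A ↔ Gmt.gmtVer u < 0
  out : ∀ u ∈ (Gmt.hrCyl r : Set (E (d' + 1))), ψ u ∈ ctOut (d' + 1) X A ↔ 0 < Gmt.gmtVer u

/-- linear coordinates `x ↦ (a₁ x, a₂ x) ∈ E d' × span (e j, j ∈ J)` on `E N`. -/
structure RgtSplit (F : Frame V W ι) (J : Finset ι) {d' N : ℕ} (a₁ : E N →L[ℝ] E d')
    (a₂ : E N →L[ℝ] W) : Prop where
  inj : ∀ x, a₁ x = 0 → a₂ x = 0 → x = 0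
  surj : ∀ (w : E d') (s : ι → ℝ), ∃ x, a₁ x = w ∧ a₂ x = F.vec J s
  vec : ∀ x, a₂ x = F.vec J (fun j => F.t j (a₂ x))

/-- product parametrisation of the cylinder `F.cyl J X`; the `s`-coordinate of `ψ` stays the LAST coordinate. -/
noncomputable def rgtPsi {d' N : ℕ} (ψ : E (d' + 1) → W) (a₁ : E N →L[ℝ] E d') (a₂ : E N →L[ℝ] W)
    (b : E (N + 1)) : W :=
  ψ (Gmt.gmtJoin (a₁ (Gmt.gmtHor b)) (Gmt.gmtVer b)) + a₂ (Gmt.gmtHor b)

/-- its domain. -/
def rgtDom {d' N : ℕ} (a₁ : E N →L[ℝ] E d') (r : ℝ) : Set (E (N + 1)) :=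
  {b | ‖a₁ (Gmt.gmtHor b)‖ < r ∧ |Gmt.gmtVer b| < r}

/-! ### the canonical lift of a straightened chart to the cofaces -/

open Classical in
/-- the hit entries of `β`. -/
noncomputable def Stat.hitS [Fintype ι] (β : Stat ι) : Finset ι := Finset.univ.filter fun i => β i = 0

/-- the union of the open plus phases. -/
def ShCtx.pIn [Fintype ι] (C : ShCtx V W ι) : Set W :=
  {z | ∃ α, z ∈ ctIn (C.m α) (C.P.E α) (C.ph α)}

/-- chart coordinates of the projection to `E β`. -/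
noncomputable def rgtU [Fintype ι] (C : ShCtx V W ι) (β : Stat ι) {d' : ℕ} (ψ : E (d' + 1) → W)
    (r : ℝ) (z : W) : E (d' + 1) :=
  Function.invFunOn ψ (Gmt.hrCyl r) (C.F.dropS β.hitS z)

/-- the `s`-line through `z`. -/
noncomputable def rgtLine [Fintype ι] (C : ShCtx V W ι) (β : Stat ι) {d' : ℕ} (ψ : E (d' + 1) → W)
    (r : ℝ) (z : W) (s : ℝ) : W :=
  ψ (Gmt.gmtJoin (Gmt.gmtHor (rgtU C β ψ r z)) s) + (z - C.F.dropS β.hitS z)

/-- the height of the true wall on the `s`-line through `z`. -/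
noncomputable def rgtG [Fintype ι] (C : ShCtx V W ι) (β : Stat ι) {d' : ℕ} (ψ : E (d' + 1) → W)
    (r : ℝ) (z : W) : ℝ :=
  sSup {s | |s| ≤ r / 2 ∧ rgtLine C β ψ r z s ∈ C.pIn}

/-- the canonical defining function: `L = g - s`. -/
noncomputable def rgtL [Fintype ι] (C : ShCtx V W ι) (β : Stat ι) {d' : ℕ} (ψ : E (d' + 1) → W)
    (r : ℝ) (z : W) : ℝ :=
  rgtG C β ψ r z - Gmt.gmtVer (rgtU C β ψ r z)

/-- closed box in the chart. -/
def rgtBox (d' : ℕ) (ρ : ℝ) : Set (E (d' + 1)) := {u | ‖Gmt.gmtHor u‖ ≤ ρ ∧ |Gmt.gmtVer u| ≤ ρ}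

end Claimed.Agent.R315
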