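import Claimed.Agent.R315.Rg.TrDefs
import Claimed.Agent.Lib.Gmt.HrTop4

/-!
# Row 315, package Rg-TR, file `TrGrA.lean` = PACKAGE L-RG-TrGrA: subgraphs in `E (N+1)`: a.e. ⇄ pointwise; the shear   (architect: helper190)

No paper, no manifolds except in `rgt_shear_param`.  Coordinates `y = (hor y, ver y)`: `Gmt.gmtHor`, `Gmt.gmtVer`, `Gmt.gmtJoin`; lemmas in `Lib/Gmt/FlCoord1.lean`, `FlCoord2.lean`, `FlGraph*.lean`
(`fl_join_hor_ver`, `fl_hor_join`, `fl_ver_join`, `fl_continuous_hor`, `fl_continuous_ver`, `fl_hor_sub`, `fl_ver_sub`, `fl_norm_le_add`, `fl_graph_null`; `gmtHor = gmtHorL n`, `gmtVer = gmtVerL n` are continuous linear).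

PLAN.
* `rgt_isOpen_cyl`: preimages of open sets under continuous maps.
* `rgt_sub_full`.  `Q⁻ = {y ∈ cyl | ver y < u (hor y)}`, `Q⁺ = {y ∈ cyl | u (hor y) < ver y}` are open (`ContinuousOn.isOpen_inter_preimage`-type argument: `u ∘ hor` is continuous on the open set `cyl`).  By `hS`: `volume (Q⁻ \ S) = 0`, `volume (Q⁺ ∩ S) = 0`.
  `←`: a ball around `y` lies in `Q⁻` (resp. `Q⁺`).   `→` (first equivalence): assume `u (hor y) ≤ ver y` and `volume (ball y r \ S) = 0`.  The points `y_ε = gmtJoin (hor y) (ver y + ε)` lie in `Q⁺ ∩ ball y r` for small `ε > 0`, so `Q⁺ ∩ ball y r` is a nonempty open set: positive measure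
  (`IsOpen.measure_pos`); but it is contained in `(ball y r \ S) ∪ (Q⁺ ∩ S)`: null.  Second equivalence: symmetric (`y_ε` with `- ε`).
* `rgt_flat_ae`: `measure_null_of_locally_null` for `{y ∈ U | ver y < a} \ S` and `{y ∈ U | a < ver y} ∩ S`; `{y | ver y = a}` is null (`Gmt.fl_graph_null` for the constant function, or `Measure.addHaar_affineSubspace`); `ae_eq_set`.
* `rgt_conv_congr`: on the open set `U`, `iteratedFDeriv ℝ j (a i) x = iteratedFDeriv ℝ j (b i) x` for `x ∈ U` if `EqOn (a i) (b i) U` (`Filter.EventuallyEq.iteratedFDeriv_eq`); `TendstoUniformlyOn.congr` + only eventually many `i` matter (`tendstoUniformlyOn_iff`, `Filter.Eventually.and`).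
* `rgt_sh_*`: `simp [rgtSh, fl_hor_join, fl_ver_join]`.
* `rgt_shear_param`: `if_comp hΨ` with `τ = rgtSh γ`, `W = {b | hor b ∈ B ∧ rgtSh γ b ∈ Û}`.  `W` is open: `rgtSh γ` is continuous on the open set `hor ⁻¹' B`.  Smooth: `gmtJoin` is linear in both arguments (`gmtJoin x s = gmtJoin x 0 + s • gmtEn N`; write it with continuous linear maps), `γ ∘ hor` smooth on `hor ⁻¹' B`.
  Injective: `rgt_sh_hor`, `rgt_sh_ver`.  `fderiv (rgtSh γ) b w = gmtJoin (hor w) (ver w + fderiv γ (hor b) (hor w))`: injective.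
-/

set_option autoImplicit false
open scoped ContDiff ENNReal Topology
open MeasureTheory Claims.C0499 Set Filter

namespace Claimed.Agent.R315

variable {N : ℕ}

/-- the open cylinder with centre `(c, a)`. -/
def rgtCyl (c : E N) (a ρ : ℝ) : Set (E (N + 1)) :=
  {y | Gmt.gmtHor y ∈ Metric.ball c ρ ∧ |Gmt.gmtVer y - a| < ρ}

theorem rgt_isOpen_cyl (c : E N) (a ρ : ℝ) : IsOpen (rgtCyl c a ρ) := by
  have h1 : IsOpen (Gmt.gmtHor ⁻¹' Metric.ball c ρ : Set (E (N + 1))) :=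
    Metric.isOpen_ball.preimage Gmt.fl_continuous_hor
  have h2 : IsOpen {y : E (N + 1) | |Gmt.gmtVer y - a| < ρ} :=
    isOpen_lt ((Gmt.fl_continuous_ver.sub continuous_const).abs) continuous_const
  exact h1.inter h2

theorem rgt_aux_hor_add (y : E (N + 1)) (s : ℝ) :
    Gmt.gmtHor (y + s • Gmt.gmtEn N) = Gmt.gmtHor y := by
  have : Gmt.gmtHor (y + s • Gmt.gmtEn N) = Gmt.gmtHor y + s • Gmt.gmtHor (Gmt.gmtEn N) := by
    show Gmt.gmtHorL N (y + s • Gmt.gmtEn N) =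
      Gmt.gmtHorL N y + s • Gmt.gmtHorL N (Gmt.gmtEn N)
    rw [map_add, map_smul]
  rw [this, Gmt.fl_hor_en, smul_zero, add_zero]

theorem rgt_aux_ver_add (y : E (N + 1)) (s : ℝ) :
    Gmt.gmtVer (y + s • Gmt.gmtEn N) = Gmt.gmtVer y + s := by
  have : Gmt.gmtVer (y + s • Gmt.gmtEn N) = Gmt.gmtVer y + s • Gmt.gmtVer (Gmt.gmtEn N) := by
    show Gmt.gmtVerL N (y + s • Gmt.gmtEn N) =
      Gmt.gmtVerL N y + s • Gmt.gmtVerL N (Gmt.gmtEn N)
    rw [map_add, map_smul]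
  rw [this, Gmt.fl_ver_en, smul_eq_mul, mul_one]

theorem rgt_aux_pos {C Q : Set (E (N + 1))} (hC : IsOpen C) (hQ : IsOpen Q) {y : E (N + 1)}
    (hy : y ∈ C) (σ : ℝ) (hσ : |σ| = 1)
    (h : ∀ ε > 0, y + (σ * ε) • Gmt.gmtEn N ∈ C → y + (σ * ε) • Gmt.gmtEn N ∈ Q) {r : ℝ}
    (hr : 0 < r) : 0 < volume (Q ∩ Metric.ball y r) := by
  obtain ⟨δ, hδ, hsub⟩ := Metric.isOpen_iff.1 (hC.inter Metric.isOpen_ball) y
    ⟨hy, Metric.mem_ball_self hr⟩
  have hm : y + (σ * (δ / 2)) • Gmt.gmtEn N ∈ Metric.ball y δ := by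
    have he : ‖Gmt.gmtEn N‖ = 1 := by simp
    rw [Metric.mem_ball, dist_eq_norm, add_sub_cancel_left, norm_smul, Real.norm_eq_abs, abs_mul,
      hσ, one_mul, abs_of_pos (by positivity), he]
    linarith
  exact (hQ.inter Metric.isOpen_ball).measure_pos volume
    ⟨_, h _ (by positivity) (hsub hm).1, (hsub hm).2⟩

/-- an a.e. subgraph of a continuous function: points of full / zero density. -/
theorem rgt_sub_full {S : Set (E (N + 1))} {u : E N → ℝ} {c : E N} {a ρ : ℝ}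
    (hu : ContinuousOn u (Metric.ball c ρ))
    (hS : ∀ᵐ y : E (N + 1), y ∈ rgtCyl c a ρ → (y ∈ S ↔ Gmt.gmtVer y < u (Gmt.gmtHor y)))
    {y : E (N + 1)} (hy : y ∈ rgtCyl c a ρ) :
    ((∃ r > 0, volume (Metric.ball y r \ S) = 0) ↔ Gmt.gmtVer y < u (Gmt.gmtHor y)) ∧
    ((∃ r > 0, volume (Metric.ball y r ∩ S) = 0) ↔ u (Gmt.gmtHor y) < Gmt.gmtVer y) := by
  have hCo := rgt_isOpen_cyl c a ρ
  have hg : ContinuousOn (fun y : E (N + 1) => u (Gmt.gmtHor y) - Gmt.gmtVer y) (rgtCyl c a ρ) :=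
    (hu.comp Gmt.fl_continuous_hor.continuousOn (fun y hy => hy.1)).sub
      Gmt.fl_continuous_ver.continuousOn
  have hQm : IsOpen (rgtCyl c a ρ ∩
      (fun y : E (N + 1) => u (Gmt.gmtHor y) - Gmt.gmtVer y) ⁻¹' Ioi 0) :=
    hg.isOpen_inter_preimage hCo isOpen_Ioi
  have hQp : IsOpen (rgtCyl c a ρ ∩
      (fun y : E (N + 1) => u (Gmt.gmtHor y) - Gmt.gmtVer y) ⁻¹' Iio 0) :=
    hg.isOpen_inter_preimage hCo isOpen_Iio
  have nQm : volume ((rgtCyl c a ρ ∩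
      (fun y : E (N + 1) => u (Gmt.gmtHor y) - Gmt.gmtVer y) ⁻¹' Ioi 0) \ S) = 0 := by
    refine measure_mono_null ?_ (ae_iff.1 hS)
    rintro z ⟨⟨hz1, hz2⟩, hz3⟩ hcon
    have hz2' : 0 < u (Gmt.gmtHor z) - Gmt.gmtVer z := hz2
    exact hz3 ((hcon hz1).2 (by linarith))
  have nQp : volume ((rgtCyl c a ρ ∩
      (fun y : E (N + 1) => u (Gmt.gmtHor y) - Gmt.gmtVer y) ⁻¹' Iio 0) ∩ S) = 0 := by
    refine measure_mono_null ?_ (ae_iff.1 hS)
    rintro z ⟨⟨hz1, hz2⟩, hz3⟩ hcon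
    have hz2' : u (Gmt.gmtHor z) - Gmt.gmtVer z < 0 := hz2
    have := (hcon hz1).1 hz3
    linarith
  constructor
  · constructor
    · rintro ⟨r, hr, h0⟩
      by_contra hcon
      rw [not_lt] at hcon
      have hpos := rgt_aux_pos hCo hQp hy 1 (by simp) (fun ε hε hmem => ⟨hmem, by
        show u (Gmt.gmtHor (y + (1 * ε) • Gmt.gmtEn N)) -
          Gmt.gmtVer (y + (1 * ε) • Gmt.gmtEn N) < 0
        rw [rgt_aux_hor_add, rgt_aux_ver_add]
        linarith⟩) hr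
      have hle : volume ((rgtCyl c a ρ ∩
          (fun y : E (N + 1) => u (Gmt.gmtHor y) - Gmt.gmtVer y) ⁻¹' Iio 0) ∩ Metric.ball y r)
          ≤ 0 := by
        calc _ ≤ volume ((Metric.ball y r \ S) ∪ ((rgtCyl c a ρ ∩
              (fun y : E (N + 1) => u (Gmt.gmtHor y) - Gmt.gmtVer y) ⁻¹' Iio 0) ∩ S)) := by
              refine measure_mono fun z hz => ?_
              by_cases hzS : z ∈ S
              · exact Or.inr ⟨hz.1, hzS⟩
              · exact Or.inl ⟨hz.2, hzS⟩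
          _ ≤ _ := measure_union_le _ _
          _ = 0 := by rw [h0, nQp, add_zero]
      exact absurd hpos (not_lt.2 hle)
    · intro hlt
      obtain ⟨r, hr, hsub⟩ := Metric.isOpen_iff.1 hQm y ⟨hy, by
        show 0 < u (Gmt.gmtHor y) - Gmt.gmtVer y
        linarith⟩
      exact ⟨r, hr, measure_mono_null (fun z (hz : z ∈ Metric.ball y r \ S) =>
        (⟨hsub hz.1, hz.2⟩ : z ∈ _ \ S)) nQm⟩
  · constructor
    · rintro ⟨r, hr, h0⟩
      by_contra hcon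
      rw [not_lt] at hcon
      have hpos := rgt_aux_pos hCo hQm hy (-1) (by simp) (fun ε hε hmem => ⟨hmem, by
        show 0 < u (Gmt.gmtHor (y + (-1 * ε) • Gmt.gmtEn N)) -
          Gmt.gmtVer (y + (-1 * ε) • Gmt.gmtEn N)
        rw [rgt_aux_hor_add, rgt_aux_ver_add]
        linarith⟩) hr
      have hle : volume ((rgtCyl c a ρ ∩
          (fun y : E (N + 1) => u (Gmt.gmtHor y) - Gmt.gmtVer y) ⁻¹' Ioi 0) ∩ Metric.ball y r)
          ≤ 0 := by
        calc _ ≤ volume ((Metric.ball y r ∩ S) ∪ ((rgtCyl c a ρ ∩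
              (fun y : E (N + 1) => u (Gmt.gmtHor y) - Gmt.gmtVer y) ⁻¹' Ioi 0) \ S)) := by
              refine measure_mono fun z hz => ?_
              by_cases hzS : z ∈ S
              · exact Or.inl ⟨hz.2, hzS⟩
              · exact Or.inr ⟨hz.1, hzS⟩
          _ ≤ _ := measure_union_le _ _
          _ = 0 := by rw [h0, nQm, add_zero]
      exact absurd hpos (not_lt.2 hle)
    · intro hlt
      obtain ⟨r, hr, hsub⟩ := Metric.isOpen_iff.1 hQp y ⟨hy, by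
        show u (Gmt.gmtHor y) - Gmt.gmtVer y < 0
        linarith⟩
      exact ⟨r, hr, measure_mono_null (fun z (hz : z ∈ Metric.ball y r ∩ S) =>
        (⟨hsub hz.1, hz.2⟩ : z ∈ _ ∩ S)) nQp⟩

/-- pointwise full below / null above the height `a` ⇒ a.e. a half space. -/
theorem rgt_flat_ae {S U : Set (E (N + 1))} (hU : IsOpen U) {a : ℝ}
    (h1 : ∀ y ∈ U, Gmt.gmtVer y < a → ∃ r > 0, volume (Metric.ball y r \ S) = 0)
    (h2 : ∀ y ∈ U, a < Gmt.gmtVer y → ∃ r > 0, volume (Metric.ball y r ∩ S) = 0) :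
    ((S ∩ U : Set (E (N + 1))) =ᵐ[volume] ({y | y ∈ U ∧ Gmt.gmtVer y < a} : Set (E (N + 1)))) := by
  have n1 : volume ({y : E (N + 1) | y ∈ U ∧ Gmt.gmtVer y < a} \ S) = 0 := by
    refine measure_null_of_locally_null _ fun y hy => ?_
    obtain ⟨r, hr, h0⟩ := h1 y hy.1.1 hy.1.2
    exact ⟨Metric.ball y r \ S, mem_nhdsWithin.2 ⟨Metric.ball y r, Metric.isOpen_ball,
      Metric.mem_ball_self hr, fun z hz => ⟨hz.1, hz.2.2⟩⟩, h0⟩
  have n2 : volume ({y : E (N + 1) | y ∈ U ∧ a < Gmt.gmtVer y} ∩ S) = 0 := by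
    refine measure_null_of_locally_null _ fun y hy => ?_
    obtain ⟨r, hr, h0⟩ := h2 y hy.1.1 hy.1.2
    exact ⟨Metric.ball y r ∩ S, mem_nhdsWithin.2 ⟨Metric.ball y r, Metric.isOpen_ball,
      Metric.mem_ball_self hr, fun z hz => ⟨hz.1, hz.2.2⟩⟩, h0⟩
  have n3 : volume {y : E (N + 1) | Gmt.gmtHor y ∈ (univ : Set (E N)) ∧
      Gmt.gmtVer y ∈ ({a} : Set ℝ)} = 0 := by
    rw [Gmt.hrc_box_vol _ _ MeasurableSet.univ (measurableSet_singleton a), Real.volume_singleton,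
      mul_zero]
  refine ae_eq_set.2 ⟨?_, ?_⟩
  · refine measure_mono_null (t := ({y : E (N + 1) | y ∈ U ∧ a < Gmt.gmtVer y} ∩ S) ∪
      {y : E (N + 1) | Gmt.gmtHor y ∈ (univ : Set (E N)) ∧ Gmt.gmtVer y ∈ ({a} : Set ℝ)})
      (fun z hz => ?_) (measure_union_null n2 n3)
    rcases lt_trichotomy (Gmt.gmtVer z) a with hlt | heq | hgt
    · exact absurd ⟨hz.1.2, hlt⟩ hz.2
    · exact Or.inr ⟨mem_univ _, heq⟩
    · exact Or.inl ⟨⟨hz.1.2, hgt⟩, hz.1.1⟩
  · refine measure_mono_null (fun z hz => ?_) n1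
    exact ⟨hz.1, fun hzS => hz.2 ⟨hzS, hz.1.1⟩⟩

/-- only the values on the open set and only large indices matter. -/
theorem rgt_conv_congr {m : ℕ} {U : Set (E m)} (hU : IsOpen U) {a b : ℕ → E m → ℝ}
    {a' b' : E m → ℝ} (h : Gmt.GmtSmoothConv U a a') (hab : ∀ᶠ i in atTop, EqOn (a i) (b i) U)
    (hab' : EqOn a' b' U) : Gmt.GmtSmoothConv U b b' := by
  rw [Gmt.gmtSmoothConv_iff] at h ⊢
  exact fun k => (h k).congr' hU hab hab'

theorem rgt_sh_hor (γ : E N → ℝ) (b : E (N + 1)) : Gmt.gmtHor (rgtSh γ b) = Gmt.gmtHor b := by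
  unfold rgtSh
  rw [Gmt.fl_hor_join]

theorem rgt_sh_ver (γ : E N → ℝ) (b : E (N + 1)) :
    Gmt.gmtVer (rgtSh γ b) = Gmt.gmtVer b + γ (Gmt.gmtHor b) := by
  unfold rgtSh
  rw [Gmt.fl_ver_join]

theorem rgt_sh_join (γ : E N → ℝ) (x : E N) (σ : ℝ) :
    rgtSh γ (Gmt.gmtJoin x σ) = Gmt.gmtJoin x (σ + γ x) := by
  unfold rgtSh
  rw [Gmt.fl_hor_join, Gmt.fl_ver_join]

variable {W : Type} [NormedAddCommGroup W] [NormedSpace ℝ W]

theorem rgt_sh_eq (γ : E N → ℝ) (b : E (N + 1)) :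
    rgtSh γ b = b + γ (Gmt.gmtHor b) • Gmt.gmtEn N := by
  unfold rgtSh
  have h := Gmt.fl_join_hor_ver b
  rw [Gmt.fl_join_eq] at h
  rw [Gmt.fl_join_eq, add_smul, ← add_assoc, h]

/-- the shear of a parametrisation is a parametrisation. -/
theorem rgt_shear_param {M : Set W} {Ψ : E (N + 1) → W} {U : Set (E (N + 1))}
    (hΨ : IsParam M Ψ U) {B : Set (E N)} (hB : IsOpen B) {γ : E N → ℝ}
    (hγ : ContDiffOn ℝ ∞ γ B) :
    IsParam M (fun b => Ψ (rgtSh γ b)) {b | Gmt.gmtHor b ∈ B ∧ rgtSh γ b ∈ U} := by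
  have hHo : IsOpen (Gmt.gmtHor ⁻¹' B : Set (E (N + 1))) := hB.preimage Gmt.fl_continuous_hor
  have hfun : rgtSh γ = fun b : E (N + 1) => b + γ (Gmt.gmtHor b) • Gmt.gmtEn N := by
    funext b; exact rgt_sh_eq γ b
  have hsm : ContDiffOn ℝ ∞ (rgtSh γ) (Gmt.gmtHor ⁻¹' B : Set (E (N + 1))) := by
    rw [hfun]
    exact contDiffOn_id.add ((hγ.comp (Gmt.gmtHorL N).contDiff.contDiffOn
      (fun b hb => hb)).smul contDiffOn_const)
  have hW : IsOpen {b : E (N + 1) | Gmt.gmtHor b ∈ B ∧ rgtSh γ b ∈ U} :=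
    hsm.continuousOn.isOpen_inter_preimage hHo hΨ.1
  refine if_comp hΨ (τ := rgtSh γ) hW (hsm.mono fun b hb => hb.1) ?_ ?_ (fun b hb => hb.2)
  · intro b _ b' _ hbb
    have e1 : Gmt.gmtHor b = Gmt.gmtHor b' := by
      rw [← rgt_sh_hor γ b, hbb, rgt_sh_hor]
    have e2 : Gmt.gmtVer b = Gmt.gmtVer b' := by
      have := rgt_sh_ver γ b
      rw [hbb, rgt_sh_ver, e1] at this
      linarith
    rw [← Gmt.fl_join_hor_ver b, e1, e2, Gmt.fl_join_hor_ver]
  · intro b hb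
    have hγd : HasFDerivAt γ (fderiv ℝ γ (Gmt.gmtHor b)) (Gmt.gmtHor b) :=
      ((hγ.contDiffAt (hB.mem_nhds hb.1)).differentiableAt (by simp)).hasFDerivAt
    have h1 : HasFDerivAt (fun b : E (N + 1) => γ (Gmt.gmtHor b))
        ((fderiv ℝ γ (Gmt.gmtHor b)).comp (Gmt.gmtHorL N)) b :=
      hγd.comp b (Gmt.gmtHorL N).hasFDerivAt
    have h2 : HasFDerivAt (rgtSh γ) (ContinuousLinearMap.id ℝ (E (N + 1)) +
        ((fderiv ℝ γ (Gmt.gmtHor b)).comp (Gmt.gmtHorL N)).smulRight (Gmt.gmtEn N)) b := by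
      rw [hfun]
      exact (hasFDerivAt_id b).add (h1.smul_const (Gmt.gmtEn N))
    rw [h2.fderiv]
    refine (injective_iff_map_eq_zero _).2 fun w hw => ?_
    have hw' : w + (fderiv ℝ γ (Gmt.gmtHor b) (Gmt.gmtHor w)) • Gmt.gmtEn N = 0 := hw
    have e1 : Gmt.gmtHor w = 0 := by
      have := congrArg Gmt.gmtHor hw'
      rw [rgt_aux_hor_add] at this
      rw [this]
      exact map_zero (Gmt.gmtHorL N)
    rw [e1, map_zero, zero_smul, add_zero] at hw'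
    exact hw'

end Claimed.Agent.R315
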