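import Claimed.Agent.R315.Rg.TrGrC
import Claimed.Agent.R315.Ct.RegJ

/-!
# Row 315, package Rg-TR, file `TrGrB.lean` = PACKAGE L-RG-TrGrB: GRAPH CONVERGENCE OF MINIMISERS `CtSeq.graph_conv`   (architect: helper190)

`H : CtSeq (N+1) M h t p O A A'` (minimisers `A k` on exhausting pieces, `A k → A'`), `(Ψ, U)` a parametrisation of `M`.  If the limit phase `A'` is, along the vertical segments `|s| ≤ r` over `ball c' ρ₀`, the subgraph of a smooth `γ'` (`RgtGr`),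
then over a smaller ball the phases `A k` are subgraphs of smooth `γ k` along the SAME FULL segments, and `γ k → γ'` in `C^∞`.

PLAN.
* `rgt_gr_cyl` (proved): `ct_in_iff`, `ct_out_iff` + `rgt_sub_full`.
* `rgt_gr_flat`.  `Ψ̃ = Ψ ∘ rgtSh γ'`, `Ũ = {b | hor b ∈ ball c' ρ₀ ∧ rgtSh γ' b ∈ U}`, a parametrisation by `rgt_shear_param`.  `x' = gmtJoin c' 0 ∈ Ũ`: `rgt_sh_join`, `hseg c' _ (γ' c')`.
  The set `Q = {b ∈ Ũ | |ver b + γ' (hor b)| < r}` is open (`γ' ∘ hor` continuous on the open set `hor ⁻¹' ball`) and contains `x'`: take `ball x' r₀ ⊆ Q`.  For `b ∈ Q`: `Ψ̃ b = Ψ (gmtJoin (hor b) (ver b + γ' (hor b)))`, so by `hγ'`: `Ψ̃ b ∈ ctIn ↔ ver b < 0`, `Ψ̃ b ∈ ctOut ↔ 0 < ver b`;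
  `ct_in_iff`/`ct_out_iff` for `(Ψ̃, Ũ)`; `rgt_flat_ae` with `a = 0 = ver x'` (`fl_ver_join`).
* `CtSeq.gr_far`.  `K⁻ = (fun p : E N × ℝ => Ψ (gmtJoin p.1 p.2)) '' {p | p.1 ∈ closedBall c' ρ ∧ -r ≤ p.2 ∧ p.2 ≤ γ' p.1 - δ}`: the set of `p` is closed (continuity of `γ'` on the closed ball: write it as a closed subset of the compact `closedBall c' ρ ×ˢ Icc (-r) r` via `ContinuousOn.isClosed_le`-type argument
  or `IsCompact.inter_right`/`isClosed_le` after extending), bounded: compact; `Ψ ∘ join` is continuous on it (`if_continuousOn hΨ`, `hseg`, `fl_continuous_join`): `K⁻` compact, `K⁻ ⊆ ctIn M A'` by `hγ'`.  `H.in_lim`.  Same for `K⁺` and `H.out_lim`.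
* `CtSeq.graph_conv`.  (1) `rgt_gr_flat` ⇒ `r₀`.  (2) `Gmt.hr_graph_conv hN (H.chart hΨ̃).1 (H.chart hΨ̃).2.1 (H.chart hΨ̃).2.2.1 (H.chart hΨ̃).2.2.2 hx' hr₀ hflat` ⇒ `ρ₁`, `u k` (`hor x' = c'`, `ver x' = 0`): `rgtCyl c' 0 ρ₁ ⊆ Ũ`, `u k → 0` in `C^∞ (ball c' ρ₁)`, eventually `u k` smooth, `|u k| < ρ₁`, a.e. subgraph.
  (3) `ρ = min ρ₀ ρ₁ / 2`, `γ k = γ' + u k`.  On the compact `closedBall c' ρ`: `|γ'| ≤ r - 2δ₁` for some `δ₁ > 0` (`IsCompact.exists_isMaxOn` for `|γ'|`), `δ = min δ₁ (ρ₁ / 2)`; eventually `|u k| < δ` there (`GmtSmoothConv.tendstoUniformlyOn`).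
  (4) for such `k`, `x ∈ ball c' ρ`, `|s| ≤ r`: if `s ≤ γ' x - δ`: `Ψ (x,s) ∈ ctIn (A k)` (`gr_far`), not in `ctOut` (`ct_trichotomy' H.geo.mfd`), and `s < γ k x`.  If `γ' x + δ ≤ s`: symmetric.  Otherwise `|s - γ' x| < δ ≤ ρ₁`: `b = gmtJoin x (s - γ' x) ∈ rgtCyl c' 0 ρ₁`, `Ψ̃ b = Ψ (gmtJoin x s)` (`rgt_sh_join`), `rgt_gr_cyl` for `(Ψ̃, Ũ)`, `A k`, `u k`.
  (5) `C^∞` convergence: `gmtSmoothConv_iff`, `GmtCk.add` (`GmtCk.const γ'`, `γ'` smooth on the ball), `GmtCk.mono_set`, `rgt_conv_congr` (limit `γ' + 0 = γ'`).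
-/

set_option autoImplicit false
open scoped ContDiff ENNReal Topology
open MeasureTheory Claims.C0499 Set Filter

namespace Claimed.Agent.R315

variable {W : Type} [NormedAddCommGroup W] [NormedSpace ℝ W] [FiniteDimensional ℝ W]
variable {N : ℕ} {M : Set W} {Ψ : E (N + 1) → W} {U : Set (E (N + 1))}

/-- pointwise phases from an a.e. subgraph in a chart. -/
theorem rgt_gr_cyl (hΨ : IsParam M Ψ U) (A : Set W) {u : E N → ℝ} {c : E N} {a ρ : ℝ}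
    (hcyl : rgtCyl c a ρ ⊆ U) (hu : ContinuousOn u (Metric.ball c ρ))
    (hS : ∀ᵐ y : E (N + 1), y ∈ rgtCyl c a ρ →
      (y ∈ ctPre Ψ U A ↔ Gmt.gmtVer y < u (Gmt.gmtHor y)))
    {y : E (N + 1)} (hy : y ∈ rgtCyl c a ρ) :
    (Ψ y ∈ ctIn (N + 1) M A ↔ Gmt.gmtVer y < u (Gmt.gmtHor y)) ∧
    (Ψ y ∈ ctOut (N + 1) M A ↔ u (Gmt.gmtHor y) < Gmt.gmtVer y) :=
  ⟨(ct_in_iff hΨ A (hcyl hy)).trans (rgt_sub_full hu hS hy).1,
    (ct_out_iff hΨ A (hcyl hy)).trans (rgt_sub_full hu hS hy).2⟩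

/-- after the shear the limit is flat near `(c', 0)`. -/
theorem rgt_gr_flat (hΨ : IsParam M Ψ U) {A' : Set W} {c' : E N} {r ρ₀ : ℝ} (hρ₀ : 0 < ρ₀)
    (hseg : ∀ x ∈ Metric.ball c' ρ₀, ∀ s : ℝ, |s| ≤ r → Gmt.gmtJoin x s ∈ U) {γ' : E N → ℝ}
    (hγ' : RgtGr M A' Ψ r γ' (Metric.ball c' ρ₀)) :
    Gmt.gmtJoin c' 0 ∈ {b : E (N + 1) | Gmt.gmtHor b ∈ Metric.ball c' ρ₀ ∧ rgtSh γ' b ∈ U} ∧
    ∃ r₀ > 0, ((ctPre (fun b => Ψ (rgtSh γ' b))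
        {b : E (N + 1) | Gmt.gmtHor b ∈ Metric.ball c' ρ₀ ∧ rgtSh γ' b ∈ U} A' ∩
          Metric.ball (Gmt.gmtJoin c' 0) r₀ : Set (E (N + 1))) =ᵐ[volume]
      ({y | y ∈ Metric.ball (Gmt.gmtJoin c' 0) r₀ ∧ Gmt.gmtVer y < Gmt.gmtVer (Gmt.gmtJoin c' 0)} :
        Set (E (N + 1)))) := by
  have hP := rgt_shear_param hΨ Metric.isOpen_ball hγ'.1
  have hc' : c' ∈ Metric.ball c' ρ₀ := Metric.mem_ball_self hρ₀
  have hx' : Gmt.gmtJoin c' 0 ∈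
      {b : E (N + 1) | Gmt.gmtHor b ∈ Metric.ball c' ρ₀ ∧ rgtSh γ' b ∈ U} := by
    refine ⟨by rw [Gmt.fl_hor_join]; exact hc', ?_⟩
    rw [rgt_sh_join]
    exact hseg c' hc' _ (by rw [zero_add]; exact (hγ'.2 c' hc').1.le)
  refine ⟨hx', ?_⟩
  have hg : ContinuousOn (fun b : E (N + 1) => |Gmt.gmtVer b + γ' (Gmt.gmtHor b)|)
      {b : E (N + 1) | Gmt.gmtHor b ∈ Metric.ball c' ρ₀ ∧ rgtSh γ' b ∈ U} :=
    (Gmt.fl_continuous_ver.continuousOn.add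
      (hγ'.1.continuousOn.comp Gmt.fl_continuous_hor.continuousOn (fun b hb => hb.1))).abs
  have hQ := hg.isOpen_inter_preimage hP.1 (isOpen_Iio (a := r))
  obtain ⟨r₀, hr₀, hsub⟩ := Metric.isOpen_iff.1 hQ (Gmt.gmtJoin c' 0) ⟨hx', by
    show |Gmt.gmtVer (Gmt.gmtJoin c' 0) + γ' (Gmt.gmtHor (Gmt.gmtJoin c' 0))| < r
    rw [Gmt.fl_ver_join, Gmt.fl_hor_join, zero_add]
    exact (hγ'.2 c' hc').1⟩
  refine ⟨r₀, hr₀, rgt_flat_ae Metric.isOpen_ball (fun y hy hlt => ?_) (fun y hy hlt => ?_)⟩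
  · rw [Gmt.fl_ver_join] at hlt
    have hyQ := hsub hy
    have hyr : |Gmt.gmtVer y + γ' (Gmt.gmtHor y)| < r := hyQ.2
    refine (ct_in_iff hP A' hyQ.1).1 ?_
    exact ((hγ'.2 _ hyQ.1.1).2 _ hyr.le).1.2 (by linarith)
  · rw [Gmt.fl_ver_join] at hlt
    have hyQ := hsub hy
    have hyr : |Gmt.gmtVer y + γ' (Gmt.gmtHor y)| < r := hyQ.2
    refine (ct_out_iff hP A' hyQ.1).1 ?_
    exact ((hγ'.2 _ hyQ.1.1).2 _ hyr.le).2.2 (by linarith)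

variable [MeasurableSpace W] [BorelSpace W]
variable {h : Ten W} {t p : W → ℝ} {O : ℕ → Set W} {A : ℕ → Set W} {A' : Set W}

/-- the parts of the segments far from the limit graph. -/
theorem CtSeq.gr_far (H : CtSeq (N + 1) M h t p O A A') (hΨ : IsParam M Ψ U) {c' : E N}
    {r ρ₀ : ℝ} (hseg : ∀ x ∈ Metric.ball c' ρ₀, ∀ s : ℝ, |s| ≤ r → Gmt.gmtJoin x s ∈ U)
    {γ' : E N → ℝ} (hγ' : RgtGr M A' Ψ r γ' (Metric.ball c' ρ₀)) {ρ δ : ℝ} (hρ : ρ < ρ₀)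
    (hδ : 0 < δ) :
    ∀ᶠ k in atTop, ∀ x ∈ Metric.closedBall c' ρ, ∀ s : ℝ, |s| ≤ r →
      (s ≤ γ' x - δ → Ψ (Gmt.gmtJoin x s) ∈ ctIn (N + 1) M (A k)) ∧
      (γ' x + δ ≤ s → Ψ (Gmt.gmtJoin x s) ∈ ctOut (N + 1) M (A k)) := by
  have hcb : Metric.closedBall c' ρ ⊆ Metric.ball c' ρ₀ := Metric.closedBall_subset_ball hρ
  have hK₀ : IsCompact (Metric.closedBall c' ρ ×ˢ Icc (-r) r : Set (E N × ℝ)) :=
    (isCompact_closedBall c' ρ).prod isCompact_Icc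
  have hg : ContinuousOn (fun q : E N × ℝ => q.2 - γ' q.1)
      (Metric.closedBall c' ρ ×ˢ Icc (-r) r : Set (E N × ℝ)) :=
    continuous_snd.continuousOn.sub
      (hγ'.1.continuousOn.comp continuous_fst.continuousOn (fun q hq => hcb hq.1))
  have hF : ContinuousOn (fun q : E N × ℝ => Ψ (Gmt.gmtJoin q.1 q.2))
      (Metric.closedBall c' ρ ×ˢ Icc (-r) r : Set (E N × ℝ)) :=
    (if_continuousOn hΨ).comp Gmt.fl_continuous_join.continuousOn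
      (fun q hq => hseg q.1 (hcb hq.1) q.2 (abs_le.2 hq.2))
  have hPm : IsCompact ((Metric.closedBall c' ρ ×ˢ Icc (-r) r : Set (E N × ℝ)) ∩
      (fun q : E N × ℝ => q.2 - γ' q.1) ⁻¹' Iic (-δ)) :=
    hK₀.of_isClosed_subset (hg.preimage_isClosed_of_isClosed hK₀.isClosed isClosed_Iic)
      inter_subset_left
  have hPp : IsCompact ((Metric.closedBall c' ρ ×ˢ Icc (-r) r : Set (E N × ℝ)) ∩
      (fun q : E N × ℝ => q.2 - γ' q.1) ⁻¹' Ici δ) :=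
    hK₀.of_isClosed_subset (hg.preimage_isClosed_of_isClosed hK₀.isClosed isClosed_Ici)
      inter_subset_left
  have hKm := hPm.image_of_continuousOn (hF.mono inter_subset_left)
  have hKp := hPp.image_of_continuousOn (hF.mono inter_subset_left)
  have e1 := H.in_lim hKm (by
    rintro _ ⟨q, hq, rfl⟩
    have hq2 : q.2 - γ' q.1 ≤ -δ := hq.2
    exact ((hγ'.2 q.1 (hcb hq.1.1)).2 q.2 (abs_le.2 hq.1.2)).1.2 (by linarith))
  have e2 := H.out_lim hKp (by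
    rintro _ ⟨q, hq, rfl⟩
    have hq2 : δ ≤ q.2 - γ' q.1 := hq.2
    exact ((hγ'.2 q.1 (hcb hq.1.1)).2 q.2 (abs_le.2 hq.1.2)).2.2 (by linarith))
  filter_upwards [e1, e2] with k h1 h2 x hx s hs
  refine ⟨fun hle => h1 ⟨(x, s), ⟨⟨hx, abs_le.1 hs⟩, ?_⟩, rfl⟩,
    fun hle => h2 ⟨(x, s), ⟨⟨hx, abs_le.1 hs⟩, ?_⟩, rfl⟩⟩
  · show s - γ' x ≤ -δ
    linarith
  · show δ ≤ s - γ' x
    linarith

/-- **graph convergence of minimisers.** -/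
theorem CtSeq.graph_conv (hN : 1 ≤ N) (H : CtSeq (N + 1) M h t p O A A') (hΨ : IsParam M Ψ U)
    {c' : E N} {r ρ₀ : ℝ} (hρ₀ : 0 < ρ₀)
    (hseg : ∀ x ∈ Metric.ball c' ρ₀, ∀ s : ℝ, |s| ≤ r → Gmt.gmtJoin x s ∈ U) {γ' : E N → ℝ}
    (hγ' : RgtGr M A' Ψ r γ' (Metric.ball c' ρ₀)) :
    ∃ ρ > 0, ρ ≤ ρ₀ ∧ ∃ γ : ℕ → E N → ℝ, Gmt.GmtSmoothConv (Metric.ball c' ρ) γ γ' ∧
      ∀ᶠ k in atTop, RgtGr M (A k) Ψ r (γ k) (Metric.ball c' ρ) := by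
  obtain ⟨hx', r₀, hr₀, hflat⟩ := rgt_gr_flat hΨ hρ₀ hseg hγ'
  have hP := rgt_shear_param hΨ Metric.isOpen_ball hγ'.1
  obtain ⟨ρ₁, hρ₁, u, hcyl, hconv, hev⟩ := Gmt.hr_graph_conv hN (H.chart hP).1 (H.chart hP).2.1
    (H.chart hP).2.2.1 (H.chart hP).2.2.2 hx' hr₀ hflat
  simp only [Gmt.fl_hor_join, Gmt.fl_ver_join] at hcyl hconv hev
  have hcyl' : rgtCyl c' 0 ρ₁ ⊆
      {b : E (N + 1) | Gmt.gmtHor b ∈ Metric.ball c' ρ₀ ∧ rgtSh γ' b ∈ U} := hcyl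
  obtain ⟨ρ, hρdef⟩ : ∃ ρ, ρ = min ρ₀ ρ₁ / 2 := ⟨_, rfl⟩
  have hmin : 0 < min ρ₀ ρ₁ := lt_min hρ₀ hρ₁
  have hρ : 0 < ρ := by rw [hρdef]; positivity
  have hρ0 : ρ < ρ₀ := by rw [hρdef]; linarith [min_le_left ρ₀ ρ₁]
  have hρ1 : ρ < ρ₁ := by rw [hρdef]; linarith [min_le_right ρ₀ ρ₁]
  have hcb0 : Metric.closedBall c' ρ ⊆ Metric.ball c' ρ₀ := Metric.closedBall_subset_ball hρ0
  have hcb1 : Metric.closedBall c' ρ ⊆ Metric.ball c' ρ₁ := Metric.closedBall_subset_ball hρ1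
  have hb0 : Metric.ball c' ρ ⊆ Metric.ball c' ρ₀ := Metric.ball_subset_closedBall.trans hcb0
  have hb1 : Metric.ball c' ρ ⊆ Metric.ball c' ρ₁ := Metric.ball_subset_closedBall.trans hcb1
  obtain ⟨x₀, hx₀, hmax⟩ := (isCompact_closedBall c' ρ).exists_isMaxOn
    ⟨c', Metric.mem_closedBall_self hρ.le⟩ ((hγ'.1.continuousOn.mono hcb0).abs)
  have hx₀r := (hγ'.2 x₀ (hcb0 hx₀)).1
  obtain ⟨δ₁, hδ₁def⟩ : ∃ δ₁, δ₁ = (r - |γ' x₀|) / 2 := ⟨_, rfl⟩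
  have hδ₁ : 0 < δ₁ := by rw [hδ₁def]; linarith
  have hγb : ∀ x ∈ Metric.closedBall c' ρ, |γ' x| ≤ r - 2 * δ₁ := fun x hx => by
    have : |γ' x| ≤ |γ' x₀| := hmax hx
    rw [hδ₁def]; linarith
  obtain ⟨δ, hδdef⟩ : ∃ δ, δ = min δ₁ (ρ₁ / 2) := ⟨_, rfl⟩
  have hδ : 0 < δ := by rw [hδdef]; exact lt_min hδ₁ (by positivity)
  have hδ1 : δ ≤ δ₁ := by rw [hδdef]; exact min_le_left _ _
  have hδ2 : δ ≤ ρ₁ / 2 := by rw [hδdef]; exact min_le_right _ _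
  have hsmall := (Metric.tendstoUniformlyOn_iff.1
    (hconv.tendstoUniformlyOn (isCompact_closedBall c' ρ) hcb1)) δ hδ
  have hfar := H.gr_far hΨ hseg hγ' hρ0 hδ
  refine ⟨ρ, hρ, hρ0.le, fun k x => γ' x + u k x, ?_, ?_⟩
  · rw [Gmt.gmtSmoothConv_iff]
    intro k
    have a1 : Gmt.GmtCk k (Metric.ball c' ρ) (fun _ => γ') γ' := Gmt.GmtCk.const _
    have a2 := ((Gmt.gmtSmoothConv_iff.1 hconv) k).mono_set hb1
    have a3 := a1.add Metric.isOpen_ball a2 (Eventually.of_forall fun _ => hγ'.1.mono hb0)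
      (hev.mono fun i hi => hi.1.mono hb1) (hγ'.1.mono hb0) contDiffOn_const
    exact a3.congr Metric.isOpen_ball (fun i x _ => rfl) (fun x _ => add_zero _)
  · filter_upwards [hev, hsmall, hfar] with k hk hsm hfr
    have huk : ∀ x ∈ Metric.closedBall c' ρ, |u k x| < δ := fun x hx => by
      have := hsm x hx
      rwa [Real.dist_eq, zero_sub, abs_neg] at this
    have hdisj := (ct_trichotomy' H.geo.mfd (A k)).2.1
    refine ⟨(hγ'.1.mono hb0).add (hk.1.mono hb1), fun x hx => ?_⟩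
    have hxc : x ∈ Metric.closedBall c' ρ := Metric.ball_subset_closedBall hx
    have hu1 := abs_lt.1 (huk x hxc)
    have hg1 := abs_le.1 (hγb x hxc)
    refine ⟨by rw [abs_lt]; constructor <;> linarith, fun s hs => ?_⟩
    by_cases c1 : s ≤ γ' x - δ
    · have hin := (hfr x hxc s hs).1 c1
      refine ⟨⟨fun _ => by linarith, fun _ => hin⟩, ⟨fun hout => ?_, fun hlt => ?_⟩⟩
      · exact absurd hout (Set.disjoint_left.1 hdisj hin)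
      · linarith
    · by_cases c2 : γ' x + δ ≤ s
      · have hout := (hfr x hxc s hs).2 c2
        refine ⟨⟨fun hin => ?_, fun hlt => ?_⟩, ⟨fun _ => by linarith, fun _ => hout⟩⟩
        · exact absurd hout (Set.disjoint_left.1 hdisj hin)
        · linarith
      · rw [not_le] at c1 c2
        have hb : Gmt.gmtJoin x (s - γ' x) ∈ rgtCyl c' 0 ρ₁ := by
          refine ⟨by rw [Gmt.fl_hor_join]; exact hb1 hx, ?_⟩
          rw [Gmt.fl_ver_join, sub_zero, abs_lt]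
          constructor <;> linarith
        have hcy := rgt_gr_cyl hP (A k) hcyl' hk.1.continuousOn hk.2.2 hb
        rw [rgt_sh_join, Gmt.fl_ver_join, Gmt.fl_hor_join, sub_add_cancel] at hcy
        refine ⟨hcy.1.trans ⟨fun h1 => by linarith, fun h1 => by linarith⟩,
          hcy.2.trans ⟨fun h1 => by linarith, fun h1 => by linarith⟩⟩

end Claimed.Agent.R315
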