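import Claimed.Agent.R315.Rg.TrGrA

/-!
# Row 315, package Rg-TR, file `TrGrC.lean` = PACKAGE L-RG-TrGrC: elementary calculus of `RgtGr` (graphs along the vertical segments of a map `Ψ`)   (architect: helper190)

`RgtGr X A Ψ r γ B` (`TrDefs.lean`): `γ` smooth on `B`, `|γ| < r`, and for `x ∈ B`, `|s| ≤ r`: `Ψ (x, s) ∈ ctIn ↔ s < γ x`, `Ψ (x, s) ∈ ctOut ↔ γ x < s`.

PLAN.
* `RgtGr.mono`: restriction.   `RgtGr.unique`: if `γ₁ x < γ₂ x` test the first equivalences with `s = γ₁ x` (`|s| < r`): `s < γ₁ x` is false, `s < γ₂ x` is true.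
* `RgtGr.eq_sup`: `{s | |s| ≤ r ∧ Ψ (x,s) ∈ ctIn} = {s | |s| ≤ r ∧ s < γ x} = Ico (-r) (γ x)` (`|γ x| < r`); `csSup_Ico`.
* `rgt_sup_between`: the same `sSup` for any set between `{|s| ≤ r, s < a}` and `{s ≤ a}` (`csSup_le`, `le_csSup`/`le_of_forall_lt`).
* `rgt_gr_glue`: for `c ∈ B` take `(ρ, γ)`; on `ball c ρ` the function `rgtSup` equals `γ` (`eq_sup`): smooth at `c` (`ContDiffOn.contDiffAt` on the ball, `ContDiffAt.congr_of_eventuallyEq`, then `.contDiffWithinAt`); the pointwise clauses at `x = c`.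
* `RgtGr.translate`: `Gmt.gmtJoin (x - v) s + Gmt.gmtJoin v 0 = Gmt.gmtJoin x s` (`fl_join_eq`, linearity of `flInc`); smoothness: composition with `x ↦ x - v`.
* `rgt_graph_null`: `G = {y | hor y ∈ B ∧ ver y = u (hor y)}` is locally null (`measure_null_of_locally_null`): near `y₀ ∈ G` take `ball (hor y₀) ρ ⊆ B`, translate `Gmt.fl_graph_null` (for `z ↦ u (z + hor y₀)` on `ball 0 ρ`) by `Gmt.gmtJoin (hor y₀) 0` (`measurePreserving_add_right`);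
  or directly by Fubini (`Gmt.fl_lintegral_join`/`fl_measurePreserving_join`): every vertical slice of `G` is a point.
* `rgt_sub_ae`: as `rgt_flat_ae` (`TrGrA.lean`): `{y ∈ Q | ver y < u (hor y)} \ S` and `{y ∈ Q | u (hor y) < ver y} ∩ S` are locally null, the graph is null; `ae_eq_set`.
* `rgt_gr_ae`: `rgt_sub_ae` with `S = ctPre Ψ U A`, `h1`, `h2` from `ct_in_iff hΨ A`, `ct_out_iff hΨ A` and the two equivalences of `RgtGr` at `(hor y, ver y)` (`fl_join_hor_ver`).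
* `rgt_gr_def`: `ct_def_of_chart hG hΨ hO hOU` with `φ₀ b = ver b - γ (hor b)`: smooth on `U` (`hor`, `ver` linear, `γ` smooth on the open set `B`); `fderiv φ₀ b (gmtEn N) = 1 ≠ 0` (`hor (gmtEn N) = 0`, `ver (gmtEn N) = 1`: `fl_hor_en`, `fl_ver_en`; chain rule at `hor b ∈ B`);
  a.e. identity: `rgt_gr_ae`.  Then pass from `φ₀ ∘ invFunOn Ψ U` to `fun z => - L z`: they agree on `X ∩ O = Ψ '' U` (`if_leftInv`): `smooth`: `if_smoothAlong_congr`; `reg`: `if_gradSq_congr` (`If/Germ.lean`); `eq`: the two sets `{x ∈ X ∩ O | · < 0}` coincide.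
-/

set_option autoImplicit false
open scoped ContDiff ENNReal Topology
open MeasureTheory Claims.C0499 Set Filter

namespace Claimed.Agent.R315

variable {W : Type} [NormedAddCommGroup W] [NormedSpace ℝ W]
variable {N : ℕ} {X A : Set W} {Ψ : E (N + 1) → W} {r : ℝ}

theorem RgtGr.mono {γ : E N → ℝ} {B B' : Set (E N)} (h : RgtGr X A Ψ r γ B) (hB : B' ⊆ B) :
    RgtGr X A Ψ r γ B' :=
  ⟨h.1.mono hB, fun x hx => h.2 x (hB hx)⟩

theorem RgtGr.unique {γ₁ γ₂ : E N → ℝ} {B₁ B₂ : Set (E N)} (h₁ : RgtGr X A Ψ r γ₁ B₁)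
    (h₂ : RgtGr X A Ψ r γ₂ B₂) {x : E N} (hx₁ : x ∈ B₁) (hx₂ : x ∈ B₂) : γ₁ x = γ₂ x := by
  obtain ⟨a1, b1⟩ := h₁.2 x hx₁
  obtain ⟨a2, b2⟩ := h₂.2 x hx₂
  rcases lt_trichotomy (γ₁ x) (γ₂ x) with hlt | heq | hgt
  · exact absurd ((b1 _ a1.le).1.1 ((b2 _ a1.le).1.2 hlt)) (lt_irrefl _)
  · exact heq
  · exact absurd ((b2 _ a2.le).1.1 ((b1 _ a2.le).1.2 hgt)) (lt_irrefl _)

/-- the height of the phase on the vertical segment over `x`. -/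
noncomputable def rgtSup (X A : Set W) (Ψ : E (N + 1) → W) (r : ℝ) (x : E N) : ℝ :=
  sSup {s | |s| ≤ r ∧ Ψ (Gmt.gmtJoin x s) ∈ ctIn (N + 1) X A}

theorem rgt_sup_between {S : Set ℝ} {a : ℝ} (ha : |a| < r) (h1 : ∀ s, |s| ≤ r → s < a → s ∈ S)
    (h2 : ∀ s ∈ S, s ≤ a) : sSup S = a := by
  have ha' := abs_lt.1 ha
  have hr : 0 < r := lt_of_le_of_lt (abs_nonneg a) ha
  refine csSup_eq_of_forall_le_of_forall_lt_exists_gt
    ⟨-r, h1 _ (by rw [abs_neg, abs_of_pos hr]) ha'.1⟩ h2 fun w hw => ?_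
  refine ⟨max ((w + a) / 2) (-r), h1 _ ?_ (max_lt (by linarith) ha'.1),
    lt_of_lt_of_le (by linarith) (le_max_left _ _)⟩
  rw [abs_le]
  exact ⟨le_max_right _ _, max_le (by linarith [ha'.2]) (by linarith)⟩

theorem RgtGr.eq_sup {γ : E N → ℝ} {B : Set (E N)} (h : RgtGr X A Ψ r γ B) {x : E N}
    (hx : x ∈ B) : γ x = rgtSup X A Ψ r x := by
  refine (rgt_sup_between (S := {s | |s| ≤ r ∧ Ψ (Gmt.gmtJoin x s) ∈ ctIn (N + 1) X A})
    (h.2 x hx).1 (fun s hs hlt => ?_) (fun s hs => ?_)).symm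
  · exact ⟨hs, ((h.2 x hx).2 s hs).1.2 hlt⟩
  · exact le_of_lt (((h.2 x hx).2 s hs.1).1.1 hs.2)

/-- local graphs glue. -/
theorem rgt_gr_glue {B : Set (E N)}
    (h : ∀ c ∈ B, ∃ ρ > 0, ∃ γ : E N → ℝ, RgtGr X A Ψ r γ (Metric.ball c ρ)) :
    RgtGr X A Ψ r (rgtSup X A Ψ r) B := by
  refine ⟨fun c hc => ?_, fun c hc => ?_⟩
  · obtain ⟨ρ, hρ, γ, hgr⟩ := h c hc
    have h1 : ContDiffAt ℝ ∞ γ c := hgr.1.contDiffAt (Metric.ball_mem_nhds c hρ)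
    have h2 : rgtSup X A Ψ r =ᶠ[𝓝 c] γ := by
      filter_upwards [Metric.ball_mem_nhds c hρ] with x hx
      exact (hgr.eq_sup hx).symm
    exact (h1.congr_of_eventuallyEq h2).contDiffWithinAt
  · obtain ⟨ρ, hρ, γ, hgr⟩ := h c hc
    rw [← hgr.eq_sup (Metric.mem_ball_self hρ)]
    exact hgr.2 c (Metric.mem_ball_self hρ)

theorem RgtGr.congr {γ γ' : E N → ℝ} {B : Set (E N)} (h : RgtGr X A Ψ r γ B)
    (hγ : EqOn γ' γ B) : RgtGr X A Ψ r γ' B := by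
  refine ⟨h.1.congr hγ, fun x hx => ?_⟩
  rw [hγ hx]
  exact h.2 x hx

theorem rgt_join_sub_add (x v : E N) (s : ℝ) :
    Gmt.gmtJoin (x - v) s + Gmt.gmtJoin v 0 = Gmt.gmtJoin x s := by
  rw [Gmt.fl_join_eq, Gmt.fl_join_eq, Gmt.fl_join_eq, map_sub, zero_smul]
  abel

/-- horizontal translations of the parameter. -/
theorem RgtGr.translate {γ : E N → ℝ} {B : Set (E N)} (v : E N)
    (h : RgtGr X A (fun b => Ψ (b + Gmt.gmtJoin v 0)) r γ B) :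
    RgtGr X A Ψ r (fun x => γ (x - v)) {x | x - v ∈ B} := by
  refine ⟨h.1.comp (contDiff_id.sub contDiff_const).contDiffOn (fun x hx => hx), fun x hx => ?_⟩
  obtain ⟨a1, b1⟩ := h.2 (x - v) hx
  refine ⟨a1, fun s hs => ?_⟩
  have := b1 s hs
  simp only [rgt_join_sub_add] at this
  exact this

/-- graphs of continuous functions are null sets. -/
theorem rgt_graph_null {B : Set (E N)} (hB : IsOpen B) {u : E N → ℝ} (hu : ContinuousOn u B) :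
    volume {y : E (N + 1) | Gmt.gmtHor y ∈ B ∧ Gmt.gmtVer y = u (Gmt.gmtHor y)} = 0 := by
  refine measure_null_of_locally_null _ fun y₀ hy₀ => ?_
  obtain ⟨ρ, hρ, hsub⟩ := Metric.isOpen_iff.1 hB _ hy₀.1
  have hu₀ : ContinuousOn (fun z : E N => u (z + Gmt.gmtHor y₀)) (Metric.ball 0 ρ) := by
    refine hu.comp (continuous_id.add continuous_const).continuousOn fun z hz => hsub ?_
    simpa [dist_eq_norm] using hz
  have h1 := Gmt.fl_graph_null hu₀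
  have h2 := (measurePreserving_sub_right volume
    (Gmt.gmtJoin (Gmt.gmtHor y₀) 0)).quasiMeasurePreserving.ae h1
  have hH : ∀ y : E (N + 1), Gmt.gmtHor (y - Gmt.gmtJoin (Gmt.gmtHor y₀) 0) =
      Gmt.gmtHor y - Gmt.gmtHor y₀ := fun y => by rw [Gmt.fl_hor_sub, Gmt.fl_hor_join]
  have hV : ∀ y : E (N + 1), Gmt.gmtVer (y - Gmt.gmtJoin (Gmt.gmtHor y₀) 0) = Gmt.gmtVer y :=
    fun y => by rw [Gmt.fl_ver_sub, Gmt.fl_ver_join, sub_zero]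
  simp only [hH, hV, sub_add_cancel] at h2
  refine ⟨{y : E (N + 1) | ¬ (‖Gmt.gmtHor y - Gmt.gmtHor y₀‖ < ρ →
    Gmt.gmtVer y ≠ u (Gmt.gmtHor y))}, ?_, ae_iff.1 h2⟩
  refine mem_nhdsWithin.2 ⟨Gmt.gmtHor ⁻¹' Metric.ball (Gmt.gmtHor y₀) ρ,
    Metric.isOpen_ball.preimage Gmt.fl_continuous_hor, Metric.mem_ball_self hρ, fun y hy hcon => ?_⟩
  have hy1 : ‖Gmt.gmtHor y - Gmt.gmtHor y₀‖ < ρ := by
    have : Gmt.gmtHor y ∈ Metric.ball (Gmt.gmtHor y₀) ρ := hy.1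
    simpa [dist_eq_norm] using this
  exact hcon hy1 hy.2.2

/-- pointwise full below / null above a graph ⇒ a.e. the subgraph. -/
theorem rgt_sub_ae {S Q : Set (E (N + 1))} (hQ : IsOpen Q) {B : Set (E N)} (hB : IsOpen B)
    {u : E N → ℝ} (hu : ContinuousOn u B) (hQB : ∀ y ∈ Q, Gmt.gmtHor y ∈ B)
    (h1 : ∀ y ∈ Q, Gmt.gmtVer y < u (Gmt.gmtHor y) → ∃ ρ > 0, volume (Metric.ball y ρ \ S) = 0)
    (h2 : ∀ y ∈ Q, u (Gmt.gmtHor y) < Gmt.gmtVer y → ∃ ρ > 0, volume (Metric.ball y ρ ∩ S) = 0) :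
    ((S ∩ Q : Set (E (N + 1))) =ᵐ[volume]
      ({y | y ∈ Q ∧ Gmt.gmtVer y < u (Gmt.gmtHor y)} : Set (E (N + 1)))) := by
  have n1 : volume ({y : E (N + 1) | y ∈ Q ∧ Gmt.gmtVer y < u (Gmt.gmtHor y)} \ S) = 0 := by
    refine measure_null_of_locally_null _ fun y hy => ?_
    obtain ⟨r, hr, h0⟩ := h1 y hy.1.1 hy.1.2
    exact ⟨Metric.ball y r \ S, mem_nhdsWithin.2 ⟨Metric.ball y r, Metric.isOpen_ball,
      Metric.mem_ball_self hr, fun z hz => ⟨hz.1, hz.2.2⟩⟩, h0⟩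
  have n2 : volume ({y : E (N + 1) | y ∈ Q ∧ u (Gmt.gmtHor y) < Gmt.gmtVer y} ∩ S) = 0 := by
    refine measure_null_of_locally_null _ fun y hy => ?_
    obtain ⟨r, hr, h0⟩ := h2 y hy.1.1 hy.1.2
    exact ⟨Metric.ball y r ∩ S, mem_nhdsWithin.2 ⟨Metric.ball y r, Metric.isOpen_ball,
      Metric.mem_ball_self hr, fun z hz => ⟨hz.1, hz.2.2⟩⟩, h0⟩
  have n3 := rgt_graph_null hB hu
  refine ae_eq_set.2 ⟨?_, ?_⟩
  · refine measure_mono_null (t := ({y : E (N + 1) | y ∈ Q ∧ u (Gmt.gmtHor y) < Gmt.gmtVer y} ∩ S)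
      ∪ {y : E (N + 1) | Gmt.gmtHor y ∈ B ∧ Gmt.gmtVer y = u (Gmt.gmtHor y)})
      (fun z hz => ?_) (measure_union_null n2 n3)
    rcases lt_trichotomy (Gmt.gmtVer z) (u (Gmt.gmtHor z)) with hlt | heq | hgt
    · exact absurd ⟨hz.1.2, hlt⟩ hz.2
    · exact Or.inr ⟨hQB z hz.1.2, heq⟩
    · exact Or.inl ⟨⟨hz.1.2, hgt⟩, hz.1.1⟩
  · refine measure_mono_null (fun z hz => ?_) n1
    exact ⟨hz.1, fun hzS => hz.2 ⟨hzS, hz.1.1⟩⟩

variable [FiniteDimensional ℝ W]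

/-- the phase in the chart is a.e. the subgraph. -/
theorem rgt_gr_ae {U : Set (E (N + 1))} (hΨ : IsParam X Ψ U) {B : Set (E N)} (hB : IsOpen B)
    {γ : E N → ℝ} (h : RgtGr X A Ψ r γ B)
    (hU : ∀ b ∈ U, Gmt.gmtHor b ∈ B ∧ |Gmt.gmtVer b| ≤ r) :
    ((ctPre Ψ U A : Set (E (N + 1))) =ᵐ[volume]
      ({b | b ∈ U ∧ Gmt.gmtVer b - γ (Gmt.gmtHor b) < 0} : Set (E (N + 1)))) := by
  have key : ∀ y ∈ U, (Ψ y ∈ ctIn (N + 1) X A ↔ Gmt.gmtVer y < γ (Gmt.gmtHor y)) ∧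
      (Ψ y ∈ ctOut (N + 1) X A ↔ γ (Gmt.gmtHor y) < Gmt.gmtVer y) := fun y hy => by
    have := (h.2 _ (hU y hy).1).2 _ (hU y hy).2
    rwa [Gmt.fl_join_hor_ver] at this
  have h0 := rgt_sub_ae (S := ctPre Ψ U A) hΨ.1 hB h.1.continuousOn (fun y hy => (hU y hy).1)
    (fun y hy hlt => (ct_in_iff hΨ A hy).1 ((key y hy).1.2 hlt))
    (fun y hy hlt => (ct_out_iff hΨ A hy).1 ((key y hy).2.2 hlt))
  have e1 : (ctPre Ψ U A ∩ U : Set (E (N + 1))) = ctPre Ψ U A := by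
    ext y
    exact ⟨fun hy => hy.1, fun hy => ⟨hy, hy.2⟩⟩
  have e2 : ({b | b ∈ U ∧ Gmt.gmtVer b - γ (Gmt.gmtHor b) < 0} : Set (E (N + 1))) =
      {y | y ∈ U ∧ Gmt.gmtVer y < γ (Gmt.gmtHor y)} := by
    ext y
    exact ⟨fun hy => ⟨hy.1, by linarith [hy.2]⟩, fun hy => ⟨hy.1, by linarith [hy.2]⟩⟩
  rw [e2, ← e1]
  exact h0

variable [MeasurableSpace W] [BorelSpace W]

/-- **a graph gives a defining function on the chart piece.** -/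
theorem rgt_gr_def {h : Ten W} {t : W → ℝ} (hG : CtGeo (N + 1) X h t) {U : Set (E (N + 1))}
    (hΨ : IsParam X Ψ U) {B : Set (E N)} (hB : IsOpen B) {γ : E N → ℝ} (hgr : RgtGr X A Ψ r γ B)
    (hU : ∀ b ∈ U, Gmt.gmtHor b ∈ B ∧ |Gmt.gmtVer b| ≤ r) {O : Set W} (hO : IsOpen O)
    (hOU : Ψ '' U = X ∩ O) {L : W → ℝ}
    (hL : ∀ b ∈ U, L (Ψ b) = γ (Gmt.gmtHor b) - Gmt.gmtVer b) :
    CtDef (N + 1) (X ∩ O) h (A ∩ O) (fun z => -L z) := by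
  have h1 : ContDiffOn ℝ ∞ (fun b : E (N + 1) => Gmt.gmtVer b - γ (Gmt.gmtHor b)) U :=
    (Gmt.gmtVerL N).contDiff.contDiffOn.sub
      (hgr.1.comp (Gmt.gmtHorL N).contDiff.contDiffOn (fun b hb => (hU b hb).1))
  have h2 : ∀ b ∈ U, fderiv ℝ (fun b : E (N + 1) => Gmt.gmtVer b - γ (Gmt.gmtHor b)) b ≠ 0 := by
    intro b hb hc
    have hγd : HasFDerivAt γ (fderiv ℝ γ (Gmt.gmtHor b)) (Gmt.gmtHor b) :=
      ((hgr.1.contDiffAt (hB.mem_nhds (hU b hb).1)).differentiableAt (by simp)).hasFDerivAt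
    have h3 : HasFDerivAt (fun b : E (N + 1) => Gmt.gmtVer b - γ (Gmt.gmtHor b))
        (Gmt.gmtVerL N - (fderiv ℝ γ (Gmt.gmtHor b)).comp (Gmt.gmtHorL N)) b :=
      (Gmt.gmtVerL N).hasFDerivAt.sub (hγd.comp b (Gmt.gmtHorL N).hasFDerivAt)
    rw [h3.fderiv] at hc
    have h4 := congrArg (fun l : E (N + 1) →L[ℝ] ℝ => l (Gmt.gmtEn N)) hc
    have e1 : Gmt.gmtVerL N (Gmt.gmtEn N) = 1 := Gmt.fl_ver_en
    have e2 : Gmt.gmtHorL N (Gmt.gmtEn N) = 0 := Gmt.fl_hor_en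
    simp only [_root_.sub_apply, ContinuousLinearMap.comp_apply, e1, e2, map_zero,
      _root_.zero_apply, sub_zero] at h4
    exact one_ne_zero h4
  have D := ct_def_of_chart hG hΨ hO hOU h1 h2 (rgt_gr_ae hΨ hB hgr hU)
  have hag : ∀ x ∈ X ∩ O, -L x =
      ((fun b : E (N + 1) => Gmt.gmtVer b - γ (Gmt.gmtHor b)) ∘ Function.invFunOn Ψ U) x := by
    intro x hx
    rw [← hOU] at hx
    obtain ⟨b, hb, rfl⟩ := hx
    rw [Function.comp_apply, if_leftInv hΨ hb, hL b hb]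
    ring
  refine ⟨if_smoothAlong_congr D.smooth hag, fun x hx => ?_, ?_⟩
  · rw [if_gradSq_congr (g' := h) (f' := ((fun b : E (N + 1) => Gmt.gmtVer b - γ (Gmt.gmtHor b)) ∘
      Function.invFunOn Ψ U)) (Filter.univ_mem (f := 𝓝 x)) (fun _ _ => rfl)
      (fun y hy => hag y hy.1)]
    exact D.reg x hx
  · have e : {x | x ∈ X ∩ O ∧ -L x < 0} = {x | x ∈ X ∩ O ∧
        ((fun b : E (N + 1) => Gmt.gmtVer b - γ (Gmt.gmtHor b)) ∘ Function.invFunOn Ψ U) x < 0} := by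
      ext x
      constructor
      · intro hx
        exact ⟨hx.1, by rw [← hag x hx.1]; exact hx.2⟩
      · intro hx
        exact ⟨hx.1, by rw [hag x hx.1]; exact hx.2⟩
    rw [e]
    exact D.eq

end Claimed.Agent.R315
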