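import Claimed.Agent.R315.Rg.TrPr

/-!
# Row 315, package Rg-TR, file `TrLfA.lean` = PACKAGE L-RG-TrLfA: THE STAR OF A STRAIGHTENED CHART: chart identities, parametrisations of the tails   (architect: helper190)

Standing data: `hC : C.Ok`, `hst : RgtStar C β d' ψ r` (`TrCh.lean`).  `Ψ_J = rgtPs C.F J ψ : E (d' + J.card + 1) → W`, `Ψ_J b = ψ (a₁ (hor b), ver b) + a₂ (hor b)`, `a₁ = rgtA1 C.F J d'`, `a₂ = rgtA2 C.F J d'` (`TrPr.lean`, `rgt_split`).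
`rgtU`, `rgtLine`, `rgtG`, `rgtL` (`TrDefs.lean`) are the CHART FREE objects: `rgtU z = ψ⁻¹ (dropS hitS z)`, `rgtLine z s = ψ (hor (rgtU z), s) + (z - dropS hitS z)`, `rgtG z = sup {|s| ≤ r/2, rgtLine z s ∈ pIn}`, `rgtL = rgtG - ver ∘ rgtU`.

PLAN (everything is elementary).
* `rgt_U_add`, `rgt_line_add`: `dropS hitS (ψ u + w) = ψ u` (`Frame.dropS_add'`, `Frame.dropS_eq_self` with `hst.t0 hC hu`, `rgt_mem_hitS`); `if_leftInv hst.chart.par hu`.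
* `rgt_a2_drop`: `(rgt_split ..).vec` and `Frame.dropS_vec` (`J ⊆ hitS`).     `rgt_ps_U`, `rgt_ps_line`: `rgt_U_add`, `rgt_line_add` with `u = gmtJoin (a₁ (hor b)) (ver b) ∈ hrCyl r`, `w' = a₂ (hor b) + w`; `fl_hor_join`, `fl_ver_join`, `rgt_psi_join`.
* `rgt_G_line`: `rgtG` depends only on the function `rgtLine z`.      `rgt_G_ps_ver`: by `rgt_ps_line` the lines through `Ψ b + w` and `Ψ (hor b, 0) + w` coincide.
* `rgt_G_eq`: `rgtG (ψ u + w) = sSup S`, `S = {s | |s| ≤ r/2 ∧ ψ (hor u, s) + w ∈ C.pIn}` (`rgt_line_add`); `rgt_sup_between` (`TrGrC.lean`): (1) `|s| ≤ r/2`, `s < a` ⇒ the point is in `ctIn (E α)` ⇒ in `pIn`;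
  (2) `s ∈ S`, `a < s` impossible: the point lies in `ctOut (E α) ⊆ E α` and in `ctIn (E α₁) ⊆ E α₁` (`ct_trichotomy'`: the union is `M`); `α₁ = α` (`hC.inv.diag.disj`); then `hin` gives `s < a`.
* `rgt_param_switch` (proved).   `rgt_ps_param`: `rgt_psi_param hst.chart.par (t_hit) (rgt_split ..)`; `C.P.mE C.F β J = C.F.cyl J (C.P.E β)` is `rfl`.
* `rgt_cof_of_faceS`, `rgt_cofJ_faceS`: unfold `Stat.IsCof`, `Stat.faceS`, `Stat.mem_cofJ`; `Finset.ext`.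
* `rgt_ps_param_mem`: `rgt_param_switch` with `M₁ = C.F.cyl J (E β)`, `J = β.cofJ α'`, `M₂ = C.F.cyl J' (E α'')`, `α'' = α'.faceS J'`, `J'' = β.cofJ α''`, `O = {z | q z ∈ U_T} ∩ {z | ∀ j ∈ J'', T < α''_j t_j z}` (`U_T` from `hT.prod`).  For `z ∈ O`: `hT.prod` at the point `dropS J' z` and the coface `α''`
  (`q (dropS J' z) = q z`; `t_j (dropS J' z) = t_j z` for `j ∈ J''`, as `J'' ∩ J' = ∅`): `dropS J' z ∈ E α'' ↔ dropS J'' (dropS J' z) ∈ E β`, and `dropS J'' ∘ dropS J' = dropS (J'' ∪ J') = dropS J` (`Frame.dropS_union`, `rgt_cofJ_faceS`).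
  `Ψ '' region ⊆ O`: `q (Ψ b) = q (ψ u)`, `u = (a₁ hor b, ver b) ∈ rgtBox d' ρ`; `t_j (Ψ b) = t_j (a₂ (hor b))` (`hst.t0`).  Restrict `rgt_ps_param` to the open region by `if_mono`.
* `rgt_ps_param_tail`: the case `J' = ∅` (`Stat.faceS_empty`, `Frame.dropS_empty`), or repeat the proof.
* `rgt_ps_image_mem`: `⊆`: `rgt_psi_dropS`-type computations + `sh_mem_liftK`.  `⊇`: `z` in the member with `dropS J' z ∈ liftK ..`: `sh_mem_liftK hC (hz : dropS J' z ∈ E α'')` gives `dropS J z = ψ u`, `u ∈ hrCyl ρ`, and the tails; `(rgt_split ..).surj (hor u) (fun j => t_j z)` gives `x`; `b = gmtJoin x (ver u)`; `Ψ b = ψ u + vec J (t z) = z` (`Frame.dropS_add_vec_self`).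
* `rgt_ps_image`: the case `J' = ∅`.
-/

set_option autoImplicit false
set_option linter.unusedSectionVars false
open scoped ContDiff ENNReal Topology
open MeasureTheory Claims.C0499 Set Filter

namespace Claimed.Agent.R315

variable {V W : Type} [NormedAddCommGroup V] [NormedSpace ℝ V] [NormedAddCommGroup W]
  [NormedSpace ℝ W] {ι : Type}

/-- base region: `‖a₁ x‖ < ρ`, the tails `J''` beyond `T`. -/
def rgtBs (F : Frame V W ι) (α : Stat ι) (J J'' : Finset ι) (d' : ℕ) (ρ T : ℝ) :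
    Set (E (d' + J.card)) :=
  {x | ‖rgtA1 F J d' x‖ < ρ ∧ ∀ j ∈ J'', T < (α j : ℝ) * F.t j (rgtA2 F J d' x)}

/-- the region of the chart over it. -/
def rgtRg (F : Frame V W ι) (α : Stat ι) (J J'' : Finset ι) (d' : ℕ) (ρ T : ℝ) :
    Set (E (d' + J.card + 1)) :=
  {b | Gmt.gmtHor b ∈ rgtBs F α J J'' d' ρ T ∧ |Gmt.gmtVer b| < ρ}

theorem rgt_isOpen_bs (F : Frame V W ι) (α : Stat ι) (J J'' : Finset ι) (d' : ℕ) (ρ T : ℝ) :
    IsOpen (rgtBs F α J J'' d' ρ T) := by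
  have h : rgtBs F α J J'' d' ρ T = {x | ‖rgtA1 F J d' x‖ < ρ} ∩
      ⋂ j ∈ J'', {x | T < (α j : ℝ) * F.t j (rgtA2 F J d' x)} := by
    ext x
    simp [rgtBs]
  rw [h]
  refine (isOpen_lt (rgtA1 F J d').continuous.norm continuous_const).inter
    (isOpen_biInter_finset fun j _ => isOpen_lt continuous_const
      (continuous_const.mul ((F.t j).continuous.comp (rgtA2 F J d').continuous)))

theorem rgt_isOpen_rg (F : Frame V W ι) (α : Stat ι) (J J'' : Finset ι) (d' : ℕ) (ρ T : ℝ) :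
    IsOpen (rgtRg F α J J'' d' ρ T) :=
  ((rgt_isOpen_bs F α J J'' d' ρ T).preimage Gmt.fl_continuous_hor).inter
    (isOpen_lt Gmt.fl_continuous_ver.abs continuous_const)

theorem rgt_box_compact (d' : ℕ) (ρ : ℝ) : IsCompact (rgtBox d' ρ) := by
  have hc : IsClosed (rgtBox d' ρ) :=
    (isClosed_le Gmt.fl_continuous_hor.norm continuous_const).inter
      (isClosed_le Gmt.fl_continuous_ver.abs continuous_const)
  refine Metric.isCompact_of_isClosed_isBounded hc ?_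
  refine (Metric.isBounded_closedBall (x := (0 : E (d' + 1))) (r := |ρ| + |ρ|)).subset fun u hu => ?_
  rw [mem_closedBall_zero_iff]
  have h1 := Gmt.fl_norm_sq u
  have h2 : ‖Gmt.gmtHor u‖ ≤ |ρ| := hu.1.trans (le_abs_self ρ)
  have h3 : |Gmt.gmtVer u| ≤ |ρ| := hu.2.trans (le_abs_self ρ)
  have h4 : Gmt.gmtVer u ^ 2 ≤ |ρ| ^ 2 := by
    rw [← sq_abs (Gmt.gmtVer u)]
    exact pow_le_pow_left₀ (abs_nonneg _) h3 2
  have h5 : ‖Gmt.gmtHor u‖ ^ 2 ≤ |ρ| ^ 2 := pow_le_pow_left₀ (norm_nonneg _) h2 2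
  have h6 : ‖u‖ ^ 2 ≤ (|ρ| + |ρ|) ^ 2 := by nlinarith [abs_nonneg ρ]
  exact abs_le_of_sq_le_sq' h6 (by positivity) |>.2

theorem rgt_box_subset {d' : ℕ} {ρ r : ℝ} (h : ρ < r) :
    rgtBox d' ρ ⊆ (Gmt.hrCyl r : Set (E (d' + 1))) := fun _ hu =>
  ⟨lt_of_le_of_lt hu.1 h, lt_of_le_of_lt hu.2 h⟩

theorem rgt_cyl_subset_box (d' : ℕ) (ρ : ℝ) :
    (Gmt.hrCyl ρ : Set (E (d' + 1))) ⊆ rgtBox d' ρ := fun _ hu => ⟨hu.1.le, hu.2.le⟩

/-- a parametrisation only sees the manifold near its image. -/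
theorem rgt_param_switch {d : ℕ} {M₁ M₂ O : Set W} (hO : IsOpen O) (h : M₁ ∩ O = M₂ ∩ O)
    {Ψ : E d → W} {U : Set (E d)} (hΨ : IsParam M₁ Ψ U) (hsub : Ψ '' U ⊆ O) : IsParam M₂ Ψ U :=
  if_param_of_inter hO (h ▸ if_param_inter hΨ hsub)

theorem rgt_mem_hitS [Fintype ι] {β : Stat ι} {j : ι} : j ∈ β.hitS ↔ β j = 0 := by
  classical
  simp [Stat.hitS]

/-- a status whose face is a coface is a coface. -/
theorem rgt_cof_of_faceS {β α : Stat ι} {J : Finset ι} (h : β.IsCof (α.faceS J)) : β.IsCof α := by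
  classical
  intro i hi
  have h1 := h i hi
  by_cases hJ : i ∈ J
  · simp only [Stat.faceS, if_pos hJ] at h1
    exact absurd h1.symm hi
  · simpa only [Stat.faceS, if_neg hJ] using h1

theorem rgt_cof_faceS [Fintype ι] {β α : Stat ι} {J : Finset ι} (h : β.IsCof α)
    (hJ : J ⊆ β.cofJ α) : β.IsCof (α.faceS J) := by
  classical
  intro i hi
  have hiJ : i ∉ J := fun h' => hi (Stat.mem_cofJ.1 (hJ h')).1
  simp only [Stat.faceS, if_neg hiJ]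
  exact h i hi

theorem rgt_cofJ_faceS [Fintype ι] [DecidableEq ι] {β α : Stat ι} {J : Finset ι}
    (hJ : J ⊆ β.cofJ α) :
    β.cofJ α = β.cofJ (α.faceS J) ∪ J ∧ Disjoint (β.cofJ (α.faceS J)) J := by
  have key : ∀ i, i ∈ β.cofJ (α.faceS J) ↔ i ∈ β.cofJ α ∧ i ∉ J := by
    intro i
    rw [Stat.mem_cofJ, Stat.mem_cofJ]
    by_cases hi : i ∈ J
    · simp [Stat.faceS, hi]
    · simp [Stat.faceS, hi]
  refine ⟨?_, ?_⟩
  · ext i
    rw [Finset.mem_union, key]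
    constructor
    · intro h
      by_cases hi : i ∈ J
      · exact Or.inr hi
      · exact Or.inl ⟨h, hi⟩
    · rintro (h | h)
      · exact h.1
      · exact hJ h
  · rw [Finset.disjoint_left]
    intro i hi
    exact ((key i).1 hi).2

/-- the escaping directions of a status whose face is a coface of `β`. -/
theorem rgt_esc_subset [Fintype ι] {β α : Stat ι} {J : Finset ι} (h : β.IsCof (α.faceS J))
    (hJ : ∀ j ∈ J, α j ≠ 0) : J ⊆ β.cofJ α := by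
  classical
  intro j hj
  refine Stat.mem_cofJ.2 ⟨?_, hJ j hj⟩
  by_contra hb
  have h1 := h j hb
  simp only [Stat.faceS, if_pos hj] at h1
  exact hb h1.symm

variable [FiniteDimensional ℝ V] [FiniteDimensional ℝ W] [Fintype ι]
  [MeasurableSpace W] [BorelSpace W] {C : ShCtx V W ι} {β : Stat ι} {d' : ℕ}
  {ψ : E (d' + 1) → W} {r : ℝ}

/-! ### chart identities -/

theorem rgt_drop_add (hC : C.Ok) (hst : RgtStar C β d' ψ r) {u : E (d' + 1)}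
    (hu : u ∈ (Gmt.hrCyl r : Set (E (d' + 1)))) {w : W} (hw : C.F.dropS β.hitS w = 0) :
    C.F.dropS β.hitS (ψ u + w) = ψ u := by
  rw [C.F.dropS_add', hw, add_zero]
  exact C.F.dropS_eq_self fun j hj => hst.t0 hC hu (rgt_mem_hitS.1 hj)

theorem rgt_U_add (hC : C.Ok) (hst : RgtStar C β d' ψ r) {u : E (d' + 1)}
    (hu : u ∈ (Gmt.hrCyl r : Set (E (d' + 1)))) {w : W} (hw : C.F.dropS β.hitS w = 0) :
    rgtU C β ψ r (ψ u + w) = u := by
  unfold rgtU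
  rw [rgt_drop_add hC hst hu hw]
  exact if_leftInv hst.chart.par hu

theorem rgt_line_add (hC : C.Ok) (hst : RgtStar C β d' ψ r) {u : E (d' + 1)}
    (hu : u ∈ (Gmt.hrCyl r : Set (E (d' + 1)))) {w : W} (hw : C.F.dropS β.hitS w = 0) (s : ℝ) :
    rgtLine C β ψ r (ψ u + w) s = ψ (Gmt.gmtJoin (Gmt.gmtHor u) s) + w := by
  unfold rgtLine
  rw [rgt_U_add hC hst hu hw, rgt_drop_add hC hst hu hw, add_sub_cancel_left]

theorem rgt_a2_drop {J : Finset ι} (hJ : ∀ j ∈ J, β j = 0) (x : E (d' + J.card)) :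
    C.F.dropS β.hitS (rgtA2 C.F J d' x) = 0 := by
  rw [(rgt_split C.F J d').vec x]
  exact C.F.dropS_vec (fun j hj => rgt_mem_hitS.2 (hJ j hj)) _

theorem rgt_vec_drop {J : Finset ι} (hJ : ∀ j ∈ J, β j = 0) (s : ι → ℝ) :
    C.F.dropS β.hitS (C.F.vec J s) = 0 :=
  C.F.dropS_vec (fun j hj => rgt_mem_hitS.2 (hJ j hj)) s

theorem rgt_ps_U (hC : C.Ok) (hst : RgtStar C β d' ψ r) {J : Finset ι} (hJ : ∀ j ∈ J, β j = 0)
    {b : E (d' + J.card + 1)} (hb : b ∈ rgtDom (rgtA1 C.F J d') r) {w : W}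
    (hw : C.F.dropS β.hitS w = 0) :
    rgtU C β ψ r (rgtPs C.F J ψ b + w) =
      Gmt.gmtJoin (rgtA1 C.F J d' (Gmt.gmtHor b)) (Gmt.gmtVer b) := by
  have hu : Gmt.gmtJoin (rgtA1 C.F J d' (Gmt.gmtHor b)) (Gmt.gmtVer b) ∈
      (Gmt.hrCyl r : Set (E (d' + 1))) := by
    refine ⟨?_, ?_⟩
    · rw [Gmt.fl_hor_join]; exact hb.1
    · rw [Gmt.fl_ver_join]; exact hb.2
  have hw' : C.F.dropS β.hitS (rgtA2 C.F J d' (Gmt.gmtHor b) + w) = 0 := by
    rw [C.F.dropS_add', rgt_a2_drop hJ, hw, add_zero]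
  have h := rgt_U_add hC hst hu hw'
  rwa [← add_assoc] at h

theorem rgt_ps_line (hC : C.Ok) (hst : RgtStar C β d' ψ r) {J : Finset ι} (hJ : ∀ j ∈ J, β j = 0)
    {b : E (d' + J.card + 1)} (hb : b ∈ rgtDom (rgtA1 C.F J d') r) {w : W}
    (hw : C.F.dropS β.hitS w = 0) (s : ℝ) :
    rgtLine C β ψ r (rgtPs C.F J ψ b + w) s = rgtPs C.F J ψ (Gmt.gmtJoin (Gmt.gmtHor b) s) + w := by
  have hu : Gmt.gmtJoin (rgtA1 C.F J d' (Gmt.gmtHor b)) (Gmt.gmtVer b) ∈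
      (Gmt.hrCyl r : Set (E (d' + 1))) := by
    refine ⟨?_, ?_⟩
    · rw [Gmt.fl_hor_join]; exact hb.1
    · rw [Gmt.fl_ver_join]; exact hb.2
  have hw' : C.F.dropS β.hitS (rgtA2 C.F J d' (Gmt.gmtHor b) + w) = 0 := by
    rw [C.F.dropS_add', rgt_a2_drop hJ, hw, add_zero]
  have h := rgt_line_add hC hst hu hw' s
  rw [← add_assoc, Gmt.fl_hor_join, ← add_assoc] at h
  rw [rgtPs, rgt_psi_join]
  exact h

/-- `rgtG` is constant along the `s`-lines. -/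
theorem rgt_G_ps_ver (hC : C.Ok) (hst : RgtStar C β d' ψ r) {J : Finset ι}
    (hJ : ∀ j ∈ J, β j = 0) {b : E (d' + J.card + 1)} (hb : b ∈ rgtDom (rgtA1 C.F J d') r) {w : W}
    (hw : C.F.dropS β.hitS w = 0) :
    rgtG C β ψ r (rgtPs C.F J ψ b + w) =
      rgtG C β ψ r (rgtPs C.F J ψ (Gmt.gmtJoin (Gmt.gmtHor b) 0) + w) := by
  have hr : 0 < r := hst.chart.pos
  have hb0 : Gmt.gmtJoin (Gmt.gmtHor b) 0 ∈ rgtDom (rgtA1 C.F J d') r := by
    refine ⟨?_, ?_⟩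
    · rw [Gmt.fl_hor_join]; exact hb.1
    · rw [Gmt.fl_ver_join, abs_zero]; exact hr
  unfold rgtG
  have h : ∀ s, rgtLine C β ψ r (rgtPs C.F J ψ b + w) s =
      rgtLine C β ψ r (rgtPs C.F J ψ (Gmt.gmtJoin (Gmt.gmtHor b) 0) + w) s := by
    intro s
    rw [rgt_ps_line hC hst hJ hb hw, rgt_ps_line hC hst hJ hb0 hw, Gmt.fl_hor_join]
  simp only [h]

/-- the projection of the chart in some of its directions. -/
theorem rgt_ps_dropS (hC : C.Ok) (hst : RgtStar C β d' ψ r) {J J' : Finset ι}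
    (hJ : ∀ j ∈ J, β j = 0) (hJ' : J' ⊆ J) {b : E (d' + J.card + 1)}
    (hb : b ∈ rgtDom (rgtA1 C.F J d') r) :
    C.F.dropS J' (rgtPs C.F J ψ b) =
      rgtPs C.F J ψ b + -C.F.vec J' (fun j => C.F.t j (rgtA2 C.F J d' (Gmt.gmtHor b))) := by
  have hu : Gmt.gmtJoin (rgtA1 C.F J d' (Gmt.gmtHor b)) (Gmt.gmtVer b) ∈
      (Gmt.hrCyl r : Set (E (d' + 1))) := by
    refine ⟨?_, ?_⟩
    · rw [Gmt.fl_hor_join]; exact hb.1
    · rw [Gmt.fl_ver_join]; exact hb.2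
  rw [← C.F.sub_vec_t J' (rgtPs C.F J ψ b), sub_eq_add_neg]
  congr 2
  unfold Frame.vec
  refine Finset.sum_congr rfl fun j hj => ?_
  congr 1
  show C.F.t j (ψ _ + rgtA2 C.F J d' (Gmt.gmtHor b)) = _
  rw [map_add, hst.t0 hC hu (hJ j (hJ' hj)), zero_add]

/-- **the value of `rgtG` from the structure of the phases on the segment.** -/
theorem rgt_G_eq (hC : C.Ok) (hst : RgtStar C β d' ψ r) {u : E (d' + 1)}
    (hu : u ∈ (Gmt.hrCyl r : Set (E (d' + 1)))) {w : W} (hw : C.F.dropS β.hitS w = 0)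
    {α : Stat ι} {a : ℝ} (ha : |a| < r / 2)
    (hin : ∀ s : ℝ, |s| ≤ r / 2 →
      (ψ (Gmt.gmtJoin (Gmt.gmtHor u) s) + w ∈ ctIn (C.m α) (C.P.E α) (C.ph α) ↔ s < a))
    (hout : ∀ s : ℝ, |s| ≤ r / 2 →
      (ψ (Gmt.gmtJoin (Gmt.gmtHor u) s) + w ∈ ctOut (C.m α) (C.P.E α) (C.ph α) ↔ a < s)) :
    rgtG C β ψ r (ψ u + w) = a := by
  unfold rgtG
  simp only [rgt_line_add hC hst hu hw]
  refine rgt_sup_between ha (fun s hs hsa => ⟨hs, α, (hin s hs).2 hsa⟩) ?_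
  rintro s ⟨hs, α₁, h1⟩
  by_contra hlt
  have hlt' : a < s := not_le.1 hlt
  have h2 := (hout s hs).2 hlt'
  have e1 : α₁ = α := by
    by_contra hne
    exact Set.disjoint_left.1 (hC.inv.diag.disj _ _ hne) (ct_in_subset _ h1) (ct_out_subset _ h2)
  subst e1
  exact absurd ((hin s hs).1 h1) (not_lt.2 hlt'.le)

/-! ### parametrisations -/

theorem rgt_ps_param (hC : C.Ok) (hst : RgtStar C β d' ψ r) {J : Finset ι}
    (hJ : ∀ j ∈ J, β j = 0) :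
    IsParam (C.P.mE C.F β J) (rgtPs C.F J ψ) (rgtDom (rgtA1 C.F J d') r) :=
  rgt_psi_param hst.chart.par (fun x hx j hj => hC.inv.diag.t_hit β x hx j (hJ j hj))
    (rgt_split C.F J d')

theorem rgt_rg_subset_dom (F : Frame V W ι) (α : Stat ι) (J J'' : Finset ι) (d' : ℕ) {ρ r : ℝ}
    (T : ℝ) (h : ρ < r) : rgtRg F α J J'' d' ρ T ⊆ rgtDom (rgtA1 F J d') r := fun _ hb =>
  ⟨lt_trans hb.1.1 h, lt_trans hb.2 h⟩

theorem rgt_ps_t (hC : C.Ok) (hst : RgtStar C β d' ψ r) {J : Finset ι} (hJ : ∀ j ∈ J, β j = 0)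
    {b : E (d' + J.card + 1)} (hb : b ∈ rgtDom (rgtA1 C.F J d') r) {j : ι} (hj : j ∈ J) :
    C.F.t j (rgtPs C.F J ψ b) = C.F.t j (rgtA2 C.F J d' (Gmt.gmtHor b)) := by
  have hu : Gmt.gmtJoin (rgtA1 C.F J d' (Gmt.gmtHor b)) (Gmt.gmtVer b) ∈
      (Gmt.hrCyl r : Set (E (d' + 1))) := by
    refine ⟨?_, ?_⟩
    · rw [Gmt.fl_hor_join]; exact hb.1
    · rw [Gmt.fl_ver_join]; exact hb.2
  show C.F.t j (ψ _ + rgtA2 C.F J d' (Gmt.gmtHor b)) = _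
  rw [map_add, hst.t0 hC hu (hJ j hj), zero_add]

theorem rgt_ps_q (C : ShCtx V W ι) (ψ : E (d' + 1) → W) (J : Finset ι) (b : E (d' + J.card + 1)) :
    C.F.q (rgtPs C.F J ψ b) =
      C.F.q (ψ (Gmt.gmtJoin (rgtA1 C.F J d' (Gmt.gmtHor b)) (Gmt.gmtVer b))) := by
  show C.F.q (ψ _ + rgtA2 C.F J d' (Gmt.gmtHor b)) = _
  rw [map_add, (rgt_split C.F J d').vec, C.F.q_vec, add_zero]

theorem rgt_ps_dropJ (hC : C.Ok) (hst : RgtStar C β d' ψ r) {J : Finset ι}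
    (hJ : ∀ j ∈ J, β j = 0) {b : E (d' + J.card + 1)} (hb : b ∈ rgtDom (rgtA1 C.F J d') r) :
    C.F.dropS J (rgtPs C.F J ψ b) =
      ψ (Gmt.gmtJoin (rgtA1 C.F J d' (Gmt.gmtHor b)) (Gmt.gmtVer b)) := by
  have hu : Gmt.gmtJoin (rgtA1 C.F J d' (Gmt.gmtHor b)) (Gmt.gmtVer b) ∈
      (Gmt.hrCyl r : Set (E (d' + 1))) := by
    refine ⟨?_, ?_⟩
    · rw [Gmt.fl_hor_join]; exact hb.1
    · rw [Gmt.fl_ver_join]; exact hb.2
  exact rgt_psi_dropS (rgt_split C.F J d') fun j hj => hst.t0 hC hu (hJ j hj)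

/-- beyond a product threshold the chart parametrises the members at the ends of the cofaces. -/
theorem rgt_ps_param_mem (hC : C.Ok) (hst : RgtStar C β d' ψ r) {ρ T : ℝ} (hρ : ρ < r)
    (hT : ShThr C β (ψ '' rgtBox d' ρ) T) {α' : Stat ι} (hα' : β.IsCof α') {J' : Finset ι}
    (hJ' : J' ⊆ β.cofJ α') :
    IsParam (C.P.mE C.F (α'.faceS J') J') (rgtPs C.F (β.cofJ α') ψ)
      (rgtRg C.F (α'.faceS J') (β.cofJ α') (β.cofJ (α'.faceS J')) d' ρ T) := by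
  classical
  obtain ⟨U, hU, hUsub, hprod⟩ := hT.prod
  obtain ⟨hJe, hJd⟩ := rgt_cofJ_faceS hJ'
  have hcof : β.IsCof (α'.faceS J') := rgt_cof_faceS hα' hJ'
  have hJ0 : ∀ j ∈ β.cofJ α', β j = 0 := fun j hj => (Stat.mem_cofJ.1 hj).1
  have hsubJ : β.cofJ (α'.faceS J') ⊆ β.cofJ α' := by
    rw [hJe]; exact Finset.subset_union_left
  have h1 := if_mono (rgt_ps_param hC hst hJ0)
    (rgt_isOpen_rg C.F (α'.faceS J') (β.cofJ α') (β.cofJ (α'.faceS J')) d' ρ T)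
    (rgt_rg_subset_dom C.F _ _ _ d' T hρ)
  have hO : IsOpen ({z | C.F.q z ∈ U} ∩
      {z | ∀ j ∈ β.cofJ (α'.faceS J'), T < ((α'.faceS J') j : ℝ) * C.F.t j z} : Set W) := by
    refine (hU.preimage C.F.q.continuous).inter ?_
    have h : {z : W | ∀ j ∈ β.cofJ (α'.faceS J'), T < ((α'.faceS J') j : ℝ) * C.F.t j z} =
        ⋂ j ∈ β.cofJ (α'.faceS J'), {z | T < ((α'.faceS J') j : ℝ) * C.F.t j z} := by
      ext z
      simp
    rw [h]
    exact isOpen_biInter_finset fun j _ => isOpen_lt continuous_const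
      (continuous_const.mul (C.F.t j).continuous)
  refine rgt_param_switch hO ?_ h1 ?_
  · ext z
    refine and_congr_left fun hz => ?_
    have h2 := (hprod _ hcof (C.F.dropS J' z) (by rw [C.F.q_dropS]; exact hz.1) (fun j hj => by
      rw [C.F.t_dropS_notMem (Finset.disjoint_left.1 hJd hj)]
      exact hz.2 j hj)).1
    rw [C.F.dropS_union, ← hJe] at h2
    exact h2.symm
  · rintro _ ⟨b, hb, rfl⟩
    have hbd := rgt_rg_subset_dom C.F _ _ _ d' T hρ hb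
    refine ⟨?_, fun j hj => ?_⟩
    · show C.F.q _ ∈ U
      rw [rgt_ps_q]
      refine hUsub ⟨_, ⟨_, ⟨?_, ?_⟩, rfl⟩, rfl⟩
      · rw [Gmt.fl_hor_join]; exact hb.1.1.le
      · rw [Gmt.fl_ver_join]; exact hb.2.le
    · rw [rgt_ps_t hC hst hJ0 hbd (hsubJ hj)]
      exact hb.1.2 j hj

theorem rgt_ps_param_tail (hC : C.Ok) (hst : RgtStar C β d' ψ r) {ρ T : ℝ} (hρ : ρ < r)
    (hT : ShThr C β (ψ '' rgtBox d' ρ) T) {α : Stat ι} (hα : β.IsCof α) :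
    IsParam (C.P.E α) (rgtPs C.F (β.cofJ α) ψ) (rgtRg C.F α (β.cofJ α) (β.cofJ α) d' ρ T) := by
  have h := rgt_ps_param_mem hC hst hρ hT hα (Finset.empty_subset (β.cofJ α))
  rwa [Stat.faceS_empty, ct_mE_empty] at h

theorem rgt_ps_image_mem (hC : C.Ok) (hst : RgtStar C β d' ψ r) {ρ T : ℝ} (hρ : ρ < r)
    (hT : ShThr C β (ψ '' rgtBox d' ρ) T) {α' : Stat ι} (hα' : β.IsCof α') {J' : Finset ι}
    (hJ' : J' ⊆ β.cofJ α') :
    rgtPs C.F (β.cofJ α') ψ '' rgtRg C.F (α'.faceS J') (β.cofJ α') (β.cofJ (α'.faceS J')) d' ρ T =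
      {z | z ∈ C.P.mE C.F (α'.faceS J') J' ∧
        C.F.dropS J' z ∈ C.liftK β (ψ '' (Gmt.hrCyl ρ : Set (E (d' + 1)))) T} := by
  classical
  obtain ⟨hJe, hJd⟩ := rgt_cofJ_faceS hJ'
  have hcof : β.IsCof (α'.faceS J') := rgt_cof_faceS hα' hJ'
  have hJ0 : ∀ j ∈ β.cofJ α', β j = 0 := fun j hj => (Stat.mem_cofJ.1 hj).1
  have hsubJ : β.cofJ (α'.faceS J') ⊆ β.cofJ α' := by
    rw [hJe]; exact Finset.subset_union_left
  have hpar := rgt_ps_param_mem hC hst hρ hT hα' hJ'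
  apply Subset.antisymm
  · rintro _ ⟨b, hb, rfl⟩
    have hbd := rgt_rg_subset_dom C.F _ _ _ d' T hρ hb
    have hm : rgtPs C.F (β.cofJ α') ψ b ∈ C.P.mE C.F (α'.faceS J') J' := if_mem hpar hb
    refine ⟨hm, (sh_mem_liftK hC hm).2 ⟨hcof, ?_, fun j hj => ?_⟩⟩
    · rw [C.F.dropS_union, ← hJe, rgt_ps_dropJ hC hst hJ0 hbd]
      refine ⟨_, ⟨?_, ?_⟩, rfl⟩
      · rw [Gmt.fl_hor_join]; exact hb.1.1
      · rw [Gmt.fl_ver_join]; exact hb.2
    · rw [C.F.t_dropS_notMem (Finset.disjoint_left.1 hJd hj),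
        rgt_ps_t hC hst hJ0 hbd (hsubJ hj)]
      exact hb.1.2 j hj
  · rintro z ⟨hm, hl⟩
    obtain ⟨-, ⟨u, hu, hue⟩, htail⟩ := (sh_mem_liftK hC hm).1 hl
    rw [C.F.dropS_union, ← hJe] at hue
    obtain ⟨x, hx1, hx2⟩ := (rgt_split C.F (β.cofJ α') d').surj (Gmt.gmtHor u)
      (fun j => C.F.t j z)
    refine ⟨Gmt.gmtJoin x (Gmt.gmtVer u), ⟨⟨?_, fun j hj => ?_⟩, ?_⟩, ?_⟩
    · rw [Gmt.fl_hor_join, hx1]; exact hu.1
    · rw [Gmt.fl_hor_join, hx2, C.F.t_vec_mem (hsubJ hj)]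
      have := htail j hj
      rwa [C.F.t_dropS_notMem (Finset.disjoint_left.1 hJd hj)] at this
    · rw [Gmt.fl_ver_join]; exact hu.2
    · rw [rgtPs, rgt_psi_join, hx1, hx2, Gmt.fl_join_hor_ver, hue]
      exact C.F.dropS_add_vec_self _ z

theorem rgt_ps_image (hC : C.Ok) (hst : RgtStar C β d' ψ r) {ρ T : ℝ} (hρ : ρ < r)
    (hT : ShThr C β (ψ '' rgtBox d' ρ) T) {α : Stat ι} (hα : β.IsCof α) :
    rgtPs C.F (β.cofJ α) ψ '' rgtRg C.F α (β.cofJ α) (β.cofJ α) d' ρ T =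
      C.P.E α ∩ C.liftK β (ψ '' (Gmt.hrCyl ρ : Set (E (d' + 1)))) T := by
  have h := rgt_ps_image_mem hC hst hρ hT hα (Finset.empty_subset (β.cofJ α))
  rw [Stat.faceS_empty, ct_mE_empty] at h
  rw [h]
  ext z
  simp only [C.F.dropS_empty]
  rfl

end Claimed.Agent.R315
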