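import Claimed.Agent.R315.Rg.TrPr
import Claimed.Agent.R315.Rg.TrGrB

/-!
# Row 315, package Rg-TR, file `TrWin.lean` = PACKAGE L-RG-TrWin: GRAPH CONVERGENCE IN THE WINDOWS OF A STAGE (`rgt_seq`)   (architect: helper190)

`rgt_win_pt` (proved): in a window `O` (`CutEnds`) the phases of the translated set `ctWin .. ∩ O` in the member are the translates of the phases of `E α`.
`rgt_seq`: `CtSeq.graph_conv` for the sequence of `CutOK.ends`, conclusion in `E α`: along the translated map `b ↦ Ψ b + vec J (s k)`.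

PLAN for `rgt_seq`.  `x₀ = Ψ (gmtJoin c' 0)` lies in the member (`if_mem hΨ`, `hseg c' _ 0`), so `E (α.faceS J) ≠ ∅`; `rgt_mdim` ⇒ `hmd : mdim n (α.faceS J) J = C.m α = N + 1`.
`obtain ⟨O, hO1, H⟩ := hC.cut.ends α J hs.1 s hs.2`; `rw [hmd, hN] at H`.   `H.graph_conv h1 hΨ hρ₀ hseg hγ'` ⇒ `ρ₁ ≤ ρ₀`, `γ k`.  `ρ = ρ₁ / 2`.
`K = (fun p : E N × ℝ => Ψ (gmtJoin p.1 p.2)) '' (closedBall c' ρ ×ˢ Icc (-r) r)` is compact (`if_continuousOn hΨ`, `Gmt.fl_continuous_join`, `hseg`), contained in the member: `H.exh K` ⇒ eventually `K ⊆ O k`.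
For such `k`: `RgtGr M (ctWin .. (s k) ∩ O k) Ψ r (γ k) (ball c' ρ)` (`RgtGr.mono`) is turned into `RgtGr (E α) (ph α) (Ψ · + vec J (s k)) r (γ k) (ball c' ρ)` by `rgt_win_pt hC α J (s k) (H.opn k) H.geo.mfd (hO1 k)` at `z = Ψ (gmtJoin x s) ∈ K ⊆ O k` (dimensions: `hN`).
`GmtSmoothConv` on the smaller ball: the definition is monotone in the set.
`rgt_bd_escape`: copy of `sh_sing_escape` (`Sh/Risk.lean`) with `ctBd`, `CtSeq.bd_lim`, `rgt_win_pt`, `rgt_cyl_sets`.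
-/

set_option autoImplicit false
set_option linter.unusedSectionVars false
open scoped ContDiff ENNReal Topology
open MeasureTheory Claims.C0499 Set Filter

namespace Claimed.Agent.R315

variable {V W : Type} [NormedAddCommGroup V] [NormedSpace ℝ V] [NormedAddCommGroup W]
  [NormedSpace ℝ W] {ι : Type} [FiniteDimensional ℝ V] [FiniteDimensional ℝ W] [Fintype ι]
  [MeasurableSpace W] [BorelSpace W] {C : ShCtx V W ι}

/-- dimension of the member at the end `J` of `E α`. -/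
theorem rgt_mdim (hC : C.Ok) {α : Stat ι} {J : Finset ι} (hJ : ∀ j ∈ J, α j ≠ 0)
    (hne : (C.P.E (α.faceS J)).Nonempty) : mdim C.B.n (α.faceS J) J = C.m α := by
  have h1 := hC.dim _ hne
  have h2 : hits (α.faceS J) = hits α + J.card := sh_hits_faceS α J hJ
  unfold mdim ShCtx.m
  omega

/-- **phases in a window.** -/
theorem rgt_win_pt (hC : C.Ok) (α : Stat ι) (J : Finset ι) (σ : ι → ℝ) {O : Set W}
    (hO : IsOpen O) (hM : IsMfd (C.m α) (C.P.mE C.F (α.faceS J) J))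
    (hO1 : C.P.mE C.F (α.faceS J) J ∩ O = {z | z + C.F.vec J σ ∈ C.P.E α} ∩ O) {z : W}
    (hz : z ∈ O) :
    (z ∈ ctIn (C.m α) (C.P.mE C.F (α.faceS J) J) (ctWin C.F C.P C.A α J σ ∩ O) ↔
      z + C.F.vec J σ ∈ ctIn (C.m α) (C.P.E α) (C.ph α)) ∧
    (z ∈ ctOut (C.m α) (C.P.mE C.F (α.faceS J) J) (ctWin C.F C.P C.A α J σ ∩ O) ↔
      z + C.F.vec J σ ∈ ctOut (C.m α) (C.P.E α) (C.ph α)) ∧
    (z ∈ ctBd (C.m α) (C.P.mE C.F (α.faceS J) J) (ctWin C.F C.P C.A α J σ ∩ O) ↔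
      z + C.F.vec J σ ∈ ctBd (C.m α) (C.P.E α) (C.ph α)) := by
  have hD := hC.inv.diag
  set v := C.F.vec J σ with hv
  have e1 : {w | w + v ∈ C.P.E α} = ctTr (-v) (C.P.E α) := by
    ext w
    simp [ctTr]
  have e2 : ctWin C.F C.P C.A α J σ = ctTr (-v) (C.ph α) := by
    ext w
    simp [ctWin, ctTr, ShCtx.ph, hv]
  have hG : CtGeo (C.m α) (C.P.E α) C.P.h C.P.dr := ⟨hD.mfd α, hC.inv.met.met α, hC.inv.dr_sc.1 α⟩
  have hMt : IsMfd (C.m α) (ctTr (-v) (C.P.E α)) := (hG.translate (-v)).mfd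
  have T := ct_translate_sets (d := C.m α) (M := C.P.E α) (-v) (C.ph α)
  have I1 := ct_bd_inter hMt (ctTr (-v) (C.ph α)) hO
  have I2 := ct_bd_inter hM (ctWin C.F C.P C.A α J σ ∩ O) hO
  rw [inter_assoc, inter_self, hO1, e1, e2] at I2
  rw [e2]
  have key : ∀ (S₁ S₂ S₃ S₄ : Set W), S₁ = S₂ ∩ O → S₁ = S₃ ∩ O → S₃ = ctTr (-v) S₄ →
      (z ∈ S₂ ↔ z + v ∈ S₄) := by
    intro S₁ S₂ S₃ S₄ h1 h2 h3
    have a1 : z ∈ S₂ ↔ z ∈ S₁ := by rw [h1]; exact ⟨fun h => ⟨h, hz⟩, fun h => h.1⟩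
    have a2 : z ∈ S₁ ↔ z ∈ S₃ := by rw [h2]; exact ⟨fun h => h.1, fun h => ⟨h, hz⟩⟩
    rw [a1, a2, h3]
    show z - -v ∈ S₄ ↔ _
    rw [sub_neg_eq_add]
  exact ⟨key _ _ _ _ I2.2.2.2.1 I1.2.2.2.1 T.2.2.2.1, key _ _ _ _ I2.2.2.2.2 I1.2.2.2.2 T.2.2.2.2,
    key _ _ _ _ I2.1 I1.1 T.1⟩

/-- **graph convergence at the ends of a stage.** -/
theorem rgt_seq (hC : C.Ok) {α : Stat ι} {J : Finset ι} {s : ℕ → ι → ℝ} (hs : RgtEsc α J s)
    {N : ℕ} (hN : C.m α = N + 1) (h1 : 1 ≤ N) {Ψ : E (N + 1) → W} {U : Set (E (N + 1))}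
    (hΨ : IsParam (C.P.mE C.F (α.faceS J) J) Ψ U) {c' : E N} {r ρ₀ : ℝ} (hρ₀ : 0 < ρ₀)
    (hseg : ∀ x ∈ Metric.ball c' ρ₀, ∀ s : ℝ, |s| ≤ r → Gmt.gmtJoin x s ∈ U) {γ' : E N → ℝ}
    (hγ' : RgtGr (C.P.mE C.F (α.faceS J) J) (C.F.cyl J (C.ph (α.faceS J))) Ψ r γ'
      (Metric.ball c' ρ₀)) :
    ∃ ρ > 0, ρ ≤ ρ₀ ∧ ∃ γ : ℕ → E N → ℝ, Gmt.GmtSmoothConv (Metric.ball c' ρ) γ γ' ∧
      ∀ᶠ k in atTop, RgtGr (C.P.E α) (C.ph α) (fun b => Ψ b + C.F.vec J (s k)) r (γ k)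
        (Metric.ball c' ρ) := by
  have hc' : c' ∈ Metric.ball c' ρ₀ := Metric.mem_ball_self hρ₀
  have hr : 0 < r := lt_of_le_of_lt (abs_nonneg _) (hγ'.2 c' hc').1
  have hx₀ : Ψ (Gmt.gmtJoin c' 0) ∈ C.P.mE C.F (α.faceS J) J :=
    if_mem hΨ (hseg c' hc' 0 (by rw [abs_zero]; exact hr.le))
  have hmd : mdim C.B.n (α.faceS J) J = C.m α := rgt_mdim hC hs.1 ⟨_, hx₀⟩
  obtain ⟨O, hO1, H⟩ := hC.cut.ends α J hs.1 s hs.2
  rw [hmd, hN] at H
  obtain ⟨ρ₁, hρ₁, hle, γ, hconv, hev⟩ := H.graph_conv h1 hΨ hρ₀ hseg hγ'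
  have hρ : 0 < ρ₁ / 2 := by positivity
  have hcb : Metric.closedBall c' (ρ₁ / 2) ⊆ Metric.ball c' ρ₁ :=
    Metric.closedBall_subset_ball (by linarith)
  have hbb : Metric.ball c' (ρ₁ / 2) ⊆ Metric.ball c' ρ₁ := Metric.ball_subset_closedBall.trans hcb
  have hb0 : Metric.ball c' ρ₁ ⊆ Metric.ball c' ρ₀ := Metric.ball_subset_ball hle
  have hK₀ : IsCompact (Metric.closedBall c' (ρ₁ / 2) ×ˢ Icc (-r) r : Set (E N × ℝ)) :=
    (isCompact_closedBall _ _).prod isCompact_Icc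
  have hmaps : ∀ q ∈ (Metric.closedBall c' (ρ₁ / 2) ×ˢ Icc (-r) r : Set (E N × ℝ)),
      Gmt.gmtJoin q.1 q.2 ∈ U := fun q hq => hseg q.1 (hb0 (hcb hq.1)) q.2 (abs_le.2 hq.2)
  have hF : ContinuousOn (fun q : E N × ℝ => Ψ (Gmt.gmtJoin q.1 q.2))
      (Metric.closedBall c' (ρ₁ / 2) ×ˢ Icc (-r) r : Set (E N × ℝ)) :=
    (if_continuousOn hΨ).comp Gmt.fl_continuous_join.continuousOn hmaps
  have hK := hK₀.image_of_continuousOn hF
  have hKsub : (fun q : E N × ℝ => Ψ (Gmt.gmtJoin q.1 q.2)) ''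
      (Metric.closedBall c' (ρ₁ / 2) ×ˢ Icc (-r) r : Set (E N × ℝ)) ⊆
        C.P.mE C.F (α.faceS J) J := by
    rintro _ ⟨q, hq, rfl⟩
    exact if_mem hΨ (hmaps q hq)
  have hMf : IsMfd (C.m α) (C.P.mE C.F (α.faceS J) J) := by
    rw [hN]
    exact H.geo.mfd
  refine ⟨ρ₁ / 2, hρ, by linarith, γ, fun K' hK' hK'sub k => hconv K' hK' (hK'sub.trans hbb) k, ?_⟩
  filter_upwards [hev, H.exh _ hK hKsub] with k hk hkO
  refine ⟨hk.1.mono hbb, fun x hx => ⟨(hk.2 x (hbb hx)).1, fun σ hσ => ?_⟩⟩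
  have hzO : Ψ (Gmt.gmtJoin x σ) ∈ O k :=
    hkO ⟨(x, σ), ⟨Metric.ball_subset_closedBall hx, abs_le.1 hσ⟩, rfl⟩
  have hw := rgt_win_pt hC α J (s k) (H.opn k) hMf (hO1 k) hzO
  rw [hN] at hw
  have hg := (hk.2 x (hbb hx)).2 σ hσ
  exact ⟨hw.1.symm.trans hg.1, hw.2.1.symm.trans hg.2⟩

/-- boundary points which escape in the tails `J` accumulate at boundary points of the face. -/
theorem rgt_bd_escape (hC : C.Ok) (α : Stat ι) (J : Finset ι) (hJ : ∀ j ∈ J, α j ≠ 0)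
    (z : ℕ → W) (hz : ∀ k, z k ∈ ctBd (C.m α) (C.P.E α) (C.ph α))
    (hesc : ∀ j ∈ J, Tendsto (fun k => (α j : ℝ) * C.F.t j (z k)) atTop atTop) {y : W}
    (hy : Tendsto (fun k => C.F.dropS J (z k)) atTop (𝓝 y)) :
    y ∈ ctBd (C.m (α.faceS J)) (C.P.E (α.faceS J)) (C.ph (α.faceS J)) := by
  classical
  have hD := hC.inv.diag
  have hzE : ∀ k, z k ∈ C.P.E α := fun k => ct_bd_subset _ (hz k)
  have hxz : ∀ k, C.F.dropS J (z k) + C.F.vec J (fun j => C.F.t j (z k)) = z k := by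
    intro k
    simp [Frame.dropS, Frame.vec]
  have hidem : ∀ w, C.F.dropS J (C.F.dropS J w) = C.F.dropS J w := by
    intro w
    conv_lhs => rw [Frame.dropS]
    rw [Finset.sum_eq_zero (fun j hj => by rw [C.F.t_dropS_mem hj, zero_smul]), sub_zero]
  -- the projections lie in the face eventually
  have hqc : IsCompact (insert (C.F.q y) (Set.range fun k => C.F.q (C.F.dropS J (z k)))) :=
    ((C.F.q.continuous.tendsto y).comp hy).isCompact_insert_range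
  obtain ⟨R1, _, hR1⟩ := sh_unif_thr hD hqc
  have hev1 : ∀ᶠ k in atTop, C.F.dropS J (z k) ∈ C.P.E (α.faceS J) := by
    have : ∀ᶠ k in atTop, ∀ i ∈ J, R1 < (α i : ℝ) * C.F.t i (z k) := by
      rw [Filter.eventually_all_finset]
      exact fun i hi => (hesc i hi).eventually_gt_atTop _
    filter_upwards [this] with k hk
    refine (hR1 J α (z k) ?_ fun i hi => ⟨hJ i hi, hk i hi⟩).1 (hzE k)
    rw [← C.F.q_dropS J (z k)]
    exact Set.mem_insert_of_mem _ ⟨k, rfl⟩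
  have hyE : y ∈ C.P.E (α.faceS J) := (hD.closed _).mem_of_tendsto hy hev1
  have hyy : C.F.dropS J y = y :=
    tendsto_nhds_unique ((((C.F.continuous_dropS J).tendsto y).comp hy).congr fun k => hidem (z k)) hy
  have hmd : mdim C.B.n (α.faceS J) J = C.m α := rgt_mdim hC hJ ⟨y, hyE⟩
  -- the ends
  obtain ⟨O, hO1, H⟩ := hC.cut.ends α J hJ (fun k j => C.F.t j (z k)) hesc
  rw [hmd] at H
  obtain ⟨k0, hk0⟩ := eventually_atTop.1 hev1
  have hK' : IsCompact (insert y (Set.range fun k => C.F.dropS J (z (k + k0)))) :=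
    (hy.comp (tendsto_add_atTop_nat k0)).isCompact_insert_range
  have hsub : insert y (Set.range fun k => C.F.dropS J (z (k + k0))) ⊆ C.P.mE C.F (α.faceS J) J := by
    rintro w (rfl | ⟨k, rfl⟩)
    · show C.F.dropS J w ∈ C.P.E (α.faceS J)
      rw [hyy]
      exact hyE
    · show C.F.dropS J (C.F.dropS J (z (k + k0))) ∈ C.P.E (α.faceS J)
      rw [hidem]
      exact hk0 _ (Nat.le_add_left _ _)
  have hxO : ∀ᶠ k in atTop, C.F.dropS J (z k) ∈ O k := by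
    filter_upwards [H.exh _ hK' hsub, eventually_ge_atTop k0] with k h1 h2
    exact h1 (Set.mem_insert_of_mem _ ⟨k - k0, by simp only [Nat.sub_add_cancel h2]⟩)
  have hbd : ∀ k, C.F.dropS J (z k) ∈ O k → C.F.dropS J (z k) ∈
      ctBd (C.m α) (C.P.mE C.F (α.faceS J) J)
        (ctWin C.F C.P C.A α J (fun j => C.F.t j (z k)) ∩ O k) := by
    intro k hk
    refine (rgt_win_pt hC α J _ (H.opn k) H.geo.mfd (hO1 k) hk).2.2.2 ?_
    rw [hxz]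
    exact hz k
  have hlim := H.bd_lim (x := fun k => C.F.dropS J (z k)) (x' := y)
    (by filter_upwards [hxO] with k hk using ⟨hbd k hk, hk⟩) hy
  rw [← hmd, (rgt_cyl_sets hC (α.faceS J) J (fun j hj => by simp [Stat.faceS, hj])
    (C.A ∩ C.P.E (α.faceS J))).1] at hlim
  have h4 : C.F.dropS J y ∈
      ctBd (C.B.n - hits (α.faceS J)) (C.P.E (α.faceS J)) (C.A ∩ C.P.E (α.faceS J)) := hlim
  rw [hyy] at h4
  exact h4

end Claimed.Agent.R315
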