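import Claimed.Agent.R315.Rg.TrLfA
import Claimed.Agent.R315.Rg.TrWin

/-!
# Row 315, package Rg-TR, file `TrLfB.lean` = PACKAGE L-RG-TrLfB: THE GRAPH THRESHOLD OF A STAR (`rgt_thr_exists`)   (architect: helper190)

Beyond a threshold `T` the true phase of every coface `α` of `β` is, in the product chart `Ψ = rgtPs C.F (β.cofJ α) ψ`, the subgraph of a smooth function along the full segments `|s| ≤ r/2`; the function is `x ↦ rgtG (Ψ (x, 0))`.

PLAN.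
* `rgt_split_sec`: `S` = continuous linear left inverse of `Λ x = (a₁ x, a₂ x)` (`LinearMap.exists_leftInverse_of_injective`, `LinearMap.toContinuousLinearMap`; injective by `hsp.inj`); `σ w = S (w, 0)`; by `hsp.surj w 0` (`Frame.vec J 0 = 0`) `(w, 0) = Λ x`, so `σ w = x`.
* `rgt_thr_loc`, by contradiction.  `J = β.cofJ α`, `a₁, a₂` canonical, `hsp = rgt_split C.F J d'`, `σ` from `rgt_split_sec`.  If no `T` works: for every `k : ℕ` a point `c k` with `‖a₁ (c k)‖ ≤ r/2`, `k ≤ α_j t_j (a₂ (c k))` (`j ∈ J`) and NO `(ρ, γ)` (`push_neg`, `choose`).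
  `a₁ (c k)` lies in the compact `closedBall 0 (r/2)`: subsequence `φ` with `a₁ (c (φ k)) → w'`, `‖w'‖ ≤ r/2` (`IsCompact.tendsto_subseq`).  `x k = σ (a₁ (c (φ k))) → c' = σ w'`, `v k = c (φ k) - x k`: `a₁ (v k) = 0`, `a₂ (v k) = a₂ (c (φ k))`.
  `s k j = C.F.t j (a₂ (c (φ k)))`: `RgtEsc α J s` (`Stat.mem_cofJ`; `tendsto_atTop_mono` with `φ k ≥ k`: `StrictMono.id_le`), `C.F.vec J (s k) = a₂ (v k)` (`hsp.vec`).
  Apply `rgt_seq hC hs (rgt_cof_dim hC hst hα) _ hΨ hρ₀ hseg hγ'` with `α.faceS J = β` (`hα.faceS`; `rw` it in the statement of `rgt_seq` or `have := hα.faceS; ... this ▸`), `hΨ = rgt_ps_param hC hst (J hit entries of β: Stat.mem_cofJ)` on `rgtDom a₁ r`, centre `c'` (`‖a₁ c'‖ = ‖w'‖ ≤ r/2 < r`),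
  `ρ₀` with `ball c' ρ₀ ⊆ {x | ‖a₁ x‖ < r}` (open), segments `|s| ≤ r/2 < r`, `γ' = 0`: `(rgt_psi_gr0 hC hst _ (half_pos) (half_lt_self)).mono`.  `1 ≤ d' + J.card` by `hst.one_le`.
  ⇒ `ρ`, `γ k`, eventually `RgtGr (E α) (ph α) (Ψ · + vec J (s k)) (r/2) (γ k) (ball c' ρ)`.  `Ψ b + a₂ (v k) = Ψ (b + gmtJoin (v k) 0)` (`rgt_psi_add`); `RgtGr.translate (v k)` ⇒ `RgtGr (E α) (ph α) Ψ (r/2) (γ k (· - v k)) {x | x - v k ∈ ball c' ρ}`.
  Eventually `x k ∈ ball c' ρ`, i.e. `c (φ k)` lies in this open set: a ball around it too (`Metric.isOpen_iff`), `RgtGr.mono`: contradiction with the choice of `c (φ k)`.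
* `rgt_thr_exists`.  `T_α` from `rgt_thr_loc` for the cofaces (`0` otherwise); `Stat ι` is finite: `T₁ ≥ T0, T_α` (`(Set.finite_range _).bddAbove`); `sh_thr_exists C hC β (compact image of rgtBox (3r/4): rgt_box_compact, if_continuousOn, rgt_box_subset) (⊆ E β: if_mem) T₁` ⇒ `T ≥ T₁`.
  For a coface `α`: `rgt_gr_glue` on `B = rgtBs .. (r/2) T` ⇒ `RgtGr .. (rgtSup ..) B`; `RgtGr.congr`: for `x ∈ B`: `rgtG (Ψ (x,0)) = rgtSup .. x` by `rgt_G_eq hC hst (u := gmtJoin (a₁ x) 0) (w := a₂ x) (rgt_a2_drop ..)` with the clauses of `RgtGr` at `x` (`rgt_psi_join`, `fl_hor_join`; dimension `rgt_cof_dim`).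
-/

set_option autoImplicit false
set_option linter.unusedSectionVars false
open scoped ContDiff ENNReal Topology
open MeasureTheory Claims.C0499 Set Filter

namespace Claimed.Agent.R315

variable {V W : Type} [NormedAddCommGroup V] [NormedSpace ℝ V] [NormedAddCommGroup W]
  [NormedSpace ℝ W] {ι : Type}

/-- a linear section of `a₁` in the kernel of `a₂`. -/
theorem rgt_split_sec [FiniteDimensional ℝ W] {F : Frame V W ι} {J : Finset ι} {d' N : ℕ}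
    {a₁ : E N →L[ℝ] E d'} {a₂ : E N →L[ℝ] W} (hsp : RgtSplit F J a₁ a₂) :
    ∃ σ : E d' →L[ℝ] E N, ∀ w, a₁ (σ w) = w ∧ a₂ (σ w) = 0 := by
  have hinj : Function.Injective (a₁.prod a₂) := (injective_iff_map_eq_zero _).2 fun x hx =>
    hsp.inj x (congrArg Prod.fst hx) (congrArg Prod.snd hx)
  obtain ⟨S, hS⟩ := ContinuousLinearMap.HasLeftInverse.of_injective_of_finiteDimensional hinj
  refine ⟨S.comp (ContinuousLinearMap.inl ℝ (E d') W), fun w => ?_⟩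
  obtain ⟨x, hx1, hx2⟩ := hsp.surj w 0
  have hv : F.vec J 0 = 0 := by simp [Frame.vec]
  have e : S.comp (ContinuousLinearMap.inl ℝ (E d') W) w = x := by
    have h1 : (a₁.prod a₂) x = (w, 0) := by
      show (a₁ x, a₂ x) = (w, 0)
      rw [hx1, hx2, hv]
    show S (w, 0) = x
    rw [← h1]
    exact hS x
  rw [e]
  exact ⟨hx1, hx2.trans hv⟩

/-- **`T` is a graph threshold of the star.** -/
def RgtThr [Fintype ι] (C : ShCtx V W ι) (β : Stat ι) {d' : ℕ} (ψ : E (d' + 1) → W) (r T : ℝ) :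
    Prop :=
  ShThr C β (ψ '' rgtBox d' (3 * r / 4)) T ∧
  ∀ α, β.IsCof α → RgtGr (C.P.E α) (C.ph α) (rgtPs C.F (β.cofJ α) ψ) (r / 2)
    (fun x => rgtG C β ψ r (rgtPs C.F (β.cofJ α) ψ (Gmt.gmtJoin x 0)))
    (rgtBs C.F α (β.cofJ α) (β.cofJ α) d' (r / 2) T)

variable [FiniteDimensional ℝ V] [FiniteDimensional ℝ W] [Fintype ι]
  [MeasurableSpace W] [BorelSpace W] {C : ShCtx V W ι} {β : Stat ι} {d' : ℕ}
  {ψ : E (d' + 1) → W} {r : ℝ}

/-- far out in the tails the phase is locally a graph along the full segments. -/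
theorem rgt_thr_loc (hC : C.Ok) (hst : RgtStar C β d' ψ r) {α : Stat ι} (hα : β.IsCof α) :
    ∃ T : ℝ, ∀ c : E (d' + (β.cofJ α).card), ‖rgtA1 C.F (β.cofJ α) d' c‖ ≤ r / 2 →
      (∀ j ∈ β.cofJ α, T ≤ (α j : ℝ) * C.F.t j (rgtA2 C.F (β.cofJ α) d' c)) →
      ∃ ρ > 0, ∃ γ : E (d' + (β.cofJ α).card) → ℝ,
        RgtGr (C.P.E α) (C.ph α) (rgtPs C.F (β.cofJ α) ψ) (r / 2) γ (Metric.ball c ρ) := by
  classical
  have hr : 0 < r := hst.chart.pos
  have hJ0 : ∀ j ∈ β.cofJ α, β j = 0 := fun j hj => (Stat.mem_cofJ.1 hj).1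
  have hJα : ∀ j ∈ β.cofJ α, α j ≠ 0 := fun j hj => (Stat.mem_cofJ.1 hj).2
  have hface : α.faceS (β.cofJ α) = β := hα.faceS
  set J := β.cofJ α with hJdef
  have hsp := rgt_split C.F J d'
  set a₁ := rgtA1 C.F J d' with ha₁
  set a₂ := rgtA2 C.F J d' with ha₂
  obtain ⟨σ, hσ⟩ := rgt_split_sec hsp
  by_contra hcon
  push Not at hcon
  choose c hc1 hc2 hc3 using fun k : ℕ => hcon (k : ℝ)
  obtain ⟨w', hw', φ, hφ, hlim⟩ := (isCompact_closedBall (0 : E d') (r / 2)).tendsto_subseq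
    (fun k => mem_closedBall_zero_iff.2 (hc1 k))
  have hw'n : ‖w'‖ ≤ r / 2 := mem_closedBall_zero_iff.1 hw'
  set x : ℕ → E (d' + J.card) := fun k => σ (a₁ (c (φ k))) with hx
  set c' : E (d' + J.card) := σ w' with hc'
  have hxlim : Tendsto x atTop (𝓝 c') := (σ.continuous.tendsto w').comp hlim
  set v : ℕ → E (d' + J.card) := fun k => c (φ k) - x k with hv
  have hv1 : ∀ k, a₁ (v k) = 0 := fun k => by
    show a₁ (c (φ k) - σ (a₁ (c (φ k)))) = 0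
    rw [map_sub, (hσ _).1, sub_self]
  have hv2 : ∀ k, a₂ (v k) = a₂ (c (φ k)) := fun k => by
    show a₂ (c (φ k) - σ (a₁ (c (φ k)))) = _
    rw [map_sub, (hσ _).2, sub_zero]
  set s : ℕ → ι → ℝ := fun k j => C.F.t j (a₂ (c (φ k))) with hs
  have hesc : RgtEsc α J s := by
    refine ⟨hJα, fun j hj => ?_⟩
    refine tendsto_atTop_mono (fun k => ?_) tendsto_natCast_atTop_atTop
    have h1 : ((k : ℕ) : ℝ) ≤ (φ k : ℝ) := by exact_mod_cast hφ.id_le k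
    exact h1.trans (hc2 (φ k) j hj)
  have hvec : ∀ k, C.F.vec J (s k) = a₂ (v k) := fun k => by
    rw [hv2]
    exact (hsp.vec (c (φ k))).symm
  have hc'n : ‖a₁ c'‖ < r := by
    rw [hc', (hσ w').1]
    linarith
  have hopen : IsOpen {y : E (d' + J.card) | ‖a₁ y‖ < r} :=
    isOpen_lt a₁.continuous.norm continuous_const
  obtain ⟨ρ₀, hρ₀, hsub₀⟩ := Metric.isOpen_iff.1 hopen c' hc'n
  have hΨ : IsParam (C.P.mE C.F (α.faceS J) J) (rgtPs C.F J ψ) (rgtDom a₁ r) := by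
    rw [hface]
    exact rgt_ps_param hC hst hJ0
  have hseg : ∀ y ∈ Metric.ball c' ρ₀, ∀ τ : ℝ, |τ| ≤ r / 2 → Gmt.gmtJoin y τ ∈ rgtDom a₁ r := by
    intro y hy τ hτ
    refine ⟨?_, ?_⟩
    · rw [Gmt.fl_hor_join]
      exact hsub₀ hy
    · rw [Gmt.fl_ver_join]
      linarith
  have hγ' : RgtGr (C.P.mE C.F (α.faceS J) J) (C.F.cyl J (C.ph (α.faceS J))) (rgtPs C.F J ψ)
      (r / 2) (fun _ => 0) (Metric.ball c' ρ₀) := by
    rw [hface]
    exact (rgt_psi_gr0 hC hst hJ0 (half_pos hr) (half_lt_self hr)).mono hsub₀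
  obtain ⟨ρ, hρ, -, γ, -, hev⟩ := rgt_seq hC hesc (rgt_cof_dim hC hst hα)
    (le_trans hst.one_le (Nat.le_add_right _ _)) hΨ hρ₀ hseg hγ'
  obtain ⟨k, hk1, hk2⟩ := (hev.and (hxlim.eventually (Metric.ball_mem_nhds c' hρ))).exists
  have e : (fun b => rgtPs C.F J ψ b + C.F.vec J (s k)) =
      fun b => rgtPs C.F J ψ (b + Gmt.gmtJoin (v k) 0) := by
    funext b
    rw [hvec k]
    exact (rgt_psi_add ψ a₂ (hv1 k) b).symm
  rw [e] at hk1
  have hk3 := RgtGr.translate (v k) hk1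
  have hopen2 : IsOpen {y : E (d' + J.card) | y - v k ∈ Metric.ball c' ρ} :=
    Metric.isOpen_ball.preimage (continuous_id.sub continuous_const)
  have hmem : c (φ k) ∈ {y : E (d' + J.card) | y - v k ∈ Metric.ball c' ρ} := by
    show c (φ k) - v k ∈ Metric.ball c' ρ
    have : c (φ k) - v k = x k := by
      show c (φ k) - (c (φ k) - x k) = x k
      abel
    rw [this]
    exact hk2
  obtain ⟨ρ', hρ', hsub'⟩ := Metric.isOpen_iff.1 hopen2 _ hmem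
  exact hc3 (φ k) ρ' hρ' _ (hk3.mono hsub')

theorem rgt_thr_exists (hC : C.Ok) (hst : RgtStar C β d' ψ r) (T0 : ℝ) :
    ∃ T, T0 ≤ T ∧ RgtThr C β ψ r T := by
  classical
  have hr : 0 < r := hst.chart.pos
  have hex : ∀ α : Stat ι, ∃ T : ℝ, β.IsCof α →
      ∀ c : E (d' + (β.cofJ α).card), ‖rgtA1 C.F (β.cofJ α) d' c‖ ≤ r / 2 →
      (∀ j ∈ β.cofJ α, T ≤ (α j : ℝ) * C.F.t j (rgtA2 C.F (β.cofJ α) d' c)) →
      ∃ ρ > 0, ∃ γ : E (d' + (β.cofJ α).card) → ℝ,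
        RgtGr (C.P.E α) (C.ph α) (rgtPs C.F (β.cofJ α) ψ) (r / 2) γ (Metric.ball c ρ) := by
    intro α
    by_cases hα : β.IsCof α
    · obtain ⟨T, hT⟩ := rgt_thr_loc hC hst hα
      exact ⟨T, fun _ => hT⟩
    · exact ⟨0, fun h => absurd h hα⟩
  choose Tα hTα using hex
  obtain ⟨T₂, hT₂⟩ := (Set.finite_range Tα).bddAbove
  have h34 : 3 * r / 4 < r := by linarith
  obtain ⟨T, hT1, hThr⟩ := sh_thr_exists C hC β
    ((rgt_box_compact d' (3 * r / 4)).image_of_continuousOn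
      ((if_continuousOn hst.chart.par).mono (rgt_box_subset h34)))
    (by
      rintro _ ⟨u, hu, rfl⟩
      exact if_mem hst.chart.par (rgt_box_subset h34 hu)) (max T0 T₂)
  refine ⟨T, (le_max_left _ _).trans hT1, hThr, fun α hα => ?_⟩
  have hJ0 : ∀ j ∈ β.cofJ α, β j = 0 := fun j hj => (Stat.mem_cofJ.1 hj).1
  have hglue : RgtGr (C.P.E α) (C.ph α) (rgtPs C.F (β.cofJ α) ψ) (r / 2)
      (rgtSup (C.P.E α) (C.ph α) (rgtPs C.F (β.cofJ α) ψ) (r / 2))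
      (rgtBs C.F α (β.cofJ α) (β.cofJ α) d' (r / 2) T) := by
    refine rgt_gr_glue fun c hc => hTα α hα c hc.1.le fun j hj => ?_
    have h1 : Tα α ≤ T₂ := hT₂ ⟨α, rfl⟩
    have h2 : T₂ ≤ T := (le_max_right _ _).trans hT1
    exact (h1.trans h2).trans (hc.2 j hj).le
  refine hglue.congr fun x hx => ?_
  obtain ⟨ha, hcl⟩ := hglue.2 x hx
  have hdim := rgt_cof_dim hC hst hα
  have hu : Gmt.gmtJoin (rgtA1 C.F (β.cofJ α) d' x) 0 ∈ (Gmt.hrCyl r : Set (E (d' + 1))) := by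
    refine ⟨?_, ?_⟩
    · rw [Gmt.fl_hor_join]
      exact lt_trans hx.1 (half_lt_self hr)
    · rw [Gmt.fl_ver_join, abs_zero]
      exact hr
  have hps : ∀ τ : ℝ, rgtPs C.F (β.cofJ α) ψ (Gmt.gmtJoin x τ) =
      ψ (Gmt.gmtJoin (rgtA1 C.F (β.cofJ α) d' x) τ) + rgtA2 C.F (β.cofJ α) d' x := fun τ =>
    rgt_psi_join ψ _ _ x τ
  show rgtG C β ψ r (rgtPs C.F (β.cofJ α) ψ (Gmt.gmtJoin x 0)) = _
  rw [hps 0]
  refine rgt_G_eq hC hst hu (rgt_a2_drop hJ0 x) (α := α) ha (fun τ hτ => ?_) (fun τ hτ => ?_)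
  · rw [Gmt.fl_hor_join, ← hps τ, hdim]
    exact (hcl τ hτ).1
  · rw [Gmt.fl_hor_join, ← hps τ, hdim]
    exact (hcl τ hτ).2

end Claimed.Agent.R315
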