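import Claimed.Agent.R315.Rg.TrLfB

/-!
# Row 315, package Rg-TR, file `TrLfC.lean` = PACKAGE L-RG-TrLfC: ASYMPTOTIC COMPATIBILITY OF THE CANONICAL DEFINING FUNCTION OF A STAR (`rgt_star_ac`)   (architect: helper190)

Standing data: `hC`, `hst : RgtStar C β d' ψ r`, `hT : RgtThr C β ψ r T`.  `α'` a coface of `β`, `J' ⊆ J = β.cofJ α'` the escaping directions, `α'' = α'.faceS J'` (a coface, `J'' = β.cofJ α''`, `J = J'' ⊔ J'`), `Ψ = rgtPs C.F J ψ`, `Ψ'' = rgtPs C.F J'' ψ`.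

PLAN.
* `rgt_lim_gr` (the limit phase `cyl J' (ph α'')` is a graph in the chart `Ψ` of the member `(α'', J')`).  `P` from `rgt_split_map (rgt_split C.F J'' d') (rgt_split C.F J d') (rgt_cofJ_faceS hJ').1 (rgt_cofJ_faceS hJ').2`.
  For `‖a₁ x‖ < r`, `|s| < r`: `dropS J' (Ψ (x, s)) = ψ (a₁ x, s) + dropS J' (a₂ x) = Ψ'' (P x, s)` (`rgt_psi_join`, `Frame.dropS_add'`, `Frame.dropS_eq_self` + `hst.t0`).
  `rgt_cyl_sets hC α'' J' (faceS vanishes on J') (C.ph α'')`: `Ψ (x,s) ∈ ctIn (mdim ..) (mE ..) (cyl J' (ph α'')) ↔ dropS J' (Ψ (x,s)) ∈ ctIn (n - hits α'') (E α'') (ph α'')`; dimension: `rgt_mdim hC _ ⟨_, _⟩ : mdim n α'' J' = C.m α'`, `rgt_cof_dim hC hst hα'`; `C.m α'' = n - hits α''` is `rfl`; `rgt_cof_dim` for `α''`.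
  `hT.2 α'' (rgt_cof_faceS hα' hJ')` at `P x`: `P x ∈ rgtBs .. α'' J'' J'' (r/2) T` (`a₁'' (P x) = a₁ x`; `t_j (a₂'' (P x)) = t_j (dropS J' (a₂ x)) = t_j (a₂ x)`, `j ∈ J''`, `j ∉ J'`: `Frame.t_dropS_notMem`).  Smoothness: `ContDiffOn.comp` with the CLM `P`; `congr` (`Ψ'' (P x, 0) = dropS J' (Ψ (x, 0))`).
* `rgt_star_conv`.  `hΨ = rgt_ps_param_mem hC hst (ρ := 3r/4) _ hT.1 hα' hJ'`.  `ρ₀` with `ball c' ρ₀ ⊆ rgtBs .. (r/2) T` (`rgt_isOpen_bs`); `hseg`: `gmtJoin x s ∈ rgtRg .. (3r/4) T` for `|s| ≤ r/2` (`hst.chart.pos`).  `rgt_seq hC hs (rgt_cof_dim hC hst hα') _ hΨ hρ₀ hseg ((rgt_lim_gr ..).mono _)` ⇒ `ρ`, `γ k`.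
  Eventually, for `x ∈ ball c' ρ`: `rgtG (Ψ (x,0) + vec J' (s k)) = γ k x`: `rgt_G_eq hC hst (u := gmtJoin (a₁ x) 0) (w := a₂ x + vec J' (s k))` (`rgt_a2_drop`, `rgt_vec_drop`, `Frame.dropS_add'`) with the clauses of `RgtGr` (`rgt_psi_join`, `add_assoc`).  `rgt_conv_congr` (`TrGrA.lean`); smoothness: `RgtGr.1` + `ContDiffOn.congr`.
* `rgt_conv_lift`: `gmtSmoothConv_iff`; `GmtCk.comp_right` with `τ = gmtHor` (CLM) on the open set `hor ⁻¹' B`; `GmtCk.add` with the constant sequence `b ↦ - ver b` (`GmtCk.const`).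
* `rgt_star_ac`.  Let `α J s`, `hs : RgtEsc α J s`, `x'` in the member `(α'', J)`, `α'' = α.faceS J`, `dropS J x' ∈ D`.  `dropS J x' ∈ E α'' ⊆ tot E`, so it lies in `liftK` (`hD`); `sh_mem_liftK hC` ⇒ `β.IsCof α''`; `hα = rgt_cof_of_faceS`, `hJ = rgt_esc_subset _ hs.1`.
  `rgt_ps_image_mem hC hst (ρ := r/2) _ (hT.1.subset (image_mono box ⊆ box)) hα hJ` ⇒ `x' = Ψ b'`, `b' ∈ Rg := rgtRg .. (r/2) T`.  `hΨ : IsParam (member) Ψ Rg` (`rgt_ps_param_mem`).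
  FIRST CLAUSE.  `Ψ '' Rg = member ∩ O₁`, `O₁` open (`if_image hΨ`).  `N = closedBall x' ε ⊆ O₁`, compact.  For `z ∈ N ∩ member`: `dropS J z ∈ liftK β (..) T` (`rgt_ps_image_mem`).  Eventually for all such `z`: (i) `z + vec J (s k) ∈ E α` (`ct_window hC.inv.diag α J hs.1 s hs.2 (isCompact_closedBall ..)`);
  (ii) `z + vec J (s k) ∈ liftK β (..) T` by `sh_mem_liftK hC`: `dropS (β.cofJ α) (z + vec) = dropS J'' (dropS J z)` (`Frame.dropS_add'`, `Frame.dropS_vec hJ`, `Frame.dropS_union`, `rgt_cofJ_faceS`); tails `j ∈ J''`: `t_j (z + vec) = t_j z = t_j (dropS J z)`, `α j = α'' j`;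
  tails `j ∈ J`: `α_j (t_j z + s k j) ≥ α_j s k j - sup_N |t_j| > T` eventually (`IsCompact.exists_bound_of_continuousOn`, `Filter.eventually_all_finset`, `|α_j| ≤ 1`).  Then `hD`.
  SECOND CLAUSE.  `c' = hor b'`; `rgt_star_conv` ⇒ `ρ`; `U₀ = Rg ∩ {b | hor b ∈ ball c' ρ}` (open, `if_mono`); `ctConvAt_of_param (hΨ restricted) (b' ∈ U₀)`; on `U₀`:
  `rgtL (Ψ b + vec J (s k)) = rgtG (Ψ (hor b, 0) + vec J (s k)) - ver b` (`rgt_G_ps_ver`, `rgt_ps_U`, `fl_ver_join`, `rgt_vec_drop`), `rgtL (dropS J (Ψ b)) = rgtG (dropS J (Ψ (hor b, 0))) - ver b` (`rgt_ps_dropS` for `b` and for `(hor b, 0)`: the same vector `w`; `rgt_G_ps_ver`, `rgt_ps_U`);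
  `rgt_conv_lift` + `GmtSmoothConv` restricted to `U₀` + `rgt_conv_congr`.  Dimension of `CtConvAt`: `rgt_mdim`, `rgt_cof_dim`.
-/

set_option autoImplicit false
set_option linter.unusedSectionVars false
open scoped ContDiff ENNReal Topology
open MeasureTheory Claims.C0499 Set Filter

namespace Claimed.Agent.R315

/-- from the base to the chart: `g (hor b) - ver b`. -/
theorem rgt_conv_lift {N : ℕ} {B : Set (E N)} (hB : IsOpen B) {g : ℕ → E N → ℝ} {g' : E N → ℝ}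
    (h : Gmt.GmtSmoothConv B g g') (hs : ∀ᶠ k in atTop, ContDiffOn ℝ ∞ (g k) B)
    (hs' : ContDiffOn ℝ ∞ g' B) :
    Gmt.GmtSmoothConv {b : E (N + 1) | Gmt.gmtHor b ∈ B}
      (fun k b => g k (Gmt.gmtHor b) - Gmt.gmtVer b) (fun b => g' (Gmt.gmtHor b) - Gmt.gmtVer b) := by
  rw [Gmt.gmtSmoothConv_iff] at h ⊢
  intro k
  have hW : IsOpen {b : E (N + 1) | Gmt.gmtHor b ∈ B} := hB.preimage Gmt.fl_continuous_hor
  have hτ : ContDiffOn ℝ ∞ (Gmt.gmtHor : E (N + 1) → E N) {b : E (N + 1) | Gmt.gmtHor b ∈ B} :=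
    (Gmt.gmtHorL N).contDiff.contDiffOn
  have hmaps : MapsTo (Gmt.gmtHor : E (N + 1) → E N) {b : E (N + 1) | Gmt.gmtHor b ∈ B} B :=
    fun b hb => hb
  have h1 := (h k).comp_right hB hW hs hs' hτ hmaps
  have hver : ContDiffOn ℝ ∞ (fun b : E (N + 1) => - Gmt.gmtVer b)
      {b : E (N + 1) | Gmt.gmtHor b ∈ B} := (Gmt.gmtVerL N).contDiff.neg.contDiffOn
  have h2 := h1.add hW (Gmt.GmtCk.const (fun b : E (N + 1) => - Gmt.gmtVer b))
    (hs.mono fun i hi => hi.comp hτ hmaps) (Eventually.of_forall fun _ => hver)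
    (hs'.comp hτ hmaps) hver
  exact h2.congr hW (fun i b _ => by simp [sub_eq_add_neg]) (fun b _ => by simp [sub_eq_add_neg])

variable {V W : Type} [NormedAddCommGroup V] [NormedSpace ℝ V] [NormedAddCommGroup W]
  [NormedSpace ℝ W] {ι : Type} [FiniteDimensional ℝ V] [FiniteDimensional ℝ W] [Fintype ι]
  [MeasurableSpace W] [BorelSpace W] {C : ShCtx V W ι} {β : Stat ι} {d' : ℕ}
  {ψ : E (d' + 1) → W} {r T : ℝ}

/-- the projection of the chart of `J` in the directions `J'` is the chart of `J''`. -/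
theorem rgt_lfc_drop (hC : C.Ok) (hst : RgtStar C β d' ψ r) {J J' J'' : Finset ι}
    (hJ0 : ∀ j ∈ J', β j = 0) {P : E (d' + J.card) →L[ℝ] E (d' + J''.card)}
    (hP : ∀ x, rgtA1 C.F J'' d' (P x) = rgtA1 C.F J d' x ∧
      rgtA2 C.F J'' d' (P x) = C.F.dropS J' (rgtA2 C.F J d' x))
    {x : E (d' + J.card)} (hx : ‖rgtA1 C.F J d' x‖ < r) {τ : ℝ} (hτ : |τ| < r) :
    C.F.dropS J' (rgtPs C.F J ψ (Gmt.gmtJoin x τ)) = rgtPs C.F J'' ψ (Gmt.gmtJoin (P x) τ) := by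
  have hu : Gmt.gmtJoin (rgtA1 C.F J d' x) τ ∈ (Gmt.hrCyl r : Set (E (d' + 1))) := by
    refine ⟨?_, ?_⟩
    · rw [Gmt.fl_hor_join]; exact hx
    · rw [Gmt.fl_ver_join]; exact hτ
  have e1 : rgtPs C.F J ψ (Gmt.gmtJoin x τ) =
      ψ (Gmt.gmtJoin (rgtA1 C.F J d' x) τ) + rgtA2 C.F J d' x := rgt_psi_join ψ _ _ x τ
  have e2 : rgtPs C.F J'' ψ (Gmt.gmtJoin (P x) τ) =
      ψ (Gmt.gmtJoin (rgtA1 C.F J'' d' (P x)) τ) + rgtA2 C.F J'' d' (P x) :=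
    rgt_psi_join ψ _ _ (P x) τ
  rw [e1, e2, (hP x).1, (hP x).2, C.F.dropS_add',
    C.F.dropS_eq_self fun j hj => hst.t0 hC hu (hJ0 j hj)]

/-- dimension of the member at the end `J'` of a coface. -/
theorem rgt_lfc_mdim (hC : C.Ok) (hst : RgtStar C β d' ψ r) {α' : Stat ι} (hα' : β.IsCof α')
    {J' : Finset ι} (hJ' : J' ⊆ β.cofJ α') :
    mdim C.B.n (α'.faceS J') J' = d' + (β.cofJ α').card + 1 := by
  have h1 := rgt_cof_dim hC hst hα'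
  have h2 : hits (α'.faceS J') = hits α' + J'.card :=
    sh_hits_faceS α' J' fun j hj => (Stat.mem_cofJ.1 (hJ' hj)).2
  have h3 := Finset.card_le_card hJ'
  unfold mdim
  unfold ShCtx.m at h1
  omega

theorem rgt_lfc_neg_vec_drop {J : Finset ι} (hJ : ∀ j ∈ J, β j = 0) (s : ι → ℝ) :
    C.F.dropS β.hitS (-C.F.vec J s) = 0 := by
  have e : -C.F.vec J s = C.F.vec J (fun j => -s j) := by
    simp [Frame.vec, Finset.sum_neg_distrib]
  rw [e]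
  exact rgt_vec_drop hJ _

/-- the limit phase at the end `J'` of the coface `α'` is a graph in the chart of `α'`. -/
theorem rgt_lim_gr (hC : C.Ok) (hst : RgtStar C β d' ψ r) (hT : RgtThr C β ψ r T) {α' : Stat ι}
    (hα' : β.IsCof α') {J' : Finset ι} (hJ' : J' ⊆ β.cofJ α') :
    RgtGr (C.P.mE C.F (α'.faceS J') J') (C.F.cyl J' (C.ph (α'.faceS J')))
      (rgtPs C.F (β.cofJ α') ψ) (r / 2)
      (fun x => rgtG C β ψ r (C.F.dropS J' (rgtPs C.F (β.cofJ α') ψ (Gmt.gmtJoin x 0))))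
      (rgtBs C.F (α'.faceS J') (β.cofJ α') (β.cofJ (α'.faceS J')) d' (r / 2) T) := by
  classical
  have hr : 0 < r := hst.chart.pos
  have hα'' : β.IsCof (α'.faceS J') := rgt_cof_faceS hα' hJ'
  obtain ⟨hJJ, hdisj⟩ := rgt_cofJ_faceS hJ'
  have hJ'0 : ∀ j ∈ J', β j = 0 := fun j hj => (Stat.mem_cofJ.1 (hJ' hj)).1
  obtain ⟨P, hP⟩ := rgt_split_map (rgt_split C.F (β.cofJ (α'.faceS J')) d')
    (rgt_split C.F (β.cofJ α') d') hJJ hdisj
  have G'' := hT.2 (α'.faceS J') hα''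
  have hmaps : MapsTo P (rgtBs C.F (α'.faceS J') (β.cofJ α') (β.cofJ (α'.faceS J')) d' (r / 2) T)
      (rgtBs C.F (α'.faceS J') (β.cofJ (α'.faceS J')) (β.cofJ (α'.faceS J')) d' (r / 2) T) := by
    intro x hx
    refine ⟨by rw [(hP x).1]; exact hx.1, fun j hj => ?_⟩
    rw [(hP x).2, C.F.t_dropS_notMem (Finset.disjoint_left.1 hdisj hj)]
    exact hx.2 j hj
  have hK : ∀ x ∈ rgtBs C.F (α'.faceS J') (β.cofJ α') (β.cofJ (α'.faceS J')) d' (r / 2) T,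
      ∀ τ : ℝ, |τ| ≤ r / 2 → C.F.dropS J' (rgtPs C.F (β.cofJ α') ψ (Gmt.gmtJoin x τ)) =
        rgtPs C.F (β.cofJ (α'.faceS J')) ψ (Gmt.gmtJoin (P x) τ) := fun x hx τ hτ =>
    rgt_lfc_drop hC hst hJ'0 hP (lt_trans hx.1 (half_lt_self hr))
      (lt_of_le_of_lt hτ (half_lt_self hr))
  have h0 : |(0 : ℝ)| ≤ r / 2 := by rw [abs_zero]; exact (half_pos hr).le
  have hcs := rgt_cyl_sets hC (α'.faceS J') J'
    (fun j hj => by simp [Stat.faceS, hj]) (C.ph (α'.faceS J'))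
  have hd'' : C.B.n - hits (α'.faceS J') = d' + (β.cofJ (α'.faceS J')).card + 1 :=
    rgt_cof_dim hC hst hα''
  rw [rgt_lfc_mdim hC hst hα' hJ', hd''] at hcs
  refine ⟨?_, fun x hx => ?_⟩
  · refine (G''.1.comp P.contDiff.contDiffOn hmaps).congr fun x hx => ?_
    show rgtG C β ψ r _ = rgtG C β ψ r _
    rw [hK x hx 0 h0]
  · obtain ⟨ha, hcl⟩ := G''.2 (P x) (hmaps hx)
    beta_reduce
    rw [hK x hx 0 h0]
    refine ⟨ha, fun τ hτ => ?_⟩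
    rw [hcs.2.2.2.1, hcs.2.2.2.2]
    have hcl' := hcl τ hτ
    rw [← hK x hx τ hτ] at hcl'
    exact hcl'

/-- **convergence of the heights.** -/
theorem rgt_star_conv (hC : C.Ok) (hst : RgtStar C β d' ψ r) (hT : RgtThr C β ψ r T)
    {α' : Stat ι} (hα' : β.IsCof α') {J' : Finset ι} (hJ' : J' ⊆ β.cofJ α') {s : ℕ → ι → ℝ}
    (hs : RgtEsc α' J' s) {c' : E (d' + (β.cofJ α').card)}
    (hc' : c' ∈ rgtBs C.F (α'.faceS J') (β.cofJ α') (β.cofJ (α'.faceS J')) d' (r / 2) T) :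
    ∃ ρ > 0,
      Gmt.GmtSmoothConv (Metric.ball c' ρ)
        (fun k x => rgtG C β ψ r (rgtPs C.F (β.cofJ α') ψ (Gmt.gmtJoin x 0) + C.F.vec J' (s k)))
        (fun x => rgtG C β ψ r (C.F.dropS J' (rgtPs C.F (β.cofJ α') ψ (Gmt.gmtJoin x 0)))) ∧
      (∀ᶠ k in atTop, ContDiffOn ℝ ∞
        (fun x => rgtG C β ψ r (rgtPs C.F (β.cofJ α') ψ (Gmt.gmtJoin x 0) + C.F.vec J' (s k)))
        (Metric.ball c' ρ)) ∧
      ContDiffOn ℝ ∞
        (fun x => rgtG C β ψ r (C.F.dropS J' (rgtPs C.F (β.cofJ α') ψ (Gmt.gmtJoin x 0))))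
        (Metric.ball c' ρ) := by
  classical
  have hr : 0 < r := hst.chart.pos
  have h34 : 3 * r / 4 < r := by linarith
  have hJ0 : ∀ j ∈ β.cofJ α', β j = 0 := fun j hj => (Stat.mem_cofJ.1 hj).1
  have hJ'0 : ∀ j ∈ J', β j = 0 := fun j hj => hJ0 j (hJ' hj)
  have hΨ := rgt_ps_param_mem hC hst h34 hT.1 hα' hJ'
  obtain ⟨ρ₀, hρ₀, hsub₀⟩ := Metric.isOpen_iff.1
    (rgt_isOpen_bs C.F (α'.faceS J') (β.cofJ α') (β.cofJ (α'.faceS J')) d' (r / 2) T) c' hc'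
  have hseg : ∀ x ∈ Metric.ball c' ρ₀, ∀ τ : ℝ, |τ| ≤ r / 2 → Gmt.gmtJoin x τ ∈
      rgtRg C.F (α'.faceS J') (β.cofJ α') (β.cofJ (α'.faceS J')) d' (3 * r / 4) T := by
    intro x hx τ hτ
    have hxB := hsub₀ hx
    refine ⟨?_, ?_⟩
    · rw [Gmt.fl_hor_join]
      exact ⟨lt_trans hxB.1 (by linarith), hxB.2⟩
    · rw [Gmt.fl_ver_join]
      linarith
  have hlim := rgt_lim_gr hC hst hT hα' hJ'
  obtain ⟨ρ, hρ, hρρ₀, γ, hconv, hev⟩ := rgt_seq hC hs (rgt_cof_dim hC hst hα')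
    (le_trans hst.one_le (Nat.le_add_right _ _)) hΨ hρ₀ hseg (hlim.mono hsub₀)
  have hsub : Metric.ball c' ρ ⊆ Metric.ball c' ρ₀ := Metric.ball_subset_ball hρρ₀
  have hdim := rgt_cof_dim hC hst hα'
  have heq : ∀ᶠ k in atTop, EqOn (γ k)
      (fun x => rgtG C β ψ r (rgtPs C.F (β.cofJ α') ψ (Gmt.gmtJoin x 0) + C.F.vec J' (s k)))
      (Metric.ball c' ρ) := by
    filter_upwards [hev] with k hk x hx
    obtain ⟨ha, hcl⟩ := hk.2 x hx
    have hxB := hsub₀ (hsub hx)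
    have hu : Gmt.gmtJoin (rgtA1 C.F (β.cofJ α') d' x) 0 ∈
        (Gmt.hrCyl r : Set (E (d' + 1))) := by
      refine ⟨?_, ?_⟩
      · rw [Gmt.fl_hor_join]
        exact lt_trans hxB.1 (half_lt_self hr)
      · rw [Gmt.fl_ver_join, abs_zero]
        exact hr
    have hps : ∀ τ : ℝ, rgtPs C.F (β.cofJ α') ψ (Gmt.gmtJoin x τ) + C.F.vec J' (s k) =
        ψ (Gmt.gmtJoin (rgtA1 C.F (β.cofJ α') d' x) τ) +
          (rgtA2 C.F (β.cofJ α') d' x + C.F.vec J' (s k)) := fun τ => by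
      rw [← add_assoc]
      congr 1
      exact rgt_psi_join ψ _ _ x τ
    have hw : C.F.dropS β.hitS (rgtA2 C.F (β.cofJ α') d' x + C.F.vec J' (s k)) = 0 := by
      rw [C.F.dropS_add', rgt_a2_drop hJ0 x, rgt_vec_drop hJ'0 (s k), add_zero]
    symm
    show rgtG C β ψ r (rgtPs C.F (β.cofJ α') ψ (Gmt.gmtJoin x 0) + C.F.vec J' (s k)) = γ k x
    rw [hps 0]
    refine rgt_G_eq hC hst hu hw (α := α') ha (fun τ hτ => ?_) (fun τ hτ => ?_)
    · rw [Gmt.fl_hor_join, ← hps τ, hdim]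
      exact (hcl τ hτ).1
    · rw [Gmt.fl_hor_join, ← hps τ, hdim]
      exact (hcl τ hτ).2
  refine ⟨ρ, hρ, rgt_conv_congr Metric.isOpen_ball hconv heq (fun _ _ => rfl), ?_,
    hlim.1.mono (hsub.trans hsub₀)⟩
  filter_upwards [hev, heq] with k hk hk2
  exact hk.1.congr fun x hx => (hk2 hx).symm

/-- **(AC) for the canonical defining function of a star.** -/
theorem rgt_star_ac (hC : C.Ok) (hst : RgtStar C β d' ψ r) (hT : RgtThr C β ψ r T) {D : Set W}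
    (hD : D ∩ tot C.P.E = C.liftK β (ψ '' (Gmt.hrCyl (r / 2) : Set (E (d' + 1)))) T) :
    RgtAC C D (rgtL C β ψ r) := by
  classical
  intro α J s hs x' hx' hxD
  have hr : 0 < r := hst.chart.pos
  have hr2 : r / 2 < r := half_lt_self hr
  have hx'E : C.F.dropS J x' ∈ C.P.E (α.faceS J) := hx'
  have hmem : C.F.dropS J x' ∈ C.liftK β (ψ '' (Gmt.hrCyl (r / 2) : Set (E (d' + 1)))) T := by
    rw [← hD]
    exact ⟨hxD, mem_tot.2 ⟨_, hx'E⟩⟩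
  have hα'' : β.IsCof (α.faceS J) := ((sh_mem_liftK hC hx'E).1 hmem).1
  have hα : β.IsCof α := rgt_cof_of_faceS hα''
  have hJ : J ⊆ β.cofJ α := rgt_esc_subset hα'' hs.1
  obtain ⟨hJJ, hdisj⟩ := rgt_cofJ_faceS hJ
  have hJ0 : ∀ j ∈ β.cofJ α, β j = 0 := fun j hj => (Stat.mem_cofJ.1 hj).1
  have hJ'0 : ∀ j ∈ J, β j = 0 := fun j hj => hJ0 j (hJ hj)
  have hThr : ShThr C β (ψ '' rgtBox d' (r / 2)) T :=
    hT.1.subset (image_mono fun u hu => ⟨hu.1.trans (by linarith), hu.2.trans (by linarith)⟩)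
  have himg := rgt_ps_image_mem hC hst hr2 hThr hα hJ
  have hΨ := rgt_ps_param_mem hC hst hr2 hThr hα hJ
  have hx'img : x' ∈ rgtPs C.F (β.cofJ α) ψ ''
      rgtRg C.F (α.faceS J) (β.cofJ α) (β.cofJ (α.faceS J)) d' (r / 2) T := by
    rw [himg]
    exact ⟨hx', hmem⟩
  obtain ⟨b', hb', rfl⟩ := hx'img
  refine ⟨?_, ?_⟩
  · -- first clause
    obtain ⟨O₁, hO₁, hO₁e⟩ := if_image hΨ
    have hxO : rgtPs C.F (β.cofJ α) ψ b' ∈ O₁ :=
      (hO₁e ▸ mem_image_of_mem _ hb' : _ ∈ C.P.mE C.F (α.faceS J) J ∩ O₁).2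
    obtain ⟨ε, hε, hεO⟩ := Metric.nhds_basis_closedBall.mem_iff.1 (hO₁.mem_nhds hxO)
    refine ⟨Metric.closedBall _ ε, Metric.closedBall_mem_nhds _ hε, ?_⟩
    have hcpt : IsCompact (Metric.closedBall (rgtPs C.F (β.cofJ α) ψ b') ε) :=
      isCompact_closedBall _ _
    filter_upwards [ct_window hC.inv.diag α J hs.1 s hs.2 hcpt,
      ct_window_large (F := C.F) α J s hs.2 hcpt T] with k hk1 hk2 z hz
    have hzE : C.F.dropS J z ∈ C.P.E (α.faceS J) := hz.2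
    have hzimg : z ∈ {z | z ∈ C.P.mE C.F (α.faceS J) J ∧
        C.F.dropS J z ∈ C.liftK β (ψ '' (Gmt.hrCyl (r / 2) : Set (E (d' + 1)))) T} := by
      rw [← himg, hO₁e]
      exact ⟨hz.2, hεO hz.1⟩
    obtain ⟨-, hz2, hz3⟩ := (sh_mem_liftK hC hzE).1 hzimg.2
    have hzα : z + C.F.vec J (s k) ∈ C.P.E α := (hk1 z hz.1).2 hzE
    have hlift : z + C.F.vec J (s k) ∈
        C.liftK β (ψ '' (Gmt.hrCyl (r / 2) : Set (E (d' + 1)))) T := by
      refine (sh_mem_liftK hC hzα).2 ⟨hα, ?_, fun j hj => ?_⟩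
      · rw [hJJ, ← C.F.dropS_union, C.F.dropS_add_vec]
        exact hz2
      · rw [hJJ] at hj
        rcases Finset.mem_union.1 hj with hj | hj
        · have hjJ : j ∉ J := Finset.disjoint_left.1 hdisj hj
          have h1 := hz3 j hj
          rw [C.F.t_dropS_notMem hjJ] at h1
          have h2 : (α.faceS J) j = α j := by simp [Stat.faceS, hjJ]
          rw [h2] at h1
          rw [map_add, C.F.t_vec_notMem hjJ, add_zero]
          exact h1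
        · exact hk2 z hz.1 j hj
    rw [← hD] at hlift
    exact hlift.1
  · -- second clause
    have hc' : Gmt.gmtHor b' ∈
        rgtBs C.F (α.faceS J) (β.cofJ α) (β.cofJ (α.faceS J)) d' (r / 2) T := hb'.1
    obtain ⟨ρ, hρ, hconv, hsm, hsm'⟩ := rgt_star_conv hC hst hT hα hJ hs hc'
    set U₀ : Set (E (d' + (β.cofJ α).card + 1)) :=
      rgtRg C.F (α.faceS J) (β.cofJ α) (β.cofJ (α.faceS J)) d' (r / 2) T ∩
        {b | Gmt.gmtHor b ∈ Metric.ball (Gmt.gmtHor b') ρ} with hU₀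
    have hU₀o : IsOpen U₀ := (rgt_isOpen_rg _ _ _ _ _ _ _).inter
      (Metric.isOpen_ball.preimage Gmt.fl_continuous_hor)
    have hΨ₀ := if_mono hΨ hU₀o inter_subset_left
    have hb'₀ : b' ∈ U₀ := ⟨hb', Metric.mem_ball_self hρ⟩
    have hdom : ∀ b ∈ U₀, b ∈ rgtDom (rgtA1 C.F (β.cofJ α) d') r := fun b hb =>
      ⟨lt_trans hb.1.1.1 hr2, lt_trans hb.1.2 hr2⟩
    have hdom0 : ∀ b ∈ U₀, Gmt.gmtJoin (Gmt.gmtHor b) 0 ∈ rgtDom (rgtA1 C.F (β.cofJ α) d') r :=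
      fun b hb => ⟨by rw [Gmt.fl_hor_join]; exact lt_trans hb.1.1.1 hr2,
        by rw [Gmt.fl_ver_join, abs_zero]; exact hr⟩
    have hL : ∀ b ∈ U₀, ∀ w : W, C.F.dropS β.hitS w = 0 →
        rgtL C β ψ r (rgtPs C.F (β.cofJ α) ψ b + w) =
          rgtG C β ψ r (rgtPs C.F (β.cofJ α) ψ (Gmt.gmtJoin (Gmt.gmtHor b) 0) + w) -
            Gmt.gmtVer b := by
      intro b hb w hw
      unfold rgtL
      rw [rgt_G_ps_ver hC hst hJ0 (hdom b hb) hw, rgt_ps_U hC hst hJ0 (hdom b hb) hw,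
        Gmt.fl_ver_join]
    have e1 : ∀ k, EqOn
        (fun b => rgtG C β ψ r (rgtPs C.F (β.cofJ α) ψ (Gmt.gmtJoin (Gmt.gmtHor b) 0) +
          C.F.vec J (s k)) - Gmt.gmtVer b)
        ((fun z => rgtL C β ψ r (z + C.F.vec J (s k))) ∘ rgtPs C.F (β.cofJ α) ψ) U₀ :=
      fun k b hb => (hL b hb _ (rgt_vec_drop hJ'0 (s k))).symm
    have e2 : EqOn
        (fun b => rgtG C β ψ r (C.F.dropS J
          (rgtPs C.F (β.cofJ α) ψ (Gmt.gmtJoin (Gmt.gmtHor b) 0))) - Gmt.gmtVer b)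
        ((fun z => rgtL C β ψ r (C.F.dropS J z)) ∘ rgtPs C.F (β.cofJ α) ψ) U₀ := by
      intro b hb
      show _ = rgtL C β ψ r (C.F.dropS J (rgtPs C.F (β.cofJ α) ψ b))
      rw [rgt_ps_dropS hC hst hJ0 hJ (hdom b hb), hL b hb _ (rgt_lfc_neg_vec_drop hJ'0 _)]
      show rgtG C β ψ r (C.F.dropS J
          (rgtPs C.F (β.cofJ α) ψ (Gmt.gmtJoin (Gmt.gmtHor b) 0))) - Gmt.gmtVer b = _
      rw [rgt_ps_dropS hC hst hJ0 hJ (hdom0 b hb), Gmt.fl_hor_join]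
    have hlift := rgt_conv_lift Metric.isOpen_ball hconv hsm hsm'
    have hlift₀ : Gmt.GmtSmoothConv U₀
        (fun k b => rgtG C β ψ r (rgtPs C.F (β.cofJ α) ψ (Gmt.gmtJoin (Gmt.gmtHor b) 0) +
          C.F.vec J (s k)) - Gmt.gmtVer b)
        (fun b => rgtG C β ψ r (C.F.dropS J
          (rgtPs C.F (β.cofJ α) ψ (Gmt.gmtJoin (Gmt.gmtHor b) 0))) - Gmt.gmtVer b) :=
      fun K hK hKU => hlift K hK (hKU.trans inter_subset_right)
    have hhor : ContDiffOn ℝ ∞ (Gmt.gmtHor : E (d' + (β.cofJ α).card + 1) → _) U₀ :=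
      (Gmt.gmtHorL _).contDiff.contDiffOn
    have hver : ContDiffOn ℝ ∞ (Gmt.gmtVer : E (d' + (β.cofJ α).card + 1) → ℝ) U₀ :=
      (Gmt.gmtVerL _).contDiff.contDiffOn
    have hmaps : MapsTo (Gmt.gmtHor : E (d' + (β.cofJ α).card + 1) → _) U₀
        (Metric.ball (Gmt.gmtHor b') ρ) := fun b hb => hb.2
    rw [rgt_lfc_mdim hC hst hα hJ]
    refine ctConvAt_of_param hΨ₀ hb'₀ ?_ ?_
      (rgt_conv_congr hU₀o hlift₀ (Eventually.of_forall e1) e2)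
    · filter_upwards [hsm] with k hk
      exact ((hk.comp hhor hmaps).sub hver).congr fun b hb => (e1 k hb).symm
    · exact ((hsm'.comp hhor hmaps).sub hver).congr fun b hb => (e2 hb).symm

end Claimed.Agent.R315
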