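import Claimed.Agent.R315.Rg.TrPcA

/-!
# Row 315, package Rg-TR, file `TrPc.lean`: THEOREM A = existence of local pieces (`rgt_piece`)   (architect: helper190)

Assembly (proved here) from `rgt_star_exists` (`TrCh`), `rgt_thr_exists` (`TrLfB`), `rgt_star_ac` (`TrLfC`), `rgt_star_def`, `rgt_star_bump`, `rgt_amb_*` (`TrPcA`), `Sh/Lift.lean`.
-/

set_option autoImplicit false
open scoped ContDiff ENNReal Topology
open MeasureTheory Claims.C0499 Set Filter

namespace Claimed.Agent.R315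

variable {V W : Type} [NormedAddCommGroup V] [NormedSpace ℝ V] [NormedAddCommGroup W]
  [NormedSpace ℝ W] {ι : Type} [FiniteDimensional ℝ V] [FiniteDimensional ℝ W] [Fintype ι]
  [MeasurableSpace W] [BorelSpace W] {C : ShCtx V W ι}

/-- **THEOREM A**: every wall point lies in the plateau of a local piece of small extent over `V`. -/
theorem rgt_piece (hC : C.Ok) (β : Stat ι) {y : W}
    (hy : y ∈ ctWall (C.m β) (C.P.E β) (C.ph β)) :
    ∃ (D K D' : Set W) (L b : W → ℝ), RgtPiece C D K D' L b ∧ y ∈ D' ∧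
      ∀ z ∈ D, ‖C.F.q z - C.F.q y‖ < 1 := by
  obtain ⟨d', ψ, r, hst, hψ0, hq⟩ := rgt_star_exists hC β hy
  obtain ⟨T, -, hT⟩ := rgt_thr_exists hC hst 0
  obtain ⟨b, hb1, hb2, hb3, hb4⟩ := rgt_star_bump hC hst hT.1
  have hr := hst.chart.pos
  have hcyl : ∀ {ρ ρ' : ℝ}, ρ ≤ ρ' → (Gmt.hrCyl ρ : Set (E (d' + 1))) ⊆ Gmt.hrCyl ρ' :=
    fun h u hu => ⟨lt_of_lt_of_le hu.1 h, lt_of_lt_of_le hu.2 h⟩
  have hcb : ∀ {ρ ρ' : ℝ}, ρ ≤ ρ' → (Gmt.hrCyl ρ : Set (E (d' + 1))) ⊆ rgtBox d' ρ' :=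
    fun h u hu => ⟨hu.1.le.trans h, hu.2.le.trans h⟩
  have hS0 : IsCompact (ψ '' rgtBox d' (3 * r / 4)) :=
    (rgt_box_compact d' _).image_of_continuousOn
      ((if_continuousOn hst.chart.par).mono (rgt_box_subset (by linarith)))
  set U2 : Set W := C.liftK β (ψ '' (Gmt.hrCyl (r / 2) : Set (E (d' + 1)))) T with hU2
  set U4 : Set W := C.liftK β (ψ '' (Gmt.hrCyl (r / 4) : Set (E (d' + 1)))) (T + 2) with hU4
  have hU2o : RelOpen C.P.E U2 :=
    sh_liftK_relOpen hC hT.1 (image_mono (hcb (by linarith))) (rgt_chart_relOpen hst (by linarith))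
      le_rfl
  have hU4o : RelOpen C.P.E U4 :=
    sh_liftK_relOpen hC hT.1 (image_mono (hcb (by linarith))) (rgt_chart_relOpen hst (by linarith))
      (by linarith)
  have hqU2 : ∀ z ∈ U2, ‖C.F.q z - C.F.q y‖ < 1 := by
    rintro z ⟨α, -, -, ⟨u, hu, hue⟩, -⟩
    rw [← C.F.q_dropS (β.cofJ α) z, ← hue]
    exact hq u (hcyl (by linarith) hu)
  set D : Set W := rgtAmb C U2 ∩ {z | ‖C.F.q z - C.F.q y‖ < 1} with hDdef
  have hDo : IsOpen D :=
    (rgt_amb_open hC hU2o).inter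
      (isOpen_lt ((C.F.q.continuous.sub continuous_const).norm) continuous_const)
  have hD : D ∩ tot C.P.E = U2 := by
    ext z
    constructor
    · rintro ⟨⟨h1, -⟩, h2⟩
      exact (rgt_amb_mem h2).1 h1
    · intro hz
      have h2 := sh_liftK_subset_tot _ _ hz
      exact ⟨⟨(rgt_amb_mem h2).2 hz, hqU2 z hz⟩, h2⟩
  have hyE : y ∈ C.P.E β := by
    rw [← hψ0]
    exact if_mem hst.chart.par ⟨by simpa [Gmt.gmtHor] using hr, by simpa [Gmt.gmtVer] using hr⟩
  refine ⟨D, C.liftS β (ψ '' rgtBox d' (r / 3)) (T + 1), rgtAmb C U4, rgtL C β ψ r, b,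
    ⟨hDo, rgt_star_def hC hst hT hDo hD, rgt_star_ac hC hst hT hD, hb1, hb2, ?_, ?_, hb3,
      rgt_amb_open hC hU4o, ?_, ?_⟩, ?_, fun z hz => hz.2⟩
  · exact fun α => rgt_liftS_isClosed hC (((rgt_box_compact d' _).image_of_continuousOn
      ((if_continuousOn hst.chart.par).mono (rgt_box_subset (by linarith)))).isClosed) _ α
  · rintro z ⟨hz, -⟩
    have h0 : rgtBox d' (r / 3) ⊆ (Gmt.hrCyl (r / 2) : Set (E (d' + 1))) :=
      rgt_box_subset (by linarith)
    have h1 : z ∈ U2 := sh_liftS_subset_liftK (image_mono h0) (by linarith) hz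
    rw [← hD] at h1
    exact h1.1
  · exact rgt_amb_compat hC (sh_liftK_compat hC hS0 hT.1 (image_mono (hcb (by linarith))) _)
  · rintro z ⟨h1, h2⟩
    exact hb4 z ((rgt_amb_mem h2).1 h1)
  · refine (rgt_amb_mem (mem_tot.2 ⟨β, hyE⟩)).2 (sh_liftK_self hC ?_ _ ?_)
    · rintro _ ⟨u, hu, rfl⟩
      exact if_mem hst.chart.par (hcyl (by linarith) hu)
    · exact ⟨0, ⟨by simpa [Gmt.gmtHor] using (by linarith : 0 < r / 4),
        by simpa [Gmt.gmtVer] using (by linarith : 0 < r / 4)⟩, hψ0⟩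

end Claimed.Agent.R315
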