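import Claimed.Agent.R315.Rg.TrLfC

/-!
# Row 315, package Rg-TR, file `TrPcA.lean` = PACKAGE L-RG-TrPcA: the pieces of `rgt_piece`: ambient open sets, the defining property, the bump   (architect: helper190)

PLAN.
* `rgt_amb_mem`: `simp [rgtAmb, hz]`.
* `rgt_amb_open`: the complement is `tot E \ U = ⋃ α, (E α \ U)`, a finite union (`Finite (Stat ι)`: `isClosed_iUnion_of_finite`); `E α \ U` is closed: `E α` is closed (`hC.inv.diag.closed α`) and every `z ∈ E α ∩ U` has a neighbourhood `N` with `N ∩ E α ⊆ U` (`hU α z`): show that the complement of `E α \ U` is open by `isOpen_iff_mem_nhds`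
  (`z ∉ E α`: `(closed).isOpen_compl`; `z ∈ E α ∩ U`: `N`).
* `rgt_amb_compat`: given `i K`, `R₁` from `hU i K`, `⟨R, hR₁, _, hdrop, _⟩ := hC.inv.diag.tail_induction hK R₁`; for `z ∈ E α`, `R < |t_i z|`: `drop i z ∈ E (α.face i) ⊆ tot E`; `propext`; `rgt_amb_mem` on both sides; `hU`.
* `rgt_liftS_isClosed`: `sh_mem_liftS hC`: if `β.IsCof α`: `liftS ∩ E α = E α ∩ dropS ⁻¹' K0 ∩ {tails ≥ T'}` (closed: `Frame.continuous_dropS`, `Frame.isClosed_tailC`), otherwise empty.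
* `rgt_liftS_compat`: copy of `sh_liftK_compat` (`Sh/Lift.lean`) with `≤` in place of `<` (`sh_glue_compat`, `sh_face_data`, `ShThr.notMem`, `sh_mem_liftS`).
* `rgt_chart_relOpen`: `if_image_open hst.chart.par (Gmt.hr_isOpen_cyl ρ) (hrCyl ρ ⊆ hrCyl r)` ⇒ `ψ '' hrCyl ρ = E β ∩ O`.
* `rgt_def_empty`: `smooth`: a parametrisation of `∅` has empty domain (`if_mem`); `reg`: vacuous; `eq`: both sets are empty (`symmDiff_self`/`simp`), `measure_empty`.
* `rgt_star_def`.  `β.IsCof α`: `rw [rgt_cof_dim hC hst hα]`; `rgt_gr_def hG hΨ (rgt_isOpen_bs ..) (hT.2 α hα) hU hDo hOU hL` with `hG : CtGeo _ (E α) h dr` (`⟨hC.inv.diag.mfd α, hC.inv.met.met α, hC.inv.dr_sc.1 α⟩`, dimension rewritten), `hΨ = rgt_ps_param_tail hC hst (ρ := r/2) _ (hT.1.subset _) hα`,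
  `hOU`: `rgt_ps_image` and `E α ∩ D = E α ∩ (D ∩ tot E)`; `hL`: `rgtL (Ψ b) = rgtG (Ψ b) - ver (rgtU (Ψ b))`, `rgt_G_ps_ver`, `rgt_ps_U` with `w = 0` (`add_zero`, `dropS hitS 0 = 0`), `fl_ver_join`.     `C.ph α ∩ D` is `A ∩ O` of `rgt_gr_def`.
  `¬ β.IsCof α`: `E α ∩ D = ∅` (`hD`, `sh_mem_liftK`); `rgt_def_empty`.
* `rgt_star_bump`: `pk_urysohn₀ hC.inv.diag` (`Pk/Thr.lean`, PROVED) with `A = liftS β (ψ '' rgtBox d' (r/4)) (T+2)`, `O = liftK β (ψ '' hrCyl (r/3)) (T+1)`: `hA = rgt_liftS_isClosed` (compact image is closed), `hO = sh_liftK_relOpen hC hT _ (rgt_chart_relOpen ..) (T ≤ T+1)`,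
  `hAO = sh_liftS_subset_liftK (box (r/4) ⊆ hrCyl (r/3)) (T+1 < T+2)`, `hAc = rgt_liftS_compat`, `hOc = sh_liftK_compat`.  Then `b = 0` off `O ⊇`… : `z ∉ liftS (box (r/3)) (T+1)` ⇒ `z ∉ O` (`sh_liftK_subset_liftS`); `b = 1` on `liftK (hrCyl (r/4)) (T+2) ⊆ A ∩ tot E`.
-/

set_option autoImplicit false
set_option linter.unusedSectionVars false
open scoped ContDiff ENNReal Topology
open MeasureTheory Claims.C0499 Set Filter

namespace Claimed.Agent.R315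

variable {V W : Type} [NormedAddCommGroup V] [NormedSpace ℝ V] [NormedAddCommGroup W]
  [NormedSpace ℝ W] {ι : Type}

/-- the largest set with trace `U` on `tot E`. -/
def rgtAmb (C : ShCtx V W ι) (U : Set W) : Set W := (tot C.P.E \ U)ᶜ

theorem rgt_amb_mem {C : ShCtx V W ι} {U : Set W} {z : W} (hz : z ∈ tot C.P.E) :
    z ∈ rgtAmb C U ↔ z ∈ U := by
  simp [rgtAmb, hz]

variable [FiniteDimensional ℝ V] [FiniteDimensional ℝ W] [Fintype ι]
  [MeasurableSpace W] [BorelSpace W] {C : ShCtx V W ι} {β : Stat ι} {d' : ℕ}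
  {ψ : E (d' + 1) → W} {r T : ℝ}

theorem rgt_amb_open (hC : C.Ok) {U : Set W} (hU : RelOpen C.P.E U) : IsOpen (rgtAmb C U) := by
  have h1 : tot C.P.E \ U = ⋃ α, (C.P.E α \ U) := by
    unfold tot
    rw [iUnion_sdiff]
  unfold rgtAmb
  rw [h1, isOpen_compl_iff]
  refine isClosed_iUnion_of_finite fun α => ?_
  rw [← isOpen_compl_iff, isOpen_iff_mem_nhds]
  intro z hz
  by_cases hzE : z ∈ C.P.E α
  · have hzU : z ∈ U := by
      by_contra h
      exact hz ⟨hzE, h⟩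
    obtain ⟨N, hN, hsub⟩ := hU α z ⟨hzU, hzE⟩
    exact Filter.mem_of_superset hN fun y hy hy' => hy'.2 (hsub ⟨hy, hy'.1⟩)
  · exact Filter.mem_of_superset ((hC.inv.diag.closed α).isOpen_compl.mem_nhds hzE)
      fun y hy hy' => hy hy'.1

theorem rgt_amb_compat (hC : C.Ok) {U : Set W} (hU : Compat C.F C.P.E (fun z => z ∈ U)) :
    Compat C.F C.P.E (fun z => z ∈ rgtAmb C U) := by
  intro i K hK
  obtain ⟨R₁, hR₁⟩ := hU i K hK
  obtain ⟨R, hRR, _, hdrop, _⟩ := hC.inv.diag.tail_induction hK R₁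
  refine ⟨R, fun z hz hq hlt => ?_⟩
  obtain ⟨α, hα⟩ := mem_tot.1 hz
  have hd : C.F.drop i z ∈ tot C.P.E := mem_tot.2 ⟨_, hdrop α z hα hq i hlt⟩
  have h1 : (C.F.drop i z ∈ U) = (z ∈ U) := hR₁ z hz hq (lt_of_le_of_lt hRR hlt)
  show (C.F.drop i z ∈ rgtAmb C U) = (z ∈ rgtAmb C U)
  rw [propext (rgt_amb_mem hd), propext (rgt_amb_mem hz)]
  exact h1

theorem rgt_liftS_isClosed (hC : C.Ok) {K0 : Set W} (hK0 : IsClosed K0) (T' : ℝ) (α : Stat ι) :
    IsClosed (C.liftS β K0 T' ∩ C.P.E α) := by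
  by_cases hα : β.IsCof α
  · have e : C.liftS β K0 T' ∩ C.P.E α = C.P.E α ∩ (C.F.dropS (β.cofJ α) ⁻¹' K0 ∩
        {y | ∀ j ∈ β.cofJ α, T' ≤ (α j : ℝ) * C.F.t j y}) := by
      ext z
      constructor
      · rintro ⟨h1, h2⟩
        obtain ⟨_, h3, h4⟩ := (sh_mem_liftS hC h2).1 h1
        exact ⟨h2, h3, h4⟩
      · rintro ⟨h2, h3, h4⟩
        exact ⟨(sh_mem_liftS hC h2).2 ⟨hα, h3, h4⟩, h2⟩
    rw [e]
    exact (hC.inv.diag.closed α).inter
      ((hK0.preimage (C.F.continuous_dropS _)).inter (C.F.isClosed_tailC α _ T'))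
  · have e : C.liftS β K0 T' ∩ C.P.E α = ∅ := by
      ext z
      simp only [mem_inter_iff, mem_empty_iff_false, iff_false]
      rintro ⟨h1, h2⟩
      exact hα ((sh_mem_liftS hC h2).1 h1).1
    rw [e]
    exact isClosed_empty

theorem rgt_liftS_compat (hC : C.Ok) {S0 : Set W} (hS0 : IsCompact S0) (hT : ShThr C β S0 T)
    {K0 : Set W} (hK : K0 ⊆ S0) (T' : ℝ) : Compat C.F C.P.E (fun z => z ∈ C.liftS β K0 T') := by
  classical
  refine sh_glue_compat hC False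
    (fun α z => C.F.dropS (β.cofJ α) z ∈ K0 ∧ ∀ j ∈ β.cofJ α, T' ≤ (α j : ℝ) * C.F.t j z)
    (max T' T)
    (fun α hα z hz => propext ((sh_mem_liftS hC hz).trans (and_iff_right hα)))
    (fun α hα z hz => propext ⟨fun h => hα ((sh_mem_liftS hC hz).1 h).1, False.elim⟩) ?_ ?_
  · intro α hα i hb ha z hz hlt
    obtain ⟨e1, e2⟩ := sh_face_data C.F hb ha z
    refine propext (and_congr (by rw [e1]) ⟨fun h j hj => ?_, fun h j hj => ?_⟩)
    · rw [Stat.cofJ_face hb ha, Finset.mem_insert] at hj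
      rcases hj with rfl | hj
      · exact (lt_of_le_of_lt (le_max_left _ _) hlt).le
      · rw [← e2 j hj]
        exact h j hj
    · rw [e2 j hj]
      exact h j (by rw [Stat.cofJ_face hb ha]; exact Finset.mem_insert_of_mem hj)
  · intro α hα i hb z hz hlt
    exact propext ⟨fun h => hT.notMem hb (lt_of_le_of_lt (le_max_right _ _) hlt) (hK h.1),
      False.elim⟩

theorem rgt_chart_relOpen (hst : RgtStar C β d' ψ r) {ρ : ℝ} (hρ : ρ ≤ r) :
    ∀ z ∈ ψ '' (Gmt.hrCyl ρ : Set (E (d' + 1))),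
      ∃ N ∈ 𝓝 z, N ∩ C.P.E β ⊆ ψ '' (Gmt.hrCyl ρ : Set (E (d' + 1))) := by
  have hsub : (Gmt.hrCyl ρ : Set (E (d' + 1))) ⊆ Gmt.hrCyl r := fun u hu =>
    ⟨lt_of_lt_of_le hu.1 hρ, lt_of_lt_of_le hu.2 hρ⟩
  obtain ⟨O, hO, hOe⟩ := if_image_open hst.chart.par (Gmt.hr_isOpen_cyl ρ) hsub
  intro z hz
  have hzO : z ∈ O := (hOe ▸ hz : z ∈ C.P.E β ∩ O).2
  refine ⟨O, hO.mem_nhds hzO, fun y hy => ?_⟩
  rw [hOe]
  exact ⟨hy.2, hy.1⟩

theorem rgt_def_empty {d : ℕ} {X A : Set W} {h : Ten W} {φ : W → ℝ} (hX : X = ∅) (hA : A ⊆ X) :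
    CtDef d X h A φ := by
  subst hX
  have hA' : A = ∅ := subset_empty_iff.1 hA
  subst hA'
  refine ⟨fun ψ U hp => ?_, fun x hx => absurd hx (notMem_empty x), ?_⟩
  · have hU : U = ∅ := by
      ext u
      simp only [mem_empty_iff_false, iff_false]
      intro hu
      exact if_mem hp hu
    rw [hU]
    exact contDiffOn_empty
  · have e : {x | x ∈ (∅ : Set W) ∧ φ x < 0} = ∅ := by
      ext x
      simp
    rw [e]
    simp

/-- **the canonical function defines the phase on the star.** -/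
theorem rgt_star_def (hC : C.Ok) (hst : RgtStar C β d' ψ r) (hT : RgtThr C β ψ r T) {D : Set W}
    (hDo : IsOpen D)
    (hD : D ∩ tot C.P.E = C.liftK β (ψ '' (Gmt.hrCyl (r / 2) : Set (E (d' + 1)))) T)
    (α : Stat ι) :
    CtDef (C.m α) (C.P.E α ∩ D) C.P.h (C.ph α ∩ D) (fun z => -rgtL C β ψ r z) := by
  have hr := hst.chart.pos
  by_cases hα : β.IsCof α
  · have hG : CtGeo (d' + (β.cofJ α).card + 1) (C.P.E α) C.P.h C.P.dr := by
      rw [← rgt_cof_dim hC hst hα]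
      exact ⟨hC.inv.diag.mfd α, hC.inv.met.met α, hC.inv.dr_sc.1 α⟩
    have hT' : ShThr C β (ψ '' rgtBox d' (r / 2)) T :=
      hT.1.subset (image_mono fun u hu => ⟨hu.1.trans (by linarith), hu.2.trans (by linarith)⟩)
    have hΨ := rgt_ps_param_tail hC hst (ρ := r / 2) (by linarith) hT' hα
    have hJ : ∀ j ∈ β.cofJ α, β j = 0 := fun j hj => (Stat.mem_cofJ.1 hj).1
    rw [rgt_cof_dim hC hst hα]
    refine rgt_gr_def (L := rgtL C β ψ r) hG hΨ (rgt_isOpen_bs _ _ _ _ _ _ _) (hT.2 α hα)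
      (fun b hb => ⟨hb.1, hb.2.le⟩) hDo ?_ ?_
    · rw [rgt_ps_image hC hst (by linarith) hT' hα, ← hD]
      ext z
      constructor
      · rintro ⟨h1, h2, _⟩
        exact ⟨h1, h2⟩
      · rintro ⟨h1, h2⟩
        exact ⟨h1, h2, mem_tot.2 ⟨α, h1⟩⟩
    · intro b hb
      have hbD : b ∈ rgtDom (rgtA1 C.F (β.cofJ α) d') r :=
        ⟨hb.1.1.trans (by linarith), hb.2.trans (by linarith)⟩
      have h0 : C.F.dropS β.hitS (0 : W) = 0 := by
        rw [← C.F.dropSL_apply, map_zero]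
      have e1 := rgt_G_ps_ver hC hst hJ hbD h0
      have e2 := rgt_ps_U hC hst hJ hbD h0
      simp only [add_zero] at e1 e2
      unfold rgtL
      rw [e1, e2, Gmt.fl_ver_join]
  · refine rgt_def_empty ?_ (inter_subset_inter_left _ inter_subset_right)
    ext z
    simp only [mem_inter_iff, mem_empty_iff_false, iff_false]
    rintro ⟨h1, h2⟩
    have h3 : z ∈ C.liftK β (ψ '' (Gmt.hrCyl (r / 2) : Set (E (d' + 1)))) T :=
      hD ▸ (⟨h2, mem_tot.2 ⟨α, h1⟩⟩ : z ∈ D ∩ tot C.P.E)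
    exact hα ((sh_mem_liftK hC h1).1 h3).1

/-- **the compatible bump of a star.** -/
theorem rgt_star_bump (hC : C.Ok) (hst : RgtStar C β d' ψ r)
    (hT : ShThr C β (ψ '' rgtBox d' (3 * r / 4)) T) :
    ∃ b : W → ℝ, SC C.B.n C.F C.P.E b ∧ (∀ z, b z ∈ Icc (0 : ℝ) 1) ∧
      (∀ z ∈ tot C.P.E, z ∉ C.liftS β (ψ '' rgtBox d' (r / 3)) (T + 1) → b z = 0) ∧
      ∀ z ∈ C.liftK β (ψ '' (Gmt.hrCyl (r / 4) : Set (E (d' + 1)))) (T + 2), b z = 1 := by
  have hr := hst.chart.pos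
  have hcpt : ∀ ρ : ℝ, ρ < r → IsCompact (ψ '' rgtBox d' ρ) := fun ρ hρ =>
    (rgt_box_compact d' ρ).image_of_continuousOn
      ((if_continuousOn hst.chart.par).mono (rgt_box_subset hρ))
  have hbox : ∀ {ρ ρ' : ℝ}, ρ ≤ ρ' → rgtBox d' ρ ⊆ rgtBox d' ρ' := fun h u hu =>
    ⟨hu.1.trans h, hu.2.trans h⟩
  have hS0 := hcpt (3 * r / 4) (by linarith)
  have hsub3 : ψ '' (Gmt.hrCyl (r / 3) : Set (E (d' + 1))) ⊆ ψ '' rgtBox d' (3 * r / 4) :=
    image_mono ((rgt_cyl_subset_box d' _).trans (hbox (by linarith)))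
  obtain ⟨b, hb1, hb2, hb3, hb4⟩ := pk_urysohn₀ hC.inv.diag
    (A := C.liftS β (ψ '' rgtBox d' (r / 4)) (T + 2))
    (O := C.liftK β (ψ '' (Gmt.hrCyl (r / 3) : Set (E (d' + 1)))) (T + 1))
    (fun α => rgt_liftS_isClosed hC (hcpt (r / 4) (by linarith)).isClosed _ α)
    (sh_liftK_relOpen hC hT hsub3 (rgt_chart_relOpen hst (by linarith)) (by linarith))
    (fun z hz => sh_liftS_subset_liftK (image_mono (rgt_box_subset (by linarith))) (by linarith)
      hz.1)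
    (rgt_liftS_compat hC hS0 hT (image_mono (hbox (by linarith))) _)
    (sh_liftK_compat hC hS0 hT hsub3 _)
  refine ⟨b, hb1, hb2, fun z hz hzn => hb4 z hz fun hzO => hzn
    (sh_liftK_subset_liftS (image_mono (rgt_cyl_subset_box d' _)) le_rfl hzO), fun z hz =>
    hb3 z ⟨sh_liftK_subset_liftS (image_mono (rgt_cyl_subset_box d' _)) le_rfl hz,
      sh_liftK_subset_tot _ _ hz⟩⟩

end Claimed.Agent.R315
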