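import Claimed.Agent.R315.Rg.TrCh
import Claimed.Agent.R315.Rg.TrGrC
import Claimed.Agent.R315.Sh.Risk

/-!
# Row 315, package Rg-TR, file `TrPr.lean` = PACKAGE L-RG-TrPr: PRODUCT PARAMETRISATIONS OF ITERATED CYLINDERS   (architect: helper190)

`rgtPsi ψ a₁ a₂ b = ψ (a₁ (hor b), ver b) + a₂ (hor b)`, `(a₁, a₂) : E N ≅ E d' × span (e j, j ∈ J)` (`RgtSplit`, `TrDefs.lean`); the `s`-coordinate of the straightened chart `ψ` stays the LAST coordinate.
Canonical choice: `rgtA1 F J d'`, `rgtA2 F J d'` on `E (d' + J.card)`, `rgtPs F J ψ = rgtPsi ψ (rgtA1 ..) (rgtA2 ..)`.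

PLAN.
* frame linear algebra: proved here; more in `Ct/CutA.lean` (`Frame.eq_of_coords`, `Frame.q_vec`, `Frame.t_vec_mem`, `Frame.t_vec_notMem`, `Frame.dropS_eq_self`, `Frame.sub_vec_t`, `Frame.dropS_union`, `Frame.dropS_add_vec`, `Frame.dropS_add_vec_disj`).
* `rgt_split_exists`.  `k = J.card`, `e' = J.equivFin.symm : Fin k ≃ J`.  `a₁ x = ∑ i : Fin d', x (Fin.castAdd k i) • eb i` (as a sum of `(EuclideanSpace.proj _).smulRight _`, cf. `rm_tl` in `Rm/Defs.lean`), `a₂ x = ∑ i : Fin k, x (Fin.natAdd d' i) • F.e (e' i)`.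
  `inj`: `a₂ x = 0` ⇒ apply `F.t (e' i)`: `x (natAdd d' i) = 0`; `a₁ x = 0` ⇒ `x (castAdd k i) = 0`; `Fin.addCases`.  `surj`: `x = Fin.addCases w (fun i => s (e' i))` (`EuclideanSpace` constructor `WithLp.toLp 2`/`!₂[..]`-free: `(WithLp.equiv 2 _).symm`); `∑ i : Fin k, s (e' i) • F.e (e' i) = ∑ j ∈ J, s j • F.e j` (`Finset.sum_coe_sort`, `Equiv.sum_comp`).  `vec`: `F.t j (a₂ x)` is the coefficient.
* `rgt_psi_dropS`, `rgt_psi_t`: `hsp.vec`, `Frame.dropS_vec`, `dropS J x = x` if `t j x = 0` on `J`.     `rgt_psi_add`: `hor`, `ver` linear (`fl_hor_join`, `fl_ver_join`), `a₁ v = 0`.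
* `rgt_psi_param` (directly from the definition of `IsParam`: `⟨open, smooth, immersion, injOn, image, continuous inverse⟩`, see `IfParam.lean`).  `Λ x = (a₁ x, a₂ x)` is injective linear on a finite dimensional space: it has a continuous linear left inverse `S` (`LinearMap.exists_leftInverse_of_injective`, `LinearMap.toContinuousLinearMap`).
  - open: preimages.  - smooth: `ψ` smooth on `hrCyl r`, `b ↦ gmtJoin (a₁ (hor b)) (ver b)` is continuous linear (`fl_join_eq`) and maps `rgtDom a₁ r` to `hrCyl r`.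
  - injOn: apply `dropS J` (`rgt_psi_dropS`) and `if_injOn hψ` ⇒ `a₁ (hor b)`, `ver b` agree; then `a₂ (hor b)` agree; `hsp.inj`.   - immersion: `fderiv Ψ b w = fderiv ψ (..) (gmtJoin (a₁ hor w) (ver w)) + a₂ (hor w)`; apply the linear map `dropS J` (as a CLM: `z - ∑ t_j z • e_j`): `dropS J ∘ fderiv ψ = fderiv ψ` because `dropS J ∘ ψ = ψ` on the open set `hrCyl r`; `if_imm hψ`.
  - image: `ψ '' hrCyl r = X ∩ O₁` (`if_image`); `Ψ '' rgtDom a₁ r = F.cyl J X ∩ (F.dropS J) ⁻¹' O₁` (`⊇`: `z = dropS J z + vec J (t z)`, `hsp.surj`).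
  - continuous inverse: on the image `invFunOn Ψ dom z = gmtJoin (S (hor u, z - dropS J z)) (ver u)`, `u = invFunOn ψ (hrCyl r) (dropS J z)` (`if_contInv hψ`, `Frame.continuous_dropS`); `ContinuousOn.congr`.
* `rgt_cyl_sets` (proved here): the induction of `sh_cyl_sing` (`Sh/Risk.lean`) for all five sets.
* `rgt_psi_gr0`: `rgt_cyl_sets hC β J hJ (C.ph β)`, `rgt_mem_dim`, `rgt_psi_dropS`, `hst.chart.inn/out` at `u = gmtJoin (a₁ x) s ∈ hrCyl r`; `contDiffOn_const`.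
* `rgt_split_map`: `S''` = continuous linear left inverse of `x ↦ (a₁'' x, a₂'' x)`; `P x = S'' (a₁ x, dropS J' (a₂ x))` (CLM: `dropS J'` as a CLM).  By `h.vec`, `dropS J' (a₂ x) = vec J'' (t (a₂ x))` (`J = J'' ∪ J'` disjoint: `Finset.sum_union`), which by `h''.surj` is `a₂'' x''` with `a₁'' x'' = a₁ x`; so `P x = x''`.
-/

set_option autoImplicit false
open scoped ContDiff ENNReal Topology
open MeasureTheory Claims.C0499 Set Filter

namespace Claimed.Agent.R315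

variable {V W : Type} [NormedAddCommGroup V] [NormedSpace ℝ V] [NormedAddCommGroup W]
  [NormedSpace ℝ W] {ι : Type}

/-! ### linear algebra of frames -/

theorem Frame.dropS_add' (F : Frame V W ι) (J : Finset ι) (a b : W) :
    F.dropS J (a + b) = F.dropS J a + F.dropS J b := by
  rw [← F.dropSL_apply, ← F.dropSL_apply, ← F.dropSL_apply, map_add]

theorem Frame.t_vec (F : Frame V W ι) [DecidableEq ι] (J : Finset ι) (s : ι → ℝ) (j : ι) :
    F.t j (F.vec J s) = if j ∈ J then s j else 0 := by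
  split_ifs with h
  · exact F.t_vec_mem h s
  · exact F.t_vec_notMem h s

/-- `dropS` kills the vectors of a smaller set of directions. -/
theorem Frame.dropS_vec (F : Frame V W ι) {J J' : Finset ι} (h : J' ⊆ J) (s : ι → ℝ) :
    F.dropS J (F.vec J' s) = 0 := by
  refine F.inj _ ?_ fun i => ?_
  · rw [F.q_dropS, F.q_vec]
  · by_cases hi : i ∈ J
    · exact F.t_dropS_mem hi _
    · rw [F.t_dropS_notMem hi, F.t_vec_notMem (fun h' => hi (h h'))]

theorem Frame.dropS_add_vec_self (F : Frame V W ι) (J : Finset ι) (z : W) :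
    F.dropS J z + F.vec J (fun j => F.t j z) = z := by
  simp [Frame.dropS, Frame.vec]

/-! ### the canonical splitting -/

theorem rgt_split_exists (F : Frame V W ι) (J : Finset ι) (d' : ℕ) :
    ∃ (a₁ : E (d' + J.card) →L[ℝ] E d') (a₂ : E (d' + J.card) →L[ℝ] W), RgtSplit F J a₁ a₂ := by
  classical
  set k := J.card with hk
  let e' : Fin k ≃ J := J.equivFin.symm
  let a₁ : E (d' + k) →L[ℝ] E d' :=
    ((EuclideanSpace.equiv (Fin d') ℝ).symm : (Fin d' → ℝ) →L[ℝ] E d').comp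
      (ContinuousLinearMap.pi fun i => EuclideanSpace.proj (Fin.castAdd k i))
  let a₂ : E (d' + k) →L[ℝ] W :=
    ∑ i : Fin k, (EuclideanSpace.proj (Fin.natAdd d' i) : E (d' + k) →L[ℝ] ℝ).smulRight (F.e (e' i))
  have ha₁ : ∀ x i, a₁ x i = x (Fin.castAdd k i) := fun x i => rfl
  have ha₂ : ∀ x, a₂ x = ∑ i : Fin k, x (Fin.natAdd d' i) • F.e (e' i) := by
    intro x
    simp [a₂, ContinuousLinearMap.sum_apply]
  have hq : ∀ x, F.q (a₂ x) = 0 := by
    intro x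
    rw [ha₂, map_sum]
    exact Finset.sum_eq_zero fun i _ => by rw [map_smul, F.q_e, smul_zero]
  have ht : ∀ x (i : Fin k), F.t (e' i) (a₂ x) = x (Fin.natAdd d' i) := by
    intro x i
    rw [ha₂, map_sum, Finset.sum_eq_single i]
    · rw [map_smul, F.t_e, smul_eq_mul, mul_one]
    · intro i' _ hne
      have : ((e' i : J) : ι) ≠ ((e' i' : J) : ι) := fun h => hne (e'.injective (Subtype.ext h)).symm
      rw [map_smul, F.t_e_ne _ _ this, smul_zero]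
    · intro h
      exact absurd (Finset.mem_univ i) h
  have ht' : ∀ x (j : ι), j ∉ J → F.t j (a₂ x) = 0 := by
    intro x j hj
    rw [ha₂, map_sum]
    refine Finset.sum_eq_zero fun i _ => ?_
    have : j ≠ ((e' i : J) : ι) := fun h => hj (h ▸ (e' i).2)
    rw [map_smul, F.t_e_ne _ _ this, smul_zero]
  refine ⟨a₁, a₂, ⟨?_, ?_, ?_⟩⟩
  · intro x h1 h2
    ext i
    refine Fin.addCases (fun i => ?_) (fun i => ?_) i
    · rw [← ha₁, h1]
      rfl
    · rw [← ht, h2, map_zero]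
      rfl
  · intro w s
    refine ⟨WithLp.toLp 2 (Fin.addCases (fun i => w i) (fun i => s (e' i))), ?_, ?_⟩
    · ext i
      rw [ha₁]
      simp
    · rw [ha₂]
      simp only [PiLp.toLp_apply, Fin.addCases_right]
      rw [Equiv.sum_comp e' (fun j : J => s j • F.e j), Frame.vec,
        Finset.sum_coe_sort J (fun j => s j • F.e j)]
  · intro x
    refine F.eq_of_coords ?_ fun i => ?_
    · rw [hq, F.q_vec]
    · by_cases hi : i ∈ J
      · rw [F.t_vec_mem hi]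
      · rw [F.t_vec_notMem hi, ht' x i hi]

noncomputable def rgtA1 (F : Frame V W ι) (J : Finset ι) (d' : ℕ) : E (d' + J.card) →L[ℝ] E d' :=
  (rgt_split_exists F J d').choose

noncomputable def rgtA2 (F : Frame V W ι) (J : Finset ι) (d' : ℕ) : E (d' + J.card) →L[ℝ] W :=
  (rgt_split_exists F J d').choose_spec.choose

theorem rgt_split (F : Frame V W ι) (J : Finset ι) (d' : ℕ) :
    RgtSplit F J (rgtA1 F J d') (rgtA2 F J d') :=
  (rgt_split_exists F J d').choose_spec.choose_spec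

/-- the canonical parametrisation in the directions `J`. -/
noncomputable def rgtPs (F : Frame V W ι) (J : Finset ι) {d' : ℕ} (ψ : E (d' + 1) → W) :
    E (d' + J.card + 1) → W :=
  rgtPsi ψ (rgtA1 F J d') (rgtA2 F J d')

/-! ### the product parametrisation -/

section psi

variable {F : Frame V W ι} {J : Finset ι} {d' N : ℕ} {a₁ : E N →L[ℝ] E d'} {a₂ : E N →L[ℝ] W}
  {ψ : E (d' + 1) → W} {r : ℝ}

theorem rgt_psi_join (ψ : E (d' + 1) → W) (a₁ : E N →L[ℝ] E d') (a₂ : E N →L[ℝ] W) (x : E N)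
    (s : ℝ) : rgtPsi ψ a₁ a₂ (Gmt.gmtJoin x s) = ψ (Gmt.gmtJoin (a₁ x) s) + a₂ x := by
  unfold rgtPsi
  rw [Gmt.fl_hor_join, Gmt.fl_ver_join]

theorem rgt_split_dropS (hsp : RgtSplit F J a₁ a₂) (x : E N) : F.dropS J (a₂ x) = 0 := by
  rw [hsp.vec x]
  exact F.dropS_vec (Finset.Subset.refl J) _

theorem rgt_psi_dropS (hsp : RgtSplit F J a₁ a₂) {b : E (N + 1)}
    (h0 : ∀ j ∈ J, F.t j (ψ (Gmt.gmtJoin (a₁ (Gmt.gmtHor b)) (Gmt.gmtVer b))) = 0) :
    F.dropS J (rgtPsi ψ a₁ a₂ b) = ψ (Gmt.gmtJoin (a₁ (Gmt.gmtHor b)) (Gmt.gmtVer b)) := by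
  unfold rgtPsi
  rw [F.dropS_add', rgt_split_dropS hsp, add_zero, F.dropS_eq_self h0]

theorem rgt_hor_add (b b' : E (N + 1)) : Gmt.gmtHor (b + b') = Gmt.gmtHor b + Gmt.gmtHor b' :=
  map_add (Gmt.gmtHorL N) b b'

theorem rgt_ver_add (b b' : E (N + 1)) : Gmt.gmtVer (b + b') = Gmt.gmtVer b + Gmt.gmtVer b' :=
  map_add (Gmt.gmtVerL N) b b'

theorem rgt_psi_add (ψ : E (d' + 1) → W) (a₂ : E N →L[ℝ] W) {v : E N} (hv : a₁ v = 0)
    (b : E (N + 1)) :
    rgtPsi ψ a₁ a₂ (b + Gmt.gmtJoin v 0) = rgtPsi ψ a₁ a₂ b + a₂ v := by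
  unfold rgtPsi
  rw [rgt_hor_add, rgt_ver_add, Gmt.fl_hor_join, Gmt.fl_ver_join, map_add, map_add, hv, add_zero, add_zero,
    add_assoc]

theorem rgt_isOpen_dom (a₁ : E N →L[ℝ] E d') (r : ℝ) : IsOpen (rgtDom a₁ r) := by
  have h1 : Continuous (fun b : E (N + 1) => ‖a₁ (Gmt.gmtHor b)‖) :=
    (a₁.continuous.comp (Gmt.gmtHorL N).continuous).norm
  have h2 : Continuous (fun b : E (N + 1) => |Gmt.gmtVer b|) := (Gmt.gmtVerL N).continuous.abs
  exact (isOpen_lt h1 continuous_const).inter (isOpen_lt h2 continuous_const)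

/-- the linear map `b ↦ (a₁ (hor b), ver b)`. -/
noncomputable def rgtTau (a₁ : E N →L[ℝ] E d') : E (N + 1) →L[ℝ] E (d' + 1) :=
  (Gmt.flInc d').comp (a₁.comp (Gmt.gmtHorL N)) + (Gmt.gmtVerL N).smulRight (Gmt.gmtEn d')

theorem rgtTau_forced : True := by
  have := @rgtTau.eq_1
  have := @rgtA1.eq_1
  have := @rgtA2.eq_1
  have := @rgtPs.eq_1
  trivial

theorem rgt_tau_apply (a₁ : E N →L[ℝ] E d') (b : E (N + 1)) :
    rgtTau a₁ b = Gmt.gmtJoin (a₁ (Gmt.gmtHor b)) (Gmt.gmtVer b) := by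
  rw [Gmt.fl_join_eq]
  rfl

theorem rgt_tau_mem {b : E (N + 1)} (hb : b ∈ rgtDom a₁ r) : rgtTau a₁ b ∈ (Gmt.hrCyl r : Set (E (d' + 1))) := by
  rw [rgt_tau_apply]
  show ‖Gmt.gmtHor _‖ < r ∧ |Gmt.gmtVer _| < r
  rw [Gmt.fl_hor_join, Gmt.fl_ver_join]
  exact hb

theorem rgt_psi_eq (ψ : E (d' + 1) → W) (a₁ : E N →L[ℝ] E d') (a₂ : E N →L[ℝ] W) (b : E (N + 1)) :
    rgtPsi ψ a₁ a₂ b = ψ (rgtTau a₁ b) + (a₂.comp (Gmt.gmtHorL N)) b := by
  rw [rgt_tau_apply]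
  rfl

/-- `(a₁, a₂)` determine the point. -/
theorem rgt_split_inj (hsp : RgtSplit F J a₁ a₂) {x x' : E N} (h1 : a₁ x = a₁ x') (h2 : a₂ x = a₂ x') :
    x = x' :=
  sub_eq_zero.1 (hsp.inj (x - x') (by rw [map_sub, h1, sub_self]) (by rw [map_sub, h2, sub_self]))

/-- a continuous linear left inverse of `x ↦ (a₁ x, a₂ x)`. -/
theorem rgt_split_leftInv [FiniteDimensional ℝ W] (hsp : RgtSplit F J a₁ a₂) :
    ∃ S : E d' × W →L[ℝ] E N, ∀ x, S (a₁ x, a₂ x) = x := by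
  have hker : LinearMap.ker ((a₁ : E N →ₗ[ℝ] E d').prod (a₂ : E N →ₗ[ℝ] W)) = ⊥ := by
    rw [LinearMap.ker_eq_bot']
    intro x hx
    have h1 : a₁ x = 0 := congrArg Prod.fst hx
    have h2 : a₂ x = 0 := congrArg Prod.snd hx
    exact hsp.inj x h1 h2
  obtain ⟨g, hg⟩ := LinearMap.exists_leftInverse_of_injective _ hker
  refine ⟨LinearMap.toContinuousLinearMap g, fun x => ?_⟩
  have := LinearMap.congr_fun hg x
  exact this

theorem rgt_join_ext {b b' : E (N + 1)} (h1 : Gmt.gmtHor b = Gmt.gmtHor b') (h2 : Gmt.gmtVer b = Gmt.gmtVer b') :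
    b = b' := by
  rw [← Gmt.fl_join_hor_ver b, ← Gmt.fl_join_hor_ver b', h1, h2]

theorem rgt_tau_inj {b b' : E (N + 1)} (h : rgtTau a₁ b = rgtTau a₁ b') :
    a₁ (Gmt.gmtHor b) = a₁ (Gmt.gmtHor b') ∧ Gmt.gmtVer b = Gmt.gmtVer b' := by
  rw [rgt_tau_apply, rgt_tau_apply] at h
  have h1 := congrArg Gmt.gmtHor h
  have h2 := congrArg Gmt.gmtVer h
  rw [Gmt.fl_hor_join, Gmt.fl_hor_join] at h1
  rw [Gmt.fl_ver_join, Gmt.fl_ver_join] at h2
  exact ⟨h1, h2⟩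

theorem rgt_psi_param [FiniteDimensional ℝ W] {X : Set W} (hψ : IsParam X ψ (Gmt.hrCyl r))
    (h0 : ∀ x ∈ X, ∀ j ∈ J, F.t j x = 0) (hsp : RgtSplit F J a₁ a₂) :
    IsParam (F.cyl J X) (rgtPsi ψ a₁ a₂) (rgtDom a₁ r) := by
  have hfun : rgtPsi ψ a₁ a₂ = fun b => ψ (rgtTau a₁ b) + (a₂.comp (Gmt.gmtHorL N)) b :=
    funext (rgt_psi_eq ψ a₁ a₂)
  have hmaps : MapsTo (rgtTau a₁) (rgtDom a₁ r) (Gmt.hrCyl r) := fun b hb => rgt_tau_mem hb
  have hdrop : ∀ b ∈ rgtDom a₁ r, F.dropS J (rgtPsi ψ a₁ a₂ b) = ψ (rgtTau a₁ b) := by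
    intro b hb
    rw [rgt_tau_apply]
    refine rgt_psi_dropS hsp fun j hj => h0 _ ?_ j hj
    rw [← rgt_tau_apply]
    exact if_mem hψ (rgt_tau_mem hb)
  have hinj : InjOn (rgtPsi ψ a₁ a₂) (rgtDom a₁ r) := by
    intro b hb b' hb' h
    have h1 : ψ (rgtTau a₁ b) = ψ (rgtTau a₁ b') := by rw [← hdrop b hb, ← hdrop b' hb', h]
    have h2 := if_injOn hψ (rgt_tau_mem hb) (rgt_tau_mem hb') h1
    obtain ⟨h3, h4⟩ := rgt_tau_inj h2
    rw [rgt_psi_eq, rgt_psi_eq, h1] at h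
    have h5 : a₂ (Gmt.gmtHor b) = a₂ (Gmt.gmtHor b') := add_left_cancel h
    exact rgt_join_ext (rgt_split_inj hsp h3 h5) h4
  obtain ⟨O₁, hO₁, himg⟩ := if_image hψ
  obtain ⟨S, hS⟩ := rgt_split_leftInv hsp
  refine ⟨rgt_isOpen_dom a₁ r, ?_, ?_, hinj, ⟨F.dropS J ⁻¹' O₁, hO₁.preimage (F.continuous_dropS J), ?_⟩, ?_⟩
  · -- smooth
    rw [hfun]
    exact ((if_smooth hψ).comp (rgtTau a₁).contDiff.contDiffOn hmaps).add
      (a₂.comp (Gmt.gmtHorL N)).contDiff.contDiffOn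
  · -- immersion
    intro b hb w w' hww
    have hu := rgt_tau_mem hb
    have hd1 : HasFDerivAt (rgtPsi ψ a₁ a₂)
        ((fderiv ℝ ψ (rgtTau a₁ b)).comp (rgtTau a₁) + a₂.comp (Gmt.gmtHorL N)) b := by
      rw [hfun]
      exact ((if_differentiableAt hψ hu).hasFDerivAt.comp b (rgtTau a₁).hasFDerivAt).add
        (a₂.comp (Gmt.gmtHorL N)).hasFDerivAt
    have hd2 : (F.dropSL J).comp (fderiv ℝ ψ (rgtTau a₁ b)) = fderiv ℝ ψ (rgtTau a₁ b) := by
      have h1 : HasFDerivAt (fun u => F.dropSL J (ψ u)) ((F.dropSL J).comp (fderiv ℝ ψ (rgtTau a₁ b)))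
          (rgtTau a₁ b) := (F.dropSL J).hasFDerivAt.comp _ (if_differentiableAt hψ hu).hasFDerivAt
      have h2 : (fun u => F.dropSL J (ψ u)) =ᶠ[𝓝 (rgtTau a₁ b)] ψ := by
        filter_upwards [(if_open hψ).mem_nhds hu] with u hu'
        rw [F.dropSL_apply]
        exact F.dropS_eq_self (h0 _ (if_mem hψ hu'))
      exact (h1.congr_of_eventuallyEq h2.symm).unique (if_differentiableAt hψ hu).hasFDerivAt
    rw [hd1.fderiv] at hww
    have hz : ∀ v : E (N + 1), F.dropSL J (((fderiv ℝ ψ (rgtTau a₁ b)).comp (rgtTau a₁) +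
        a₂.comp (Gmt.gmtHorL N)) v) = fderiv ℝ ψ (rgtTau a₁ b) (rgtTau a₁ v) := by
      intro v
      have e1 : F.dropSL J (a₂ (Gmt.gmtHorL N v)) = 0 := by
        rw [F.dropSL_apply]; exact rgt_split_dropS hsp _
      have e2 : F.dropSL J (fderiv ℝ ψ (rgtTau a₁ b) (rgtTau a₁ v)) = fderiv ℝ ψ (rgtTau a₁ b) (rgtTau a₁ v) :=
        congrArg (fun A : E (d' + 1) →L[ℝ] W => A (rgtTau a₁ v)) hd2
      simp only [ContinuousLinearMap.add_apply, ContinuousLinearMap.comp_apply, map_add, e1, e2, add_zero]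
    have h3 : fderiv ℝ ψ (rgtTau a₁ b) (rgtTau a₁ w) = fderiv ℝ ψ (rgtTau a₁ b) (rgtTau a₁ w') := by
      rw [← hz w, ← hz w', hww]
    have h4 := if_imm hψ hu h3
    obtain ⟨h5, h6⟩ := rgt_tau_inj h4
    simp only [ContinuousLinearMap.add_apply, ContinuousLinearMap.comp_apply, h3] at hww
    have h7 : a₂ (Gmt.gmtHor w) = a₂ (Gmt.gmtHor w') := add_left_cancel hww
    exact rgt_join_ext (rgt_split_inj hsp h5 h7) h6
  · -- image
    ext z
    constructor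
    · rintro ⟨b, hb, rfl⟩
      have h1 : ψ (rgtTau a₁ b) ∈ X ∩ O₁ := himg ▸ mem_image_of_mem ψ (rgt_tau_mem hb)
      rw [← hdrop b hb] at h1
      exact h1
    · rintro ⟨hz1, hz2⟩
      have h1 : F.dropS J z ∈ ψ '' Gmt.hrCyl r := by rw [himg]; exact ⟨hz1, hz2⟩
      obtain ⟨u, hu, hzu⟩ := h1
      obtain ⟨x, hx1, hx2⟩ := hsp.surj (Gmt.gmtHor u) (fun j => F.t j z)
      refine ⟨Gmt.gmtJoin x (Gmt.gmtVer u), ?_, ?_⟩
      · show ‖a₁ (Gmt.gmtHor _)‖ < r ∧ |Gmt.gmtVer _| < r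
        rw [Gmt.fl_hor_join, Gmt.fl_ver_join, hx1]
        exact hu
      · rw [rgt_psi_join, hx1, hx2, Gmt.fl_join_hor_ver, hzu, F.dropS_add_vec_self]
  · -- continuous inverse
    have hmap2 : MapsTo (F.dropS J) (rgtPsi ψ a₁ a₂ '' rgtDom a₁ r) (ψ '' Gmt.hrCyl r) := by
      rintro _ ⟨b, hb, rfl⟩
      rw [hdrop b hb]
      exact mem_image_of_mem ψ (rgt_tau_mem hb)
    have hc1 : ContinuousOn (fun z => Function.invFunOn ψ (Gmt.hrCyl r) (F.dropS J z))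
        (rgtPsi ψ a₁ a₂ '' rgtDom a₁ r) :=
      (if_contInv hψ).comp (F.continuous_dropS J).continuousOn hmap2
    have hc2 : ContinuousOn (fun z => Gmt.gmtJoin
        (S (Gmt.gmtHor (Function.invFunOn ψ (Gmt.hrCyl r) (F.dropS J z)), z - F.dropS J z))
        (Gmt.gmtVer (Function.invFunOn ψ (Gmt.hrCyl r) (F.dropS J z)))) (rgtPsi ψ a₁ a₂ '' rgtDom a₁ r) := by
      have hh : ContinuousOn (fun z => Gmt.gmtHor (Function.invFunOn ψ (Gmt.hrCyl r) (F.dropS J z)))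
          (rgtPsi ψ a₁ a₂ '' rgtDom a₁ r) := (Gmt.gmtHorL d').continuous.comp_continuousOn hc1
      have hv : ContinuousOn (fun z => Gmt.gmtVer (Function.invFunOn ψ (Gmt.hrCyl r) (F.dropS J z)))
          (rgtPsi ψ a₁ a₂ '' rgtDom a₁ r) := (Gmt.gmtVerL d').continuous.comp_continuousOn hc1
      have hs : ContinuousOn (fun z => z - F.dropS J z) (rgtPsi ψ a₁ a₂ '' rgtDom a₁ r) :=
        (continuous_id.sub (F.continuous_dropS J)).continuousOn
      exact Gmt.fl_continuous_join.comp_continuousOn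
        ((S.continuous.comp_continuousOn (hh.prodMk hs)).prodMk hv)
    refine hc2.congr ?_
    rintro _ ⟨b, hb, rfl⟩
    rw [hinj.leftInvOn_invFunOn hb]
    simp only [hdrop b hb, if_leftInv hψ (rgt_tau_mem hb)]
    have e1 : rgtPsi ψ a₁ a₂ b - ψ (rgtTau a₁ b) = a₂ (Gmt.gmtHor b) := by
      rw [rgt_psi_eq, add_sub_cancel_left]
      rfl
    rw [e1, rgt_tau_apply, Gmt.fl_hor_join, Gmt.fl_ver_join, hS, Gmt.fl_join_hor_ver]

/-- comparison of the splittings of `J'' ⊆ J`. -/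
theorem rgt_split_map [FiniteDimensional ℝ W] [DecidableEq ι] {J' J'' : Finset ι} {N'' : ℕ}
    {a₁'' : E N'' →L[ℝ] E d'} {a₂'' : E N'' →L[ℝ] W} (h'' : RgtSplit F J'' a₁'' a₂'')
    (h : RgtSplit F J a₁ a₂) (hJ : J = J'' ∪ J') (hd : Disjoint J'' J') :
    ∃ P : E N →L[ℝ] E N'', ∀ x, a₁'' (P x) = a₁ x ∧ a₂'' (P x) = F.dropS J' (a₂ x) := by
  obtain ⟨S, hS⟩ := rgt_split_leftInv h''
  refine ⟨S.comp (a₁.prod ((F.dropSL J').comp a₂)), fun x => ?_⟩
  have h1 : F.dropS J' (a₂ x) = F.vec J'' (fun j => F.t j (a₂ x)) := by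
    conv_lhs => rw [h.vec x]
    have e1 : F.vec J (fun j => F.t j (a₂ x)) =
        F.vec J'' (fun j => F.t j (a₂ x)) + F.vec J' (fun j => F.t j (a₂ x)) := by
      unfold Frame.vec
      rw [hJ, Finset.sum_union hd]
    rw [e1, F.dropS_add', F.dropS_vec (Finset.Subset.refl J'), add_zero]
    refine F.dropS_eq_self fun j hj => F.t_vec_notMem (fun hj' => ?_) _
    exact (Finset.disjoint_left.1 hd) hj' hj
  obtain ⟨x'', hx1, hx2⟩ := h''.surj (a₁ x) (fun j => F.t j (a₂ x))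
  have h2 : (S.comp (a₁.prod ((F.dropSL J').comp a₂))) x = x'' := by
    show S (a₁ x, F.dropSL J' (a₂ x)) = x''
    rw [F.dropSL_apply, h1, ← hx1, ← hx2, hS]
  rw [h2, hx1, hx2, h1]
  exact ⟨rfl, rfl⟩

end psi

variable [FiniteDimensional ℝ V] [FiniteDimensional ℝ W] [Fintype ι]
  [MeasurableSpace W] [BorelSpace W] {C : ShCtx V W ι}

/-- **boundary, wall, singular set, phases of a cylinder set in a member.** -/
theorem rgt_cyl_sets (hC : C.Ok) (γ : Stat ι) (J : Finset ι) (hJ : ∀ j ∈ J, γ j = 0)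
    (A' : Set W) :
    ctBd (mdim C.B.n γ J) (C.P.mE C.F γ J) (C.F.cyl J A') =
        C.F.cyl J (ctBd (C.B.n - hits γ) (C.P.E γ) A') ∧
      ctWall (mdim C.B.n γ J) (C.P.mE C.F γ J) (C.F.cyl J A') =
        C.F.cyl J (ctWall (C.B.n - hits γ) (C.P.E γ) A') ∧
      ctSing (mdim C.B.n γ J) (C.P.mE C.F γ J) (C.F.cyl J A') =
        C.F.cyl J (ctSing (C.B.n - hits γ) (C.P.E γ) A') ∧
      ctIn (mdim C.B.n γ J) (C.P.mE C.F γ J) (C.F.cyl J A') =
        C.F.cyl J (ctIn (C.B.n - hits γ) (C.P.E γ) A') ∧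
      ctOut (mdim C.B.n γ J) (C.P.mE C.F γ J) (C.F.cyl J A') =
        C.F.cyl J (ctOut (C.B.n - hits γ) (C.P.E γ) A') := by
  classical
  induction J using Finset.induction_on with
  | empty =>
    have h1 : ∀ X : Set W, C.F.cyl ∅ X = X := fun X => by
      ext z
      simp [Frame.cyl, Frame.dropS_empty]
    simp only [PData.mE, h1, mdim, Finset.card_empty, add_zero, and_self]
  | insert i S hi ih =>
    have hS : ∀ j ∈ S, γ j = 0 := fun j hj => hJ j (Finset.mem_insert_of_mem hj)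
    have hG := ct_mem_geo hC.inv.pgeo γ S hS
    have hM : ∀ x ∈ C.P.mE C.F γ S, C.F.t i x = 0 := by
      intro x hx
      rw [← C.F.t_dropS_notMem hi x]
      exact hC.inv.diag.t_hit γ _ hx i (hJ i (Finset.mem_insert_self i S))
    have hd : mdim C.B.n γ (insert i S) = mdim C.B.n γ S + 1 := by
      unfold mdim
      rw [Finset.card_insert_of_notMem hi]
      ring
    have h3 := ct_cyl_sets hG.mfd (C.F.t_e i) hM (C.F.cyl S A')
    obtain ⟨i1, i2, i3, i4, i5⟩ := ih hS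
    rw [i1, i2, i3, i4, i5] at h3
    rw [hd, PData.mE]
    simp only [C.F.cyl_insert hi]
    exact h3

/-- the flat graph over the cylinder of a straightened chart. -/
theorem rgt_psi_gr0 (hC : C.Ok) {β : Stat ι} {d' : ℕ} {ψ : E (d' + 1) → W} {r : ℝ}
    (hst : RgtStar C β d' ψ r) {J : Finset ι} (hJ : ∀ j ∈ J, β j = 0) {r' : ℝ} (h0 : 0 < r')
    (hr' : r' < r) :
    RgtGr (C.P.mE C.F β J) (C.F.cyl J (C.ph β)) (rgtPs C.F J ψ) r' (fun _ => 0)
      {x | ‖rgtA1 C.F J d' x‖ < r} := by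
  obtain ⟨-, -, -, hin, hout⟩ := rgt_cyl_sets hC β J hJ (C.ph β)
  have hdim : C.B.n - hits β = d' + 1 := hst.dim
  rw [rgt_mem_dim hst J, hdim] at hin hout
  refine ⟨contDiffOn_const, fun x hx => ⟨by rwa [abs_zero], fun s hs => ?_⟩⟩
  have hu : Gmt.gmtJoin (rgtA1 C.F J d' x) s ∈ (Gmt.hrCyl r : Set (E (d' + 1))) := by
    show ‖Gmt.gmtHor _‖ < r ∧ |Gmt.gmtVer _| < r
    rw [Gmt.fl_hor_join, Gmt.fl_ver_join]
    exact ⟨hx, lt_of_le_of_lt hs hr'⟩
  have hdrop : C.F.dropS J (rgtPs C.F J ψ (Gmt.gmtJoin x s)) = ψ (Gmt.gmtJoin (rgtA1 C.F J d' x) s) := by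
    have := rgt_psi_dropS (ψ := ψ) (rgt_split C.F J d') (b := Gmt.gmtJoin x s) (by
      intro j hj
      rw [Gmt.fl_hor_join, Gmt.fl_ver_join]
      exact hst.t0 hC hu (hJ j hj))
    rw [Gmt.fl_hor_join, Gmt.fl_ver_join] at this
    exact this
  rw [hin, hout]
  constructor
  · show C.F.dropS J (rgtPs C.F J ψ (Gmt.gmtJoin x s)) ∈ ctIn (d' + 1) (C.P.E β) (C.ph β) ↔ s < 0
    rw [hdrop, hst.chart.inn _ hu, Gmt.fl_ver_join]
  · show C.F.dropS J (rgtPs C.F J ψ (Gmt.gmtJoin x s)) ∈ ctOut (d' + 1) (C.P.E β) (C.ph β) ↔ 0 < s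
    rw [hdrop, hst.chart.out _ hu, Gmt.fl_ver_join]

end Claimed.Agent.R315
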