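import Claimed.Agent.R315.Rg.TrDefs
import Claimed.Agent.R315.Rg.FinA
import Claimed.Agent.R315.Rg.FinT

/-!
# Row 315, package Rg-TR/TRX, file `TrTl.lean`: TOOLS for the globalisation (architect: helper48, prefix `rgx_`)

Point set topology of a diagram along ESCAPING SEQUENCES.  Context `C : ShCtx V W ι`, `hC : C.Ok`, `E = C.P.E`, `F = C.F`.

* `RgxEO C G` (`G` is OPEN ALONG ESCAPES): for translations `v k = F.vec J (s k)` escaping in the tails `J` of `E α` and `x'` in the member `(α.faceS J, J)` with `dropS J x' ∈ G`: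
  eventually `z + v k ∈ G` for all `z` of the member near `x'`.  (`J = ∅`: `G` is relatively open.)  Instances: open compatible sets (`rgx_eo_of_open_compat`), the open phases (`Rg/TrAC.lean`).
* `RgxEC C Γ` (`Γ` is CLOSED ALONG ESCAPES): `z k ∈ Γ ∩ E α` escaping in `J`, `dropS J (z k) → y ∈ E (α.faceS J)` implies `y ∈ Γ`.  Instances: closed compatible sets (`rgx_ec_of_closed_compat`), THE UNION OF THE GUARDS
  (which is NOT compatible: the count drops on faces; `Rg/Trx.lean`).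
* `RgxBump C D K D' b`: an exactly compatible bump `b` (`SC`, values in `[0,1]`), `= 0` on `tot E` off `K`, `K ∩ tot E ⊆ D` (`D` open), `= 1` on the open compatible plateau `D'`.
* `rgx_star` (STAR LEMMA): every point `y ∈ E β ∩ G`, `G` open along escapes, lies in the plateau of a bump with `D ∩ tot E ⊆ G` of `q`-extent `< 1`  (`ShCtx.liftD`, `liftK`, `liftS` of `Sh/Lift.lean`).
* `rgx_cover` (COVERING LEMMA): if the plateaus `D' m` (open, compatible) cover `Γ ∩ tot E`, `Γ` closed along escapes, and the `D m ⊇ D' m ∩ tot E` have `q`-extent `< 1`, then a subfamily which is LOCALLY FINITE OVER `V` covers.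
* `rgx_sc_ac`: `SC` functions satisfy (AC) everywhere (`RgfAC .. univ`, `Rg/FinA.lean`).
-/

set_option autoImplicit false
set_option linter.unusedSectionVars false
open scoped ContDiff ENNReal Topology
open MeasureTheory Claims.C0499 Set Filter

namespace Claimed.Agent.R315

variable {V W : Type} [NormedAddCommGroup V] [NormedSpace ℝ V] [NormedAddCommGroup W]
  [NormedSpace ℝ W] {ι : Type}

/-- `G` is open along escapes. -/
def RgxEO (C : ShCtx V W ι) (G : Set W) : Prop :=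
  ∀ (α : Stat ι) (J : Finset ι) (s : ℕ → ι → ℝ), RgfEsc α J s →
    ∀ x' ∈ C.F.cyl J (C.P.E (α.faceS J)), C.F.dropS J x' ∈ G →
      ∃ N ∈ 𝓝 x', ∀ᶠ k in atTop, ∀ z ∈ N ∩ C.F.cyl J (C.P.E (α.faceS J)),
        z + C.F.vec J (s k) ∈ G

/-- `Γ` is closed along escapes. -/
def RgxEC (C : ShCtx V W ι) (Γ : Set W) : Prop :=
  ∀ (α : Stat ι) (J : Finset ι) (z : ℕ → W) (y : W), (∀ j ∈ J, α j ≠ 0) →
    (∀ k, z k ∈ Γ ∩ C.P.E α) →
    (∀ j ∈ J, Tendsto (fun k => (α j : ℝ) * C.F.t j (z k)) atTop atTop) →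
    y ∈ C.P.E (α.faceS J) → Tendsto (fun k => C.F.dropS J (z k)) atTop (𝓝 y) → y ∈ Γ

/-- an exactly compatible bump with plateau `D'` and support `K ⊆ D`. -/
structure RgxBump [Fintype ι] (C : ShCtx V W ι) (D K D' : Set W) (b : W → ℝ) : Prop where
  opn : IsOpen D
  b_sc : SC C.B.n C.F C.P.E b
  b_mem : ∀ z, b z ∈ Icc (0 : ℝ) 1
  K_closed : ∀ α, IsClosed (K ∩ C.P.E α)
  K_sub : K ∩ tot C.P.E ⊆ D
  b_zero : ∀ z ∈ tot C.P.E, z ∉ K → b z = 0
  opn' : IsOpen D'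
  compat' : Compat C.F C.P.E (fun z => z ∈ D')
  b_one : ∀ z ∈ D' ∩ tot C.P.E, b z = 1

variable [FiniteDimensional ℝ V] [FiniteDimensional ℝ W] [Fintype ι]
  [MeasurableSpace W] [BorelSpace W] {C : ShCtx V W ι}

theorem RgxBump.plateau_sub {D K D' : Set W} {b : W → ℝ} (h : RgxBump C D K D' b) :
    D' ∩ tot C.P.E ⊆ D := by
  intro z hz
  by_contra hD
  have hK : z ∉ K := fun hK => hD (h.K_sub ⟨hK, hz.2⟩)
  have h1 := h.b_one z hz
  rw [h.b_zero z hz.2 hK] at h1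
  exact zero_ne_one h1

/-! ### escaping sequences -/

/-- the projections of an escaping sequence lie in the face eventually. -/
theorem rgx_esc_face (hC : C.Ok) {α : Stat ι} {J : Finset ι} {z : ℕ → W} {y : W}
    (hJ : ∀ j ∈ J, α j ≠ 0) (hz : ∀ k, z k ∈ C.P.E α)
    (hesc : ∀ j ∈ J, Tendsto (fun k => (α j : ℝ) * C.F.t j (z k)) atTop atTop)
    (hy : Tendsto (fun k => C.F.dropS J (z k)) atTop (𝓝 y)) :
    ∀ᶠ k in atTop, C.F.dropS J (z k) ∈ C.P.E (α.faceS J) := by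
  have hD := hC.inv.diag
  have hqc : IsCompact (insert (C.F.q y) (Set.range fun k => C.F.q (C.F.dropS J (z k)))) :=
    ((C.F.q.continuous.tendsto y).comp hy).isCompact_insert_range
  obtain ⟨R1, _, hR1⟩ := sh_unif_thr hD hqc
  have : ∀ᶠ k in atTop, ∀ i ∈ J, R1 < (α i : ℝ) * C.F.t i (z k) := by
    rw [Filter.eventually_all_finset]
    exact fun i hi => (hesc i hi).eventually_gt_atTop _
  filter_upwards [this] with k hk
  refine (hR1 J α (z k) ?_ fun i hi => ⟨hJ i hi, hk i hi⟩).1 (hz k)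
  rw [← C.F.q_dropS J (z k)]
  exact Set.mem_insert_of_mem _ ⟨k, rfl⟩

/-- sets which are open along escapes catch escaping sequences. -/
theorem RgxEO.seq (hC : C.Ok) {G : Set W} (hG : RgxEO C G) {α : Stat ι} {J : Finset ι}
    {z : ℕ → W} {y : W} (hJ : ∀ j ∈ J, α j ≠ 0) (hz : ∀ k, z k ∈ C.P.E α)
    (hesc : ∀ j ∈ J, Tendsto (fun k => (α j : ℝ) * C.F.t j (z k)) atTop atTop)
    (hyE : y ∈ C.P.E (α.faceS J)) (hy : Tendsto (fun k => C.F.dropS J (z k)) atTop (𝓝 y))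
    (hyG : y ∈ G) : ∀ᶠ k in atTop, z k ∈ G := by
  have hD := hC.inv.diag
  have hyy : C.F.dropS J y = y := rgf_dropS_of_mem hD α J hyE
  obtain ⟨N, hN, hev⟩ := hG α J (fun k j => C.F.t j (z k)) ⟨hJ, hesc⟩ y
    (rgf_mem_cyl hD α J hyE) (by rw [hyy]; exact hyG)
  filter_upwards [hev, hy.eventually hN, rgx_esc_face hC hJ hz hesc hy] with k h1 h2 h3
  have := h1 (C.F.dropS J (z k)) ⟨h2, rgf_mem_cyl hD α J h3⟩
  rwa [rgf_dropS_add_vec_self] at this

/-- relative openness (`J = ∅`). -/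
theorem RgxEO.relOpen {G : Set W} (hG : RgxEO C G) : RelOpen C.P.E G := by
  rintro α z ⟨hzG, hzE⟩
  have hf : α.faceS ∅ = α := Stat.faceS_empty α
  have hcyl : ∀ y, y ∈ C.P.E α → y ∈ C.F.cyl ∅ (C.P.E (α.faceS ∅)) := by
    intro y hy
    show C.F.dropS ∅ y ∈ C.P.E (α.faceS ∅)
    rw [C.F.dropS_empty, hf]
    exact hy
  obtain ⟨N, hN, hev⟩ := hG α ∅ (fun _ _ => 0) ⟨by simp, by simp⟩ z (hcyl z hzE)
    (by rw [C.F.dropS_empty]; exact hzG)
  obtain ⟨k, hk⟩ := hev.exists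
  refine ⟨N, hN, fun y hy => ?_⟩
  have := hk y ⟨hy.1, hcyl y hy.2⟩
  simpa [Frame.vec] using this

/-- the window: near `x'` the translates lie in `E α` and compatible data are pulled back. -/
theorem rgx_window (hC : C.Ok) {α : Stat ι} {J : Finset ι} {s : ℕ → ι → ℝ} (hs : RgfEsc α J s)
    {X : Type} {φ : W → X} (hφ : Compat C.F C.P.E φ) (x' : W) :
    ∀ᶠ k in atTop, ∀ z ∈ Metric.closedBall x' 1 ∩ C.F.cyl J (C.P.E (α.faceS J)),
      z + C.F.vec J (s k) ∈ C.P.E α ∧ φ (z + C.F.vec J (s k)) = φ (C.F.dropS J z) := by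
  have hD := hC.inv.diag
  have hK : IsCompact (Metric.closedBall x' 1) := isCompact_closedBall x' 1
  filter_upwards [ct_window hD α J hs.1 s hs.2 hK, ct_window_compat hD α J hs.1 s hs.2 hK hφ]
    with k h1 h2 z hz
  have h3 := (h1 z hz.1).2 hz.2
  exact ⟨h3, h2 z hz.1 h3⟩

/-- open compatible sets are open along escapes. -/
theorem rgx_eo_of_open_compat (hC : C.Ok) {O : Set W} (hO : IsOpen O)
    (hc : Compat C.F C.P.E (fun z => z ∈ O)) : RgxEO C O := by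
  intro α J s hs x' _ hxO
  have hpre : C.F.dropS J ⁻¹' O ∈ 𝓝 x' :=
    (hO.preimage (C.F.continuous_dropS J)).mem_nhds hxO
  refine ⟨Metric.closedBall x' 1 ∩ C.F.dropS J ⁻¹' O,
    Filter.inter_mem (Metric.closedBall_mem_nhds x' one_pos) hpre, ?_⟩
  filter_upwards [rgx_window hC hs hc x'] with k hk z hz
  exact (iff_of_eq (hk z ⟨hz.1.1, hz.2⟩).2).2 hz.1.2

/-- closed compatible sets are closed along escapes. -/
theorem rgx_ec_of_closed_compat (hC : C.Ok) {Γ : Set W} (hcl : ∀ α, IsClosed (Γ ∩ C.P.E α))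
    (hc : Compat C.F C.P.E (fun z => z ∈ Γ)) : RgxEC C Γ := by
  intro α J z y hJ hz hesc hyE hy
  have hD := hC.inv.diag
  have hK : IsCompact (insert y (Set.range fun k => C.F.dropS J (z k))) :=
    hy.isCompact_insert_range
  have h1 := ct_window_compat hD α J hJ (fun k j => C.F.t j (z k)) hesc hK hc
  have h2 := rgx_esc_face hC hJ (fun k => (hz k).2) hesc hy
  have h3 : ∀ᶠ k in atTop, C.F.dropS J (z k) ∈ Γ ∩ C.P.E (α.faceS J) := by
    filter_upwards [h1, h2] with k hk1 hk2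
    have e := rgf_dropS_add_vec_self C.F J (z k)
    have := hk1 (C.F.dropS J (z k)) (Set.mem_insert_of_mem _ ⟨k, rfl⟩)
      (by rw [e]; exact (hz k).2)
    rw [e, rgf_dropS_of_mem hD α J hk2] at this
    exact ⟨(iff_of_eq this).1 (hz k).1, hk2⟩
  exact ((hcl _).mem_of_tendsto hy h3).1

/-! ### ambient open sets -/

theorem rgx_status_eq (hC : C.Ok) {α β : Stat ι} {z : W} (h1 : z ∈ C.P.E α) (h2 : z ∈ C.P.E β) :
    α = β := by
  by_contra hne
  exact Set.disjoint_left.1 (hC.inv.diag.disj _ _ hne) h1 h2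

/-- a relatively open set is the trace of an open set. -/
theorem rgx_open (hC : C.Ok) {U : Set W} (hU : RelOpen C.P.E U) :
    ∃ O : Set W, IsOpen O ∧ O ∩ tot C.P.E = U ∩ tot C.P.E := by
  classical
  have hD := hC.inv.diag
  have h1 : ∀ α, ∃ Oα : Set W, IsOpen Oα ∧ Oα ∩ C.P.E α = U ∩ C.P.E α := by
    intro α
    choose! N hN hsub using hU α
    refine ⟨⋃ z ∈ U ∩ C.P.E α, interior (N z), isOpen_biUnion fun _ _ => isOpen_interior, ?_⟩
    ext y
    constructor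
    · rintro ⟨hy, hyE⟩
      obtain ⟨z, hz, hyz⟩ := mem_iUnion₂.1 hy
      exact ⟨hsub z hz ⟨interior_subset hyz, hyE⟩, hyE⟩
    · intro hy
      exact ⟨mem_iUnion₂.2 ⟨y, hy, mem_interior_iff_mem_nhds.2 (hN y hy)⟩, hy.2⟩
  choose Oα hOα htr using h1
  refine ⟨⋃ α, Oα α \ ⋃ β ∈ {β | β ≠ α}, C.P.E β, isOpen_iUnion fun α => (hOα α).sdiff ?_, ?_⟩
  · exact (Set.toFinite _).isClosed_biUnion fun β _ => hD.closed β
  · ext y
    constructor
    · rintro ⟨hy, hyt⟩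
      obtain ⟨α, hyα, hnot⟩ := mem_iUnion.1 hy
      obtain ⟨γ, hγ⟩ := mem_tot.1 hyt
      have : γ = α := by
        by_contra hne
        exact hnot (mem_iUnion₂.2 ⟨γ, hne, hγ⟩)
      subst this
      exact ⟨((htr γ).subset ⟨hyα, hγ⟩).1, hyt⟩
    · rintro ⟨hyU, hyt⟩
      obtain ⟨γ, hγ⟩ := mem_tot.1 hyt
      refine ⟨mem_iUnion.2 ⟨γ, ((htr γ).symm.subset ⟨hyU, hγ⟩).1, fun h => ?_⟩, hyt⟩
      obtain ⟨β, hβ, hyβ⟩ := mem_iUnion₂.1 h
      exact hβ (rgx_status_eq hC hyβ hγ)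

/-- compatibility only depends on the values on `tot E`. -/
theorem rgx_compat_trace (hC : C.Ok) {X : Type} {φ φ' : W → X} (hφ : Compat C.F C.P.E φ)
    (he : ∀ z ∈ tot C.P.E, φ' z = φ z) : Compat C.F C.P.E φ' := by
  intro i K hK
  obtain ⟨R0, hR0⟩ := hφ i K hK
  obtain ⟨R, hR, _, hdrop, _⟩ := hC.inv.diag.tail_induction hK R0
  refine ⟨R, fun z hz hq hlt => ?_⟩
  obtain ⟨α, hα⟩ := mem_tot.1 hz
  rw [he z hz, he _ (mem_tot.2 ⟨_, hdrop α z hα hq i hlt⟩)]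
  exact hR0 z hz hq (lt_of_le_of_lt hR hlt)

/-! ### (AC) for exactly compatible functions -/

theorem rgx_sc_ac (hC : C.Ok) {φ : W → ℝ} (hφ : SC C.B.n C.F C.P.E φ) :
    RgfAC C.B.n C.F C.P.E univ φ := by
  intro α J s hs y hy _
  have hsm := ct_mem_smooth hC.inv.pgeo (α.faceS J) J (fun j hj => by simp [Stat.faceS, hj]) hφ
  refine rgfConv_of_eventually_eq hsm (Metric.closedBall_mem_nhds y one_pos) ?_
  filter_upwards [rgx_window hC hs hφ.2 y] with k hk z hz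
  exact (hk z ⟨hz.2, hz.1⟩).2

/-! ### the star lemma -/

/-- beyond a threshold the closed lift of a compact subset of `G ∩ E β` lies in `G`. -/
theorem rgx_lift_sub (hC : C.Ok) {G : Set W} (hG : RgxEO C G) (β : Stat ι) {S0 : Set W}
    (hS0 : IsCompact S0) (hsub : S0 ⊆ C.P.E β) (hS0G : S0 ⊆ G) :
    ∃ T1 : ℝ, ∀ T ≥ T1, C.liftS β S0 T ⊆ G := by
  classical
  have hone : ∀ α : Stat ι, β.IsCof α → ∃ Tα : ℝ, ∀ z ∈ C.P.E α, C.F.dropS (β.cofJ α) z ∈ S0 →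
      (∀ j ∈ β.cofJ α, Tα ≤ (α j : ℝ) * C.F.t j z) → z ∈ G := by
    intro α hα
    by_contra hcon
    push Not at hcon
    choose z hzE hzS hzT hzG using fun k : ℕ => hcon (k : ℝ)
    obtain ⟨x', hx', φ, hφ, hlim⟩ := hS0.tendsto_subseq hzS
    have hJ : ∀ j ∈ β.cofJ α, α j ≠ 0 := fun j hj => (Stat.mem_cofJ.1 hj).2
    have hesc : ∀ j ∈ β.cofJ α,
        Tendsto (fun k => (α j : ℝ) * C.F.t j (z (φ k))) atTop atTop := by
      intro j hj
      refine tendsto_atTop_mono (fun k => hzT (φ k) j hj) ?_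
      exact tendsto_natCast_atTop_atTop.comp hφ.tendsto_atTop
    have hyE : x' ∈ C.P.E (α.faceS (β.cofJ α)) := by
      rw [hα.faceS]
      exact hsub hx'
    have hev := RgxEO.seq hC hG hJ (fun k => hzE (φ k)) hesc hyE hlim (hS0G hx')
    obtain ⟨k, hk⟩ := hev.exists
    exact hzG (φ k) hk
  choose! Tα hTα using hone
  obtain ⟨T1, hT1⟩ := (Set.finite_range Tα).bddAbove
  refine ⟨T1, fun T hT z hz => ?_⟩
  obtain ⟨α, h1, h2, h3, h4⟩ := hz
  exact hTα α h2 z h1 h3 fun j hj => ((hT1 ⟨α, rfl⟩).trans hT).trans (h4 j hj)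

theorem rgx_liftD_le_one (hC : C.Ok) (β : Stat ι) {a : W → ℝ} {b : ℝ → ℝ}
    (ha : ∀ z, a z ≤ 1) (hb0 : ∀ s, 0 ≤ b s) (hb : ∀ s, b s ≤ 1) (z : W) :
    C.liftD β a b z ≤ 1 := by
  by_cases hzt : z ∈ tot C.P.E
  · obtain ⟨α, hα⟩ := mem_tot.1 hzt
    by_cases hcof : β.IsCof α
    · rw [sh_liftD_cof hC a b hcof hα]
      exact mul_le_one₀ (ha _) (Finset.prod_nonneg fun j _ => hb0 _)
        (Finset.prod_le_one (fun j _ => hb0 _) fun j _ => hb _)
    · rw [sh_liftD_not hC a b hcof hα]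
      exact zero_le_one
  · rw [sh_liftD_off C β a b hzt]
    exact zero_le_one

/-- **STAR LEMMA.** -/
theorem rgx_star (hC : C.Ok) {G : Set W} (hG : RgxEO C G) (β : Stat ι) {y : W}
    (hy : y ∈ C.P.E β) (hyG : y ∈ G) :
    ∃ (D K D' : Set W) (b : W → ℝ), RgxBump C D K D' b ∧ y ∈ D' ∧ D ∩ tot C.P.E ⊆ G ∧
      ∀ z ∈ D, ‖C.F.q z - C.F.q y‖ < 1 := by
  classical
  have hD := hC.inv.diag
  -- radii
  obtain ⟨N, hN, hNG⟩ := hG.relOpen β y ⟨hyG, hy⟩
  obtain ⟨r0, hr0, hr0N⟩ := Metric.nhds_basis_closedBall.mem_iff.1 hN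
  obtain ⟨r3, hr3pos, hr3r0, hr3q⟩ : ∃ r3 : ℝ, 0 < r3 ∧ r3 ≤ r0 ∧ ‖C.F.q‖ * r3 < 1 := by
    have hn : 0 ≤ ‖C.F.q‖ := norm_nonneg _
    refine ⟨min r0 (1 / (‖C.F.q‖ + 1) / 2), lt_min hr0 (by positivity), min_le_left _ _, ?_⟩
    calc ‖C.F.q‖ * min r0 (1 / (‖C.F.q‖ + 1) / 2) ≤ ‖C.F.q‖ * (1 / (‖C.F.q‖ + 1) / 2) := by
          gcongr
          exact min_le_right _ _
      _ < 1 := by
          rw [div_div, mul_one_div, div_lt_one (by positivity)]
          linarith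
  have hq1 : ∀ z ∈ Metric.closedBall y r3, ‖C.F.q z - C.F.q y‖ < 1 := by
    intro z hz
    rw [← map_sub]
    have h1 : ‖z - y‖ ≤ r3 := by rwa [mem_closedBall_iff_norm] at hz
    calc ‖C.F.q (z - y)‖ ≤ ‖C.F.q‖ * ‖z - y‖ := C.F.q.le_opNorm _
      _ ≤ ‖C.F.q‖ * r3 := by gcongr
      _ < 1 := hr3q
  set S0 : Set W := Metric.closedBall y r3 ∩ C.P.E β with hS0def
  set K0 : Set W := Metric.closedBall y (2 * r3 / 3) ∩ C.P.E β with hK0def
  have hS0c : IsCompact S0 := (isCompact_closedBall y r3).inter_right (hD.closed β)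
  have hS0E : S0 ⊆ C.P.E β := inter_subset_right
  have hS0G : S0 ⊆ G := fun z hz =>
    hNG ⟨hr0N (Metric.closedBall_subset_closedBall hr3r0 hz.1), hz.2⟩
  have hK0S0 : K0 ⊆ S0 :=
    inter_subset_inter_left _ (Metric.closedBall_subset_closedBall (by linarith))
  have hK0cl : IsClosed K0 := Metric.isClosed_closedBall.inter (hD.closed β)
  obtain ⟨T1', hT1'⟩ := rgx_lift_sub hC hG β hS0c hS0E hS0G
  obtain ⟨T1, hT1T, hT⟩ := sh_thr_exists C hC β hS0c hS0E T1'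
  have hliftG : C.liftS β S0 T1 ⊆ G := hT1' T1 hT1T
  -- the bump on `E β`
  let f : ContDiffBump y := ⟨r3 / 3, 2 * r3 / 3, by positivity, by linarith⟩
  set a : W → ℝ := (C.P.E β).indicator f with hadef
  have ha0K : ∀ z, z ∉ K0 → a z = 0 := by
    intro z hz
    by_cases hzE : z ∈ C.P.E β
    · rw [hadef, indicator_of_mem hzE]
      refine f.zero_of_le_dist ?_
      by_contra hlt
      push Not at hlt
      exact hz ⟨Metric.mem_closedBall.2 hlt.le, hzE⟩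
    · rw [hadef, indicator_of_notMem hzE]
  have ha0 : ∀ z, z ∉ S0 → a z = 0 := fun z hz => ha0K z fun h => hz (hK0S0 h)
  have hasm : SmoothAlong (C.m β) (C.P.E β) a :=
    if_smoothAlong_congr (if_smoothAlong_of_contDiff f.contDiff) fun x hx => indicator_of_mem hx f
  have hann : ∀ z, 0 ≤ a z := fun z => indicator_nonneg (fun x _ => f.nonneg) z
  have hale : ∀ z, a z ≤ 1 := fun z => indicator_le' (fun x _ => f.le_one) (fun _ _ => zero_le_one) z
  -- the front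
  set b0 : ℝ → ℝ := fun s => Real.smoothTransition (s - (T1 + 1)) with hb0def
  have hb0s : ContDiff ℝ ∞ b0 := Real.smoothTransition.contDiff.comp (contDiff_id.sub contDiff_const)
  have hb00 : ∀ s ≤ T1 + 1, b0 s = 0 := fun s hs =>
    Real.smoothTransition.zero_of_nonpos (by linarith)
  have hb01 : ∀ s, T1 + 2 ≤ s → b0 s = 1 := fun s hs =>
    Real.smoothTransition.one_of_one_le (by linarith)
  -- the open sets
  have hKo3 : RelOpen C.P.E (C.liftK β (Metric.ball y r3 ∩ C.P.E β) T1) :=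
    sh_liftK_relOpen hC hT (inter_subset_inter_left _ Metric.ball_subset_closedBall)
      (fun z hz => ⟨Metric.ball y r3, Metric.isOpen_ball.mem_nhds hz.1, subset_rfl⟩) le_rfl
  obtain ⟨OD, hODo, hODe⟩ := rgx_open hC hKo3
  have hsub1 : Metric.ball y (r3 / 3) ∩ C.P.E β ⊆ S0 :=
    inter_subset_inter_left _ ((Metric.ball_subset_ball (by linarith)).trans
      Metric.ball_subset_closedBall)
  have hKo1 : RelOpen C.P.E (C.liftK β (Metric.ball y (r3 / 3) ∩ C.P.E β) (T1 + 2)) :=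
    sh_liftK_relOpen hC hT hsub1
      (fun z hz => ⟨Metric.ball y (r3 / 3), Metric.isOpen_ball.mem_nhds hz.1, subset_rfl⟩)
      (by linarith)
  obtain ⟨OD', hOD'o, hOD'e⟩ := rgx_open hC hKo1
  have hmemD' : ∀ z ∈ tot C.P.E,
      (z ∈ OD') = (z ∈ C.liftK β (Metric.ball y (r3 / 3) ∩ C.P.E β) (T1 + 2)) := by
    intro z hz
    refine propext ⟨fun h => ?_, fun h => ?_⟩
    · exact ((Set.ext_iff.1 hOD'e z).1 ⟨h, hz⟩).1
    · exact ((Set.ext_iff.1 hOD'e z).2 ⟨h, hz⟩).1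
  refine ⟨OD ∩ C.F.q ⁻¹' Metric.ball (C.F.q y) 1, C.liftS β K0 (T1 + 1), OD', C.liftD β a b0,
    ?_, ?_, ?_, ?_⟩
  · refine
      { opn := hODo.inter (Metric.isOpen_ball.preimage C.F.q.continuous)
        b_sc := ⟨fun α => sh_liftD_smooth hC hS0c hT hasm ha0 hb0s (by linarith) hb00 α,
          sh_liftD_compat hC hS0c hT ha0 hb01⟩
        b_mem := fun z => ⟨sh_liftD_nonneg C β hann (fun s => Real.smoothTransition.nonneg _) z,
          rgx_liftD_le_one hC β hale (fun s => Real.smoothTransition.nonneg _)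
            (fun s => Real.smoothTransition.le_one _) z⟩
        K_closed := ?_
        K_sub := ?_
        b_zero := ?_
        opn' := hOD'o
        compat' := rgx_compat_trace hC (sh_liftK_compat hC hS0c hT hsub1 (T1 + 2)) hmemD'
        b_one := ?_ }
    · intro α
      refine isClosed_of_closure_subset fun z hz => ?_
      have hzE : z ∈ C.P.E α := (hD.closed α).closure_subset_iff.2 inter_subset_right hz
      refine ⟨?_, hzE⟩
      by_contra hzK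
      obtain ⟨N', hN', hNn⟩ := sh_liftS_closed hC hT hK0S0 hK0cl (by linarith : T1 < T1 + 1) hzE hzK
      obtain ⟨w, hwN, hwK⟩ := mem_closure_iff_nhds.1 hz N' hN'
      exact hNn w ⟨hwN, hwK.2⟩ hwK.1
    · rintro z ⟨hzK, hzT⟩
      have h1 : z ∈ C.liftK β (Metric.ball y r3 ∩ C.P.E β) T1 :=
        sh_liftS_subset_liftK (inter_subset_inter_left _
          (Metric.closedBall_subset_ball (by linarith))) (by linarith) hzK
      refine ⟨((Set.ext_iff.1 hODe z).2 ⟨h1, hzT⟩).1, ?_⟩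
      obtain ⟨w, hw, hwq⟩ := sh_liftS_q hzK
      rw [mem_preimage, mem_ball_iff_norm, ← hwq]
      exact hq1 w (hK0S0 hw).1
    · intro z _ hzK
      by_contra hne
      exact hzK (sh_liftK_subset_liftS subset_rfl le_rfl (sh_liftD_supp hC ha0K hb00 hne))
    · rintro z ⟨hzD, hzT⟩
      rw [hmemD' z hzT] at hzD
      obtain ⟨α, h1, h2, h3, h4⟩ := hzD
      rw [sh_liftD_one hC a hb01 h2 h1 fun j hj => (h4 j hj).le, hadef, indicator_of_mem h3.2]
      exact f.one_of_mem_closedBall (Metric.ball_subset_closedBall h3.1)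
  · rw [hmemD' y (mem_tot.2 ⟨β, hy⟩)]
    exact sh_liftK_self hC inter_subset_right _ ⟨Metric.mem_ball_self (by positivity), hy⟩
  · rintro z ⟨⟨hzO, _⟩, hzT⟩
    have h1 : z ∈ C.liftK β (Metric.ball y r3 ∩ C.P.E β) T1 :=
      ((Set.ext_iff.1 hODe z).1 ⟨hzO, hzT⟩).1
    exact hliftG (sh_liftK_subset_liftS
      (inter_subset_inter_left _ Metric.ball_subset_closedBall) le_rfl h1)
  · rintro z ⟨_, hzq⟩
    rwa [mem_preimage, mem_ball_iff_norm] at hzq

/-! ### the covering lemma -/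

/-- finitely many plateaus cover over a compact subset of `V`. -/
theorem rgx_cover_cpt (hC : C.Ok) {Γ : Set W} (hΓ : RgxEC C Γ) {κ : Type} {D' : κ → Set W}
    (hopen : ∀ m, IsOpen (D' m)) (hEO : ∀ m, RgxEO C (D' m))
    (hcov : Γ ∩ tot C.P.E ⊆ ⋃ m, D' m) {K0 : Set V} (hK0 : IsCompact K0) :
    ∃ Fs : Finset κ, ∀ z ∈ Γ ∩ tot C.P.E, C.F.q z ∈ K0 → ∃ m ∈ Fs, z ∈ D' m := by
  classical
  have hD := hC.inv.diag
  -- one status
  have hone : ∀ α : Stat ι, ∃ Fs : Finset κ, ∀ z ∈ Γ ∩ C.P.E α, C.F.q z ∈ K0 → ∃ m ∈ Fs, z ∈ D' m := by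
    intro α
    obtain ⟨T, hT, hTU⟩ := TopologicalSpace.isOpen_iUnion_countable D' hopen
    rcases T.eq_empty_or_nonempty with hTe | hTne
    · refine ⟨∅, fun z hz _ => ?_⟩
      have h1 : z ∈ ⋃ m, D' m := hcov ⟨hz.1, mem_tot.2 ⟨α, hz.2⟩⟩
      rw [← hTU, hTe] at h1
      simp at h1
    obtain ⟨f, hf⟩ := hT.exists_eq_range hTne
    by_contra hcon
    push Not at hcon
    choose z hzΓ hzK hzn using fun k : ℕ => hcon ((Finset.range k).image f)
    obtain ⟨φ, J, y, hφ, hJ, hesc, hyE, hy⟩ := ct_escape hD α z (fun k => (hzΓ k).2) hK0 hzK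
    have hyΓ : y ∈ Γ := hΓ α J (fun k => z (φ k)) y hJ (fun k => hzΓ (φ k)) hesc hyE hy
    have h1 : y ∈ ⋃ m, D' m := hcov ⟨hyΓ, mem_tot.2 ⟨_, hyE⟩⟩
    rw [← hTU, hf] at h1
    obtain ⟨m, hm, hym⟩ := Set.mem_iUnion₂.1 h1
    obtain ⟨i, rfl⟩ := hm
    have hev := RgxEO.seq hC (hEO (f i)) hJ (fun k => (hzΓ (φ k)).2) hesc hyE hy hym
    obtain ⟨k, hk1, hk2⟩ := (hev.and (Filter.eventually_gt_atTop i)).exists
    exact hzn (φ k) (f i) (Finset.mem_image_of_mem f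
      (Finset.mem_range.2 (lt_of_lt_of_le hk2 (hφ.id_le k)))) hk1
  choose Fs hFs using hone
  refine ⟨Finset.univ.biUnion Fs, fun z hz hq => ?_⟩
  obtain ⟨α, hα⟩ := mem_tot.1 hz.2
  obtain ⟨m, hm, hzm⟩ := hFs α z ⟨hz.1, hα⟩ hq
  exact ⟨m, Finset.mem_biUnion.2 ⟨α, Finset.mem_univ α, hm⟩, hzm⟩

/-- **COVERING LEMMA.** -/
theorem rgx_cover (hC : C.Ok) {Γ : Set W} (hΓ : RgxEC C Γ) {κ : Type} {D D' : κ → Set W}
    (hopen : ∀ m, IsOpen (D' m)) (hEO : ∀ m, RgxEO C (D' m))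
    (hsub : ∀ m, D' m ∩ tot C.P.E ⊆ D m)
    (hext : ∀ m, ∃ x0 : V, ∀ z ∈ D m, ‖C.F.q z - x0‖ < 1)
    (hcov : Γ ∩ tot C.P.E ⊆ ⋃ m, D' m) :
    ∃ I : Set κ, Γ ∩ tot C.P.E ⊆ ⋃ m ∈ I, D' m ∧
      ∀ K0 : Set V, IsCompact K0 → {m | m ∈ I ∧ ∃ z ∈ D m, C.F.q z ∈ K0}.Finite := by
  classical
  -- the annuli
  have hAc : ∀ j : ℕ, IsCompact (Metric.closedBall (0 : V) (j + 1) \ Metric.ball (0 : V) j) :=
    fun j => (isCompact_closedBall _ _).diff Metric.isOpen_ball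
  choose Fs hFs using fun j : ℕ => rgx_cover_cpt hC hΓ hopen hEO hcov (hAc j)
  refine ⟨{m | ∃ j : ℕ, m ∈ Fs j ∧ ∃ z ∈ Γ ∩ tot C.P.E, z ∈ D' m ∧
    C.F.q z ∈ Metric.closedBall (0 : V) (j + 1) \ Metric.ball (0 : V) j}, ?_, ?_⟩
  · intro z hz
    have hq : C.F.q z ∈ Metric.closedBall (0 : V) ((⌊‖C.F.q z‖⌋₊ : ℕ) + 1) \
        Metric.ball (0 : V) (⌊‖C.F.q z‖⌋₊ : ℕ) := by
      refine ⟨?_, ?_⟩
      · rw [mem_closedBall_zero_iff]
        exact (Nat.lt_floor_add_one _).le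
      · rw [mem_ball_zero_iff, not_lt]
        exact Nat.floor_le (norm_nonneg _)
    obtain ⟨m, hm, hzm⟩ := hFs _ z hz hq
    exact Set.mem_iUnion₂.2 ⟨m, ⟨_, hm, z, hz, hzm, hq⟩, hzm⟩
  · intro K0 hK0
    obtain ⟨R, hR⟩ := hK0.isBounded.exists_norm_le
    refine ((Finset.range (⌈R + 2⌉₊ + 1)).biUnion Fs).finite_toSet.subset ?_
    rintro m ⟨⟨j, hmj, z, hz, hzm, hzq⟩, z', hz', hz'q⟩
    obtain ⟨x0, hx0⟩ := hext m
    have h1 := hx0 z (hsub m ⟨hzm, hz.2⟩)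
    have h2 := hx0 z' hz'
    have h3 : (j : ℝ) ≤ ‖C.F.q z‖ := by
      have := hzq.2
      rwa [mem_ball_zero_iff, not_lt] at this
    have h4 : ‖C.F.q z'‖ ≤ R := hR _ hz'q
    have h5 : ‖C.F.q z‖ ≤ ‖C.F.q z'‖ + 2 := by
      have e : C.F.q z = C.F.q z' + ((C.F.q z - x0) - (C.F.q z' - x0)) := by abel
      calc ‖C.F.q z‖ = ‖C.F.q z' + ((C.F.q z - x0) - (C.F.q z' - x0))‖ := by rw [← e]
        _ ≤ ‖C.F.q z'‖ + ‖(C.F.q z - x0) - (C.F.q z' - x0)‖ := norm_add_le _ _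
        _ ≤ ‖C.F.q z'‖ + (‖C.F.q z - x0‖ + ‖C.F.q z' - x0‖) := by gcongr; exact norm_sub_le _ _
        _ ≤ ‖C.F.q z'‖ + 2 := by linarith
    have h6 : (j : ℝ) ≤ R + 2 := by linarith
    have h7 : j ≤ ⌈R + 2⌉₊ := by
      have : (j : ℝ) ≤ (⌈R + 2⌉₊ : ℝ) := h6.trans (Nat.le_ceil _)
      exact_mod_cast this
    exact Finset.mem_coe.2 (Finset.mem_biUnion.2 ⟨j, Finset.mem_range.2 (Nat.lt_succ_of_le h7), hmj⟩)

end Claimed.Agent.R315
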