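import Claimed.Agent.R315.Rg.SeamDefs
import Claimed.Agent.R315.Rg.FinT
import Claimed.Agent.R315.Rm.Long

/-!
# Row 315, package Rg, unit UT (uniform tubes; architect helper29, prefix `rgu_`), file `Rg/UtA.lean`: THE ABSTRACT MANIFOLD LEVEL (no diagrams)

GOAL OF THE UNIT: `rgu_width` (`Rg/SeamTop.lean`).  Files: `Rg/UtA.lean` (this file), `Rg/UtB.lean` (diagram level: escapes, (UT_K), (CORE)), `Rg/UtSel.lean` (choice of the width: pure topology, helper110), `Rg/UtTop.lean` (glue),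
`Rm/Long.lean` (long thin lapse charts, helper39).

CONTENT OF THIS FILE.  `M` a Core manifold of dimension `d + 1`, `h` a metric, `t` a drift.
* `rm_LapseP.mono`, `rm_LapseP.of_inter`, `rm_LapseP.inter`: restriction of a lapse parametrisation to a smaller radius, change of the open piece.
* `rgu_lapse_win`: transport of a lapse parametrisation by a translation window (`RgfWin`, `Rg/FinT.lean`).
* `rgu_bd_win`: transport of the invariants `RgsBd` by a translation window.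
* `rgu_bd_conv`: if `q k → q'` in `C^∞` near `y'` (`CtConvAt`), `dq' (y') ≠ 0`, `y k → y'`, then the seven invariants of `q k` at `y k` are bounded.
* `rgu_chart_conv`: under the same hypotheses there are `ρ > 0`, `Λ` such that for large `k` ALL points `y` of `M` near `y'` have lapse parametrisations for `q k` of EVERY radius `r ≤ ρ`, with image in the ball `‖· - y‖ ≤ Λ r`.
-/

set_option autoImplicit false
set_option linter.unusedSectionVars false
open scoped ContDiff Topology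
open Claims.C0499 Set Filter

namespace Claimed.Agent.R315

variable {V : Type} [NormedAddCommGroup V] [NormedSpace ℝ V] {d : ℕ}

/-! ## 1. lapse parametrisations: restriction, pieces, windows   (package L-RG-UT-A1) -/

section lapse

variable {M : Set V} {g : Ten V} {q : V → ℝ} {x0 : V} {ψ : E (d + 1) → V} {r r' : ℝ}

theorem rm_box_mono (c : ℝ) (hr : r' ≤ r) : rm_box d c r' ⊆ rm_box d c r :=
  fun _ hw => ⟨hw.1.trans_le hr, hw.2.trans_le hr⟩

/-- restriction to a smaller radius (the same map). -/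
theorem rm_LapseP.mono (h : rm_LapseP M g q x0 ψ r) (h0 : 0 < r') (hr : r' ≤ r) :
    rm_LapseP M g q x0 ψ r' :=
  ⟨h0, if_mono h.par (rm_box_open _ _) (rm_box_mono _ hr), h.base,
    fun w hw => h.lvl w (rm_box_mono _ hr hw), fun w hw => h.orth w (rm_box_mono _ hr hw)⟩

/-- from an open piece to the manifold. -/
theorem rm_LapseP.of_inter {O : Set V} (hO : IsOpen O) (h : rm_LapseP (M ∩ O) g q x0 ψ r) :
    rm_LapseP M g q x0 ψ r :=
  ⟨h.pos, if_param_of_inter hO h.par, h.base, h.lvl, h.orth⟩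

/-- to an open piece which contains the image. -/
theorem rm_LapseP.inter {O : Set V} (hO : IsOpen O) (h : rm_LapseP M g q x0 ψ r)
    (hsub : ∀ w ∈ rm_box d (q x0) r, ψ w ∈ O) : rm_LapseP (M ∩ O) g q x0 ψ r := by
  refine ⟨h.pos, ?_, h.base, h.lvl, h.orth⟩
  have h1 := if_param_restrict hO h.par
  have e : rm_box d (q x0) r ∩ ψ ⁻¹' O = rm_box d (q x0) r :=
    inter_eq_left.2 fun w hw => hsub w hw
  rwa [e] at h1

/-- **transport of a lapse parametrisation by a window.** -/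
theorem rgu_lapse_win {X X' : Set V} {h h' : Ten V} {a : V} {N : Set V}
    (H : RgfWin X X' h h' a N) {y : V}
    (hL : rm_LapseP (X' ∩ N) h' (fun z => q (z + a)) y ψ r) :
    rm_LapseP X h q (y + a) (fun v => ψ v + a) r := by
  refine ⟨hL.pos, ?_, ?_, fun w hw => hL.lvl w hw, ?_⟩
  · have h1 := rgf_param_add hL.par a
    have e : {z | z - a ∈ X' ∩ N} = X ∩ {z | z - a ∈ N} := by
      ext z
      constructor
      · rintro ⟨h2, h3⟩
        refine ⟨?_, h3⟩
        have := (H.set (z - a) h3).2 h2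
        simpa using this
      · rintro ⟨h2, h3⟩
        refine ⟨(H.set (z - a) h3).1 (by simpa using h2), h3⟩
    rw [e] at h1
    exact if_param_of_inter (H.isOpen.preimage (continuous_id.sub continuous_const)) h1
  · show ψ _ + a = y + a
    rw [hL.base]
  · intro w hw b
    have h1 := hL.orth w hw b
    rw [rgf_cm_add]
    have h2 := H.met _ (if_mem hL.par hw)
    unfold cm at h1 ⊢
    simp only [Matrix.of_apply] at h1 ⊢
    rw [h2]
    exact h1

end lapse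

/-! ## 2. the invariants: windows   (package L-RG-UT-A2) -/

section bdwin

variable {X X' : Set V} {h h' : Ten V} {a : V} {N : Set V} {t t' U Vs : V → ℝ} {B : ℝ} {y : V}

theorem RgsBd.mono {M : Set V} {B' : ℝ} (H : RgsBd d M h t U Vs B y) (hB : B ≤ B') :
    RgsBd d M h t U Vs B' y :=
  ⟨H.dN.trans hB, H.S.trans hB, H.dS.trans hB, H.DM.trans hB, H.DL.trans hB, H.lapN.trans hB,
    H.sqN.trans hB, H.Vs0, H.VsB.trans hB⟩

/-- change of the potential. -/
theorem RgsBd.pot {M : Set V} {Vs' : V → ℝ} (H : RgsBd d M h t U Vs B y) (h0 : 0 ≤ Vs' y)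
    (h1 : Vs' y ≤ B) : RgsBd d M h t U Vs' B y :=
  ⟨H.dN, H.S, H.dS, H.DM, H.DL, H.lapN, H.sqN, h0, h1⟩

/-- the lapse in a window. -/
theorem rgu_N_win (H : RgfWin X X' h h' a N) (U : V → ℝ) {z : V} (hz : z ∈ N) :
    rgsN d X h U (z + a) = rgsN d X' h' (fun z => U (z + a)) z := by
  unfold rgsN gradN
  rw [H.gradSq_eq U hz]

/-- change of the drift in `wlap`. -/
theorem rgu_wlap_drift {M : Set V} {g : Ten V} {t t' f : V → ℝ} {O : Set V} {x : V}
    (hO : O ∈ 𝓝 x) (ht : ∀ z ∈ M ∩ O, t z = t' z) :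
    wlap d M g t f x = wlap d M g t' f x := by
  unfold wlap
  rw [if_gradIp_congr hO (fun _ _ => rfl) ht fun _ _ => rfl]

/-- change of the drift in `Dsc`. -/
theorem rgu_Dsc_drift {M : Set V} {g : Ten V} {t t' : V → ℝ} {O : Set V} {x : V}
    (hO : O ∈ 𝓝 x) (ht : ∀ z ∈ M ∩ O, t z = t' z) :
    Dsc d M g t x = Dsc d M g t' x := by
  unfold Dsc
  rw [if_lap_congr hO (fun _ _ => rfl) ht, if_gradSq_congr hO (fun _ _ => rfl) ht]

/-- the weighted mean curvature of the levels in a window.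
PLAN: unfold `wmc`, `gradN`; `H.wlap_eq`, `H.gradSq_eq`, `H.gradIp_eq`; the inner function `fun z => gradSq (d+1) X h U (z + a)` coincides with `gradSq (d+1) X' h' (U (· + a))` on `N` (`H.gradSq_eq`): `if_gradIp_congr (H.isOpen.mem_nhds hz) (fun _ _ => rfl) (fun _ _ => rfl) ..`;
the drift `fun z => t (z + a)` coincides with `t'` on `X' ∩ N`: `if_gradIp_congr` inside `wlap`. -/
theorem rgu_wmc_win (H : RgfWin X X' h h' a N) (ht : ∀ z ∈ X' ∩ N, t (z + a) = t' z) (U : V → ℝ)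
    {z : V} (hz : z ∈ N) :
    wmc (d + 1) X h t U (z + a) = wmc (d + 1) X' h' t' (fun z => U (z + a)) z := by
  have hN := H.isOpen.mem_nhds hz
  unfold wmc gradN
  rw [H.wlap_eq t U hz, H.gradSq_eq U hz, H.gradIp_eq U _ hz, rgu_wlap_drift hN ht,
    if_gradIp_congr (k' := gradSq (d + 1) X' h' fun z => U (z + a)) hN (fun _ _ => rfl)
      (fun _ _ => rfl) fun w hw => H.gradSq_eq U hw.2]

/-- **transport of the invariants by a window.**
PLAN: field by field.  `dN`: `H.gradIp_eq`, then `if_gradIp_congr` with `rgu_N_win` on `N`.  `S`: `rgu_wmc_win`.  `dS`: `H.gradIp_eq` + `if_gradIp_congr` + `rgu_wmc_win`.  `DM`: `H.Dsc_eq` + change of the drift (`if_lap_congr`, `if_gradIp_congr` after `unfold Dsc`).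
`DL`, `lapN`, `sqN`: the same with the window `H.level U (U (y + a))` of the level sets (`RgfWin.level`); drift and `rgsN` are changed on `rm_Lv X' _ _ ∩ N ⊆ X' ∩ N`. -/
theorem rgu_bd_win (H : RgfWin X X' h h' a N) (ht : ∀ z ∈ X' ∩ N, t (z + a) = t' z) (hy : y ∈ N)
    (hb : RgsBd d X' h' t' (fun z => U (z + a)) (fun z => Vs (z + a)) B y) :
    RgsBd d X h t U Vs B (y + a) := by
  have hN := H.isOpen.mem_nhds hy
  have HL := H.level U (U (y + a))
  have htL : ∀ z ∈ rm_Lv X' (fun z => U (z + a)) (U (y + a)) ∩ N, t (z + a) = t' z :=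
    fun z hz => ht z ⟨hz.1.1, hz.2⟩
  refine ⟨?_, ?_, ?_, ?_, ?_, ?_, ?_, hb.Vs0, hb.VsB⟩
  · rw [H.gradIp_eq U _ hy, if_gradIp_congr (k' := rgsN d X' h' fun z => U (z + a)) hN
      (fun _ _ => rfl) (fun _ _ => rfl) fun w hw => rgu_N_win H U hw.2]
    exact hb.dN
  · rw [rgu_wmc_win H ht U hy]
    exact hb.S
  · rw [H.gradIp_eq U _ hy, if_gradIp_congr (k' := wmc (d + 1) X' h' t' fun z => U (z + a)) hN
      (fun _ _ => rfl) (fun _ _ => rfl) fun w hw => rgu_wmc_win H ht U hw.2]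
    exact hb.dS
  · rw [H.Dsc_eq t hy, rgu_Dsc_drift hN ht]
    exact hb.DM
  · rw [HL.Dsc_eq t hy, rgu_Dsc_drift hN htL]
    exact hb.DL
  · rw [HL.wlap_eq t _ hy, rgu_wlap_drift hN htL]
    unfold wlap
    rw [if_lap_congr (f' := rgsN d X' h' fun z => U (z + a)) hN (fun _ _ => rfl)
      fun w hw => rgu_N_win H U hw.2, if_gradIp_congr (k' := rgsN d X' h' fun z => U (z + a)) hN
      (fun _ _ => rfl) (fun _ _ => rfl) fun w hw => rgu_N_win H U hw.2]
    exact hb.lapN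
  · rw [HL.gradSq_eq _ hy, if_gradSq_congr (f' := rgsN d X' h' fun z => U (z + a)) hN
      (fun _ _ => rfl) fun w hw => rgu_N_win H U hw.2]
    exact hb.sqN

end bdwin

variable [FiniteDimensional ℝ V]

/-! ## 3. the invariants: convergence   (package L-RG-UT-A3) -/

section conv

variable {M : Set V} {h : Ten V} {t : V → ℝ} {q : ℕ → V → ℝ} {q' : V → ℝ} {y : ℕ → V} {y' : V}

/-- `√` is smooth on `(0, ∞)`. -/
theorem rgu_a3_sqrt : ContDiffOn ℝ ∞ Real.sqrt (Ioi (0 : ℝ)) := fun x hx =>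
  (Real.contDiffAt_sqrt (ne_of_gt hx)).contDiffWithinAt

/-- convergence of `|dq|²`. -/
theorem rgu_a3_sq (hM : IsMfd (d + 1) M) (hh : IsMetricOn (d + 1) M h) (hy' : y' ∈ M)
    (hq : CtConvAt (d + 1) M q q' y') :
    CtConvAt (d + 1) M (fun k => gradSq (d + 1) M h (q k)) (gradSq (d + 1) M h q') y' :=
  hq.gradIp hM hh hy' hq

/-- convergence of `|dq|`. -/
theorem rgu_a3_gradN (hM : IsMfd (d + 1) M) (hh : IsMetricOn (d + 1) M h) (hy' : y' ∈ M)
    (hq : CtConvAt (d + 1) M q q' y') (hreg : 0 < gradSq (d + 1) M h q' y') :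
    CtConvAt (d + 1) M (fun k => gradN (d + 1) M h (q k)) (gradN (d + 1) M h q') y' :=
  (rgu_a3_sq hM hh hy' hq).comp hM hy' isOpen_Ioi rgu_a3_sqrt hreg

theorem rgu_N_conv (hM : IsMfd (d + 1) M) (hh : IsMetricOn (d + 1) M h) (hy' : y' ∈ M)
    (hq : CtConvAt (d + 1) M q q' y') (hreg : 0 < gradSq (d + 1) M h q' y') :
    CtConvAt (d + 1) M (fun k => rgsN d M h (q k)) (rgsN d M h q') y' := by
  have h1 := rgu_a3_gradN hM hh hy' hq hreg
  have hpos : 0 < gradN (d + 1) M h q' y' := Real.sqrt_pos.2 hreg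
  have hinv : ContDiffOn ℝ ∞ (fun x : ℝ => x⁻¹) (Ioi (0 : ℝ)) := fun x hx =>
    (contDiffAt_inv ℝ (ne_of_gt hx)).contDiffWithinAt
  exact h1.comp hM hy' isOpen_Ioi hinv hpos

theorem rgu_wmc_conv (hG : CtGeo (d + 1) M h t) (hy' : y' ∈ M)
    (hq : CtConvAt (d + 1) M q q' y') (hreg : 0 < gradSq (d + 1) M h q' y') :
    CtConvAt (d + 1) M (fun k => wmc (d + 1) M h t (q k)) (wmc (d + 1) M h t q') y' := by
  have hM := hG.mfd
  have hh := hG.met
  have hN := rgu_a3_gradN hM hh hy' hq hreg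
  have hpos : 0 < gradN (d + 1) M h q' y' := Real.sqrt_pos.2 hreg
  have h1 := (hq.wlap hM hh hG.drift hy').div hM hy' hN hpos.ne'
  have h2 := hq.gradIp hM hh hy' (rgu_a3_sq hM hh hy' hq)
  have hcube : ContDiffOn ℝ ∞ (fun x : ℝ => 2 * x ^ 3) (univ : Set ℝ) := by
    apply ContDiff.contDiffOn
    fun_prop
  have h3 := hN.comp hM hy' isOpen_univ hcube (mem_univ _)
  have h4 := h2.div hM hy' h3 (by positivity)
  exact h1.sub hM hy' h4

theorem rgu_bd_conv (hG : CtGeo (d + 1) M h t) (hy' : y' ∈ M)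
    (hq : CtConvAt (d + 1) M q q' y') (hreg : 0 < gradSq (d + 1) M h q' y')
    (hy : ∀ᶠ k in atTop, y k ∈ M) (hlim : Tendsto y atTop (𝓝 y')) :
    ∃ B : ℝ, ∀ᶠ k in atTop, RgsBd d M h t (q k) (fun _ => 0) B (y k) := by
  have hM := hG.mfd
  have hh := hG.met
  have ht := hG.drift
  have hN := rgu_N_conv hM hh hy' hq hreg
  have hS := rgu_wmc_conv hG hy' hq hreg
  have t1 := ((hq.gradIp hM hh hy' hN).tendsto hM hy' hy hlim)
  have t2 := (hS.tendsto hM hy' hy hlim)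
  have t3 := ((hq.gradIp hM hh hy' hS).tendsto hM hy' hy hlim)
  have t4 := ((ctConvAt_const hM (if_Dsc_smoothAlong hh ht) hy').tendsto hM hy' hy hlim)
  have t5 := rg_soft_Dsc hM hh ht hq hy' hreg hy hlim
  have t6 := rg_soft_wlap hM hh ht hq hN hy' hreg hy hlim
  have t7 := rg_soft_ip hM hh hq hN hN hy' hreg hy hlim
  -- a convergent real sequence is eventually bounded in absolute value
  have key : ∀ {f : ℕ → ℝ} {l : ℝ}, Tendsto f atTop (𝓝 l) → ∀ᶠ k in atTop, |f k| ≤ |l| + 1 := by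
    intro f l hf
    have := (continuous_abs.tendsto l).comp hf
    exact (this.eventually (gt_mem_nhds (lt_add_one |l|))).mono fun k hk => le_of_lt hk
  set l1 := gradIp (d + 1) M h q' (rgsN d M h q') y'
  set l2 := wmc (d + 1) M h t q' y'
  set l3 := gradIp (d + 1) M h q' (wmc (d + 1) M h t q') y'
  set l4 := Dsc (d + 1) M h t y'
  set l5 := Dsc d (rm_Lv M q' (q' y')) h t y'
  set l6 := wlap d (rm_Lv M q' (q' y')) h t (rgsN d M h q') y'
  set l7 := gradIp d (rm_Lv M q' (q' y')) h (rgsN d M h q') (rgsN d M h q') y'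
  refine ⟨|l1| + |l2| + |l3| + |l4| + |l5| + |l6| + |l7| + 1, ?_⟩
  filter_upwards [key t1, key t2, key t3, key t4, key t5, key t6, key t7] with k k1 k2 k3 k4 k5 k6 k7
  have a1 := abs_nonneg l1
  have a2 := abs_nonneg l2
  have a3 := abs_nonneg l3
  have a4 := abs_nonneg l4
  have a5 := abs_nonneg l5
  have a6 := abs_nonneg l6
  have a7 := abs_nonneg l7
  refine ⟨by linarith, by linarith, by linarith, by linarith, by linarith, by linarith, ?_, le_rfl,
    by linarith⟩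
  have : gradSq d (rm_Lv M (q k) (q k (y k))) h (rgsN d M h (q k)) (y k) ≤ |l7| + 1 :=
    (le_abs_self _).trans k7
  linarith

end conv

/-! ## 4. uniform lapse charts   (package L-RG-UT-A4; needs `Rm/Long.lean`) -/

section chart

variable {M : Set V} {h : Ten V} {q : ℕ → V → ℝ} {q' : V → ℝ} {y' : V}

/-- convergence of the normalised gradient field. -/
theorem rgu_a4_N {n : ℕ} {u₀ : E n} {A : ℕ → E n → Matrix (Fin n) (Fin n) ℝ}
    {A' : E n → Matrix (Fin n) (Fin n) ℝ} {f : ℕ → E n → ℝ} {f' : E n → ℝ}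
    (hA : RgsMat u₀ A A') (h0 : (A' u₀).det ≠ 0) (hf : RgsAt u₀ f f')
    (hreg : gradSqC A' f' u₀ ≠ 0) :
    RgsAt u₀ (fun k x => rm_N (A k) (f k) x) (fun x => rm_N A' f' x) := by
  unfold rm_N
  refine RgsAt.sum _ fun i _ => ?_
  refine RgsAt.smul (f := fun k x => (∑ j : Fin n, (A k x)⁻¹ i j * pdiff (f k) j x) / gradSqC (A k) (f k) x)
    (f' := fun x => (∑ j : Fin n, (A' x)⁻¹ i j * pdiff f' j x) / gradSqC A' f' x)
    (a := fun _ _ => (eb i : E n)) (a' := fun _ => (eb i : E n)) ?_ ?_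
  · exact (RgsAt.sum _ fun j _ => (hA.inv h0 i j).mul (hf.pdiff j)).div (rgs_gradSqC hA h0 hf) hreg
  · exact RgsAt.fixed (a' := fun _ : E n => (eb i : E n)) univ_mem contDiffOn_const

/-- **uniform lapse charts for a convergent sequence of functions.**
PLAN.  `hq.piece`: `O` open, `y' ∈ O`, `q k` (large `k`), `q'` smooth along `M ∩ O`.  Parametrisation `(ψ₀, U₀)` of `M ∩ O` with `ψ₀ u' = y'`; `G = cm h ψ₀` (`rm_Met G U₀`), `f k = q k ∘ ψ₀ → f' = q' ∘ ψ₀` (`CtConvAt.rgs`), `0 < gradSqC G f' u'` (`if_gradSq_eq'`).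
`rm_N G (f k) = ∑ i, ((∑ j, G⁻¹ i j * pdiff (f k) j) / gradSqC G (f k)) • eb i` converges in `RgsAt` (`rgs_cm`, `RgsMat.inv`, `RgsAt.pdiff`, `rgs_gradSqC`, `.div`, `.smul`, `.sum`).  `RgsAt.nice` (order `0`) and `RgsAt.eventually_lt`:
`δ > 0`, `Λ₀ ≥ 1` with `closedBall u' (2δ) ⊆ U₀` and, for large `k`: `f k` smooth on `ball u' (3δ)`, `0 < gradSqC G (f k)` and `‖rm_N G (f k)‖ ≤ Λ₀` on `closedBall u' (2δ)`.  `ψ₀` is `L`-Lipschitz on `closedBall u' (2δ)` (`C¹` on a convex compact set).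
`ρ = δ / (2 Λ₀)`, `Λ = 2 L Λ₀`, `N` = a neighbourhood of `y'` with `N ∩ M ⊆ ψ₀ '' ball u' δ` (`if_image_mem_nhdsWithin`).  For `y = ψ₀ u0`, `u0 ∈ ball u' δ`, `r ≤ ρ`: `R = 2 Λ₀ r ≤ δ`, `closedBall u0 R ⊆ closedBall u' (2δ)`, `r Λ₀ < R`:
`rm_orth_param_long` (helper39, `Rm/Long.lean`) gives `ψ` with `rm_LapseP (M ∩ O) h (q k) y ψ r`, image in `ψ₀ '' ball u0 R`, so `‖ψ v - y‖ ≤ L R = Λ r`; `rm_LapseP.of_inter`. -/
theorem rgu_chart_conv (hM : IsMfd (d + 1) M) (hh : IsMetricOn (d + 1) M h) (hy' : y' ∈ M)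
    (hq : CtConvAt (d + 1) M q q' y') (hreg : 0 < gradSq (d + 1) M h q' y') :
    ∃ (ρ Λ : ℝ) (N : Set V), 0 < ρ ∧ 0 ≤ Λ ∧ N ∈ 𝓝 y' ∧ ∀ᶠ k in atTop, ∀ y ∈ N ∩ M,
      ∀ r, 0 < r → r ≤ ρ → ∃ ψ : E (d + 1) → V, rm_LapseP M h (q k) y ψ r ∧
        ∀ v ∈ rm_box d (q k y) r, ‖ψ v - y‖ ≤ Λ * r := by
  obtain ⟨O, hO, hyO, hs, hs'⟩ := hq.piece
  obtain ⟨ψ, U, hψ, u', hu', rfl⟩ := hM y' hy'
  have hp := if_param_restrict hO hψ
  have hhO := if_isMetricOn_inter hh hO
  have hf := hq.rgs hψ hu'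
  have hA := rgs_cm hh hψ hu'
  have hdet := ((hh ψ U hψ).2 u' hu').det_pos.ne'
  have hreg' : 0 < gradSqC (cm h ψ) (q' ∘ ψ) u' := by
    rw [← if_gradSq_eq' hO hhO hs' hψ hu' hyO]
    exact hreg
  have hN := rgu_a4_N hA hdet hf hreg'.ne'
  have hG := rgs_gradSqC hA hdet hf
  obtain ⟨W1, hW1, -, hpos⟩ := hG.eventually_lt hreg'
  obtain ⟨r₀, hr₀, hn⟩ := hN.nice
  obtain ⟨-, -, hb, -⟩ := hn r₀ hr₀ le_rfl
  obtain ⟨C, -, hC⟩ := hb 0
  have hcd : ContDiffAt ℝ 1 ψ u' :=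
    ((if_smooth hψ).contDiffAt ((if_open hψ).mem_nhds hu')).of_le (by norm_num)
  obtain ⟨K, W2, hW2, hK⟩ := hcd.exists_lipschitzOnWith
  have hW : W1 ∩ Metric.ball u' r₀ ∩ W2 ∩ (U ∩ ψ ⁻¹' O) ∈ 𝓝 u' :=
    inter_mem (inter_mem (inter_mem hW1 (Metric.ball_mem_nhds _ hr₀)) hW2)
      ((if_open hp).mem_nhds ⟨hu', hyO⟩)
  obtain ⟨δ, hδ, hsub⟩ := Metric.nhds_basis_closedBall.mem_iff.1 hW
  set Λ₀ : ℝ := max C 1 with hΛ₀
  have hΛ1 : 1 ≤ Λ₀ := le_max_right _ _
  have hΛ0 : 0 < Λ₀ := lt_of_lt_of_le one_pos hΛ1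
  have hbU : Metric.ball u' (δ / 2) ⊆ U := fun u hu =>
    (hsub (Metric.ball_subset_closedBall (Metric.ball_subset_ball (by linarith) hu))).2.1
  have him := if_image_mem_nhdsWithin (if_mono hψ Metric.isOpen_ball hbU)
    (Metric.mem_ball_self (half_pos hδ))
  obtain ⟨N, hN', hNsub⟩ := mem_nhdsWithin_iff_exists_mem_nhds_inter.1 him
  refine ⟨δ / (4 * Λ₀), 2 * K * Λ₀, N, by positivity, by positivity, hN', ?_⟩
  filter_upwards [hs, hpos, hC] with k hk hkpos hkC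
  intro y hy r hr hrρ
  obtain ⟨u0, hu0, rfl⟩ := hNsub hy
  have hR : 0 < 2 * Λ₀ * r := by positivity
  have hRδ : 2 * Λ₀ * r ≤ δ / 2 := by
    rw [le_div_iff₀ (by positivity)] at hrρ
    nlinarith
  have hcb : Metric.closedBall u0 (2 * Λ₀ * r) ⊆ Metric.closedBall u' δ := by
    intro u hu
    rw [Metric.mem_closedBall] at hu ⊢
    rw [Metric.mem_ball] at hu0
    have := dist_triangle u u0 u'
    linarith
  obtain ⟨τ, hL, hτ⟩ := rm_orth_param_ball hhO hk hp (u0 := u0) (R := 2 * Λ₀ * r) (Λ := Λ₀) (ρ := r)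
    hR (fun u hu => (hsub (hcb hu)).2) (fun u hu => hkpos u (hsub (hcb hu)).1.1.1)
    (fun u hu => by
      have := hkC u (hsub (hcb hu)).1.1.2
      rw [norm_iteratedFDeriv_zero] at this
      exact this.trans (le_max_left _ _)) hr (by nlinarith)
  refine ⟨ψ ∘ τ, hL.of_inter hO, fun v hv => ?_⟩
  have h1 := hτ v hv
  have h2 : τ v ∈ W2 := (hsub (hcb (Metric.ball_subset_closedBall h1))).1.2
  have h3 : u0 ∈ W2 := (hsub (hcb (Metric.mem_closedBall_self hR.le))).1.2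
  have h4 := hK.dist_le_mul _ h2 _ h3
  rw [dist_eq_norm] at h4
  rw [Metric.mem_ball] at h1
  have h5 : (K : ℝ) * dist (τ v) u0 ≤ K * (2 * Λ₀ * r) :=
    mul_le_mul_of_nonneg_left h1.le K.coe_nonneg
  calc ‖(ψ ∘ τ) v - ψ u0‖ ≤ K * dist (τ v) u0 := h4
    _ ≤ K * (2 * Λ₀ * r) := h5
    _ = 2 * K * Λ₀ * r := by ring

end chart

end Claimed.Agent.R315
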