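import Claimed.Agent.R315.Rg.UtA
import Claimed.Agent.R315.Rg.BudP
import Claimed.Agent.R315.Rg.Trx
import Claimed.Agent.R315.Rg.FinU

/-!
# Row 315, package Rg, unit UT (architect helper29, prefix `rgu_`), file `Rg/UtB.lean`: THE DIAGRAM LEVEL: escapes, (CORE), (UT_K)

Context: `C : ShCtx V W ι`, `hC : C.Ok`, `hS : ShieldOK C P1`, `hT : RgTrue C P1 Ω U`.  `E = C.P.E`, `F = C.F`, `h = C.P.h`, `dr = C.P.dr`.

ESCAPE DATUM: `α`, `J`, `s` with `RgfEsc α J s` (`Rg/FinA.lean`), `β = α.faceS J`, `a k = F.vec J (s k)`.  LIMIT MANIFOLD `C.lim Ω α J = F.cyl J (C.EO Ω β)` (open piece of the member `(β, J)`), metric `C.P.mh F J = h ∘ dropS J`, drift `C.P.mdr F J = dr ∘ dropS J`.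
`RguLim` = everything we know about the limit picture (`rgu_lim`: package L-RG-UT-B1).

* `rgu_escape` (B2): a sequence of `guard α` over a compact set with `U → 0` has a subsequence which escapes in `J`, with limit `y ∈ guard β`, `U y = 0`.
* `rgu_core` (B2) = (CORE): `|U| ≥ δ > 0` on the guards over a compact set over which the label `j0` is decided.
* `rgu_wall_cnt`, `rgu_pi_seq` (B3): the pointwise budget `PI 99` along sequences converging to a wall point of the guard.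
* `rgu_Vb_bd` (B3): `0 ≤ V* ≤ B` over compact sets.
* `rgu_bd_seq` (B4): `RgsBd` along such sequences (from `rgu_bd_conv`, `rgu_bd_win`).
* `rgu_chart_seq` (B4): uniform lapse charts in `E α ∩ Ω` (from `rgu_chart_conv`, `rgu_lapse_win`).
* `rgu_unif` = (UT_K): GLUE, by contradiction.
-/

set_option autoImplicit false
set_option linter.unusedSectionVars false
open scoped ContDiff ENNReal Topology
open MeasureTheory Claims.C0499 Set Filter

namespace Claimed.Agent.R315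

variable {V W : Type} [NormedAddCommGroup V] [NormedSpace ℝ V] [NormedAddCommGroup W]
  [NormedSpace ℝ W] {ι : Type}

/-- the limit manifold of an escape in the tails `J` of `E α ∩ Ω`. -/
def ShCtx.lim (C : ShCtx V W ι) (Ω : Set W) (α : Stat ι) (J : Finset ι) : Set W :=
  C.F.cyl J (C.EO Ω (α.faceS J))

/-- **the limit picture of an escape.** -/
structure RguLim [Fintype ι] (C : ShCtx V W ι) (Ω : Set W) (U : W → ℝ) (α : Stat ι) (J : Finset ι)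
    (s : ℕ → ι → ℝ) (d : ℕ) : Prop where
  geo : CtGeo (d + 1) (C.lim Ω α J) (C.P.mh C.F J) (C.P.mdr C.F J)
  /-- translation windows -/
  win : ∀ y' : W, ∀ᶠ k in atTop, RgfWin (C.EO Ω α) (C.lim Ω α J) C.P.h (C.P.mh C.F J)
    (C.F.vec J (s k)) (Metric.ball y' 1)
  /-- compatible data in the windows -/
  compat : ∀ {X : Type} (φ : W → X), Compat C.F C.P.E φ → ∀ y' : W, ∀ᶠ k in atTop,
    ∀ z ∈ C.lim Ω α J ∩ Metric.ball y' 1, φ (z + C.F.vec J (s k)) = φ (C.F.dropS J z)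
  /-- (AC) -/
  conv : ∀ y' ∈ C.lim Ω α J, CtConvAt (d + 1) (C.lim Ω α J)
    (fun k z => U (z + C.F.vec J (s k))) (fun z => U (C.F.dropS J z)) y'
  /-- cylinder calculus -/
  sq : ∀ y' ∈ C.lim Ω α J,
    gradSq (d + 1) (C.lim Ω α J) (C.P.mh C.F J) (fun z => U (C.F.dropS J z)) y' =
      gradSq (C.m (α.faceS J)) (C.EO Ω (α.faceS J)) C.P.h U (C.F.dropS J y')
  Dsc : ∀ y' ∈ C.lim Ω α J,
    Dsc (d + 1) (C.lim Ω α J) (C.P.mh C.F J) (C.P.mdr C.F J) y' =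
      Dsc (C.m (α.faceS J)) (C.EO Ω (α.faceS J)) C.P.h C.P.dr (C.F.dropS J y')

variable [FiniteDimensional ℝ V] [FiniteDimensional ℝ W] [Fintype ι] [MeasurableSpace W]
  [BorelSpace W] {C : ShCtx V W ι} {P1 : PData W ι C.B.J} {Ω : Set W} {U : W → ℝ}

/-! ## B1: the limit picture   (package L-RG-UT-B1) -/

/-- `E β ∩ Ω` is the base of an iterated cylinder.  PLAN: `geo`: `⟨hD.mfd β, hP.met.met β, hP.dr_sc.1 β⟩.inter hT.isOpen` (`hP = hC.inv.pgeo`, `CtGeo.inter`); `flat`: `hD.t_hit`; `normal`: `hP.met.normal`. -/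
theorem rgu_base (hC : C.Ok) (hT : RgTrue C P1 Ω U) (β : Stat ι) (J : Finset ι)
    (hJ : ∀ j ∈ J, β j = 0) :
    RgfBase C.F J (C.m β) (C.EO Ω β) C.P.h C.P.dr :=
  ⟨CtGeo.inter ⟨hC.inv.diag.mfd β, hC.inv.met.met β, hC.inv.dr_sc.1 β⟩ hT.isOpen,
    fun x hx j hj => hC.inv.diag.t_hit β x hx.1 j (hJ j hj),
    fun x hx j hj w => hC.inv.met.normal β x hx.1 j (hJ j hj) w⟩

/-- **the limit picture.**
PLAN.  `β = α.faceS J`, `β j = 0` for `j ∈ J` (`simp [Stat.faceS]`).  `e : C.m β + J.card = d + 1` (`rgt_mdim hC hs.1 hne`, `mdim n β J = C.m β + J.card` by `rfl`, `hd`).  `K = (rgu_base hC hT β J _).cylOK`: `geo = e ▸ K.geo`, `sq = e ▸ K.ip_eq U U (hT.smooth β) (hT.smooth β)`, `Dsc = e ▸ K.Dsc_eq`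
(`C.P.mh C.F J`, `C.P.mdr C.F J` unfold to the `fun`s of `RgfCylOK`).
`win`, `compat`: `rgx_window hC hs hφ y'` (`Rg/TrTl.lean`) for `φ = (· ∈ Ω)` (`hT.compat`), `φ = C.P.h` (`hC.inv.met.compat`) and the given `φ`, and `ct_window` for the converse inclusion (`z + a k ∈ E α → dropS J z ∈ E β`); `ball ⊆ closedBall`.
`conv`: `hT.ac α J hs.1 s hs.2 y' hy'` is `CtConvAt (mdim ..) (C.P.mE C.F β J) ..`; `C.lim Ω α J = C.P.mE C.F β J ∩ C.F.dropS J ⁻¹' Ω`, the second set is open: `CtConvAt.inter` (`IsMfd` of the member: `(ct_mem_geo hC.inv.pgeo β J _).mfd`). -/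
theorem rgu_lim (hC : C.Ok) (hT : RgTrue C P1 Ω U) {α : Stat ι} {J : Finset ι} {s : ℕ → ι → ℝ}
    (hs : RgfEsc α J s) {d : ℕ} (hd : C.m α = d + 1) (hne : (C.P.E (α.faceS J)).Nonempty) :
    RguLim C Ω U α J s d := by
  classical
  have hD := hC.inv.diag
  have hface : ∀ j ∈ J, α.faceS J j = 0 := fun j hj => by simp [Stat.faceS, hj]
  have e : C.m (α.faceS J) + J.card = d + 1 := by
    rw [← hd, ← rgt_mdim hC hs.1 hne]
    rfl
  have K := (rgu_base hC hT (α.faceS J) J hface).cylOK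
  have hO : IsOpen (C.F.dropS J ⁻¹' Ω) := hT.isOpen.preimage (C.F.continuous_dropS J)
  have hwin : ∀ {X : Type} (φ : W → X), Compat C.F C.P.E φ → ∀ y' : W, ∀ᶠ k in atTop,
      ∀ z ∈ Metric.ball y' 1, (z + C.F.vec J (s k) ∈ C.EO Ω α ↔ z ∈ C.lim Ω α J) ∧
        (z ∈ C.lim Ω α J → φ (z + C.F.vec J (s k)) = φ (C.F.dropS J z)) := by
    intro X φ hφ y'
    have hK : IsCompact (Metric.closedBall y' 1) := isCompact_closedBall y' 1
    filter_upwards [ct_window hD α J hs.1 s hs.2 hK, ct_window_compat hD α J hs.1 s hs.2 hK hφ,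
      ct_window_compat hD α J hs.1 s hs.2 hK hT.compat] with k hk1 hk2 hk3 z hz
    have hzK : z ∈ Metric.closedBall y' 1 := Metric.ball_subset_closedBall hz
    refine ⟨⟨fun h1 => ⟨(hk1 z hzK).1 h1.1, ?_⟩, fun h1 => ?_⟩, fun h1 => ?_⟩
    · have := hk3 z hzK h1.1
      exact this ▸ h1.2
    · have h2 := (hk1 z hzK).2 h1.1
      have := hk3 z hzK h2
      exact ⟨h2, this.symm ▸ h1.2⟩
    · exact hk2 z hzK ((hk1 z hzK).2 h1.1)
  refine ⟨e ▸ K.geo, fun y' => ?_, fun φ hφ y' => ?_, fun y' hy' => ?_, fun y' hy' => ?_,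
    fun y' hy' => ?_⟩
  · filter_upwards [hwin C.P.h hC.inv.met.compat y'] with k hk
    exact ⟨Metric.isOpen_ball, fun z hz => (hk z hz).1, fun z hz => (hk z hz.2).2 hz.1⟩
  · filter_upwards [hwin φ hφ y'] with k hk z hz
    exact (hk z hz.2).2 hz.1
  · have h1 := hT.ac α J hs.1 s hs.2 y' hy'
    have h2 := CtConvAt.inter (ct_mem_geo hC.inv.pgeo (α.faceS J) J hface).mfd hO
      ⟨hy'.1, hy'.2⟩ h1
    have e' : mdim C.B.n (α.faceS J) J = d + 1 := e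
    rw [e'] at h2
    exact h2
  · have := K.ip_eq U U (hT.smooth _) (hT.smooth _) y' hy'
    rw [e] at this
    exact this
  · have := K.Dsc_eq y' hy'
    rw [e] at this
    exact this

/-! ## B2: escaping sequences of the guard, (CORE)   (package L-RG-UT-B2) -/

/-- **escape of a sequence of the guard on which `U → 0`.**
PLAN.  `ct_escape hC.inv.diag α x (guard ⊆ E α) hK hq`: `φ`, `J`, `y ∈ E β`.  `s k j = F.t j (x (φ k))`, `rgf_dropS_add_vec_self`.  `y ∈ ⋃ guard` by `rgx_guard_ec hC hS` (applied to the subsequence), hence `y ∈ guard β` (`rgx_status_eq`).  `q y ∈ K`: `hK.isClosed`, `F.q_dropS`.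
`y ∈ Ω` (`hT.guard`), `Ω` open, `rgx_esc_face`: eventually `dropS J (x (φ k)) ∈ E β ∩ Ω`, and `dropS J` is idempotent there (`rgf_dropS_of_mem`): membership in `C.lim`.
`U y = 0`: `(L.conv y _).tendsto L.geo.mfd _ _ _` with `L = rgu_lim ..` (needs `d`: `C.m α = d + 1` from `hC.dim`; or use `hT.ac` + `CtConvAt.tendsto` on the member directly): `U (dropS J (x (φ k)) + a k) = U (x (φ k)) → 0` and `→ U (dropS J y) = U y`. -/
theorem rgu_escape (hC : C.Ok) (hS : ShieldOK C P1) (hT : RgTrue C P1 Ω U) {α : Stat ι}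
    {x : ℕ → W} (hx : ∀ n, x n ∈ C.guard P1 α) {K : Set V} (hK : IsCompact K)
    (hq : ∀ n, C.F.q (x n) ∈ K) (hU : Tendsto (fun n => U (x n)) atTop (𝓝 0)) :
    ∃ (φ : ℕ → ℕ) (J : Finset ι) (y : W), StrictMono φ ∧
      RgfEsc α J (fun k j => C.F.t j (x (φ k))) ∧ y ∈ C.guard P1 (α.faceS J) ∧ U y = 0 ∧
      C.F.q y ∈ K ∧ C.F.dropS J y = y ∧ y ∈ C.lim Ω α J ∧
      Tendsto (fun k => C.F.dropS J (x (φ k))) atTop (𝓝 y) ∧
      ∀ᶠ k in atTop, C.F.dropS J (x (φ k)) ∈ C.lim Ω α J := by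
  have hD := hC.inv.diag
  obtain ⟨φ, J, y, hφ, hJ, hesc, hyE, hlim⟩ := ct_escape hD α x (fun k => (hx k).1) hK hq
  have hyU : y ∈ ⋃ γ, C.guard P1 γ :=
    rgx_guard_ec hC hS α J (fun k => x (φ k)) y hJ
      (fun k => ⟨mem_iUnion.2 ⟨α, hx _⟩, (hx _).1⟩) hesc hyE hlim
  obtain ⟨γ, hγ⟩ := mem_iUnion.1 hyU
  obtain rfl : γ = α.faceS J := rgx_status_eq hC hγ.1 hyE
  have hyy : C.F.dropS J y = y := rgf_dropS_of_mem hD α J hyE
  have hyΩ : y ∈ Ω := hT.guard _ hγ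
  have hyl : y ∈ C.lim Ω α J := by
    show C.F.dropS J y ∈ C.EO Ω (α.faceS J)
    rw [hyy]; exact ⟨hyE, hyΩ⟩
  have hface := rgx_esc_face hC hJ (fun k => (hx (φ k)).1) hesc hlim
  have hev : ∀ᶠ k in atTop, C.F.dropS J (x (φ k)) ∈ C.lim Ω α J := by
    filter_upwards [hface, hlim (hT.isOpen.mem_nhds hyΩ)] with k h1 h2
    show C.F.dropS J (C.F.dropS J (x (φ k))) ∈ C.EO Ω (α.faceS J)
    rw [rgf_dropS_of_mem hD α J h1]
    exact ⟨h1, h2⟩
  have hJ0 : ∀ j ∈ J, α.faceS J j = 0 := fun j hj => by simp [Stat.faceS, hj]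
  have hM := (ct_mem_geo hC.inv.pgeo (α.faceS J) J hJ0).mfd
  have hac := hT.ac α J hJ (fun k j => C.F.t j (x (φ k))) hesc y hyl
  have h1 := hac.tendsto hM (rgf_mem_cyl hD α J hyE)
    (hface.mono fun k hk => rgf_mem_cyl hD α J hk) hlim
  have h2 : Tendsto (fun k => U (x (φ k))) atTop (𝓝 (U (C.F.dropS J y))) := by
    refine h1.congr fun k => ?_
    show U (C.F.dropS J (x (φ k)) + C.F.vec J (fun j => C.F.t j (x (φ k)))) = _
    rw [rgf_dropS_add_vec_self]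
  have h3 : U (C.F.dropS J y) = 0 := tendsto_nhds_unique h2 (hU.comp hφ.tendsto_atTop)
  refine ⟨φ, J, y, hφ, ⟨hJ, hesc⟩, hγ, by rwa [hyy] at h3, ?_, hyy, hyl, hlim, hev⟩
  refine hK.isClosed.mem_of_tendsto ((C.F.q.continuous.tendsto y).comp hlim)
    (Eventually.of_forall fun k => ?_)
  show C.F.q (C.F.dropS J (x (φ k))) ∈ K
  rw [C.F.q_dropS]; exact hq _

/-- `U ≠ 0` where the label `j0` is decided.  PLAN: `subset_closure`, `hC.cut.up`/`un`, `hT.pos`/`neg`. -/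
theorem rgu_ne_of_decided (hC : C.Ok) (hT : RgTrue C P1 Ω U) {β : Stat ι} {y : W}
    (hy : y ∈ C.EO Ω β) (hdec : y ∈ C.P.Up C.j0 ∨ y ∈ C.P.Un C.j0) : U y ≠ 0 := by
  rcases hdec with h | h
  · exact ((hT.pos β y hy).2 (hC.cut.up β (subset_closure ⟨h, hy.1⟩))).ne'
  · exact ((hT.neg β y hy).2 (hC.cut.un β (subset_closure ⟨h, hy.1⟩))).ne

/-- **(CORE)**: `|U|` is bounded below on the guards over a compact set over which `j0` is decided.
PLAN: it is enough to find `δ α` for every `α` (`Stat ι` is finite: `Finite.exists_min`/`Finset.univ.inf'`, or induction; `classical`).  By contradiction: `x n ∈ guard α` over `K` with `|U (x n)| ≤ 1/(n+1)`; `rgu_escape`; `y ∈ E β ⊆ tot E` over `K`: decided; `rgu_ne_of_decided`. -/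
theorem rgu_core (hC : C.Ok) (hS : ShieldOK C P1) (hT : RgTrue C P1 Ω U) {K : Set V}
    (hK : IsCompact K)
    (hdec : ∀ z ∈ tot C.P.E, C.F.q z ∈ K → z ∈ C.P.Up C.j0 ∨ z ∈ C.P.Un C.j0) :
    ∃ δ > 0, ∀ α, ∀ x ∈ C.guard P1 α, C.F.q x ∈ K → δ < |U x| := by
  have h1 : ∀ α : Stat ι, ∃ δ > 0, ∀ x ∈ C.guard P1 α, C.F.q x ∈ K → δ < |U x| := by
    intro α
    by_contra hcon
    push Not at hcon
    have hn : ∀ n : ℕ, (0 : ℝ) < 1 / ((n : ℝ) + 1) := fun n => by positivity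
    choose x hxg hxK hxU using fun n : ℕ => hcon (1 / ((n : ℝ) + 1)) (hn n)
    have hU : Tendsto (fun n => U (x n)) atTop (𝓝 0) :=
      squeeze_zero_norm (fun n => by rw [Real.norm_eq_abs]; exact hxU n)
        tendsto_one_div_add_atTop_nhds_zero_nat
    obtain ⟨φ, J, y, -, -, hyg, hy0, hyK, -, -, -, -⟩ := rgu_escape hC hS hT hxg hK hxK hU
    exact rgu_ne_of_decided hC hT ⟨hyg.1, hT.guard _ hyg⟩
      (hdec y (mem_tot.2 ⟨_, hyg.1⟩) hyK) hy0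
  choose δ hδ hb using h1
  obtain ⟨α₀, hα₀⟩ := Finite.exists_min δ
  exact ⟨δ α₀, hδ α₀, fun α x hx hq => lt_of_le_of_lt (hα₀ α) (hb α x hx hq)⟩

/-! ## B3: the pointwise budget and the potential   (package L-RG-UT-B3) -/

/-- at a wall point of the guard `m - 1` labels of `rem` are undecided for the parent data.
PLAN: `hy.2 = ⟨s, hs, hcard⟩`; `insert C.j0 s` (`classical`); `j0 ∉ s` (`C.R = C.rem \ {C.j0}`); `j ∈ s`: `y ∈ P1.und j → y ∈ C.P.und j` by `hS.up_mono`, `hS.un_mono`; `j0`: `rgu_ne_of_decided` (contrapositive), `hT.guard`; `C.j0 ∈ C.rem`: `hC.j0_mem`; cardinalities: `omega`. -/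
theorem rgu_wall_cnt (hC : C.Ok) (hS : ShieldOK C P1) (hT : RgTrue C P1 Ω U) {β : Stat ι} {y : W}
    (hy : y ∈ C.guard P1 β) (h0 : U y = 0) : C.P.Cnt C.rem (C.m β - 1) y := by
  classical
  have hyΩ : y ∈ C.EO Ω β := ⟨hy.1, hT.guard β hy⟩
  obtain ⟨-, s, hs, hcard⟩ := hy
  have hj0 : C.j0 ∉ s := fun h => (hs _ h).1.2 rfl
  refine ⟨insert C.j0 s, fun j hj => ?_, ?_⟩
  · rcases Finset.mem_insert.1 hj with rfl | hj
    · exact ⟨hC.j0_mem, fun hup => rgu_ne_of_decided hC hT hyΩ (Or.inl hup) h0,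
        fun hun => rgu_ne_of_decided hC hT hyΩ (Or.inr hun) h0⟩
    · obtain ⟨hR, hu1, hu2⟩ := hs j hj
      exact ⟨hR.1, fun h => hu1 (hS.up_mono j hR h), fun h => hu2 (hS.un_mono j hR h)⟩
  · rw [Finset.card_insert_of_notMem hj0]
    omega

theorem rgu_potSum1_sc (hC : C.Ok) (hS : ShieldOK C P1) :
    SC C.B.n C.F C.P.E (P1.potSum C.R) := by
  have hD : IsDiag C.B.n C.B.M C.F P1.E := hS.E_eq ▸ hC.inv.diag
  have h1 := rg_potSum_sc hC.base hD (fun j hj => (hS.label j hj).pot_sc) (rgbp_passive_1 hS)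
  rwa [hS.E_eq] at h1

theorem rgu_potSum0_sc (hC : C.Ok) : SC C.B.n C.F C.P.E (C.P.potSum C.R) :=
  rg_potSum_sc hC.base hC.inv.diag (fun j hj => (hC.inv.label j hj.1).pot_sc) (rgbp_passive_R hC)

theorem rgu_Vb_eq (C : ShCtx V W ι) (P1 : PData W ι C.B.J) (s' : ℝ) :
    C.Vb P1 s' = fun z => pkL s' + pkB s' * rgKap C.s s' * P1.potSum C.R z := by
  funext z
  unfold ShCtx.Vb
  rw [rgVs_eq]
  ring

/-- the target potential is smooth and compatible.  PLAN: `C.Vb P1 s' x = pkL s' + pkB s' * (rgKap C.s s' * P1.potSum C.R x)` (`tsum_mul_left`, `Set.indicator_const_mul`-style), `rg_potSum_sc hC.base (hS.E_eq ▸ hC.inv.diag) (fun j hj => (hS.label j hj).pot_sc) hS.passive` (`Rg/Dat.lean`; rewrite `P1.E = C.P.E` by `hS.E_eq`). -/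
theorem rgu_Vb_sc (hC : C.Ok) (hS : ShieldOK C P1) (s' : ℝ) :
    SC C.B.n C.F C.P.E (C.Vb P1 s') := by
  rw [rgu_Vb_eq]
  exact (rgu_potSum1_sc hC hS).rg_affine (pkL s') (pkB s' * rgKap C.s s')

/-- the cumulative addition is compatible.  PLAN: `C.add P1 z = P1.potSum C.R z - C.P.potSum C.R z` on `tot E` (both families are summable: all but finitely many terms are `c * pst j`, `hC.base.pst_sum`; see the proof of `rg_potSum_sc`), both are `SC` (`rg_potSum_sc`; for `C.P`: `hC.inv.label`, `hC.inv.passive` restricted to `C.R ⊆ C.rem`);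
`rgx_compat_trace`. -/
theorem rgu_add_compat (hC : C.Ok) (hS : ShieldOK C P1) : Compat C.F C.P.E (C.add P1) := by
  intro i K hK
  obtain ⟨R1, hR1⟩ := (rgu_potSum1_sc hC hS).2 i K hK
  obtain ⟨R2, hR2⟩ := (rgu_potSum0_sc hC).2 i K hK
  obtain ⟨R0, -, hR0⟩ := rg_drop_mem_tot hC.inv.diag hK
  refine ⟨max R0 (max R1 R2), fun z hz hq hlt => ?_⟩
  have l0 : R0 < |C.F.t i z| := lt_of_le_of_lt (le_max_left _ _) hlt
  have l1 : R1 < |C.F.t i z| :=
    lt_of_le_of_lt ((le_max_left _ _).trans (le_max_right _ _)) hlt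
  have l2 : R2 < |C.F.t i z| :=
    lt_of_le_of_lt ((le_max_right _ _).trans (le_max_right _ _)) hlt
  rw [rgbp_add_eq hC hS hz, rgbp_add_eq hC hS (hR0 i z hz hq l0), hR1 z hz hq l1, hR2 z hz hq l2]

/-- `0 ≤ V* ≤ B` over compact sets.  PLAN: `CC.bounded hC.inv.diag ⟨fun α => if_smoothAlong_continuousOn (hD.mfd α) ((rgu_Vb_sc ..).1 α), (rgu_Vb_sc ..).2⟩ hK`; nonnegativity: `pkL s' ≥ 1/8`, `pkB s' > 0`, `rgKap > 0` (`hs`), `tsum_nonneg`, `(hS.label j hj).pot_ge`, `hC.base.pst_pos`. -/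
theorem rgu_Vb_bd (hC : C.Ok) (hS : ShieldOK C P1) {s' : ℝ} (hs : C.s < s') (hs' : s' ≤ 1)
    {K : Set V} (hK : IsCompact K) :
    ∃ B : ℝ, ∀ z ∈ tot C.P.E, C.F.q z ∈ K → 0 ≤ C.Vb P1 s' z ∧ C.Vb P1 s' z ≤ B := by
  have hsc := rgu_Vb_sc hC hS s'
  obtain ⟨B, hB⟩ := CC.bounded hC.inv.diag (φ := C.Vb P1 s')
    ⟨fun α => if_smoothAlong_continuousOn (hC.inv.diag.mfd α) (hsc.1 α), hsc.2⟩ hK
  refine ⟨B, fun z hz hq => ⟨?_, (le_abs_self _).trans (hB z hz hq)⟩⟩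
  rw [rgu_Vb_eq]
  have h1 : 0 ≤ P1.potSum C.R z := by
    have := rgbp_add_eq hC hS hz
    have a0 := rgbp_add_nonneg hS z
    have p0 := rgbp_potSum_nonneg hC hz
    linarith
  have h2 : 0 ≤ pkL s' := by unfold pkL; linarith
  have h3 : 0 ≤ pkB s' * rgKap C.s s' := by
    have := rgKap_ge hs
    have : 0 ≤ pkB s' := by unfold pkB; linarith
    positivity
  show 0 ≤ pkL s' + pkB s' * rgKap C.s s' * P1.potSum C.R z
  positivity

/-- **the pointwise budget along a sequence which converges (after translation) to a wall point of the guard.**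
PLAN.  `β = α.faceS J`, `y = dropS J y' ∈ E β`, `rgb_pi_nhd_pf .. β hyE hcnt` (`Rg/BudP.lean`): `N ∈ 𝓝 y` with `PI β 99` on `N ∩ E β`.  `dropS J (p k) → y` (`continuous_dropS`), `dropS J (p k) ∈ E β ∩ Ω` (membership in `C.lim`).  For large `k` (`p k ∈ ball y' 1`):
`C.Vb`, `C.add P1`, `C.P.pot C.j0` at `p k + a k` are their values at `dropS J (p k)` (`L.compat` with `(rgu_Vb_sc ..).2`, `rgu_add_compat`, `(hC.inv.label _ hC.j0_mem).pot_sc.2`);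
`Dsc (C.m α) (E α) h dr (p k + a k) = Dsc (d+1) (C.EO Ω α) .. ` (`hd`, `if_Dsc_inter'`/`rgf_Dsc_local`, the point lies in `Ω`) `= Dsc (d+1) (C.lim ..) mh (dr (· + a k)) (p k)` (`(L.win y').Dsc_eq`) `= Dsc (d+1) (C.lim ..) mh mdr (p k)` (drift: `L.compat C.P.dr hC.inv.dr_sc.2`, congruence as in `rgu_bd_win`)
`= Dsc (C.m β) (C.EO Ω β) h dr (dropS J (p k))` (`L.Dsc`) `= Dsc (C.m β) (E β) ..` (locality). -/
theorem rgu_pi_seq (hC : C.Ok) (hS : ShieldOK C P1) {s' : ℝ} (hs : C.s < s') (hs' : s' ≤ 1)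
    (he : C.e0 = (pkL C.s - pkL s') / 100) (hT : RgTrue C P1 Ω U) {α : Stat ι} {J : Finset ι}
    {s : ℕ → ι → ℝ} {d : ℕ} (hd : C.m α = d + 1) (L : RguLim C Ω U α J s d) {y' : W}
    (hy' : y' ∈ C.lim Ω α J) (hcnt : C.P.Cnt C.rem (C.m (α.faceS J) - 1) (C.F.dropS J y'))
    {p : ℕ → W} (hp : ∀ᶠ k in atTop, p k ∈ C.lim Ω α J) (hlim : Tendsto p atTop (𝓝 y')) :
    ∀ᶠ k in atTop, C.PI P1 s' α 99 (p k + C.F.vec J (s k)) := by
  obtain ⟨N, hN, hPI⟩ := rgb_pi_nhd_pf C hC P1 hS s' hs hs' he (α.faceS J) hy'.1 hcnt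
  have hdrop : Tendsto (fun k => C.F.dropS J (p k)) atTop (𝓝 (C.F.dropS J y')) :=
    ((C.F.continuous_dropS J).tendsto y').comp hlim
  filter_upwards [hp, hdrop hN, hlim (Metric.ball_mem_nhds y' one_pos), L.win y',
    L.compat _ (rgu_Vb_sc hC hS s').2 y', L.compat _ (rgu_add_compat hC hS) y',
    L.compat _ (hC.inv.label _ hC.j0_mem).pot_sc.2 y', L.compat _ hC.inv.dr_sc.2 y']
    with k h1 h2 h3 h4 h5 h6 h7 h8
  have hz : p k + C.F.vec J (s k) ∈ C.EO Ω α := (h4.set _ h3).2 h1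
  have hx : C.F.dropS J (p k) ∈ C.EO Ω (α.faceS J) := h1
  have hD : Dsc (C.m α) (C.P.E α) C.P.h C.P.dr (p k + C.F.vec J (s k)) =
      Dsc (C.m (α.faceS J)) (C.P.E (α.faceS J)) C.P.h C.P.dr (C.F.dropS J (p k)) := by
    rw [← if_Dsc_inter' C.P.h C.P.dr hT.isOpen hz.2, hd]
    show Dsc (d + 1) (C.EO Ω α) _ _ _ = _
    rw [h4.Dsc_eq C.P.dr h3, if_Dsc_congr (t' := C.P.mdr C.F J)
      (Metric.isOpen_ball.mem_nhds h3) (fun _ _ => rfl) h8, L.Dsc _ h1]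
    exact if_Dsc_inter' C.P.h C.P.dr hT.isOpen hx.2
  have h9 := hPI _ ⟨h2, hx.1⟩
  unfold ShCtx.PI at h9 ⊢
  rw [h5 _ ⟨h1, h3⟩, h6 _ ⟨h1, h3⟩, h7 _ ⟨h1, h3⟩, hD]
  exact h9

/-! ## B4: invariants and charts along an escape   (proved from `Rg/UtA.lean`) -/

/-- the limit function is regular at its zeros. -/
theorem RguLim.reg (hT : RgTrue C P1 Ω U) {α : Stat ι} {J : Finset ι} {s : ℕ → ι → ℝ} {d : ℕ}
    (L : RguLim C Ω U α J s d) {y' : W} (hy' : y' ∈ C.lim Ω α J) (h0 : U (C.F.dropS J y') = 0) :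
    0 < gradSq (d + 1) (C.lim Ω α J) (C.P.mh C.F J) (fun z => U (C.F.dropS J z)) y' := by
  rw [L.sq y' hy']
  exact hT.reg _ _ hy' h0

/-- **the seven invariants along a sequence which converges (after translation) to a zero of the limit function.** -/
theorem rgu_bd_seq (hC : C.Ok) (hT : RgTrue C P1 Ω U) {α : Stat ι} {J : Finset ι}
    {s : ℕ → ι → ℝ} {d : ℕ} (L : RguLim C Ω U α J s d) {y' : W}
    (hy' : y' ∈ C.lim Ω α J) (h0 : U (C.F.dropS J y') = 0)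
    {p : ℕ → W} (hp : ∀ᶠ k in atTop, p k ∈ C.lim Ω α J) (hlim : Tendsto p atTop (𝓝 y')) :
    ∃ B : ℝ, ∀ᶠ k in atTop, RgsBd d (C.EO Ω α) C.P.h C.P.dr U (fun _ => 0) B
      (p k + C.F.vec J (s k)) := by
  obtain ⟨B, hB⟩ := rgu_bd_conv L.geo hy' (L.conv y' hy') (L.reg hT hy' h0) hp hlim
  refine ⟨B, ?_⟩
  filter_upwards [hB, L.win y', L.compat C.P.dr hC.inv.dr_sc.2 y',
    hlim (Metric.ball_mem_nhds y' one_pos)] with k h1 h2 h3 h4
  exact rgu_bd_win (Vs := fun _ => 0) h2 h3 h4 h1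

/-- **uniform lapse charts along an escape.** -/
theorem rgu_chart_seq (hT : RgTrue C P1 Ω U) {α : Stat ι} {J : Finset ι}
    {s : ℕ → ι → ℝ} {d : ℕ} (L : RguLim C Ω U α J s d) {y' : W}
    (hy' : y' ∈ C.lim Ω α J) (h0 : U (C.F.dropS J y') = 0) :
    ∃ (ρ Λ : ℝ) (N : Set W), 0 < ρ ∧ 0 ≤ Λ ∧ N ∈ 𝓝 y' ∧ ∀ᶠ k in atTop, ∀ y ∈ N ∩ C.lim Ω α J,
      ∀ r, 0 < r → r ≤ ρ → ∃ ψ : E (d + 1) → W,
        rm_LapseP (C.EO Ω α) C.P.h U (y + C.F.vec J (s k)) ψ r ∧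
        ∀ v ∈ rm_box d (U (y + C.F.vec J (s k))) r, ‖ψ v - (y + C.F.vec J (s k))‖ ≤ Λ * r := by
  obtain ⟨ρ, Λ, N, hρ, hΛ, hN, hev⟩ :=
    rgu_chart_conv L.geo.mfd L.geo.met hy' (L.conv y' hy') (L.reg hT hy' h0)
  have hΛ1 : 0 < 4 * (Λ + 1) := by linarith
  refine ⟨min ρ (1 / (4 * (Λ + 1))), Λ, N ∩ Metric.ball y' (1 / 2), lt_min hρ (by positivity), hΛ,
    inter_mem hN (Metric.ball_mem_nhds y' (by norm_num)), ?_⟩
  filter_upwards [hev, L.win y'] with k hk hwin y hy r hr hle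
  obtain ⟨ψ, hL, hb⟩ := hk y ⟨hy.1.1, hy.2⟩ r hr (hle.trans (min_le_left _ _))
  have hr4 : Λ * r ≤ 1 / 4 := by
    have h1 : r ≤ 1 / (4 * (Λ + 1)) := hle.trans (min_le_right _ _)
    rw [le_div_iff₀ hΛ1] at h1
    nlinarith
  have hsub : ∀ w ∈ rm_box d (U (y + C.F.vec J (s k))) r, ψ w ∈ Metric.ball y' 1 := by
    intro w hw
    have h1 := hb w hw
    have h2 : dist y y' < 1 / 2 := hy.1.2
    rw [Metric.mem_ball]
    calc dist (ψ w) y' ≤ dist (ψ w) y + dist y y' := dist_triangle _ _ _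
      _ < 1 / 4 + 1 / 2 := by
        rw [dist_eq_norm]
        exact add_lt_add_of_le_of_lt (h1.trans hr4) h2
      _ < 1 := by norm_num
  refine ⟨fun v => ψ v + C.F.vec J (s k), rgu_lapse_win hwin (hL.inter Metric.isOpen_ball hsub),
    fun v hv => ?_⟩
  rw [add_sub_add_right_eq_sub]
  exact hb v hv

/-! ## (UT_K) -/

/-- (UT_K) for one status. -/
theorem rgu_unif_one (hC : C.Ok) (hS : ShieldOK C P1) {s' : ℝ} (hs : C.s < s') (hs' : s' ≤ 1)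
    (he : C.e0 = (pkL C.s - pkL s') / 100) (hT : RgTrue C P1 Ω U) {K : Set V} (hK : IsCompact K)
    {ε : ℝ} (hε : 0 < ε) (α : Stat ι) (d : ℕ) (hd : C.m α = d + 1) :
    ∃ ρ > 0, ∃ B : ℝ, ∀ x0 ∈ C.guard P1 α,
      C.F.q x0 ∈ K → |U x0| ≤ ρ → ∃ ψ : E (d + 1) → W,
        rm_LapseP (C.EO Ω α) C.P.h U x0 ψ (3 * ρ) ∧ ∀ v ∈ rm_box d (U x0) (3 * ρ),
          dist (C.F.q (ψ v)) (C.F.q x0) < ε ∧
          RgsBd d (C.EO Ω α) C.P.h C.P.dr U (C.Vb P1 s') B (ψ v) ∧ C.PI P1 s' α 99 (ψ v) := by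
  by_contra hcon
  push Not at hcon
  have hn : ∀ n : ℕ, (0 : ℝ) < 1 / ((n : ℝ) + 1) := fun n => by positivity
  choose x hxg hxK hxU hxbad using fun n : ℕ => hcon (1 / ((n : ℝ) + 1)) (hn n) n
  have hr0 : Tendsto (fun n : ℕ => 1 / ((n : ℝ) + 1)) atTop (𝓝 0) :=
    tendsto_one_div_add_atTop_nhds_zero_nat
  have hU : Tendsto (fun n => U (x n)) atTop (𝓝 0) :=
    squeeze_zero_norm (fun n => by rw [Real.norm_eq_abs]; exact hxU n) hr0
  obtain ⟨φ, J, y, hφ, hesc, hyg, hy0, hyK, hyy, hyl, hconv, hev⟩ :=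
    rgu_escape hC hS hT hxg hK hxK hU
  have L := rgu_lim hC hT hesc hd ⟨y, hyg.1⟩
  have h0 : U (C.F.dropS J y) = 0 := by rw [hyy]; exact hy0
  obtain ⟨ρ, Λ, N, hρ, hΛ, hN, hch⟩ := rgu_chart_seq hT L hyl h0
  set a : ℕ → W := fun k => C.F.vec J (fun j => C.F.t j (x (φ k))) with ha
  have hxa : ∀ k, C.F.dropS J (x (φ k)) + a k = x (φ k) := fun k =>
    rgf_dropS_add_vec_self C.F J (x (φ k))
  set r : ℕ → ℝ := fun k => 3 * (1 / ((φ k : ℝ) + 1)) with hr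
  have hrlim : Tendsto r atTop (𝓝 0) := by
    have := (hr0.comp hφ.tendsto_atTop).const_mul 3
    rw [mul_zero] at this
    exact this
  have hrpos : ∀ k, 0 < r k := fun k => by positivity
  -- the bad points
  have hbad : ∀ᶠ k in atTop, ∃ p' : W, p' ∈ C.EO Ω α ∧ ‖p' - x (φ k)‖ ≤ Λ * r k ∧
      ¬ (dist (C.F.q p') (C.F.q (x (φ k))) < ε ∧
        RgsBd d (C.EO Ω α) C.P.h C.P.dr U (C.Vb P1 s') (φ k) p' ∧ C.PI P1 s' α 99 p') := by
    filter_upwards [hch, hconv hN, hev, hrlim.eventually (ge_mem_nhds hρ)] with k h1 h2 h3 h4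
    obtain ⟨ψ, hL, hb⟩ := h1 _ ⟨h2, h3⟩ (r k) (hrpos k) h4
    rw [hxa k] at hL hb
    obtain ⟨v, hv, hnot⟩ := hxbad (φ k) ψ hL
    exact ⟨ψ v, if_mem hL.par hv, hb v hv, fun hh => hnot hh.1 hh.2.1 hh.2.2⟩
  obtain ⟨p', hp'⟩ := hbad.choice
  set p : ℕ → W := fun k => p' k - a k with hp
  have hpa : ∀ k, p k + a k = p' k := fun k => sub_add_cancel _ _
  have hΛr : Tendsto (fun k => Λ * r k) atTop (𝓝 0) := by
    simpa using hrlim.const_mul Λ
  have hplim : Tendsto p atTop (𝓝 y) := by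
    have h1 : Tendsto (fun k => p k - C.F.dropS J (x (φ k))) atTop (𝓝 0) := by
      refine squeeze_zero_norm' ?_ hΛr
      filter_upwards [hp'] with k hk
      have e : p k - C.F.dropS J (x (φ k)) = p' k - x (φ k) := by
        have e1 := hxa k
        have e2 := hpa k
        calc p k - C.F.dropS J (x (φ k))
            = (p k + a k) - (C.F.dropS J (x (φ k)) + a k) := by abel
          _ = p' k - x (φ k) := by rw [e1, e2]
      rw [e]; exact hk.2.1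
    have h2 := h1.add hconv
    simpa using h2
  have hpl : ∀ᶠ k in atTop, p k ∈ C.lim Ω α J := by
    filter_upwards [L.win y, hplim (Metric.ball_mem_nhds y one_pos), hp'] with k h1 h2 h3
    refine (h1.set _ h2).1 ?_
    rw [hpa k]; exact h3.1
  obtain ⟨B, hB⟩ := rgu_bd_seq hC hT L hyl h0 hpl hplim
  have hcnt : C.P.Cnt C.rem (C.m (α.faceS J) - 1) (C.F.dropS J y) := by
    rw [hyy]; exact rgu_wall_cnt hC hS hT hyg hy0
  have hPI := rgu_pi_seq hC hS hs hs' he hT hd L hyl hcnt hpl hplim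
  obtain ⟨B₂, hB₂⟩ := rgu_Vb_bd (P1 := P1) hC hS hs hs' (hK.cthickening (r := ε))
  have hdist : ∀ᶠ k in atTop, dist (C.F.q (p' k)) (C.F.q (x (φ k))) < ε := by
    have h1 : Tendsto (fun k => ‖C.F.q‖ * (Λ * r k)) atTop (𝓝 0) := by
      simpa using hΛr.const_mul ‖C.F.q‖
    filter_upwards [h1.eventually (gt_mem_nhds hε), hp'] with k h2 h3
    rw [dist_eq_norm, ← map_sub]
    exact lt_of_le_of_lt ((C.F.q.le_opNorm _).trans
      (mul_le_mul_of_nonneg_left h3.2.1 (norm_nonneg _))) h2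
  have hbig : ∀ᶠ k in atTop, max B B₂ ≤ (φ k : ℝ) :=
    (tendsto_natCast_atTop_atTop.comp hφ.tendsto_atTop).eventually_ge_atTop _
  obtain ⟨k, h1, h2, h3, h4, h5⟩ := (hp'.and (hB.and (hPI.and (hdist.and hbig)))).exists
  refine h1.2.2 ⟨h4, ?_, ?_⟩
  · have hq : C.F.q (p' k) ∈ Metric.cthickening ε K :=
      Metric.mem_cthickening_of_dist_le _ _ _ _ (hxK (φ k)) h4.le
    obtain ⟨b0, b1⟩ := hB₂ (p' k) (mem_tot.2 ⟨α, h1.1.1⟩) hq
    have h2' := h2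
    rw [show p k + C.F.vec J (fun j => C.F.t j (x (φ k))) = p' k from hpa k] at h2'
    exact (h2'.mono ((le_max_left _ _).trans h5)).pot b0 (b1.trans ((le_max_right _ _).trans h5))
  · have h3' := h3
    rw [show p k + C.F.vec J (fun j => C.F.t j (x (φ k))) = p' k from hpa k] at h3'
    exact h3'

/-- **(UT_K)**: uniform lapse charts with bounded invariants over a compact subset of `V`. -/
theorem rgu_unif (hC : C.Ok) (hS : ShieldOK C P1) {s' : ℝ} (hs : C.s < s') (hs' : s' ≤ 1)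
    (he : C.e0 = (pkL C.s - pkL s') / 100) (hT : RgTrue C P1 Ω U) {K : Set V} (hK : IsCompact K)
    {ε : ℝ} (hε : 0 < ε) :
    ∃ ρ > 0, ∃ B : ℝ, ∀ (α : Stat ι) (d : ℕ), C.m α = d + 1 → ∀ x0 ∈ C.guard P1 α,
      C.F.q x0 ∈ K → |U x0| ≤ ρ → ∃ ψ : E (d + 1) → W,
        rm_LapseP (C.EO Ω α) C.P.h U x0 ψ (3 * ρ) ∧ ∀ v ∈ rm_box d (U x0) (3 * ρ),
          dist (C.F.q (ψ v)) (C.F.q x0) < ε ∧
          RgsBd d (C.EO Ω α) C.P.h C.P.dr U (C.Vb P1 s') B (ψ v) ∧ C.PI P1 s' α 99 (ψ v) := by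
  classical
  have h1 : ∀ α : Stat ι, ∃ ρ > 0, ∃ B : ℝ, ∀ d : ℕ, C.m α = d + 1 → ∀ x0 ∈ C.guard P1 α,
      C.F.q x0 ∈ K → |U x0| ≤ ρ → ∃ ψ : E (d + 1) → W,
        rm_LapseP (C.EO Ω α) C.P.h U x0 ψ (3 * ρ) ∧ ∀ v ∈ rm_box d (U x0) (3 * ρ),
          dist (C.F.q (ψ v)) (C.F.q x0) < ε ∧
          RgsBd d (C.EO Ω α) C.P.h C.P.dr U (C.Vb P1 s') B (ψ v) ∧ C.PI P1 s' α 99 (ψ v) := by
    intro α
    by_cases hm : ∃ d, C.m α = d + 1
    · obtain ⟨d, hd⟩ := hm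
      obtain ⟨ρ, hρ, B, h⟩ := rgu_unif_one hC hS hs hs' he hT hK hε α d hd
      refine ⟨ρ, hρ, B, fun d' hd' => ?_⟩
      obtain rfl : d' = d := by omega
      exact h
    · exact ⟨1, one_pos, 0, fun d hd => absurd ⟨d, hd⟩ hm⟩
  choose ρ hρ B hB using h1
  obtain ⟨α₀, hα₀⟩ := Finite.exists_min ρ
  obtain ⟨α₁, hα₁⟩ := Finite.exists_max B
  refine ⟨ρ α₀, hρ α₀, B α₁, fun α d hd x0 hx0 hq hU => ?_⟩
  obtain ⟨ψ, hL, hb⟩ := hB α d hd x0 hx0 hq (hU.trans (hα₀ α))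
  have h3 : 3 * ρ α₀ ≤ 3 * ρ α := by linarith [hα₀ α]
  refine ⟨ψ, hL.mono (by have := hρ α₀; positivity) h3, fun v hv => ?_⟩
  obtain ⟨b1, b2, b3⟩ := hb v (rm_box_mono _ h3 hv)
  exact ⟨b1, b2.mono (hα₁ α), b3⟩

end Claimed.Agent.R315
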